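import Claimed.Open.R030.Statement

/-!
# Result 030: the principal series `I_∞(μ₁, μ₂)` of `Statement.lean` is what its docstring says

`archInduced μ₁ μ₂` is *defined* as the largest `(𝔤, K_∞)`-stable subspace consisting of functions that satisfy
`IsArchInducedSection μ₁ μ₂`.  Here we check

* `mem_archInduced_iff`: the functions satisfying `IsArchInducedSection μ₁ μ₂` form a stable subspace, so
  `f ∈ archInduced μ₁ μ₂ ↔ IsArchInducedSection μ₁ μ₂ f`;
* `archInduced_unitary_ne_bot`: for the pair `(z/|z|, z̄/|z|)` of `Statement` the space is not zero.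
-/

set_option autoImplicit false

namespace Claimed.Open.R030

open scoped Classical
open scoped Matrix.Norms.Operator ContDiff

noncomputable section

attribute [local instance 100] LieRing.ofAssociativeRing

section General

variable {X : Type*}

/-- left multiplication by `b`, as a continuous `ℝ`-linear map of `M₂(ℂ)` -/
def leftMulCLM (b : M2C) : M2C →L[ℝ] M2C := ContinuousLinearMap.mul ℝ M2C b

/-- right multiplication by `b`, as a continuous `ℝ`-linear map of `M₂(ℂ)` -/
def rightMulCLM (b : M2C) : M2C →L[ℝ] M2C := (ContinuousLinearMap.mul ℝ M2C).flip b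

@[simp] lemma leftMulCLM_apply (b m : M2C) : leftMulCLM b m = b * m := rfl
@[simp] lemma rightMulCLM_apply (b m : M2C) : rightMulCLM b m = m * b := rfl

lemma extendByZero_comp_leftMul (f : GL2C → ℂ) (b : GL2C) :
    (extendByZero f) ∘ (leftMulCLM (b : M2C)) = extendByZero (fun g => f (b * g)) := by
  funext m
  by_cases h : IsUnit m
  · have h' : IsUnit ((b : M2C) * m) := b.isUnit.mul h
    simp only [Function.comp_apply, leftMulCLM_apply]
    rw [extendByZero_of_isUnit _ h, extendByZero_of_isUnit _ h']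
    exact congrArg f (Units.ext rfl)
  · have h' : ¬ IsUnit ((b : M2C) * m) := fun hu => h ((Units.isUnit_units_mul b m).mp hu)
    simp [extendByZero, h, h']

lemma extendByZero_comp_rightMul (f : GL2C → ℂ) (b : GL2C) :
    (extendByZero f) ∘ (rightMulCLM (b : M2C)) = extendByZero (fun g => f (g * b)) := by
  funext m
  by_cases h : IsUnit m
  · have h' : IsUnit (m * (b : M2C)) := h.mul b.isUnit
    simp only [Function.comp_apply, rightMulCLM_apply]
    rw [extendByZero_of_isUnit _ h, extendByZero_of_isUnit _ h']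
    exact congrArg f (Units.ext rfl)
  · have h' : ¬ IsUnit (m * (b : M2C)) := fun hu => h ((Units.isUnit_mul_units m b).mp hu)
    simp [extendByZero, h, h']

set_option backward.isDefEq.respectTransparency false in
/-- A left equivariance `φ(b g, x') = c φ(g, x)` passes to the derivatives along left-invariant vector fields. -/
theorem lieDeriv_left_equivariant (A : M2C) (φ : SmoothFun X) (b : GL2C) (x x' : X) (c : ℂ)
    (h : ∀ g, φ.1 (b * g, x') = c * φ.1 (g, x)) (g : GL2C) :
    (lieDeriv A φ).1 (b * g, x') = c * (lieDeriv A φ).1 (g, x) := by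
  rw [lieDeriv_apply, lieDeriv_apply]
  have hcomp : (extendByZero fun g => φ.1 (g, x')) ∘ (leftMulCLM (b : M2C)) =
      c • extendByZero fun g => φ.1 (g, x) := by
    rw [extendByZero_comp_leftMul, ← extendByZero_smul]
    congr 1
    funext g
    rw [h g, smul_eq_mul]
  have hd : DifferentiableAt ℝ (extendByZero fun g => φ.1 (g, x')) (leftMulCLM (b : M2C) (g : M2C)) :=
    SmoothFun.differentiableAt φ.2 x' (b * g)
  have h1 := fderiv_comp (g : M2C) hd (leftMulCLM (b : M2C)).differentiableAt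
  rw [hcomp, fderiv_const_smul (SmoothFun.differentiableAt φ.2 x g), ContinuousLinearMap.fderiv] at h1
  have h2 := congrArg (fun L : M2C →L[ℝ] ℂ => L ((g : M2C) * A)) h1
  simp only [ContinuousLinearMap.comp_apply, leftMulCLM_apply, _root_.smul_apply,
    smul_eq_mul] at h2
  rw [h2, Units.val_mul, mul_assoc]

set_option backward.isDefEq.respectTransparency false in
/-- `R_k (A φ) = (k A k⁻¹) (R_k φ)`. -/
theorem rightTranslateInf_lieDeriv (A : M2C) (φ : SmoothFun X) (k : GL2C) :
    rightTranslateInf k (lieDeriv A φ) =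
      lieDeriv ((k : M2C) * A * ((k⁻¹ : GL2C) : M2C)) (rightTranslateInf k φ) := by
  ext ⟨g, x⟩
  show (lieDeriv A φ).1 (g * k, x) = _
  rw [lieDeriv_apply, lieDeriv_apply]
  have hcomp : (extendByZero fun g' => (rightTranslateInf k φ).1 (g', x)) =
      (extendByZero fun g => φ.1 (g, x)) ∘ (rightMulCLM (k : M2C)) := by
    rw [extendByZero_comp_rightMul]
    rfl
  have hd : DifferentiableAt ℝ (extendByZero fun g => φ.1 (g, x)) (rightMulCLM (k : M2C) (g : M2C)) :=
    SmoothFun.differentiableAt φ.2 x (g * k)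
  rw [hcomp, fderiv_comp (g : M2C) hd (rightMulCLM (k : M2C)).differentiableAt,
    ContinuousLinearMap.fderiv]
  simp only [ContinuousLinearMap.comp_apply, rightMulCLM_apply, Units.val_mul]
  congr 1
  simp only [mul_assoc]
  rw [Units.inv_mul, mul_one]

/-- `A ↦ A φ` is `ℝ`-linear. -/
theorem lieDeriv_sum_smul {ι : Type*} (s : Finset ι) (r : ι → ℝ) (B : ι → M2C) (φ : SmoothFun X) :
    lieDeriv (∑ i ∈ s, r i • B i) φ = ∑ i ∈ s, (r i : ℂ) • lieDeriv (B i) φ := by
  ext ⟨g, x⟩
  rw [lieDeriv_apply, Finset.mul_sum, map_sum]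
  simp only [AddSubmonoidClass.coe_finsetSum, Finset.sum_apply, Submodule.coe_smul, Pi.smul_apply,
    lieDeriv_apply, mul_smul_comm, map_smul, smul_eq_mul, Complex.real_smul]

theorem rightTranslateInf_one (φ : SmoothFun X) : rightTranslateInf (1 : GL2C) φ = φ := by
  ext ⟨g, x⟩
  show φ.1 (g * 1, x) = _
  rw [mul_one]

theorem rightTranslateInf_mul (h h' : GL2C) (φ : SmoothFun X) :
    rightTranslateInf (h * h') φ = rightTranslateInf h (rightTranslateInf h' φ) := by
  ext ⟨g, x⟩
  show φ.1 (g * (h * h'), x) = φ.1 (g * h * h', x)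
  rw [mul_assoc]

theorem kInfToGL_one : kInfToGL 1 = 1 := map_one Unitary.toUnits

theorem kInfToGL_mul (k k' : KInf) : kInfToGL (k * k') = kInfToGL k * kInfToGL k' :=
  map_mul Unitary.toUnits k k'

/-- `K_∞`-finiteness, in the form used in `IsArchInducedSection`, `IsGlobalInducedSection`, `IsAutomorphicForm`. -/
def IsKFin (φ : SmoothFun X) : Prop :=
  FiniteDimensional ℂ
    (Submodule.span ℂ (Set.range fun k : KInf => rightTranslateInf (kInfToGL k) φ))

/-- `φ` is `K_∞`-finite iff it lies in a finite-dimensional `K_∞`-stable space. -/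
theorem isKFin_iff (φ : SmoothFun X) :
    IsKFin φ ↔ ∃ V : Submodule ℂ (SmoothFun X), FiniteDimensional ℂ V ∧ φ ∈ V ∧
      ∀ k : KInf, ∀ h ∈ V, rightTranslateInf (kInfToGL k) h ∈ V := by
  constructor
  · intro hφ
    refine ⟨_, hφ, Submodule.subset_span ⟨1, by
      show rightTranslateInf (kInfToGL 1) φ = φ
      rw [kInfToGL_one, rightTranslateInf_one]⟩, ?_⟩
    intro k h hh
    induction hh using Submodule.span_induction with
    | mem y hy =>
      obtain ⟨k', rfl⟩ := hy
      exact Submodule.subset_span ⟨k * k', by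
        show rightTranslateInf (kInfToGL (k * k')) φ = _
        rw [kInfToGL_mul, rightTranslateInf_mul]⟩
    | zero => rw [map_zero]; exact Submodule.zero_mem _
    | add y z _ _ hy hz => rw [map_add]; exact Submodule.add_mem _ hy hz
    | smul c y _ hy => rw [map_smul]; exact Submodule.smul_mem _ c hy
  · rintro ⟨V, hV, hφ, hst⟩
    have hle : Submodule.span ℂ (Set.range fun k : KInf => rightTranslateInf (kInfToGL k) φ) ≤ V := by
      rw [Submodule.span_le]
      rintro _ ⟨k, rfl⟩
      exact hst k φ hφ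
    exact Submodule.finiteDimensional_of_le hle

theorem IsKFin.zero : IsKFin (0 : SmoothFun X) :=
  (isKFin_iff 0).mpr ⟨⊥, inferInstance, Submodule.zero_mem _, fun k h hh => by
    rw [(Submodule.mem_bot ℂ).mp hh, map_zero]; exact Submodule.zero_mem _⟩

theorem IsKFin.add {φ ψ : SmoothFun X} (hφ : IsKFin φ) (hψ : IsKFin ψ) : IsKFin (φ + ψ) := by
  obtain ⟨V, hV, hφV, hVst⟩ := (isKFin_iff φ).mp hφ
  obtain ⟨W, hW, hψW, hWst⟩ := (isKFin_iff ψ).mp hψ
  refine (isKFin_iff _).mpr ⟨V ⊔ W, inferInstance,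
    Submodule.add_mem_sup hφV hψW, fun k h hh => ?_⟩
  obtain ⟨y, hy, z, hz, rfl⟩ := Submodule.mem_sup.mp hh
  rw [map_add]
  exact Submodule.add_mem_sup (hVst k y hy) (hWst k z hz)

theorem IsKFin.smul {φ : SmoothFun X} (hφ : IsKFin φ) (c : ℂ) : IsKFin (c • φ) := by
  obtain ⟨V, hV, hφV, hVst⟩ := (isKFin_iff φ).mp hφ
  exact (isKFin_iff _).mpr ⟨V, hV, Submodule.smul_mem _ c hφV, hVst⟩

theorem IsKFin.rightTranslateInf {φ : SmoothFun X} (hφ : IsKFin φ) (k : KInf) :
    IsKFin (rightTranslateInf (kInfToGL k) φ) := by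
  obtain ⟨V, hV, hφV, hVst⟩ := (isKFin_iff φ).mp hφ
  exact (isKFin_iff _).mpr ⟨V, hV, hVst k φ hφV, hVst⟩

/-- The Lie algebra preserves `K_∞`-finiteness: `R_k (A φ) = (Ad(k) A) (R_k φ)` and `𝔤` is finite-dimensional. -/
theorem IsKFin.lieDeriv {φ : SmoothFun X} (hφ : IsKFin φ) (A : M2C) : IsKFin (lieDeriv A φ) := by
  obtain ⟨V, hV, hφV, hVst⟩ := (isKFin_iff φ).mp hφ
  let b := Module.finBasis ℝ M2C
  have hmem : ∀ (B : M2C), ∀ h ∈ V, Claimed.Open.R030.lieDeriv B h ∈
      ⨆ i, V.map (Claimed.Open.R030.lieDeriv (X := X) (b i)) := by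
    intro B h hh
    have hB : B = ∑ i ∈ Finset.univ, (b.repr B i) • b i := (b.sum_repr B).symm
    rw [hB, lieDeriv_sum_smul]
    refine Submodule.sum_mem _ fun i _ => Submodule.smul_mem _ _ ?_
    exact Submodule.mem_iSup_of_mem i (Submodule.mem_map_of_mem hh)
  refine (isKFin_iff _).mpr ⟨⨆ i, V.map (Claimed.Open.R030.lieDeriv (X := X) (b i)), inferInstance,
    hmem A φ hφV, fun k h hh => ?_⟩
  have hle : (⨆ i, V.map (Claimed.Open.R030.lieDeriv (X := X) (b i))) ≤
      (⨆ i, V.map (Claimed.Open.R030.lieDeriv (X := X) (b i))).comap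
        (Claimed.Open.R030.rightTranslateInf (kInfToGL k)) := by
    refine iSup_le fun i => ?_
    rintro _ ⟨y, hy, rfl⟩
    rw [Submodule.mem_comap, rightTranslateInf_lieDeriv]
    exact hmem _ _ (hVst k y hy)
  exact hle hh

end General

section Arch

theorem archAlg_smul_def (a : ArchAlg) (f : SmoothArch) :
    a • f = FreeAlgebra.lift ℂ ArchOp.act a f := rfl

theorem archAlg_ι_smul (o : ArchOp) (f : SmoothArch) : FreeAlgebra.ι ℂ o • f = o.act f := by
  rw [archAlg_smul_def, FreeAlgebra.lift_ι_apply]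

theorem archAlg_algebraMap_smul (c : ℂ) (f : SmoothArch) :
    algebraMap ℂ ArchAlg c • f = c • f := by
  rw [archAlg_smul_def, AlgHom.commutes]
  rfl

variable {μ₁ μ₂ : ℂˣ →* ℂˣ}

theorem IsArchInducedSection.zero : IsArchInducedSection μ₁ μ₂ 0 where
  equivariant a d x g := by simp
  compact_finite := IsKFin.zero

theorem IsArchInducedSection.add {f f' : SmoothArch} (hf : IsArchInducedSection μ₁ μ₂ f)
    (hf' : IsArchInducedSection μ₁ μ₂ f') : IsArchInducedSection μ₁ μ₂ (f + f') where
  equivariant a d x g := by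
    simp only [Submodule.coe_add, Pi.add_apply, hf.equivariant, hf'.equivariant, mul_add]
  compact_finite := IsKFin.add hf.compact_finite hf'.compact_finite

theorem IsArchInducedSection.smul {f : SmoothArch} (hf : IsArchInducedSection μ₁ μ₂ f) (c : ℂ) :
    IsArchInducedSection μ₁ μ₂ (c • f) where
  equivariant a d x g := by
    simp only [Submodule.coe_smul, Pi.smul_apply, hf.equivariant, smul_eq_mul]
    ring
  compact_finite := IsKFin.smul hf.compact_finite c

theorem IsArchInducedSection.cpt {f : SmoothArch} (hf : IsArchInducedSection μ₁ μ₂ f) (k : KInf) :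
    IsArchInducedSection μ₁ μ₂ (rightTranslateInf (kInfToGL k) f) where
  equivariant a d x g := by
    show f.1 (diagElt a d * unipElt x * g * kInfToGL k, ()) = _ * f.1 (g * kInfToGL k, ())
    rw [mul_assoc, hf.equivariant]
  compact_finite := IsKFin.rightTranslateInf hf.compact_finite k

theorem IsArchInducedSection.lie {f : SmoothArch} (hf : IsArchInducedSection μ₁ μ₂ f) (A : M2C) :
    IsArchInducedSection μ₁ μ₂ (lieDeriv A f) where
  equivariant a d x g :=
    lieDeriv_left_equivariant A f (diagElt a d * unipElt x) () () _ (hf.equivariant a d x) g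
  compact_finite := IsKFin.lieDeriv hf.compact_finite A

theorem IsArchInducedSection.archAlg_smul (a : ArchAlg) :
    ∀ {f : SmoothArch}, IsArchInducedSection μ₁ μ₂ f → IsArchInducedSection μ₁ μ₂ (a • f) := by
  induction a using FreeAlgebra.induction with
  | grade0 c => intro f hf; rw [archAlg_algebraMap_smul]; exact hf.smul c
  | grade1 o =>
    intro f hf
    rw [archAlg_ι_smul]
    cases o with
    | cpt k => exact hf.cpt k
    | lie A => exact hf.lie A
  | mul a b ha hb => intro f hf; rw [mul_smul]; exact ha (hb hf)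
  | add a b ha hb => intro f hf; rw [add_smul]; exact (ha hf).add (hb hf)

variable (μ₁ μ₂) in
/-- The functions satisfying `IsArchInducedSection μ₁ μ₂` form a `(𝔤, K_∞)`-stable subspace. -/
def archSections : Submodule ArchAlg SmoothArch where
  carrier := {f | IsArchInducedSection μ₁ μ₂ f}
  zero_mem' := IsArchInducedSection.zero
  add_mem' := IsArchInducedSection.add
  smul_mem' a _ hf := IsArchInducedSection.archAlg_smul a hf

/-- **`archInduced μ₁ μ₂` is exactly the space of the functions satisfying `IsArchInducedSection μ₁ μ₂`**, as the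
docstring of `archInduced` claims. -/
theorem mem_archInduced_iff (f : SmoothArch) :
    f ∈ archInduced μ₁ μ₂ ↔ IsArchInducedSection μ₁ μ₂ f := by
  have h : archInduced μ₁ μ₂ = archSections μ₁ μ₂ :=
    le_antisymm (sSup_le fun M hM f hf => hM f hf) (le_sSup fun f hf => hf)
  rw [h]
  rfl

end Arch

section Explicit

open Matrix

/-- `|m₁₀|² + |m₁₁|²`, the squared length of the bottom row. -/
def rowSq (m : M2C) : ℂ := (m * mᴴ) 1 1

lemma rowSq_eq (m : M2C) :
    rowSq m = m 1 0 * (starRingEnd ℂ) (m 1 0) + m 1 1 * (starRingEnd ℂ) (m 1 1) := by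
  simp [rowSq, Matrix.mul_apply, Fin.sum_univ_two, Matrix.conjTranspose_apply]

lemma rowSq_ne_zero {m : M2C} (h : IsUnit m) : rowSq m ≠ 0 := by
  intro h0
  rw [rowSq_eq, Complex.mul_conj, Complex.mul_conj, ← Complex.ofReal_add, Complex.ofReal_eq_zero] at h0
  have h1 : Complex.normSq (m 1 0) = 0 := by
    nlinarith [Complex.normSq_nonneg (m 1 0), Complex.normSq_nonneg (m 1 1)]
  have h2 : Complex.normSq (m 1 1) = 0 := by
    nlinarith [Complex.normSq_nonneg (m 1 0), Complex.normSq_nonneg (m 1 1)]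
  rw [Complex.normSq_eq_zero] at h1 h2
  have hdet : IsUnit m.det := (Matrix.isUnit_iff_isUnit_det m).mp h
  rw [Matrix.det_fin_two, h1, h2] at hdet
  simp at hdet

lemma rowSq_mul_unitary (m : M2C) (k : KInf) : rowSq (m * (k : M2C)) = rowSq m := by
  have hk : (k : M2C) * (k : M2C)ᴴ = 1 := by
    have := (Matrix.mem_unitaryGroup_iff).mp k.2
    simpa [Matrix.star_eq_conjTranspose] using this
  rw [rowSq, rowSq, Matrix.conjTranspose_mul, Matrix.mul_assoc, ← Matrix.mul_assoc (k : M2C), hk,
    Matrix.one_mul]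

/-- `m ↦ det(m) conj(m₁ᵢ) conj(m₁ⱼ) / (|m₁₀|² + |m₁₁|²)²` -/
def secMat (i j : Fin 2) (m : M2C) : ℂ :=
  m.det * (starRingEnd ℂ) (m 1 i) * (starRingEnd ℂ) (m 1 j) / rowSq m ^ 2

lemma contDiff_entry (a b : Fin 2) : ContDiff ℝ ∞ (fun m : M2C => m a b) :=
  (LinearMap.toContinuousLinearMap (Matrix.entryLinearMap ℝ ℂ a b : M2C →ₗ[ℝ] ℂ)).contDiff

lemma contDiff_conj_entry (a b : Fin 2) : ContDiff ℝ ∞ (fun m : M2C => (starRingEnd ℂ) (m a b)) :=
  Complex.conjCLE.contDiff.comp (contDiff_entry a b)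

lemma contDiffOn_secMat (i j : Fin 2) : ContDiffOn ℝ ∞ (secMat i j) {m | IsUnit m} := by
  have hdet : ContDiff ℝ ∞ (fun m : M2C => m.det) := by
    simp only [Matrix.det_fin_two]
    exact ((contDiff_entry 0 0).mul (contDiff_entry 1 1)).sub
      ((contDiff_entry 0 1).mul (contDiff_entry 1 0))
  have hrow : ContDiff ℝ ∞ (fun m : M2C => rowSq m) := by
    simp only [rowSq_eq]
    exact ((contDiff_entry 1 0).mul (contDiff_conj_entry 1 0)).add
      ((contDiff_entry 1 1).mul (contDiff_conj_entry 1 1))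
  have hnum : ContDiffOn ℝ ∞ (fun m : M2C => m.det * (starRingEnd ℂ) (m 1 i) * (starRingEnd ℂ) (m 1 j))
      {m | IsUnit m} := ((hdet.mul (contDiff_conj_entry 1 i)).mul (contDiff_conj_entry 1 j)).contDiffOn
  have hden : ContDiffOn ℝ ∞ (fun m : M2C => rowSq m ^ 2) {m | IsUnit m} := (hrow.pow 2).contDiffOn
  have hinv : ContDiffOn ℝ ∞ (fun m : M2C => (rowSq m ^ 2)⁻¹) {m | IsUnit m} :=
    hden.inv (fun m hm => pow_ne_zero 2 (rowSq_ne_zero hm))
  exact (hnum.mul hinv).congr (fun m _ => by rw [secMat, div_eq_mul_inv])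

/-- The function `g ↦ det(g) conj(g₁ᵢ) conj(g₁ⱼ) / (|g₁₀|² + |g₁₁|²)²` on `GL₂(ℂ)`. -/
def secArch (i j : Fin 2) : SmoothArch :=
  ⟨fun p => secMat i j (p.1 : M2C), by
    intro x
    refine (contDiffOn_secMat i j).congr ?_
    intro m hm
    rw [extendByZero_of_isUnit _ hm]
    rfl⟩

lemma secArch_apply (i j : Fin 2) (g : GL2C) : (secArch i j).1 (g, ()) = secMat i j (g : M2C) := rfl

lemma borel_row (a d : ℂˣ) (x : ℂ) (g : GL2C) (i : Fin 2) :
    ((diagElt a d * unipElt x * g : GL2C) : M2C) 1 i = d * (g : M2C) 1 i := by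
  simp [diagElt, unipElt, Matrix.mul_apply, Fin.sum_univ_two]

lemma borel_det (a d : ℂˣ) (x : ℂ) (g : GL2C) :
    ((diagElt a d * unipElt x * g : GL2C) : M2C).det = a * d * (g : M2C).det := by
  rw [Units.val_mul, Units.val_mul, Matrix.det_mul, Matrix.det_mul]
  simp [diagElt, unipElt, Matrix.det_fin_two]

lemma secMat_borel (i j : Fin 2) (a d : ℂˣ) (x : ℂ) (g : GL2C) :
    secMat i j ((diagElt a d * unipElt x * g : GL2C) : M2C) =
      (unitaryCharOne a : ℂ) * (unitaryCharOneConj d : ℂ) * ((‖(a : ℂ)‖ / ‖(d : ℂ)‖ : ℝ) : ℂ) *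
        secMat i j (g : M2C) := by
  have ha : (a : ℂ) ≠ 0 := a.ne_zero
  have hd : (d : ℂ) ≠ 0 := d.ne_zero
  have hna : ((‖(a : ℂ)‖ : ℝ) : ℂ) ≠ 0 := by simp
  have hnd : ((‖(d : ℂ)‖ : ℝ) : ℂ) ≠ 0 := by simp
  have hcd : (starRingEnd ℂ) (d : ℂ) ≠ 0 := by simp
  have hr : rowSq (g : M2C) ≠ 0 := rowSq_ne_zero g.isUnit
  have hdd : ((‖(d : ℂ)‖ : ℝ) : ℂ) ^ 2 = d * (starRingEnd ℂ) (d : ℂ) := by
    rw [Complex.mul_conj, Complex.normSq_eq_norm_sq]; push_cast; ring
  have hrow : rowSq ((diagElt a d * unipElt x * g : GL2C) : M2C) =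
      d * (starRingEnd ℂ) (d : ℂ) * rowSq (g : M2C) := by
    rw [rowSq_eq, rowSq_eq, borel_row, borel_row]
    simp only [map_mul]
    ring
  have h1 : (unitaryCharOne a : ℂ) = (a : ℂ) / ((‖(a : ℂ)‖ : ℝ) : ℂ) := rfl
  have h2 : (unitaryCharOneConj d : ℂ) = (starRingEnd ℂ) (d : ℂ) / ((‖(d : ℂ)‖ : ℝ) : ℂ) := rfl
  rw [secMat, secMat, hrow, borel_det, borel_row, borel_row, h1, h2]
  simp only [map_mul]
  push_cast
  field_simp
  rw [hdd]
  ring

theorem secArch_isArchInducedSection (i j : Fin 2) :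
    IsArchInducedSection unitaryCharOne unitaryCharOneConj (secArch i j) where
  equivariant a d x g := secMat_borel i j a d x g
  compact_finite := by
    refine (isKFin_iff _).mpr ⟨Submodule.span ℂ (Set.range fun p : Fin 2 × Fin 2 => secArch p.1 p.2),
      FiniteDimensional.span_of_finite ℂ (Set.finite_range _), Submodule.subset_span ⟨(i, j), rfl⟩, ?_⟩
    intro k h hh
    induction hh using Submodule.span_induction with
    | mem y hy =>
      obtain ⟨⟨i', j'⟩, rfl⟩ := hy
      have key : rightTranslateInf (kInfToGL k) (secArch i' j') =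
          ∑ a : Fin 2, ∑ b : Fin 2, ((k : M2C).det * (starRingEnd ℂ) ((k : M2C) a i') *
            (starRingEnd ℂ) ((k : M2C) b j')) • secArch a b := by
        ext ⟨g, u⟩
        show secMat i' j' ((g : M2C) * (k : M2C)) = _
        simp only [Fin.sum_univ_two]
        show _ = _ * secMat 0 0 (g : M2C) + _ * secMat 0 1 (g : M2C) +
          (_ * secMat 1 0 (g : M2C) + _ * secMat 1 1 (g : M2C))
        simp only [secMat, rowSq_mul_unitary, Matrix.det_mul, Matrix.mul_apply, Fin.sum_univ_two,
          map_add, map_mul]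
        ring
      rw [key]
      refine Submodule.sum_mem _ fun a _ => Submodule.sum_mem _ fun b _ =>
        Submodule.smul_mem _ _ (Submodule.subset_span ⟨(a, b), rfl⟩)
    | zero => rw [map_zero]; exact Submodule.zero_mem _
    | add y z _ _ hy hz => rw [map_add]; exact Submodule.add_mem _ hy hz
    | smul c y _ hy => rw [map_smul]; exact Submodule.smul_mem _ c hy

theorem secArch_one : (secArch 1 1).1 (1, ()) = 1 := by
  simp [secArch_apply, secMat, rowSq_eq]

/-- **The principal series `I_∞(z/|z|, z̄/|z|)` of `Statement` is not zero**: it contains the function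
`g ↦ det(g) conj(g₁₁)² / (|g₁₀|² + |g₁₁|²)²`, whose value at `1` is `1`.  (So the clause
`π.HasArchimedeanParameter unitaryCharOne unitaryCharOneConj` does not fail for want of a source.) -/
theorem archInduced_unitary_ne_bot : archInduced unitaryCharOne unitaryCharOneConj ≠ ⊥ := by
  intro h
  have hmem : secArch 1 1 ∈ archInduced unitaryCharOne unitaryCharOneConj :=
    (mem_archInduced_iff _).mpr (secArch_isArchInducedSection 1 1)
  rw [h, Submodule.mem_bot] at hmem
  have := secArch_one
  rw [hmem] at this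
  simp at this

end Explicit

end

end Claimed.Open.R030
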