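import Claimed.Open.R030.Statement

/-!
# Result 030: checked examples for the automorphic side of `Statement.lean`

* right translation is an action; the free-algebra device `HeckeAlg K` acts as it should;
* the constant functions are automorphic forms, and they carry an `AutomorphicRepresentation` (the trivial
  representation of `GL₂(𝔸_K)`), which has trivial central character and weight zero;
* **non-examples**: the constant function `1` is not cuspidal, and the trivial representation is not cuspidal.
-/

set_option autoImplicit false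

namespace Claimed.Open.R030

open scoped Classical
open scoped Matrix.Norms.Operator ContDiff
open IsDedekindDomain NumberField Polynomial MeasureTheory

noncomputable section

attribute [local instance 100] LieRing.ofAssociativeRing

section Const

variable (X : Type*)

/-- The constant function `1`. -/
def constOne : SmoothFun X := ⟨fun _ => 1, by
  intro x
  refine (contDiffOn_const (c := (1 : ℂ))).congr ?_
  intro m hm
  rw [extendByZero_of_isUnit _ hm]⟩

variable {X}

theorem constOne_apply (p : GL2C × X) : (constOne X).1 p = 1 := rfl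

theorem constOne_ne_zero [Nonempty X] : constOne X ≠ 0 := by
  intro h
  obtain ⟨x⟩ := ‹Nonempty X›
  have := congrArg (fun φ : SmoothFun X => φ.1 (1, x)) h
  simp [constOne_apply] at this

set_option backward.isDefEq.respectTransparency false in
theorem lieDeriv_constOne (A : M2C) : lieDeriv A (constOne X) = 0 := by
  ext ⟨g, x⟩
  rw [lieDeriv_apply]
  have heq : (extendByZero fun g' => (constOne X).1 (g', x)) =ᶠ[nhds (g : M2C)] fun _ => (1 : ℂ) := by
    filter_upwards [isOpen_units_M2C.mem_nhds g.isUnit] with m hm
    rw [extendByZero_of_isUnit _ hm]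
    rfl
  rw [heq.fderiv_eq]
  simp

theorem rightTranslateInf_constOne (h : GL2C) : rightTranslateInf h (constOne X) = constOne X := rfl

theorem reindexAux_constOne (e : X → X) : reindexAux e (constOne X) = constOne X := rfl

/-- The enveloping algebra is generated by the Lie algebra. -/
theorem uea_adjoin_eq_top :
    Algebra.adjoin ℝ (Set.range (UniversalEnvelopingAlgebra.ι ℝ (L := M2C))) = ⊤ := by
  set S := Algebra.adjoin ℝ (Set.range (UniversalEnvelopingAlgebra.ι ℝ (L := M2C))) with hS
  let f : M2C →ₗ⁅ℝ⁆ S :=
    { toFun := fun A => ⟨UniversalEnvelopingAlgebra.ι ℝ A, Algebra.subset_adjoin ⟨A, rfl⟩⟩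
      map_add' := fun A B => by ext; simp
      map_smul' := fun c A => by ext; simp
      map_lie' := fun {A B} => by
        ext
        have := (UniversalEnvelopingAlgebra.ι ℝ (L := M2C)).map_lie A B
        rw [LieRing.of_associative_ring_bracket (UniversalEnvelopingAlgebra.ι ℝ A)] at this
        simpa [LieRing.of_associative_ring_bracket] using this }
  have h : (S.val.comp (UniversalEnvelopingAlgebra.lift ℝ f)) = AlgHom.id ℝ _ := by
    apply UniversalEnvelopingAlgebra.hom_ext
    ext A
    simp [f]
  rw [eq_top_iff]
  intro z _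
  have := congrArg (fun g => g z) h
  simp only [AlgHom.comp_apply, AlgHom.id_apply] at this
  rw [← this]
  exact (UniversalEnvelopingAlgebra.lift ℝ f z).2

theorem envelopingAction_constOne (z : UniversalEnvelopingAlgebra ℝ M2C) :
    envelopingAction z (constOne X) = ((augmentation z : ℝ) : ℂ) • constOne X := by
  have hz : z ∈ Algebra.adjoin ℝ (Set.range (UniversalEnvelopingAlgebra.ι ℝ (L := M2C))) := by
    rw [uea_adjoin_eq_top]; trivial
  induction hz using Algebra.adjoin_induction with
  | mem x hx =>
    obtain ⟨A, rfl⟩ := hx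
    simp only [envelopingAction, augmentation, UniversalEnvelopingAlgebra.lift_ι_apply]
    show lieDeriv A (constOne X) = _
    rw [lieDeriv_constOne]
    simp
  | algebraMap r =>
    simp only [AlgHom.commutes]
    simp only [Algebra.algebraMap_eq_smul_one, LinearMap.smul_apply, Module.End.one_apply,
      smul_eq_mul, mul_one]
    ext p
    simp [constOne_apply]
  | add x y _ _ hx hy =>
    simp only [map_add, LinearMap.add_apply, hx, hy, Complex.ofReal_add, add_smul]
  | mul x y _ _ hx hy =>
    simp only [map_mul, Module.End.mul_apply, hy, map_smul, hx, Complex.ofReal_mul, mul_smul]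
    rw [smul_comm]

end Const


section Path

variable {X : Type*}

set_option backward.isDefEq.respectTransparency false in
/-- A smooth function killed by the Lie algebra is invariant under left translation by unipotent elements. -/
theorem apply_unipElt_mul_of_lieDeriv_eq_zero (φ : SmoothFun X) (hφ : ∀ A, lieDeriv A φ = 0)
    (z : ℂ) (g : GL2C) (x : X) : φ.1 (unipElt z * g, x) = φ.1 (g, x) := by
  set F := extendByZero fun g => φ.1 (g, x) with hF
  let E : M2C := !![0, z; 0, 0]
  let γ : ℝ → M2C := fun t => (g : M2C) + t • (E * (g : M2C))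
  have hγ : ∀ t : ℝ, γ t = ((unipElt ((t : ℂ) * z) * g : GL2C) : M2C) := by
    intro t
    have h1 : ((unipElt ((t : ℂ) * z) : GL2C) : M2C) = 1 + t • E := by
      ext i j
      fin_cases i <;> fin_cases j <;> simp [unipElt, E]
    rw [Units.val_mul, h1, add_mul, one_mul, smul_mul_assoc]
  have hd : ∀ t : ℝ, HasDerivAt γ (E * (g : M2C)) t := by
    intro t
    have := ((hasDerivAt_id t).smul_const (E * (g : M2C))).const_add (g : M2C)
    rw [one_smul] at this
    exact this
  have hh : ∀ t : ℝ, HasDerivAt (F ∘ γ) 0 t := by
    intro t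
    have hFd : DifferentiableAt ℝ F (γ t) := by
      rw [hγ t]
      exact SmoothFun.differentiableAt φ.2 x _
    have := hFd.hasFDerivAt.comp_hasDerivAt t (hd t)
    have h0 := congrArg (fun ψ : SmoothFun X => ψ.1 (unipElt ((t : ℂ) * z) * g, x))
      (hφ (((unipElt ((t : ℂ) * z) * g : GL2C)⁻¹ : GL2C) * (E * (g : M2C))))
    simp only [lieDeriv_apply] at h0
    rw [← mul_assoc, Units.mul_inv, one_mul, ← hγ t] at h0
    have h1 : fderiv ℝ F (γ t) (E * (g : M2C)) = 0 := h0
    rw [h1] at this
    exact this
  have hconst := is_const_of_deriv_eq_zero (f := F ∘ γ) (fun t => (hh t).differentiableAt)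
    (fun t => (hh t).deriv) 1 0
  simp only [Function.comp_apply, hγ] at hconst
  simp only [Complex.ofReal_one, one_mul, Complex.ofReal_zero, zero_mul] at hconst
  rw [hF, extendByZero_of_isUnit _ (Units.isUnit _), extendByZero_of_isUnit _ (Units.isUnit _)]
    at hconst
  have e1 : (Units.isUnit (unipElt z * g : GL2C)).unit = unipElt z * g := Units.ext rfl
  have e2 : (Units.isUnit (unipElt (0 : ℂ) * g : GL2C)).unit = g := by
    apply Units.ext
    show ((unipElt (0 : ℂ) * g : GL2C) : M2C) = g
    simp [unipElt]
  rw [e1, e2] at hconst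
  exact hconst

end Path


section Basic

variable {K : Type} [Field K] [NumberField K]

theorem rightTranslate_apply (h g : GAdele K) (φ : SmoothAdelic K) :
    (rightTranslate h φ).1 g = φ.1 (g * h) := rfl

theorem rightTranslate_one (φ : SmoothAdelic K) : rightTranslate (1 : GAdele K) φ = φ := by
  ext g; simp [rightTranslate_apply]

theorem rightTranslate_mul (h h' : GAdele K) (φ : SmoothAdelic K) :
    rightTranslate (h * h') φ = rightTranslate h (rightTranslate h' φ) := by
  ext g; simp [rightTranslate_apply, mul_assoc]

theorem heckeAlg_smul_def (a : HeckeAlg K) (φ : SmoothAdelic K) :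
    a • φ = FreeAlgebra.lift ℂ (HeckeOp.act (K := K)) a φ := rfl

theorem heckeAlg_ι_smul (o : HeckeOp K) (φ : SmoothAdelic K) :
    FreeAlgebra.ι ℂ o • φ = o.act φ := by
  rw [heckeAlg_smul_def, FreeAlgebra.lift_ι_apply]

theorem heckeAlg_algebraMap_smul (c : ℂ) (φ : SmoothAdelic K) :
    algebraMap ℂ (HeckeAlg K) c • φ = c • φ := by
  rw [heckeAlg_smul_def, AlgHom.commutes]
  rfl


theorem heckeAlg_smul_smul_comm (a : HeckeAlg K) (c : ℂ) (φ : SmoothAdelic K) :
    a • (c • φ) = c • (a • φ) := by
  rw [heckeAlg_smul_def, heckeAlg_smul_def, map_smul]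

theorem rightTranslate_constOne (h : GAdele K) :
    rightTranslate h (constOne (GFin K)) = constOne (GFin K) := rfl

variable (K) in
/-- The character of the Hecke algebra by which it acts on the trivial representation. -/
def trivialHeckeChar : HeckeAlg K →ₐ[ℂ] ℂ :=
  FreeAlgebra.lift ℂ fun o => match o with
    | .cpt _ => 1
    | .lie _ => 0
    | .fin _ => 1

theorem heckeAlg_smul_constOne (a : HeckeAlg K) :
    a • constOne (GFin K) = trivialHeckeChar K a • constOne (GFin K) := by
  induction a using FreeAlgebra.induction with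
  | grade0 c => rw [heckeAlg_algebraMap_smul, AlgHom.commutes]; rfl
  | grade1 o =>
    rw [heckeAlg_ι_smul, trivialHeckeChar, FreeAlgebra.lift_ι_apply]
    cases o with
    | cpt k => simp [HeckeOp.act, rightTranslate_constOne]
    | lie A => simp [HeckeOp.act, lieDeriv_constOne]
    | fin x => simp [HeckeOp.act, rightTranslate_constOne]
  | mul a b ha hb =>
    rw [mul_smul, hb, heckeAlg_smul_smul_comm, ha, map_mul, smul_smul, mul_comm]
  | add a b ha hb => rw [add_smul, ha, hb, map_add, add_smul]

variable (K) in
/-- The line of constant functions, a stable subspace. -/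
def constantFunctions : Submodule (HeckeAlg K) (SmoothAdelic K) where
  carrier := {φ | ∃ c : ℂ, φ = c • constOne (GFin K)}
  zero_mem' := ⟨0, by simp⟩
  add_mem' := by
    rintro _ _ ⟨c, rfl⟩ ⟨d, rfl⟩
    exact ⟨c + d, by rw [add_smul]⟩
  smul_mem' := by
    rintro a _ ⟨c, rfl⟩
    exact ⟨c * trivialHeckeChar K a, by
      rw [heckeAlg_smul_smul_comm, heckeAlg_smul_constOne, smul_smul]⟩

theorem isAutomorphicForm_const (w : InfinitePlace K) (c : ℂ) :
    IsAutomorphicForm w (c • constOne (GFin K)) where
  left_invariant γ g := rfl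
  finite_smooth := ⟨⊤, isOpen_univ, fun u _ => rfl⟩
  compact_finite := by
    have : (Set.range fun k : KInf =>
        rightTranslate ((kInfToGL k, 1) : GAdele K) (c • constOne (GFin K))) ⊆
        {c • constOne (GFin K)} := by
      rintro _ ⟨k, rfl⟩
      rfl
    exact Submodule.finiteDimensional_of_le (Submodule.span_mono this)
  center_finite := by
    have : ((fun z => envelopingAction z (c • constOne (GFin K))) ''
        (Subalgebra.center ℝ (UniversalEnvelopingAlgebra ℝ M2C) : Set _)) ⊆
        (Submodule.span ℂ {constOne (GFin K)} : Set _) := by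
      rintro _ ⟨z, _, rfl⟩
      simp only [map_smul, envelopingAction_constOne, smul_smul]
      exact Submodule.smul_mem _ _ (Submodule.mem_span_singleton_self _)
    exact Submodule.finiteDimensional_of_le (Submodule.span_le.mpr this)
  moderate_growth x := ⟨‖c‖, 0, fun g => by
    simp [constOne_apply]⟩

/-- The trivial representation of `GL₂(𝔸_K)` (on the constant functions) is an automorphic representation. -/
def trivialAutomorphicRepresentation (w : InfinitePlace K) : AutomorphicRepresentation w where
  U := constantFunctions K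
  W := ⊥
  le := bot_le
  forms := by
    rintro _ ⟨c, rfl⟩
    exact isAutomorphicForm_const w c
  irreducible := by
    rw [isSimpleModule_iff_isCoatom]
    have hmem : ∀ x : constantFunctions K,
        x ∈ (⊥ : Submodule (HeckeAlg K) (SmoothAdelic K)).submoduleOf (constantFunctions K) ↔
          (x : SmoothAdelic K) = 0 := fun x => Iff.rfl
    constructor
    · intro h
      have h1 : (⟨constOne (GFin K), ⟨1, by simp⟩⟩ : constantFunctions K) ∈
          (⊥ : Submodule (HeckeAlg K) (SmoothAdelic K)).submoduleOf (constantFunctions K) := by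
        rw [h]; trivial
      exact constOne_ne_zero ((hmem _).mp h1)
    · intro N hN
      obtain ⟨x, hxN, hx⟩ := SetLike.exists_of_lt hN
      obtain ⟨x, c, rfl⟩ := x
      have hc : c ≠ 0 := by
        rintro rfl
        apply hx
        rw [hmem]
        simp
      rw [eq_top_iff]
      rintro ⟨_, d, rfl⟩ _
      have := N.smul_mem (algebraMap ℂ (HeckeAlg K) (d / c)) hxN
      convert this using 1
      ext1
      show d • constOne (GFin K) = algebraMap ℂ (HeckeAlg K) (d / c) • (c • constOne (GFin K))
      rw [heckeAlg_algebraMap_smul, smul_smul, div_mul_cancel₀ _ hc]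

theorem trivial_hasTrivialCentralCharacter (w : InfinitePlace K) :
    (trivialAutomorphicRepresentation w).HasTrivialCentralCharacter := by
  rintro a b _ ⟨c, rfl⟩
  show _ ∈ (⊥ : Submodule (HeckeAlg K) (SmoothAdelic K))
  rw [Submodule.mem_bot, map_smul, rightTranslate_constOne, sub_self]

theorem trivial_hasWeightZero (w : InfinitePlace K) :
    (trivialAutomorphicRepresentation w).HasWeightZero := by
  rintro z _ _ ⟨c, rfl⟩
  show _ ∈ (⊥ : Submodule (HeckeAlg K) (SmoothAdelic K))
  rw [Submodule.mem_bot, map_smul, envelopingAction_constOne, smul_comm, sub_self]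


/-- If `φ(n(x) g) = φ(g)` for all adeles `x` and `φ` is cuspidal, then `φ = 0`. -/
theorem eq_zero_of_isCuspidalFunction_of_invariant (w : InfinitePlace K) (φ : SmoothAdelic K)
    (hφ : IsCuspidalFunction w φ)
    (hinv : ∀ (z : ℂ) (a : FinAdele K) (g : GAdele K), φ.1 ((unipElt z, unipElt a) * g) = φ.1 g) :
    φ = 0 := by
  obtain ⟨μ, hμ, h⟩ := hφ
  ext g
  obtain ⟨hi, h0⟩ := h g
  simp only [hinv] at hi h0
  by_contra hne
  have hne' : φ.1 g ≠ 0 := hne
  let _ : MeasurableSpace ((ℂ × FinAdele K) ⧸ principalAdeles w) := borel _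
  have hfin : IsFiniteMeasure μ := (integrable_const_iff_isFiniteMeasure hne').mp hi
  rw [integral_const] at h0
  have hpos : 0 < μ Set.univ := isOpen_univ.measure_pos μ Set.univ_nonempty
  have : μ.real Set.univ ≠ 0 := by
    rw [Measure.real, ENNReal.toReal_ne_zero]
    exact ⟨hpos.ne', measure_ne_top μ _⟩
  rcases smul_eq_zero.mp h0 with h1 | h1
  · exact this h1
  · exact hne' h1

/-- **Non-example**: the constant function `1` (an automorphic form) is not cuspidal. -/
theorem not_isCuspidalFunction_constOne (w : InfinitePlace K) :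
    ¬ IsCuspidalFunction w (constOne (GFin K)) := by
  intro h
  have := eq_zero_of_isCuspidalFunction_of_invariant w _ h (fun _ _ _ => rfl)
  have h1 := congrArg (fun φ : SmoothAdelic K => φ.1 1) this
  simp [constOne_apply] at h1


/-- **Non-example**: the trivial representation of `GL₂(𝔸_K)` is an automorphic representation with trivial central character and
weight zero, but it is not cuspidal. -/
theorem trivial_not_isCuspidal (w : InfinitePlace K) :
    ¬ (trivialAutomorphicRepresentation w).IsCuspidal := by
  rintro ⟨U', hU', ⟨e⟩⟩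
  set π := trivialAutomorphicRepresentation w with hπ
  let c₀ : π.U := ⟨constOne (GFin K), ⟨1, by simp⟩⟩
  let x₀ : π.Space := Submodule.Quotient.mk c₀
  have hx₀ : x₀ ≠ 0 := by
    intro h
    have h1 : c₀ ∈ π.W.submoduleOf π.U := (Submodule.Quotient.mk_eq_zero _).mp h
    have h2 : (c₀ : SmoothAdelic K) = 0 := h1
    exact constOne_ne_zero h2
  have hact : ∀ a : HeckeAlg K, a • x₀ = algebraMap ℂ (HeckeAlg K) (trivialHeckeChar K a) • x₀ := by
    intro a
    rw [← Submodule.Quotient.mk_smul, ← Submodule.Quotient.mk_smul]
    congr 1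
    apply Subtype.ext
    show a • constOne (GFin K) = algebraMap ℂ (HeckeAlg K) (trivialHeckeChar K a) • constOne (GFin K)
    rw [heckeAlg_smul_constOne, heckeAlg_algebraMap_smul]
  set φ : SmoothAdelic K := (e x₀).1 with hφ
  have hφ0 : φ ≠ 0 := by
    intro h
    apply hx₀
    apply e.injective
    rw [map_zero]
    exact Subtype.ext h
  have hφact : ∀ a : HeckeAlg K, a • φ = trivialHeckeChar K a • φ := by
    intro a
    have h1 : a • e x₀ = algebraMap ℂ (HeckeAlg K) (trivialHeckeChar K a) • e x₀ := by
      rw [← map_smul, hact, map_smul]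
    have h2 := congrArg (Subtype.val) h1
    rw [← heckeAlg_algebraMap_smul]
    exact h2
  have hlie : ∀ A, lieDeriv A φ = 0 := by
    intro A
    have := hφact (FreeAlgebra.ι ℂ (HeckeOp.lie A))
    rw [heckeAlg_ι_smul, trivialHeckeChar, FreeAlgebra.lift_ι_apply] at this
    simpa [HeckeOp.act] using this
  have hfin : ∀ x : GFin K, rightTranslate ((1, x) : GAdele K) φ = φ := by
    intro x
    have := hφact (FreeAlgebra.ι ℂ (HeckeOp.fin x))
    rw [heckeAlg_ι_smul, trivialHeckeChar, FreeAlgebra.lift_ι_apply] at this
    simpa [HeckeOp.act] using this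
  have hfin' : ∀ (g : GL2C) (x : GFin K), φ.1 (g, x) = φ.1 (g, 1) := by
    intro g x
    have := congrArg (fun ψ : SmoothAdelic K => ψ.1 (g, 1)) (hfin x)
    simpa [rightTranslate_apply] using this
  apply hφ0
  apply eq_zero_of_isCuspidalFunction_of_invariant w φ (hU' φ (e x₀).2).2
  rintro z a ⟨g, x⟩
  show φ.1 (unipElt z * g, unipElt a * x) = φ.1 (g, x)
  rw [hfin', hfin' g x, apply_unipElt_mul_of_lieDeriv_eq_zero φ hlie]

end Basic

end

end Claimed.Open.R030
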