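import Claimed.Open.R030.SanityArch
import Claimed.Open.R030.SanityAutomorphic

/-!
# Result 030: `archToHecke` does what its docstring says

`archToHecke K : ArchAlg →ₐ[ℂ] HeckeAlg K` carries the clause `HasArchimedeanParameter` of `Statement.lean` ("a map that is semilinear with respect to it is a map of `(𝔤, K_∞)`-modules").
* `ArchToHecke.evalFin_smul` : for every `x ∈ GL₂(𝔸_K^f)` the evaluation `φ ↦ φ(·, x)` intertwines the action of `archToHecke K a` on functions on `GL₂(𝔸_K)` with the action of `a` on functions on `GL₂(ℂ)`;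
* `ArchToHecke.inflate`, `inflate_ne_zero` : the inflation `f ↦ ((g, x) ↦ f(g))` is a NON-ZERO semilinear map over `archToHecke K`: first example of the kind of map asked for in `HasArchimedeanParameter`;
* `ArchToHecke.archToHecke_injective` : `archToHecke K` is injective (`ArchOp ⊆ HeckeOp K`).
-/

set_option autoImplicit false

namespace Claimed.Open.R030

open scoped Classical
open scoped Matrix.Norms.Operator ContDiff
open IsDedekindDomain NumberField

noncomputable section

namespace ArchToHecke

variable {K : Type} [Field K] [NumberField K]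

/-- evaluation at `x ∈ GL₂(𝔸_K^f)` -/
def evalFin (x : GFin K) : SmoothAdelic K →ₗ[ℂ] SmoothArch where
  toFun φ := ⟨fun p => φ.1 (p.1, x), fun _ => φ.2 x⟩
  map_add' _ _ := rfl
  map_smul' _ _ := rfl

/-- inflation of a function on `GL₂(ℂ)` to `GL₂(𝔸_K)` -/
def inflateLin : SmoothArch →ₗ[ℂ] SmoothAdelic K where
  toFun f := ⟨fun p => f.1 (p.1, ()), fun _ => f.2 ()⟩
  map_add' _ _ := rfl
  map_smul' _ _ := rfl

theorem archToHecke_ι (o : ArchOp) : archToHecke K (FreeAlgebra.ι ℂ o) = FreeAlgebra.ι ℂ (o.toHeckeOp K) := by
  unfold archToHecke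
  rw [FreeAlgebra.lift_ι_apply]

theorem evalFin_act (x : GFin K) (o : ArchOp) (φ : SmoothAdelic K) :
    evalFin x ((o.toHeckeOp K).act φ) = o.act (evalFin x φ) := by
  cases o with
  | cpt k =>
    refine Subtype.ext (funext fun p => ?_)
    show φ.1 (p.1 * kInfToGL k, x * 1) = φ.1 (p.1 * kInfToGL k, x)
    rw [mul_one]
  | lie A => rfl

theorem inflate_act (o : ArchOp) (f : SmoothArch) :
    inflateLin (K := K) (o.act f) = (o.toHeckeOp K).act (inflateLin f) := by
  cases o with
  | cpt k => rfl
  | lie A => rfl

/-- **Evaluation at a finite adelic point is a map of `(𝔤, K_∞)`-modules along `archToHecke`.** -/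
theorem evalFin_smul (x : GFin K) (a : ArchAlg) :
    ∀ φ : SmoothAdelic K, evalFin x (archToHecke K a • φ) = a • evalFin x φ := by
  induction a using FreeAlgebra.induction with
  | grade0 c =>
    intro φ
    rw [AlgHom.commutes, heckeAlg_algebraMap_smul, archAlg_algebraMap_smul, map_smul]
  | grade1 o =>
    intro φ
    rw [archToHecke_ι, heckeAlg_ι_smul, archAlg_ι_smul, evalFin_act]
  | mul a b ha hb => intro φ; rw [map_mul, mul_smul, mul_smul, ha, hb]
  | add a b ha hb => intro φ; rw [map_add, add_smul, add_smul, map_add, ha, hb]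

theorem inflate_smul (a : ArchAlg) :
    ∀ f : SmoothArch, inflateLin (K := K) (a • f) = archToHecke K a • inflateLin f := by
  induction a using FreeAlgebra.induction with
  | grade0 c =>
    intro f
    rw [AlgHom.commutes, heckeAlg_algebraMap_smul, archAlg_algebraMap_smul, map_smul]
  | grade1 o =>
    intro f
    rw [archToHecke_ι, heckeAlg_ι_smul, archAlg_ι_smul, inflate_act]
  | mul a b ha hb => intro f; rw [map_mul, mul_smul, mul_smul, ha, hb]
  | add a b ha hb => intro f; rw [map_add, add_smul, add_smul, map_add, ha, hb]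

variable (K) in
/-- The inflation as a semilinear map over `archToHecke K`, the kind of map of `HasArchimedeanParameter`. -/
def inflate : SmoothArch →ₛₗ[(archToHecke K).toRingHom] SmoothAdelic K where
  toFun := inflateLin
  map_add' := map_add _
  map_smul' a f := inflate_smul a f

theorem evalFin_inflate (x : GFin K) (f : SmoothArch) : evalFin x (inflate K f) = f := rfl

theorem inflate_injective : Function.Injective (inflate K) := fun f f' h => by
  rw [← evalFin_inflate (K := K) 1 f, h, evalFin_inflate]

theorem inflate_ne_zero : inflate K ≠ 0 := by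
  intro h
  have h1 : inflate K (secArch 1 1) = 0 := by rw [h]; rfl
  have h2 : secArch 1 1 = 0 := inflate_injective (K := K) (by rw [h1, map_zero])
  have h3 := secArch_one
  rw [h2] at h3
  exact zero_ne_one h3

variable (K) in
/-- a left inverse of `archToHecke K` -/
def heckeToArch : HeckeAlg K →ₐ[ℂ] ArchAlg :=
  FreeAlgebra.lift ℂ fun o => match o with
    | .cpt k => FreeAlgebra.ι ℂ (ArchOp.cpt k)
    | .lie A => FreeAlgebra.ι ℂ (ArchOp.lie A)
    | .fin _ => 0

theorem heckeToArch_comp : (heckeToArch K).comp (archToHecke K) = AlgHom.id ℂ ArchAlg := by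
  refine FreeAlgebra.hom_ext (funext fun o => ?_)
  show heckeToArch K (archToHecke K (FreeAlgebra.ι ℂ o)) = FreeAlgebra.ι ℂ o
  rw [archToHecke_ι]
  unfold heckeToArch
  rw [FreeAlgebra.lift_ι_apply]
  cases o <;> rfl

theorem archToHecke_injective : Function.Injective (archToHecke K) := fun a b h => by
  have := congrArg (heckeToArch K) h
  have e : ∀ c, heckeToArch K (archToHecke K c) = c := fun c => DFunLike.congr_fun (heckeToArch_comp (K := K)) c
  rwa [e, e] at this

end ArchToHecke

end

end Claimed.Open.R030
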