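import Claimed.Open.R030.SanityNoCM

/-!
# Result 030: `HasCMOver E L` holds if and only if `L` contains the CM field — checked on an example

The docstring of `HasCMOver` in `Statement.lean` says that, for a curve `E` over `K` with complex multiplication and CM field `F`, `HasCMOver E L` holds if and only
if `L` contains `F`.  The last clause of `Statement` relies on it: the conditions `[L : K] = 2`, `HasCMOver E L` are meant to pin down `L = K F`.  This file proves it for
`E₃ : y² = x³ + 1` over `K = ℚ(i)`, `F = ℚ(ω)`: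

* `sanity_cubeCurve_hasCMOver_iff (L) : HasCMOver cubeCurve L ↔ omegaBar ∈ L`, for **every** intermediate field `K ⊆ L ⊆ K̄`;
* `sanity_cubeCurve_last_clause_field_unique : [L : K] = 2 → HasCMOver cubeCurve L → L = K(ω)`.

(`L = ⊥` gives back `¬ HasCMOver cubeCurve ⊥` of `SanityNoCM.lean`.)

## The proof

`⇐` is `sanity_cubeCurve_hasCMOver` (`SanityClauses.lean`).  For `⇒` we use the scalar `α` of an algebraic endomorphism `f` (`HasA f α`, `SanityNoCM.lean`) and show that **every
algebraic endomorphism is defined over `K(ω)`** (`HasA.conjE_eq_self`), again without determining `End(E₃)`: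

1. Let `Sat` be the `2`-saturation of the algebraic endomorphisms inside the endomorphisms of the group `E₃(K̄)` (`u ∈ Sat` if `2^k u` is algebraic for some `k`).  `E₃(K̄)` is
   `2`-divisible, so group endomorphisms have no `2`-torsion, and every `u ∈ Sat` commutes with `[ω]`.
2. The points of order `2` are `T₀ = (-1, 0)`, `[ω] T₀`, `[ω]² T₀`.  So on `E₃[2]` every `u ∈ Sat` agrees with one of `0, 1, [ω], [ω]² = -1 - [ω]`, and an endomorphism that
   kills `E₃[2]` is `2 u'`:  `u = a + b [ω] + 2 u'` with `u' ∈ Sat`.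
3. For `σ ∈ Gal(K̄/K(ω))`, `σ u σ⁻¹ - u = 2 (σ u' σ⁻¹ - u')`; by induction `σ f σ⁻¹ - f` is divisible by every `2^k`, so it kills all points of `2`-power order.  It is algebraic, and a
   non-zero algebraic endomorphism has a finite kernel.  So `σ f σ⁻¹ = f`.
4. So `α ∈ K(ω)`; and `α ∈ L` if `f` commutes with `Gal(K̄/L)`.  If `α ∈ K` then `α ∈ ℤ` and `f` is a scalar (`SanityNoCM.lean`).  Otherwise `K(α) = K(ω)`, as `[K(ω) : K] = 2`, so `ω ∈ L`.
-/

set_option autoImplicit false

namespace Claimed.Open.R030.CubeEnd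

/-! ## Definitions  (written by helper33) -/

section FldDefs

open scoped Classical
open WeierstrassCurve Polynomial

noncomputable section

/-- the conjugate `σ ∘ h ∘ σ⁻¹` of an endomorphism of the group `E₃(K̄)` by `σ ∈ Gal(K̄/K)` -/
def conjE (σ : Gal(Cm3Bar/Cm3Field)) (h : EndE) : EndE :=
  (galPts cubeCurve σ).comp (h.comp (galPts cubeCurve σ⁻¹))

/-- the `2`-saturation of the ring of algebraic endomorphisms inside the endomorphisms of the group `E₃(K̄)` -/
def Sat (h : EndE) : Prop := ∃ (k : ℕ) (α : Cm3Bar), HasA ((2 ^ k : ℕ) • h) α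

/-- the point `(-1, 0)` of order `2` -/
def T0 : PtsBar cubeCurve := .some (-1) 0 cubeCurve_nonsingular_neg_one

end

end FldDefs

/-! ## L1. Conjugation by the Galois group  (written by helper95) -/

section FldL1

open scoped Classical
open WeierstrassCurve Polynomial

variable (σ : Gal(Cm3Bar/Cm3Field))

theorem galPts_inv_apply (P : PtsBar cubeCurve) :
    galPts cubeCurve σ⁻¹ (galPts cubeCurve σ P) = P := by
  rcases P with _ | ⟨x, y, h⟩
  · rfl
  · obtain ⟨h₁, e₁⟩ := galPts_some_eq cubeCurve σ h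
    obtain ⟨h₂, e₂⟩ := galPts_some_eq cubeCurve σ⁻¹ h₁
    rw [e₁, e₂, Affine.Point.some.injEq]
    have hx : ∀ z : Cm3Bar, σ⁻¹ (σ z) = z := fun z => by
      have : (σ⁻¹ * σ) z = z := by rw [inv_mul_cancel]; rfl
      exact this
    exact ⟨hx x, hx y⟩
theorem galPts_apply_inv (P : PtsBar cubeCurve) :
    galPts cubeCurve σ (galPts cubeCurve σ⁻¹ P) = P := by
  have := galPts_inv_apply σ⁻¹ P
  rwa [inv_inv] at this
theorem conjE_apply (h : EndE) (P : PtsBar cubeCurve) :
    conjE σ h P = galPts cubeCurve σ (h (galPts cubeCurve σ⁻¹ P)) := rfl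
theorem conjE_add (u v : EndE) : conjE σ (u + v) = conjE σ u + conjE σ v := by
  ext P
  rw [AddMonoidHom.add_apply, conjE_apply, conjE_apply, conjE_apply, AddMonoidHom.add_apply,
    map_add]
theorem conjE_sub (u v : EndE) : conjE σ (u - v) = conjE σ u - conjE σ v := by
  ext P
  rw [AddMonoidHom.sub_apply, conjE_apply, conjE_apply, conjE_apply, AddMonoidHom.sub_apply,
    map_sub]
theorem conjE_nsmul (n : ℕ) (u : EndE) : conjE σ (n • u) = n • conjE σ u := by
  ext P
  rw [AddMonoidHom.nsmul_apply, conjE_apply, conjE_apply, AddMonoidHom.nsmul_apply, map_nsmul]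
theorem conjE_zsmul (n : ℤ) (u : EndE) : conjE σ (n • u) = n • conjE σ u := by
  ext P
  rw [AddMonoidHom.zsmul_apply, conjE_apply, conjE_apply, AddMonoidHom.zsmul_apply, map_zsmul]
theorem conjE_id : conjE σ (AddMonoidHom.id _) = AddMonoidHom.id _ := by
  ext P
  rw [conjE_apply, AddMonoidHom.id_apply, AddMonoidHom.id_apply, galPts_apply_inv]
theorem conjE_eq_self_iff (h : EndE) :
    conjE σ h = h ↔ ∀ P, h (galPts cubeCurve σ P) = galPts cubeCurve σ (h P) := by
  constructor
  · intro e P
    have := DFunLike.congr_fun e (galPts cubeCurve σ P)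
    rw [conjE_apply, galPts_inv_apply] at this
    exact this.symm
  · intro e
    ext P
    rw [conjE_apply, ← e, galPts_apply_inv]
/-- `cubeCurveEndo_galPts` -/
theorem conjE_omega (hσ : σ omegaBar = omegaBar) : conjE σ cubeCurveEndo = cubeCurveEndo :=
  (conjE_eq_self_iff σ cubeCurveEndo).mpr fun P => cubeCurveEndo_galPts σ hσ P
/-- as in the proof of `Rep.ratMap_of_comm` -/
theorem Rep.conj {f : EndE} {R S : RatFunc Cm3Bar} (h : Rep f R S) :
    Rep (conjE σ f) (ratMap (σ : Cm3Bar →+* Cm3Bar) R)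
      (ratMap (σ : Cm3Bar →+* Cm3Bar) S) := by
  obtain ⟨B, hB, H⟩ := h
  refine ⟨σ '' B, hB.image _, fun x y h hx => ?_⟩
  obtain ⟨x₀, rfl⟩ := σ.surjective x
  obtain ⟨y₀, rfl⟩ := σ.surjective y
  have h₀ : EC.Nonsingular x₀ y₀ := by
    rw [nonsingular_iff] at h ⊢
    apply σ.injective
    rw [map_pow, map_add, map_pow, map_one]
    exact h
  have hx₀ : x₀ ∉ B := fun hb => hx ⟨x₀, hb, rfl⟩
  obtain ⟨r, s, h', hr, hs, e⟩ := H x₀ y₀ h₀ hx₀
  obtain ⟨h₁, e₁⟩ := galPts_some_eq cubeCurve σ h₀
  obtain ⟨h₂, e₂⟩ := galPts_some_eq cubeCurve σ h'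
  refine ⟨σ r, σ s, by rw [← map_mul]; exact h₂, hr.ratMap (σ : Cm3Bar →+* Cm3Bar),
    hs.ratMap (σ : Cm3Bar →+* Cm3Bar), ?_⟩
  have e₃ : galPts cubeCurve σ⁻¹ (.some (σ x₀) (σ y₀) h) = .some x₀ y₀ h₀ := by
    have := galPts_inv_apply σ (.some x₀ y₀ h₀)
    rwa [e₁] at this
  rw [conjE_apply, e₃, e, e₂, Affine.Point.some.injEq]
  exact ⟨rfl, map_mul _ _ _⟩
/-- `ratDeriv_ratMap`, `ratMap_mul`, `ratMap_C` -/
theorem HasA.conj {f : EndE} {α : Cm3Bar} (h : HasA f α) :
    HasA (conjE σ f) (σ α) := by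
  rcases h with ⟨rfl, rfl⟩ | ⟨R, S, hRS, hd⟩
  · refine Or.inl ⟨?_, map_zero _⟩
    ext P
    rw [conjE_apply, AddMonoidHom.zero_apply, map_zero, AddMonoidHom.zero_apply]
  · refine Or.inr ⟨_, _, hRS.conj σ, ?_⟩
    rw [ratDeriv_ratMap, hd, ratMap_mul, ratMap_C]
    rfl

end FldL1

/-! ## L2. Abelian groups that are divisible by `2`  (written by helper33) -/

section FldL2

open scoped Classical
open WeierstrassCurve Polynomial

section Generic
variable {A : Type} [AddCommGroup A]

/-- the endomorphisms of a `2`-divisible group have no `2`-torsion -/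
theorem eq_zero_of_two_pow_nsmul_eq_zero (hdiv : ∀ P : A, ∃ Q, Q + Q = P) (k : ℕ) (s : A →+ A)
    (h : (2 ^ k : ℕ) • s = 0) : s = 0 := by
  induction k with
  | zero => simpa using h
  | succ k ih =>
    apply ih
    ext P
    obtain ⟨Q, rfl⟩ := hdiv P
    have h1 : ((2 ^ (k + 1) : ℕ) • s) Q = 0 := by rw [h]; rfl
    rw [AddMonoidHom.nsmul_apply] at h1
    rw [AddMonoidHom.nsmul_apply, AddMonoidHom.zero_apply, map_add, ← two_nsmul, smul_smul,
      ← pow_succ]
    exact h1
/-- an endomorphism of a `2`-divisible group that kills the points of order `2` is divisible by `2`:  `u P = v Q` for `2 Q = P` -/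
theorem exists_two_nsmul_eq_of_kills (hdiv : ∀ P : A, ∃ Q, Q + Q = P) (v : A →+ A)
    (hv : ∀ T : A, T + T = 0 → v T = 0) : ∃ u : A →+ A, 2 • u = v := by
  choose q hq using hdiv
  have hwd : ∀ Q Q' : A, Q + Q = Q' + Q' → v Q = v Q' := by
    intro Q Q' h
    have h0 : v (Q - Q') = 0 := hv _ (by
      have : Q - Q' + (Q - Q') = (Q + Q) - (Q' + Q') := by abel
      rw [this, h, sub_self])
    rw [map_sub] at h0
    exact sub_eq_zero.mp h0
  refine ⟨AddMonoidHom.mk' (fun P => v (q P)) ?_, ?_⟩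
  · intro P P'
    rw [← map_add]
    apply hwd
    have : q P + q P' + (q P + q P') = (q P + q P) + (q P' + q P') := by abel
    rw [hq, this, hq, hq]
  · ext P
    rw [AddMonoidHom.nsmul_apply, AddMonoidHom.mk'_apply, two_nsmul, ← map_add, hq]
end Generic

/-- successive halves of `(-1, 0)`: infinitely many points of `2`-power order -/
theorem exists_two_pow_torsion_seq : ∃ P : ℕ → PtsBar cubeCurve, Function.Injective P ∧
    ∀ n, (2 ^ (n + 1) : ℕ) • P n = 0 := by
  choose q hq using cubeCurve_exists_half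
  let P : ℕ → PtsBar cubeCurve := fun n => Nat.rec T0 (fun _ Q => q Q) n
  have hP0 : P 0 = T0 := rfl
  have hPs : ∀ n, P (n + 1) + P (n + 1) = P n := fun n => hq (P n)
  have hT2 : T0 + T0 = 0 := WeierstrassCurve.Affine.Point.add_self_of_Y_eq (by
    rw [WeierstrassCurve.Affine.negY, cubeCurve_a₁, cubeCurve_a₃]; ring)
  have hT0 : T0 ≠ 0 := WeierstrassCurve.Affine.Point.some_ne_zero _
  have hpow : ∀ n, (2 ^ n : ℕ) • P n = T0 := by
    intro n
    induction n with
    | zero => simp [hP0]
    | succ n ih =>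
      rw [pow_succ, mul_smul, two_nsmul, hPs, ih]
  have hkill : ∀ n, (2 ^ (n + 1) : ℕ) • P n = 0 := by
    intro n
    rw [pow_succ, mul_comm, mul_smul, hpow, two_nsmul, hT2]
  refine ⟨P, ?_, hkill⟩
  have key : ∀ n m, n < m → P n ≠ P m := by
    intro n m hnm h
    obtain ⟨d, rfl⟩ := Nat.exists_eq_add_of_lt hnm
    have h1 : (2 ^ (n + d + 1) : ℕ) • P (n + d + 1) = T0 := hpow _
    rw [← h] at h1
    have h2 : (2 ^ (n + d + 1) : ℕ) • P n = 0 := by
      have : (2 ^ (n + d + 1) : ℕ) = 2 ^ d * 2 ^ (n + 1) := by ring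
      rw [this, mul_smul, hkill]
      exact nsmul_zero _
    exact hT0 (h1.symm.trans h2)
  intro n m h
  rcases lt_trichotomy n m with hlt | heq | hgt
  · exact absurd h (key n m hlt)
  · exact heq
  · exact absurd h.symm (key m n hgt)

end FldL2

/-! ## L3. The points of order `2`  (written by helper95) -/

section FldL3

open scoped Classical
open WeierstrassCurve Polynomial

theorem T0_add_self : T0 + T0 = 0 := add_self_eq_zero_of_y_eq_zero _
theorem T0_ne_zero : T0 ≠ 0 := Affine.Point.some_ne_zero _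
/-- the points of order `2` are `(-1, 0)`, `(-ω, 0)`, `(-ω², 0)` -/
theorem two_torsion_cases (T : PtsBar cubeCurve) (h : T + T = 0) :
    T = 0 ∨ T = T0 ∨ T = cubeCurveEndo T0 ∨ T = cubeCurveEndo (cubeCurveEndo T0) := by
  rcases T with _ | ⟨x, y, hxy⟩
  · exact Or.inl rfl
  · right
    have hy : y = 0 := by
      by_contra hy
      obtain ⟨h', e⟩ := two_some hxy hy
      rw [e] at h
      exact Affine.Point.some_ne_zero _ h
    subst hy
    have hx : x ^ 3 + 1 = 0 := by
      have := nonsingular_iff.mp hxy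
      linear_combination -this
    have hfac : (x + 1) * ((x + omegaBar) * (x + omegaBar * omegaBar)) = 0 := by
      linear_combination hx + (x ^ 2 + x * omegaBar + omegaBar - 1) * omegaBar_spec
    rcases mul_eq_zero.mp hfac with h1 | h1
    · left
      rw [T0, Affine.Point.some.injEq]
      exact ⟨by linear_combination h1, rfl⟩
    · rcases mul_eq_zero.mp h1 with h2 | h2
      · right; left
        rw [T0, cubeCurveEndo_some, Affine.Point.some.injEq]
        exact ⟨by linear_combination h2, rfl⟩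
      · right; right
        rw [T0, cubeCurveEndo_some, cubeCurveEndo_some, Affine.Point.some.injEq]
        exact ⟨by linear_combination h2, rfl⟩
/-- `1 + [ω] + [ω]² = 0` (by `HasA.ext` or directly) -/
theorem omega_sq_apply (P : PtsBar cubeCurve) :
    cubeCurveEndo (cubeCurveEndo P) = -P - cubeCurveEndo P := by
  have h1 : HasA (cubeCurveEndo.comp cubeCurveEndo) (omegaBar * omegaBar) :=
    hasA_omega.comp hasA_omega
  have h2 : HasA (-AddMonoidHom.id _ - cubeCurveEndo) (-1 - omegaBar) :=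
    hasA_id.neg.sub hasA_omega
  have e : omegaBar * omegaBar = -1 - omegaBar := by linear_combination omegaBar_spec
  rw [e] at h1
  exact DFunLike.congr_fun (h1.ext h2) P

end FldL3

/-! ## L4. The saturation modulo `2`  (written by helper285) -/

section FldL4

open scoped Classical
open WeierstrassCurve Polynomial

variable {u : EndE}

theorem HasA.sat {f : EndE} {α : Cm3Bar} (h : HasA f α) : Sat f :=
  have e : (2 ^ 0 : ℕ) • f = f := by
    ext P
    simp only [AddMonoidHom.nsmul_apply, pow_zero, one_nsmul]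
  ⟨0, α, by rw [e]; exact h⟩

/-- `2^k (u ∘ [ω] - [ω] ∘ u) = g ∘ [ω] - [ω] ∘ g = 0` by `HasA.comp`, `HasA.ext`; then `eq_zero_of_two_pow_nsmul_eq_zero` -/
theorem Sat.comm_omega (h : Sat u) (P : PtsBar cubeCurve) :
    u (cubeCurveEndo P) = cubeCurveEndo (u P) := by
  obtain ⟨k, α, hg⟩ := h
  have h1 : HasA (((2 ^ k : ℕ) • u).comp cubeCurveEndo) (α * omegaBar) := hg.comp hasA_omega
  have h2 : HasA (cubeCurveEndo.comp ((2 ^ k : ℕ) • u)) (α * omegaBar) := by
    have := hasA_omega.comp hg
    rwa [mul_comm] at this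
  have hcomm : ((2 ^ k : ℕ) • u).comp cubeCurveEndo = cubeCurveEndo.comp ((2 ^ k : ℕ) • u) :=
    h1.ext h2
  have hs : (2 ^ k : ℕ) • (u.comp cubeCurveEndo - cubeCurveEndo.comp u) = 0 := by
    ext Q
    have hQ := DFunLike.congr_fun hcomm Q
    simp only [AddMonoidHom.comp_apply, AddMonoidHom.nsmul_apply] at hQ
    simp only [AddMonoidHom.nsmul_apply, AddMonoidHom.sub_apply, AddMonoidHom.comp_apply,
      AddMonoidHom.zero_apply]
    rw [nsmul_sub, hQ, map_nsmul, sub_self]
  have hz := eq_zero_of_two_pow_nsmul_eq_zero cubeCurve_exists_half k _ hs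
  have hP := DFunLike.congr_fun hz P
  simp only [AddMonoidHom.sub_apply, AddMonoidHom.comp_apply, AddMonoidHom.zero_apply] at hP
  exact sub_eq_zero.1 hP

/-- if `u = a + b [ω]` at `T0`, then at all the points of order `2` -/
private theorem Sat.kills_of_T0 (h : Sat u) (a b : ℤ)
    (h0 : u T0 = a • T0 + b • cubeCurveEndo T0) (T : PtsBar cubeCurve) (hT : T + T = 0) :
    u T = a • T + b • cubeCurveEndo T := by
  rcases two_torsion_cases T hT with rfl | rfl | rfl | rfl
  · rw [map_zero, map_zero, zsmul_zero, zsmul_zero, add_zero]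
  · exact h0
  · rw [h.comm_omega, h0, map_add, map_zsmul, map_zsmul]
  · rw [h.comm_omega, h.comm_omega, h0]
    simp only [map_add, map_zsmul]

/-- `u T0` is `0` or `[ω]^j T0`, and `u` commutes with `[ω]`: on the points of order `2`, `u` is `0`, `1`, `[ω]` or `[ω]² = -1 - [ω]` -/
theorem Sat.exists_kills (h : Sat u) : ∃ a b : ℤ, ∀ T : PtsBar cubeCurve, T + T = 0 →
    u T = a • T + b • cubeCurveEndo T := by
  have h2 : u T0 + u T0 = 0 := by rw [← map_add, T0_add_self, map_zero]
  rcases two_torsion_cases (u T0) h2 with h0 | h0 | h0 | h0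
  · exact ⟨0, 0, h.kills_of_T0 0 0 (by rw [h0, zero_zsmul, zero_zsmul, add_zero])⟩
  · exact ⟨1, 0, h.kills_of_T0 1 0 (by rw [h0, one_zsmul, zero_zsmul, add_zero])⟩
  · exact ⟨0, 1, h.kills_of_T0 0 1 (by rw [h0, zero_zsmul, one_zsmul, zero_add])⟩
  · refine ⟨-1, -1, h.kills_of_T0 (-1) (-1) ?_⟩
    rw [h0, omega_sq_apply, neg_one_zsmul, neg_one_zsmul, sub_eq_add_neg]

/-- `u = a + b [ω] + 2 u'` with `u'` in the saturation again -/
theorem Sat.exists_mod_two (h : Sat u) : ∃ (a b : ℤ) (u' : EndE), Sat u' ∧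
    u = (a • AddMonoidHom.id (PtsBar cubeCurve) + b • cubeCurveEndo) + 2 • u' := by
  obtain ⟨a, b, hab⟩ := h.exists_kills
  set w : EndE := a • AddMonoidHom.id (PtsBar cubeCurve) + b • cubeCurveEndo with hw
  have hv : ∀ T : PtsBar cubeCurve, T + T = 0 → (u - w) T = 0 := by
    intro T hT
    simp only [hw, AddMonoidHom.sub_apply, AddMonoidHom.add_apply, AddMonoidHom.zsmul_apply,
      AddMonoidHom.id_apply]
    rw [hab T hT, sub_self]
  obtain ⟨u', hu'⟩ := exists_two_nsmul_eq_of_kills cubeCurve_exists_half (u - w) hv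
  refine ⟨a, b, u', ?_, ?_⟩
  · obtain ⟨k, α, hg⟩ := h
    have hwA : HasA w ((a : Cm3Bar) + b * omegaBar) := (hasA_zsmul_id a).add (hasA_omega.zsmul b)
    have hwk := hwA.zsmul ((2 ^ k : ℕ) : ℤ)
    have hsub := hg.sub hwk
    refine ⟨k + 1, α - (((2 ^ k : ℕ) : ℤ) : Cm3Bar) * ((a : Cm3Bar) + b * omegaBar), ?_⟩
    have e : (2 ^ (k + 1) : ℕ) • u' = (2 ^ k : ℕ) • u - (((2 ^ k : ℕ) : ℤ)) • w := by
      have e2 : (((2 ^ k : ℕ) : ℤ)) • w = (2 ^ k : ℕ) • w := by
        ext P
        simp only [AddMonoidHom.zsmul_apply, AddMonoidHom.nsmul_apply, natCast_zsmul]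
      rw [pow_succ, mul_smul, hu', smul_sub, e2]
    rw [e]
    exact hsub
  · rw [hu']; exact (add_sub_cancel w u).symm

end FldL4

/-! ## L5. Every algebraic endomorphism is defined over `K(ω)`  (written by helper30) -/

section FldL5

open scoped Classical
open WeierstrassCurve Polynomial

/-- induction on `k`:  `σ u σ⁻¹ - u = 2 (σ u' σ⁻¹ - u')` for `u = a + b [ω] + 2 u'` -/
theorem Sat.conjE_sub_self (σ : Gal(Cm3Bar/Cm3Field)) (hσ : σ omegaBar = omegaBar) (k : ℕ) :
    ∀ u : EndE, Sat u → ∃ s : EndE, conjE σ u - u = (2 ^ k : ℕ) • s := by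
  induction k with
  | zero =>
    intro u _
    exact ⟨conjE σ u - u, AddMonoidHom.ext fun P => by
      rw [pow_zero, AddMonoidHom.nsmul_apply, one_nsmul]⟩
  | succ k ih =>
    intro u hu
    obtain ⟨a, b, u', hu', e⟩ := hu.exists_mod_two
    obtain ⟨s, hs⟩ := ih u' hu'
    refine ⟨s, ?_⟩
    have e1 : conjE σ u = (a • AddMonoidHom.id (PtsBar cubeCurve) + b • cubeCurveEndo) +
        2 • conjE σ u' := by
      rw [e, conjE_add, conjE_add, conjE_zsmul, conjE_zsmul, conjE_nsmul, conjE_id,
        conjE_omega σ hσ]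
    have e2 : conjE σ u - u = 2 • (conjE σ u' - u') := by
      rw [e1]
      conv_lhs => rw [e]
      ext P
      simp only [AddMonoidHom.sub_apply, AddMonoidHom.add_apply, AddMonoidHom.nsmul_apply]
      abel
    rw [e2, hs, pow_succ, mul_comm]
    ext P
    rw [AddMonoidHom.nsmul_apply, AddMonoidHom.nsmul_apply, AddMonoidHom.nsmul_apply, mul_nsmul']

/-- `g` kills the infinitely many points of `exists_two_pow_torsion_seq`, but `Rep g R S` puts the kernel of `g` into a finite set
(`finite_points_of_finite`) -/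
theorem HasA.eq_zero_of_forall_two_pow {g : EndE} {β : Cm3Bar} (hg : HasA g β)
    (h : ∀ k : ℕ, ∃ s : EndE, g = (2 ^ k : ℕ) • s) : g = 0 := by
  rcases hg with ⟨h0, -⟩ | ⟨R, S, ⟨B, hB, H⟩, -⟩
  · exact h0
  · exfalso
    obtain ⟨P, hinj, hP⟩ := exists_two_pow_torsion_seq
    have hker : ∀ n, g (P n) = 0 := by
      intro n
      obtain ⟨s, hs⟩ := h (n + 1)
      rw [hs, AddMonoidHom.nsmul_apply, ← map_nsmul, hP n, map_zero]
    have hsub : Set.range P ⊆
        {Q : PtsBar cubeCurve | Q = 0 ∨ ∃ x y h, x ∈ B ∧ Q = .some x y h} := by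
      rintro _ ⟨n, rfl⟩
      rcases hPn : P n with _ | ⟨x, y, hxy⟩
      · exact Or.inl rfl
      · refine Or.inr ⟨x, y, hxy, ?_, rfl⟩
        by_contra hx
        obtain ⟨r, s, h', -, -, e⟩ := H x y hxy hx
        rw [← hPn, hker n] at e
        exact Affine.Point.some_ne_zero _ e.symm
    exact (Set.infinite_range_of_injective hinj) ((finite_points_of_finite hB).subset hsub)

theorem HasA.conjE_eq_self {f : EndE} {α : Cm3Bar} (hf : HasA f α) (σ : Gal(Cm3Bar/Cm3Field))
    (hσ : σ omegaBar = omegaBar) : conjE σ f = f := by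
  have hg : HasA (conjE σ f - f) (σ α - α) := (hf.conj σ).sub hf
  exact sub_eq_zero.mp
    (hg.eq_zero_of_forall_two_pow fun k => Sat.conjE_sub_self σ hσ k f hf.sat)

end FldL5

/-! ## L6. The scalar of an endomorphism lies in its field of definition  (written by helper33) -/

section FldL6

open scoped Classical
open WeierstrassCurve Polynomial

/-- `conjE σ f = f` gives `σ α = α` (`HasA.conj`, `HasA.unique`); `InfiniteGalois.fixedField_fixingSubgroup` -/
theorem HasA.mem_of_comm {f : EndE} {α : Cm3Bar} (hf : HasA f α)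
    (L : IntermediateField Cm3Field Cm3Bar)
    (hcomm : ∀ σ ∈ L.fixingSubgroup, ∀ P, f (galPts cubeCurve σ P) = galPts cubeCurve σ (f P)) :
    α ∈ L := by
  rw [← InfiniteGalois.fixedField_fixingSubgroup L, IntermediateField.mem_fixedField_iff]
  intro σ hσ
  have h1 : conjE σ f = f := (conjE_eq_self_iff σ f).mpr (hcomm σ hσ)
  have h2 := hf.conj σ
  rw [h1] at h2
  exact h2.unique hf
theorem HasA.mem_cm3L {f : EndE} {α : Cm3Bar} (hf : HasA f α) : α ∈ cm3L := by
  refine hf.mem_of_comm cm3L fun σ hσ => ?_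
  have hω : σ omegaBar = omegaBar :=
    (IntermediateField.mem_fixingSubgroup_iff cm3L σ).mp hσ _ omegaBar_mem_cm3L
  exact (conjE_eq_self_iff σ f).mp (hf.conjE_eq_self σ hω)
/-- from `exists_int_repr`, `not_hasA_int_mul_I`, `hasA_int_of_mul_eq`, as in the proof of `sanity_cubeCurve_not_hasCMOver_bot` -/
theorem HasA.int_of_mem_range {f : EndE} {α : Cm3Bar} (hf : HasA f α)
    (hα : α ∈ (algebraMap Cm3Field Cm3Bar).range) : ∃ n : ℤ, α = n := by
  obtain ⟨z, rfl⟩ := hα
  obtain ⟨p, r, q, I, hq, hI, hz⟩ := exists_int_repr z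
  set ι := algebraMap Cm3Field Cm3Bar with hι
  have hI' : (ι I) ^ 2 = -1 := by
    rw [← map_pow, hI, map_neg, map_one]
  have hz' : (q : Cm3Bar) * ι z = p + r * ι I := by
    have := congrArg ι hz
    simpa using this
  by_cases hr : r = 0
  · subst hr
    exact hasA_int_of_mul_eq hq hf (p := p) (by rw [hz']; simp)
  · exfalso
    have hg : HasA (q • f - p • AddMonoidHom.id _) ((q : Cm3Bar) * ι z - p) :=
      (hf.zsmul q).sub (hasA_zsmul_id p)
    have e : (q : Cm3Bar) * ι z - p = r * ι I := by rw [hz']; ring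
    rw [e] at hg
    exact not_hasA_int_mul_I hr hI' hg

end FldL6

/-! ## L7. A quadratic extension has no proper intermediate field  (written by helper33) -/

section FldL7

open scoped Classical
open WeierstrassCurve Polynomial

/-- `[K(ω) : K] = 2` (`finrank_cm3L`), so `K(α) = K(ω)` for `α ∈ K(ω) ∖ K` -/
theorem omegaBar_mem_of_mem_cm3L {α : Cm3Bar} (hα : α ∈ cm3L)
    (hαK : α ∉ (algebraMap Cm3Field Cm3Bar).range) (L : IntermediateField Cm3Field Cm3Bar)
    (hL : α ∈ L) : omegaBar ∈ L := by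
  have hle : IntermediateField.adjoin Cm3Field {α} ≤ cm3L := by
    rw [IntermediateField.adjoin_simple_le_iff]
    exact hα
  have hint : IsIntegral Cm3Field α := Algebra.IsIntegral.isIntegral _
  have hfd : FiniteDimensional Cm3Field cm3L :=
    IntermediateField.adjoin.finiteDimensional isIntegral_omegaBar
  have h2 : 2 ≤ (minpoly Cm3Field α).natDegree :=
    (minpoly.two_le_natDegree_iff hint).mpr hαK
  have hfr : Module.finrank Cm3Field (IntermediateField.adjoin Cm3Field {α}) =
      (minpoly Cm3Field α).natDegree := IntermediateField.adjoin.finrank hint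
  have hle2 : Module.finrank Cm3Field (IntermediateField.adjoin Cm3Field {α}) ≤
      Module.finrank Cm3Field cm3L := IntermediateField.finrank_le_of_le_right hle
  have heq : IntermediateField.adjoin Cm3Field {α} = cm3L := by
    apply IntermediateField.eq_of_le_of_finrank_le hle
    rw [finrank_cm3L, hfr]
    exact h2
  have h3 : cm3L ≤ L := by
    rw [← heq, IntermediateField.adjoin_simple_le_iff]
    exact hL
  exact h3 omegaBar_mem_cm3L
theorem eq_cm3L_of_finrank_eq_two (L : IntermediateField Cm3Field Cm3Bar)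
    (h2 : Module.finrank Cm3Field L = 2) (hω : omegaBar ∈ L) : L = cm3L := by
  have hle : cm3L ≤ L := by
    rw [cm3L, IntermediateField.adjoin_simple_le_iff]
    exact hω
  have hfd : FiniteDimensional Cm3Field L := Module.finite_of_finrank_pos (by rw [h2]; norm_num)
  symm
  apply IntermediateField.eq_of_le_of_finrank_le hle
  rw [finrank_cm3L, h2]

end FldL7

/-! ## L8. `HasCMOver E₃ L ↔ ω ∈ L`  (written by helper33) -/

section FldL8

open scoped Classical
open WeierstrassCurve Polynomial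

/-- **`HasCMOver` does what its docstring says**, on the example `E₃ : y² = x³ + 1` over `K = ℚ(i)`, whose CM field is `F = ℚ(ω)`: `E₃` has complex
multiplication defined over `L` if and only if `L` contains `F`. -/
theorem sanity_cubeCurve_hasCMOver_iff (L : IntermediateField Cm3Field Cm3Bar) :
    HasCMOver cubeCurve L ↔ omegaBar ∈ L := by
  refine ⟨?_, sanity_cubeCurve_hasCMOver L⟩
  rintro ⟨f, hf, hns, hcomm⟩
  obtain ⟨α, hα⟩ := exists_hasA hf
  have hL : α ∈ L := hα.mem_of_comm L hcomm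
  by_cases hK : α ∈ (algebraMap Cm3Field Cm3Bar).range
  · exfalso
    obtain ⟨n, rfl⟩ := hα.int_of_mem_range hK
    have hfn : f = n • AddMonoidHom.id _ := hα.ext (hasA_zsmul_id n)
    obtain ⟨P, hP⟩ := hns n
    apply hP
    rw [hfn]
    rfl
  · exact omegaBar_mem_of_mem_cm3L hα.mem_cm3L hK L hL

/-- The field `L` in the conclusion of the last clause of `Statement` is determined by the conditions `[L : K] = 2`, `HasCMOver E L`: it is `K F = K(ω)`. -/
theorem sanity_cubeCurve_last_clause_field_unique (L : IntermediateField Cm3Field Cm3Bar)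
    (h2 : Module.finrank Cm3Field L = 2) (hL : HasCMOver cubeCurve L) : L = cm3L :=
  eq_cm3L_of_finrank_eq_two L h2 ((sanity_cubeCurve_hasCMOver_iff L).mp hL)

end FldL8

end Claimed.Open.R030.CubeEnd
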