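import Claimed.Open.R030.Statement

/-!
# Result 030: the side conditions and inner premises of the clauses of `Statement`

`Sanity.lean` shows that the hypotheses of `Statement` can be met (`hypotheses_can_be_met`) and that the premise `HasCMOver E ⊥` of the
isobaric-sum clause can be met.  This file checks what else the clauses of the conclusion quantify over.

* **`v ∤ l`.**  Every finite place is prime to some prime number (`sanity_exists_prime_notMem`), and for every prime number `l` there is a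
  finite place `v ∤ l` (`sanity_exists_place_notMem`): the clause on local-global compatibility is not empty, and it reaches every place.
* **A non-example of `IsAlgebraicEndomorphism`.**  For `σ ≠ 1` in `Gal(K̄/K)` the group endomorphism `P ↦ σ P` of `E(K̄)` is *not* an algebraic
  endomorphism (`sanity_not_isAlgebraicEndomorphism_galPts`).  So the condition does exclude the evident endomorphisms of the abstract group `E(K̄)`
  that do not come from the curve, and which every curve has.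
* **An example of `IsAlgebraicEndomorphism` with points left out.**  Multiplication by `2` on `y² = x³ + 1`
  (`sanity_isAlgebraicEndomorphism_two_cubeCurve`): the denominators vanish at the points of order `2`.
* **The three cases.**  `HasCMOver E L` is monotone in `L` (`sanity_hasCMOver_mono`), so the premises `¬ HasCMOver E ⊤`, `HasCMOver E ⊥`,
  `HasCMOver E ⊤ ∧ ¬ HasCMOver E ⊥` of the last three clauses are exhaustive and mutually exclusive (`sanity_cm_cases`).
* **The last clause (complex multiplication, CM field not in `K`).**  `E₃ : y² = x³ + 1` over `K = ℚ(i)` has complex multiplication by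
  `[ω] : (x, y) ↦ (ω x, y)`, `ω² + ω + 1 = 0`.  We check `ω ∉ K`, `[K(ω) : K] = 2`, `HasCMOver E₃ L` for every `L ∋ ω`, in particular for
  `L = K(ω)` and `L = K̄` (`sanity_cubeCurve_last_clause`: the conditions `[L : K] = 2 ∧ HasCMOver E L` of the conclusion of that clause can be met),
  and that `[ω]` does *not* commute with `Gal(K̄/K)` (`sanity_cubeCurveEndo_not_over_bot`); more generally no `a + b [ω]` with `b ≠ 0` does
  (`sanity_cubeCurve_no_witness_over_bot`; the proof uses that `E₃(K̄)` is `2`-divisible, `cubeCurve_exists_half`).  So `HasCMOver E L` does depend on `L`.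
  What is **not** proved is the premise `¬ HasCMOver E₃ ⊥` of that clause itself: it is reduced to `End(E₃) = ℤ[ω]`
  (`sanity_cubeCurve_not_hasCMOver_bot_of_end`, a theorem with this explicit hypothesis), and that needs the theory of isogenies (Silverman III.4–III.9), which
  Mathlib lacks.
-/

set_option autoImplicit false

namespace Claimed.Open.R030

open scoped Classical
open WeierstrassCurve IsDedekindDomain NumberField Polynomial

noncomputable section

/-! ## The side condition `v ∤ l` -/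

section Places
variable {K : Type} [Field K] [NumberField K]

omit [NumberField K] in
/-- every finite place is prime to `2` or to `3` -/
theorem sanity_exists_prime_notMem (v : HeightOneSpectrum (𝓞 K)) :
    ∃ l : ℕ, l.Prime ∧ (l : 𝓞 K) ∉ v.asIdeal := by
  by_contra hcon
  push Not at hcon
  have h2 := hcon 2 Nat.prime_two
  have h3 := hcon 3 Nat.prime_three
  have h1 : (1 : 𝓞 K) ∈ v.asIdeal := by
    have := v.asIdeal.sub_mem h3 h2
    have e : ((3 : ℕ) : 𝓞 K) - ((2 : ℕ) : 𝓞 K) = 1 := by push_cast; ring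
    rwa [e] at this
  exact v.isPrime.ne_top ((Ideal.eq_top_iff_one _).mpr h1)

/-- for every prime `l` there is a finite place `v ∤ l` -/
theorem sanity_exists_place_notMem (l : ℕ) (hl : l.Prime) :
    ∃ v : HeightOneSpectrum (𝓞 K), (l : 𝓞 K) ∉ v.asIdeal := by
  obtain ⟨q, hq, hql⟩ : ∃ q : ℕ, q.Prime ∧ q ≠ l := by
    by_cases h : l = 2
    · exact ⟨3, Nat.prime_three, by omega⟩
    · exact ⟨2, Nat.prime_two, fun h' => h h'.symm⟩
  have hnu : ¬ IsUnit (q : 𝓞 K) := by
    intro hu
    have h1 : IsUnit ((Algebra.norm ℤ) ((q : 𝓞 K))) := hu.map _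
    have h2 : (Algebra.norm ℤ) ((q : 𝓞 K)) = (q : ℤ) ^ Module.finrank ℤ (𝓞 K) :=
      Algebra.norm_natCast ℤ q
    rw [h2, Int.isUnit_iff_natAbs_eq, Int.natAbs_pow, Int.natAbs_natCast] at h1
    have hpos : 0 < Module.finrank ℤ (𝓞 K) := Module.finrank_pos
    have := Nat.one_lt_pow hpos.ne' hq.one_lt
    omega
  obtain ⟨M, hM, hqM⟩ := exists_max_ideal_of_mem_nonunits hnu
  have hM0 : M ≠ ⊥ := by
    rintro rfl
    have : (q : 𝓞 K) = 0 := by simpa using hqM
    exact hq.ne_zero (by exact_mod_cast this)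
  refine ⟨⟨M, hM.isPrime, hM0⟩, fun hlM => ?_⟩
  have hcop : Nat.Coprime q l := (Nat.coprime_primes hq hl).mpr hql
  have hb := Nat.gcd_eq_gcd_ab q l
  rw [hcop.gcd_eq_one] at hb
  have h1 : (1 : 𝓞 K) = (q : 𝓞 K) * ((Nat.gcdA q l : ℤ) : 𝓞 K) + (l : 𝓞 K) * ((Nat.gcdB q l : ℤ) : 𝓞 K) := by
    have := congrArg (Int.cast : ℤ → 𝓞 K) hb
    push_cast at this
    exact this
  have : (1 : 𝓞 K) ∈ M := by
    rw [h1]
    exact M.add_mem (M.mul_mem_right _ hqM) (M.mul_mem_right _ hlM)
  exact hM.ne_top ((Ideal.eq_top_iff_one _).mpr this)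

end Places

/-! ## A non-example of `IsAlgebraicEndomorphism`: Galois conjugation -/

section NonExample

variable {K : Type} [Field K] [NumberField K] (E : WeierstrassCurve K)

omit [NumberField K] in
/-- Every `x ∈ K̄` is the abscissa of a point of an elliptic curve. -/
theorem sanity_exists_point_with_x [E.IsElliptic] (x : AlgebraicClosure K) :
    ∃ y, (E⁄(AlgebraicClosure K)).toAffine.Nonsingular x y := by
  set W := (E⁄(AlgebraicClosure K)).toAffine with hW
  have hell : WeierstrassCurve.IsElliptic W :=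
    inferInstanceAs (WeierstrassCurve.IsElliptic (E.map (algebraMap K (AlgebraicClosure K))))
  let p : (AlgebraicClosure K)[X] :=
    X ^ 2 + C (W.a₁ * x + W.a₃) * X - C (x ^ 3 + W.a₂ * x ^ 2 + W.a₄ * x + W.a₆)
  have hdeg : p.degree ≠ 0 := by
    have h2 : p.natDegree = 2 := by
      simp only [p]
      compute_degree!
    intro h0
    have h3 : p.natDegree = 0 := natDegree_eq_zero_iff_degree_le_zero.mpr h0.le
    omega
  obtain ⟨y, hy⟩ := IsAlgClosed.exists_root p hdeg
  refine ⟨y, ?_⟩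
  rw [← WeierstrassCurve.Affine.equation_iff_nonsingular, WeierstrassCurve.Affine.equation_iff]
  have hy' : y ^ 2 + (W.a₁ * x + W.a₃) * y - (x ^ 3 + W.a₂ * x ^ 2 + W.a₄ * x + W.a₆) = 0 := by
    simpa [p, IsRoot] using hy
  linear_combination hy'

omit [NumberField K] in
theorem galPts_some_eq (σ : Gal(AlgebraicClosure K/K)) {x y : AlgebraicClosure K}
    (h : (E⁄(AlgebraicClosure K)).toAffine.Nonsingular x y) :
    ∃ h' : (E⁄(AlgebraicClosure K)).toAffine.Nonsingular (σ x) (σ y),
      galPts E σ (.some x y h) = .some (σ x) (σ y) h' :=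
  ⟨_, rfl⟩

/-- **Non-example.**  For `σ ≠ 1` the group endomorphism `P ↦ σ P` of `E(K̄)` is not an algebraic endomorphism: if
`σ x = (a₁(x) + b₁(x) y) / c₁(x)` at almost all points `(x, y)`, then (add the equations for `(x, y)` and `-(x, y)`) `σ x = N(x) / D(x)` for almost all
`x ∈ K̄`, with polynomials `N`, `D ≠ 0`; on the natural numbers this gives `N = X D`, so `σ` fixes almost all `x ∈ K̄`, hence all. -/
theorem sanity_not_isAlgebraicEndomorphism_galPts [E.IsElliptic]
    (σ : Gal(AlgebraicClosure K/K)) (hσ : σ ≠ 1) : ¬ IsAlgebraicEndomorphism E (galPts E σ) := by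
  rintro (h0 | ⟨a₁, b₁, c₁, a₂, b₂, c₂, hc₁, hc₂, H⟩)
  · obtain ⟨y, hy⟩ := sanity_exists_point_with_x E 0
    obtain ⟨h', e⟩ := galPts_some_eq E σ hy
    rw [h0] at e
    exact WeierstrassCurve.Affine.Point.some_ne_zero _ e.symm
  · set W := (E⁄(AlgebraicClosure K)).toAffine with hW
    let T : (AlgebraicClosure K)[X] := -(C W.a₁ * X + C W.a₃)
    have key : ∀ x : AlgebraicClosure K, c₁.eval x ≠ 0 → c₂.eval x ≠ 0 →
        σ x * (C 2 * c₁).eval x = (C 2 * a₁ + b₁ * T).eval x := by
      intro x h1 h2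
      obtain ⟨y, hy⟩ := sanity_exists_point_with_x E x
      have hy' : W.Nonsingular x (W.negY x y) :=
        (WeierstrassCurve.Affine.nonsingular_neg ..).mpr hy
      obtain ⟨k, hk⟩ := H x y hy h1 h2
      obtain ⟨k', hk'⟩ := H x _ hy' h1 h2
      obtain ⟨_, e⟩ := galPts_some_eq E σ hy
      obtain ⟨_, e'⟩ := galPts_some_eq E σ hy'
      rw [e, WeierstrassCurve.Affine.Point.some.injEq] at hk
      rw [e', WeierstrassCurve.Affine.Point.some.injEq] at hk'
      have f1 : σ x * c₁.eval x = a₁.eval x + b₁.eval x * y := (eq_div_iff h1).mp hk.1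
      have f2 : σ x * c₁.eval x = a₁.eval x + b₁.eval x * W.negY x y := (eq_div_iff h1).mp hk'.1
      simp only [T, eval_mul, eval_add, eval_neg, eval_C, eval_X]
      rw [WeierstrassCurve.Affine.negY] at f2
      linear_combination f1 + f2
    have hfin : {x : AlgebraicClosure K | (c₁ * c₂).eval x = 0}.Finite := by
      have := (c₁ * c₂).roots.toFinset.finite_toSet
      refine this.subset fun x hx => ?_
      simp only [Finset.mem_coe, Multiset.mem_toFinset]
      exact (mem_roots (mul_ne_zero hc₁ hc₂)).mpr hx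
    have hgood : ∀ x : AlgebraicClosure K, (c₁ * c₂).eval x ≠ 0 →
        c₁.eval x ≠ 0 ∧ c₂.eval x ≠ 0 := by
      intro x hx
      rw [eval_mul] at hx
      exact ⟨left_ne_zero_of_mul hx, right_ne_zero_of_mul hx⟩
    have hpoly : X * (C 2 * c₁) = C 2 * a₁ + b₁ * T := by
      apply eq_of_infinite_eval_eq
      have hinf : (Set.range (Nat.cast : ℕ → AlgebraicClosure K) \
          {x | (c₁ * c₂).eval x = 0}).Infinite :=
        (Set.infinite_range_of_injective Nat.cast_injective).sdiff hfin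
      refine hinf.mono ?_
      rintro _ ⟨⟨n, rfl⟩, hn⟩
      obtain ⟨h1, h2⟩ := hgood _ hn
      have := key _ h1 h2
      rw [map_natCast] at this
      simpa only [Set.mem_ofPred_eq, eval_mul (p := X), eval_X] using this
    have hfix : ∀ x : AlgebraicClosure K, (c₁ * c₂).eval x ≠ 0 → σ x = x := by
      intro x hx
      obtain ⟨h1, h2⟩ := hgood _ hx
      have h3 := key _ h1 h2
      rw [← hpoly, eval_mul (p := X), eval_X] at h3
      have h4 : (C 2 * c₁).eval x ≠ 0 := by
        rw [eval_mul, eval_C]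
        exact mul_ne_zero two_ne_zero h1
      exact mul_right_cancel₀ h4 h3
    apply hσ
    ext z
    have hinj : Function.Injective (fun n : ℕ => z + (n : AlgebraicClosure K)) :=
      fun m n h => Nat.cast_injective (add_left_cancel h)
    have hfin' : {n : ℕ | (c₁ * c₂).eval (z + (n : AlgebraicClosure K)) = 0}.Finite :=
      hfin.preimage hinj.injOn
    obtain ⟨n, hn⟩ := hfin'.infinite_compl.nonempty
    have h5 := hfix _ hn
    rw [map_add, map_natCast] at h5
    simpa using add_right_cancel h5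

end NonExample

/-! ## The three cases: no CM, CM field in `K`, CM field not in `K` -/

section Mono

variable {K : Type} [Field K] [NumberField K] (E : WeierstrassCurve K)

omit [NumberField K] in
/-- `HasCMOver E L` is monotone in `L`. -/
theorem sanity_hasCMOver_mono {L L' : IntermediateField K (AlgebraicClosure K)} (hLL' : L ≤ L')
    (h : HasCMOver E L) : HasCMOver E L' := by
  obtain ⟨f, hf, hns, hcomm⟩ := h
  refine ⟨f, hf, hns, fun σ hσ P => hcomm σ ?_ P⟩
  rw [IntermediateField.mem_fixingSubgroup_iff] at hσ ⊢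
  exact fun x hx => hσ x (hLL' hx)

omit [NumberField K] in
/-- The premises of the last three clauses of `Statement` (no CM; CM field in `K`; CM, CM field not in `K`) are exhaustive and mutually
exclusive. -/
theorem sanity_cm_cases :
    (¬ HasCMOver E ⊤ ∨ HasCMOver E ⊥ ∨ (HasCMOver E ⊤ ∧ ¬ HasCMOver E ⊥)) ∧
    ¬ (¬ HasCMOver E ⊤ ∧ HasCMOver E ⊥) ∧
    ¬ (¬ HasCMOver E ⊤ ∧ (HasCMOver E ⊤ ∧ ¬ HasCMOver E ⊥)) ∧
    ¬ (HasCMOver E ⊥ ∧ (HasCMOver E ⊤ ∧ ¬ HasCMOver E ⊥)) := by
  have hmono : HasCMOver E ⊥ → HasCMOver E ⊤ := sanity_hasCMOver_mono E bot_le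
  tauto

end Mono

/-! ## Complex multiplication: the endomorphism `[ω] : (x, y) ↦ (ω x, y)` of `y² = x³ + a₆` -/

section CM3ex
variable {F : Type} [Field F] (W : WeierstrassCurve.Affine F) (ω : F)

lemma cm3Ex_nonsingular (h1 : W.a₁ = 0) (h2 : W.a₂ = 0) (h3 : W.a₃ = 0) (h4 : W.a₄ = 0)
    (hω : ω ^ 3 = 1) {x y : F} (h : W.Nonsingular x y) : W.Nonsingular (ω * x) y := by
  rw [WeierstrassCurve.Affine.nonsingular_iff, WeierstrassCurve.Affine.equation_iff] at h ⊢
  simp only [h1, h2, h3, h4] at h ⊢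
  obtain ⟨he, hn⟩ := h
  have hω0 : ω ≠ 0 := by
    rintro rfl
    norm_num at hω
  refine ⟨?_, ?_⟩
  · linear_combination he - x ^ 3 * hω
  · rcases hn with hn | hn
    · left
      intro h'
      apply hn
      have : ω ^ 2 * (0 * y - (3 * x ^ 2 + 2 * 0 * x + 0)) = 0 := by linear_combination h'
      rcases mul_eq_zero.mp this with h0 | h0
      · exact absurd (pow_eq_zero_iff (two_ne_zero)|>.mp h0) hω0
      · linear_combination h0
    · right
      intro h'
      apply hn
      linear_combination h'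

/-- `(x, y) ↦ (ω x, y)` -/
def cm3ExFun (h1 : W.a₁ = 0) (h2 : W.a₂ = 0) (h3 : W.a₃ = 0) (h4 : W.a₄ = 0)
    (hω : ω ^ 3 = 1) : W.Point → W.Point
  | .zero => .zero
  | .some _ _ h => .some _ _ (cm3Ex_nonsingular W ω h1 h2 h3 h4 hω h)

lemma cm3Ex_slope (h1 : W.a₁ = 0) (h2 : W.a₂ = 0) (h3 : W.a₃ = 0) (h4 : W.a₄ = 0)
    (hω : ω ^ 3 = 1) (x₁ x₂ y₁ y₂ : F) :
    W.slope (ω * x₁) (ω * x₂) y₁ y₂ = ω ^ 2 * W.slope x₁ x₂ y₁ y₂ := by
  have hω0 : ω ≠ 0 := by
    rintro rfl
    norm_num at hω
  have hinv : ω⁻¹ = ω ^ 2 := by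
    apply inv_eq_of_mul_eq_one_right
    linear_combination hω
  have hinj : ∀ a b : F, ω * a = ω * b ↔ a = b := fun a b => mul_right_inj' hω0
  simp only [WeierstrassCurve.Affine.slope, WeierstrassCurve.Affine.negY, h1, h2, h3, h4, hinj]
  by_cases hx : x₁ = x₂
  · simp only [hx, if_true]
    by_cases hy : y₁ = -y₂ - 0 * x₂ - 0
    · have hy' : y₁ = -y₂ - 0 * (ω * x₂) - 0 := by rw [hy]; ring
      simp only [if_pos hy, if_pos hy', mul_zero]
    · have hy' : ¬ (y₁ = -y₂ - 0 * (ω * x₂) - 0) := by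
        intro h
        apply hy
        linear_combination h
      simp only [if_neg hy, if_neg hy']
      have e1 : y₁ - (-y₁ - 0 * (ω * x₂) - 0) = y₁ - (-y₁ - 0 * x₂ - 0) := by ring
      rw [e1]
      ring
  · simp only [if_neg hx]
    have e2 : ω * x₁ - ω * x₂ = ω * (x₁ - x₂) := by ring
    rw [e2, div_mul_eq_div_div_swap, div_eq_mul_inv _ ω, hinv]
    ring

/-- `[ω] : (x, y) ↦ (ω x, y)` as an endomorphism of the group of points of `y² = x³ + a₆`. -/
def cm3ExHom (h1 : W.a₁ = 0) (h2 : W.a₂ = 0) (h3 : W.a₃ = 0) (h4 : W.a₄ = 0)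
    (hω : ω ^ 3 = 1) : W.Point →+ W.Point where
  toFun := cm3ExFun W ω h1 h2 h3 h4 hω
  map_zero' := rfl
  map_add' := by
    have hω0 : ω ≠ 0 := by
      rintro rfl
      norm_num at hω
    rintro (_ | ⟨x₁, y₁, k₁⟩) (_ | ⟨x₂, y₂, k₂⟩)
    any_goals rfl
    by_cases hxy : x₁ = x₂ ∧ y₁ = W.negY x₂ y₂
    · rw [WeierstrassCurve.Affine.Point.add_of_Y_eq hxy.left hxy.right]
      show _ = WeierstrassCurve.Affine.Point.some _ _ _ + WeierstrassCurve.Affine.Point.some _ _ _
      rw [WeierstrassCurve.Affine.Point.add_of_Y_eq (congrArg _ hxy.left) (by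
        rw [hxy.right]; simp only [WeierstrassCurve.Affine.negY, h1, h3]; ring)]
      rfl
    · have hxy' : ¬ (ω * x₁ = ω * x₂ ∧ y₁ = W.negY (ω * x₂) y₂) := by
        rintro ⟨ha, hb⟩
        apply hxy
        refine ⟨(mul_right_inj' hω0).mp ha, ?_⟩
        simp only [WeierstrassCurve.Affine.negY, h1, h3] at hb ⊢
        linear_combination hb
      rw [WeierstrassCurve.Affine.Point.add_some hxy]
      show WeierstrassCurve.Affine.Point.some _ _ _ =
        WeierstrassCurve.Affine.Point.some _ _ _ + WeierstrassCurve.Affine.Point.some _ _ _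
      rw [WeierstrassCurve.Affine.Point.add_some hxy']
      rw [WeierstrassCurve.Affine.Point.some.injEq]
      rw [cm3Ex_slope W ω h1 h2 h3 h4 hω]
      simp only [WeierstrassCurve.Affine.addX, WeierstrassCurve.Affine.addY,
        WeierstrassCurve.Affine.negAddY, WeierstrassCurve.Affine.negY, h1, h2, h3]
      constructor
      · linear_combination (-ω * (W.slope x₁ x₂ y₁ y₂) ^ 2) * hω
      · linear_combination ((ω ^ 3 + 1) * (W.slope x₁ x₂ y₁ y₂) ^ 3 - (W.slope x₁ x₂ y₁ y₂) * (2 * x₁ + x₂)) * hω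

end CM3ex

/-! ## The field `ℚ(i)` and a primitive cube root of unity `ω ∈ K̄` -/

section Field3

/-- The Gaussian field `ℚ(i)` -/
abbrev Cm3Field : Type := CyclotomicField 4 ℚ

/-- `K̄` for `K = ℚ(i)` -/
abbrev Cm3Bar : Type := AlgebraicClosure Cm3Field

theorem exists_omegaBar : ∃ ω : Cm3Bar, ω ^ 2 + ω + 1 = 0 := by
  obtain ⟨s, hs⟩ := IsAlgClosed.exists_pow_nat_eq (-3 : Cm3Bar) (n := 2) (by norm_num)
  refine ⟨(-1 + s) / 2, ?_⟩
  field_simp
  linear_combination hs

/-- a primitive cube root of unity `ω ∈ K̄` -/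
def omegaBar : Cm3Bar := Classical.choose exists_omegaBar

theorem omegaBar_spec : omegaBar ^ 2 + omegaBar + 1 = 0 := Classical.choose_spec exists_omegaBar

theorem omegaBar_cube : omegaBar ^ 3 = 1 := by
  linear_combination (omegaBar - 1) * omegaBar_spec

theorem omegaBar_ne_one : omegaBar ≠ 1 := by
  intro h
  have := omegaBar_spec
  rw [h] at this
  norm_num at this

set_option backward.isDefEq.respectTransparency false in
/-- `ω ∉ ℚ(i)`: otherwise `i ω ∈ ℚ(i)` would be a primitive `12`-th root of unity, of degree `φ(12) = 4 > 2` over `ℚ`. -/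
theorem omegaBar_notMem_range : omegaBar ∉ (algebraMap Cm3Field Cm3Bar).range := by
  rintro ⟨z, hz⟩
  have hz2 : z ^ 2 + z + 1 = 0 := by
    apply (algebraMap Cm3Field Cm3Bar).injective
    rw [map_add, map_add, map_pow, hz, map_one, map_zero]
    exact omegaBar_spec
  have hz1 : z ≠ 1 := by
    rintro rfl
    norm_num at hz2
  have hz3 : z ^ 3 = 1 := by linear_combination (z - 1) * hz2
  have hzp : IsPrimitiveRoot z 3 := by
    refine IsPrimitiveRoot.mk_of_lt z (by norm_num) hz3 ?_
    intro l hl0 hl3 hl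
    interval_cases l
    · exact hz1 (by simpa using hl)
    · have : z = 1 := by linear_combination (-(z:Cm3Field)) * hl + hz3
      exact hz1 this
  have hi : IsPrimitiveRoot (IsCyclotomicExtension.zeta 4 ℚ Cm3Field) 4 :=
    IsCyclotomicExtension.zeta_spec 4 ℚ Cm3Field
  set i := IsCyclotomicExtension.zeta 4 ℚ Cm3Field with hidef
  have ho : orderOf (z * i) = 12 := by
    rw [(Commute.all z i).orderOf_mul_eq_mul_orderOf_of_coprime, ← hzp.eq_orderOf, ← hi.eq_orderOf]
    rw [← hzp.eq_orderOf, ← hi.eq_orderOf]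
    decide
  have hp : IsPrimitiveRoot (z * i) 12 := by
    rw [← ho]; exact IsPrimitiveRoot.orderOf _
  have h1 := hp.totient_le_degree_minpoly
  have hint : IsIntegral ℤ (z * i) := hp.isIntegral (by norm_num)
  have h2 : (minpoly ℚ (z * i)).natDegree ≤ Module.finrank ℚ Cm3Field := minpoly.natDegree_le _
  have h3 : minpoly ℚ (z * i) = (minpoly ℤ (z * i)).map (algebraMap ℤ ℚ) :=
    minpoly.isIntegrallyClosed_eq_field_fractions' ℚ hint
  have h4 : Module.finrank ℚ Cm3Field = 2 := by
    rw [IsCyclotomicExtension.Rat.finrank 4 Cm3Field]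
    decide
  have h5 : ((minpoly ℤ (z * i)).map (algebraMap ℤ ℚ)).natDegree = (minpoly ℤ (z * i)).natDegree :=
    (minpoly.monic hint).natDegree_map _
  have h6 : Nat.totient 12 = 4 := by decide
  rw [h3, h5, h4] at h2
  omega

theorem isIntegral_omegaBar : IsIntegral Cm3Field omegaBar :=
  Algebra.IsIntegral.isIntegral _

theorem natDegree_minpoly_omegaBar : (minpoly Cm3Field omegaBar).natDegree = 2 := by
  apply le_antisymm
  · have hm : (X ^ 2 + X + 1 : Cm3Field[X]).Monic := by monicity!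
    have hd : (X ^ 2 + X + 1 : Cm3Field[X]).natDegree = 2 := by compute_degree!
    have hdvd : minpoly Cm3Field omegaBar ∣ (X ^ 2 + X + 1 : Cm3Field[X]) := by
      apply minpoly.dvd
      simp [omegaBar_spec]
    rw [← hd]
    exact natDegree_le_of_dvd hdvd hm.ne_zero
  · exact (minpoly.two_le_natDegree_iff isIntegral_omegaBar).mpr omegaBar_notMem_range

/-- `L = K(ω) = ℚ(i, ω) = ℚ(ζ₁₂)` -/
def cm3L : IntermediateField Cm3Field Cm3Bar := IntermediateField.adjoin Cm3Field {omegaBar}

theorem omegaBar_mem_cm3L : omegaBar ∈ cm3L :=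
  IntermediateField.mem_adjoin_simple_self Cm3Field omegaBar

theorem finrank_cm3L : Module.finrank Cm3Field cm3L = 2 := by
  rw [cm3L, IntermediateField.adjoin.finrank isIntegral_omegaBar, natDegree_minpoly_omegaBar]

theorem numberField_cm3L : NumberField cm3L := by
  have : FiniteDimensional Cm3Field cm3L :=
    IntermediateField.adjoin.finiteDimensional isIntegral_omegaBar
  exact NumberField.of_module_finite Cm3Field cm3L

/-- some element of `Gal(K̄/K)` moves `ω` -/
theorem exists_gal_omegaBar_ne : ∃ σ : Gal(Cm3Bar/Cm3Field), σ omegaBar ≠ omegaBar := by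
  by_contra hcon
  push Not at hcon
  have := (InfiniteGalois.mem_range_algebraMap_iff_fixed (k := Cm3Field) (K := Cm3Bar) omegaBar).mpr hcon
  exact omegaBar_notMem_range (by simpa using this)

end Field3

/-! ## The curve `y² = x³ + 1` over `ℚ(i)` -/

section CubeCurve

/-- The curve `E₃ : y² = x³ + 1` over `ℚ(i)`. -/
def cubeCurve : WeierstrassCurve Cm3Field := ⟨0, 0, 0, 0, 1⟩

theorem isElliptic_cubeCurve : cubeCurve.IsElliptic := by
  refine ⟨?_⟩
  have : cubeCurve.Δ = -432 := by
    simp only [cubeCurve, WeierstrassCurve.Δ, WeierstrassCurve.b₂, WeierstrassCurve.b₄,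
      WeierstrassCurve.b₆, WeierstrassCurve.b₈]
    norm_num
  rw [this]
  exact isUnit_iff_ne_zero.mpr (by norm_num)

theorem cubeCurve_a₁ : (cubeCurve⁄Cm3Bar).toAffine.a₁ = 0 := by simp [cubeCurve]
theorem cubeCurve_a₂ : (cubeCurve⁄Cm3Bar).toAffine.a₂ = 0 := by simp [cubeCurve]
theorem cubeCurve_a₃ : (cubeCurve⁄Cm3Bar).toAffine.a₃ = 0 := by simp [cubeCurve]
theorem cubeCurve_a₄ : (cubeCurve⁄Cm3Bar).toAffine.a₄ = 0 := by simp [cubeCurve]
theorem cubeCurve_a₆ : (cubeCurve⁄Cm3Bar).toAffine.a₆ = 1 := by simp [cubeCurve]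

/-- the endomorphism `[ω]` of `y² = x³ + 1` -/
def cubeCurveEndo : PtsBar cubeCurve →+ PtsBar cubeCurve :=
  cm3ExHom (cubeCurve⁄Cm3Bar).toAffine omegaBar cubeCurve_a₁ cubeCurve_a₂ cubeCurve_a₃ cubeCurve_a₄
    omegaBar_cube

theorem cubeCurveEndo_some {x y : Cm3Bar} (h : (cubeCurve⁄Cm3Bar).toAffine.Nonsingular x y) :
    cubeCurveEndo (.some x y h) = .some (omegaBar * x) y
      (cm3Ex_nonsingular _ omegaBar cubeCurve_a₁ cubeCurve_a₂ cubeCurve_a₃ cubeCurve_a₄
        omegaBar_cube h) := rfl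

theorem cubeCurveEndo_isAlgebraic : IsAlgebraicEndomorphism cubeCurve cubeCurveEndo := by
  refine Or.inr ⟨C omegaBar * X, 0, 1, 0, 1, 1, one_ne_zero, one_ne_zero, fun x y h _ _ => ?_⟩
  have e1 : ((C omegaBar * X : Cm3Bar[X]).eval x + (0 : Cm3Bar[X]).eval x * y) /
      (1 : Cm3Bar[X]).eval x = omegaBar * x := by simp
  have e2 : ((0 : Cm3Bar[X]).eval x + (1 : Cm3Bar[X]).eval x * y) /
      (1 : Cm3Bar[X]).eval x = y := by simp
  rw [e1, e2]
  exact ⟨_, cubeCurveEndo_some h⟩

/-- the point `(-1, 0)` of order `2` -/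
theorem cubeCurve_nonsingular_neg_one : (cubeCurve⁄Cm3Bar).toAffine.Nonsingular (-1) 0 := by
  rw [WeierstrassCurve.Affine.nonsingular_iff, WeierstrassCurve.Affine.equation_iff]
  simp only [cubeCurve_a₁, cubeCurve_a₂, cubeCurve_a₃, cubeCurve_a₄, cubeCurve_a₆]
  refine ⟨by norm_num, Or.inl ?_⟩
  norm_num

theorem cubeCurveEndo_ne_zsmul (n : ℤ) : ∃ P : PtsBar cubeCurve, cubeCurveEndo P ≠ n • P := by
  set P : PtsBar cubeCurve := .some (-1) 0 cubeCurve_nonsingular_neg_one with hP
  refine ⟨P, fun hφ => ?_⟩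
  have h2 : P + P = 0 := WeierstrassCurve.Affine.Point.add_self_of_Y_eq (by
    rw [WeierstrassCurve.Affine.negY, cubeCurve_a₁, cubeCurve_a₃]; ring)
  have hn : n • P = 0 ∨ n • P = P := by
    rcases Int.even_or_odd' n with ⟨k, rfl | rfl⟩
    · left
      rw [mul_comm, mul_zsmul, two_zsmul, h2, zsmul_zero]
    · right
      rw [add_zsmul, mul_comm, mul_zsmul, two_zsmul, h2, zsmul_zero, zero_add, one_zsmul]
  rw [hP, cubeCurveEndo_some] at hφ
  rcases hn with hn | hn
  · rw [← hP, hn] at hφ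
    exact WeierstrassCurve.Affine.Point.some_ne_zero _ hφ
  · rw [← hP, hn, hP, WeierstrassCurve.Affine.Point.some.injEq] at hφ
    exact omegaBar_ne_one (by linear_combination -hφ.1)

/-- `[ω]` commutes with every `σ ∈ Gal(K̄/K)` that fixes `ω`. -/
theorem cubeCurveEndo_galPts (σ : Gal(Cm3Bar/Cm3Field)) (hσ : σ omegaBar = omegaBar)
    (P : PtsBar cubeCurve) :
    cubeCurveEndo (galPts cubeCurve σ P) = galPts cubeCurve σ (cubeCurveEndo P) := by
  rcases P with _ | ⟨x, y, h⟩
  · rfl
  · obtain ⟨h', e⟩ := galPts_some_eq cubeCurve σ h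
    rw [e, cubeCurveEndo_some, cubeCurveEndo_some]
    obtain ⟨h'', e'⟩ := galPts_some_eq cubeCurve σ
      (cm3Ex_nonsingular _ omegaBar cubeCurve_a₁ cubeCurve_a₂ cubeCurve_a₃ cubeCurve_a₄
        omegaBar_cube h)
    rw [e', WeierstrassCurve.Affine.Point.some.injEq]
    refine ⟨?_, rfl⟩
    rw [map_mul, hσ]

/-- `y² = x³ + 1` over `ℚ(i)` has complex multiplication defined over every `L ∋ ω`. -/
theorem sanity_cubeCurve_hasCMOver (L : IntermediateField Cm3Field Cm3Bar) (hL : omegaBar ∈ L) :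
    HasCMOver cubeCurve L :=
  ⟨cubeCurveEndo, cubeCurveEndo_isAlgebraic, cubeCurveEndo_ne_zsmul, fun σ hσ P =>
    cubeCurveEndo_galPts σ ((IntermediateField.mem_fixingSubgroup_iff L σ).mp hσ _ hL) P⟩

theorem sanity_cubeCurve_hasCMOver_top : HasCMOver cubeCurve ⊤ :=
  sanity_cubeCurve_hasCMOver ⊤ IntermediateField.mem_top

theorem sanity_cubeCurve_hasCMOver_cm3L : HasCMOver cubeCurve cm3L :=
  sanity_cubeCurve_hasCMOver cm3L omegaBar_mem_cm3L

/-- The endomorphism `[ω]` is **not** defined over `K = ℚ(i)`: it does not commute with `Gal(K̄/K)`.  So it is a witness of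
`HasCMOver cubeCurve L` for `L ∋ ω`, and not of `HasCMOver cubeCurve ⊥`. -/
theorem sanity_cubeCurveEndo_not_over_bot :
    ¬ ∀ σ ∈ (⊥ : IntermediateField Cm3Field Cm3Bar).fixingSubgroup, ∀ P : PtsBar cubeCurve,
      cubeCurveEndo (galPts cubeCurve σ P) = galPts cubeCurve σ (cubeCurveEndo P) := by
  intro hall
  obtain ⟨σ, hσ⟩ := exists_gal_omegaBar_ne
  have h1 := hall σ (by rw [IntermediateField.fixingSubgroup_bot]; exact Subgroup.mem_top σ)
    (.some (-1) 0 cubeCurve_nonsingular_neg_one)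
  obtain ⟨h', e⟩ := galPts_some_eq cubeCurve σ cubeCurve_nonsingular_neg_one
  rw [e, cubeCurveEndo_some, cubeCurveEndo_some] at h1
  obtain ⟨h'', e'⟩ := galPts_some_eq cubeCurve σ
    (cm3Ex_nonsingular _ omegaBar cubeCurve_a₁ cubeCurve_a₂ cubeCurve_a₃ cubeCurve_a₄
      omegaBar_cube cubeCurve_nonsingular_neg_one)
  rw [e', WeierstrassCurve.Affine.Point.some.injEq] at h1
  have h2 := h1.1
  rw [map_mul, map_neg, map_one] at h2
  exact hσ (by linear_combination h2)

/-- The last clause of `Statement`: `E₃ : y² = x³ + 1` over `K = ℚ(i)` is an elliptic curve with complex multiplication, and the conditions which the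
conclusion of that clause puts on the field `L` (a number field, `[L : K] = 2`, `HasCMOver E L`) are met by `L = K(ω)`. -/
theorem sanity_cubeCurve_last_clause :
    cubeCurve.IsElliptic ∧ HasCMOver cubeCurve ⊤ ∧
    ∃ (L : IntermediateField Cm3Field Cm3Bar) (_ : NumberField L),
      Module.finrank Cm3Field L = 2 ∧ HasCMOver cubeCurve L :=
  ⟨isElliptic_cubeCurve, sanity_cubeCurve_hasCMOver_top, cm3L, numberField_cm3L, finrank_cm3L,
    sanity_cubeCurve_hasCMOver_cm3L⟩

end CubeCurve

/-! ## Multiplication by `2` on `y² = x³ + 1` is an algebraic endomorphism -/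

section Two

/-- **Example** with points that have to be left out: multiplication by `2` on `E₃ : y² = x³ + 1` is the algebraic endomorphism
`(x, y) ↦ ((x⁴ - 8x) / (4 (x³ + 1)), y (x⁶ + 20 x³ - 8) / (8 (x³ + 1)²))`; the zeros of the denominators are the abscissae of the points of order `2`, which go to `0`. -/
theorem sanity_isAlgebraicEndomorphism_two_cubeCurve :
    IsAlgebraicEndomorphism cubeCurve (2 • AddMonoidHom.id (PtsBar cubeCurve)) := by
  have h31 : (X ^ 3 + 1 : Cm3Bar[X]) ≠ 0 := by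
    have hm : (X ^ 3 + 1 : Cm3Bar[X]).Monic := by monicity!
    exact hm.ne_zero
  have hC4 : (C 4 : Cm3Bar[X]) ≠ 0 := C_ne_zero.mpr (by norm_num)
  have hC8 : (C 8 : Cm3Bar[X]) ≠ 0 := C_ne_zero.mpr (by norm_num)
  refine Or.inr ⟨X ^ 4 - C 8 * X, 0, C 4 * (X ^ 3 + 1), 0, X ^ 6 + C 20 * X ^ 3 - C 8,
    C 8 * (X ^ 3 + 1) ^ 2, mul_ne_zero hC4 h31, mul_ne_zero hC8 (pow_ne_zero 2 h31),
    fun x y h hc _ => ?_⟩
  set W := (cubeCurve⁄Cm3Bar).toAffine with hW
  have hx : x ^ 3 + 1 ≠ 0 := by
    intro h0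
    apply hc
    simp only [eval_mul, eval_C, eval_add, eval_pow, eval_X, eval_one]
    rw [h0, mul_zero]
  have heq : y ^ 2 = x ^ 3 + 1 := by
    have := h.left
    rw [WeierstrassCurve.Affine.equation_iff] at this
    simp only [hW, cubeCurve_a₁, cubeCurve_a₂, cubeCurve_a₃, cubeCurve_a₄, cubeCurve_a₆] at this
    linear_combination this
  have hy0 : y ≠ 0 := by
    rintro rfl
    exact hx (by rw [← heq]; ring)
  have hYne : y ≠ W.negY x y := by
    rw [WeierstrassCurve.Affine.negY, cubeCurve_a₁, cubeCurve_a₃]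
    intro h'
    apply hy0
    linear_combination h' / 2
  have hadd := WeierstrassCurve.Affine.Point.add_self_of_Y_ne (h₁ := h) hYne
  have hsl : W.slope x x y y = 3 * x ^ 2 / (2 * y) := by
    rw [WeierstrassCurve.Affine.slope_of_Y_ne rfl hYne]
    simp only [WeierstrassCurve.Affine.negY, hW, cubeCurve_a₁, cubeCurve_a₂, cubeCurve_a₃,
      cubeCurve_a₄]
    congr 1 <;> ring
  have e1 : ((X ^ 4 - C 8 * X : Cm3Bar[X]).eval x + (0 : Cm3Bar[X]).eval x * y) /
      (C 4 * (X ^ 3 + 1) : Cm3Bar[X]).eval x = W.addX x x (W.slope x x y y) := by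
    rw [hsl]
    simp only [WeierstrassCurve.Affine.addX, hW, cubeCurve_a₁, cubeCurve_a₂, eval_mul, eval_C,
      eval_add, eval_sub, eval_pow, eval_X, eval_one, eval_zero]
    field_simp
    linear_combination (36 * x ^ 4) * heq
  have e2 : ((0 : Cm3Bar[X]).eval x + (X ^ 6 + C 20 * X ^ 3 - C 8 : Cm3Bar[X]).eval x * y) /
      (C 8 * (X ^ 3 + 1) ^ 2 : Cm3Bar[X]).eval x = W.addY x x y (W.slope x x y y) := by
    rw [hsl]
    simp only [WeierstrassCurve.Affine.addY, WeierstrassCurve.Affine.negAddY,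
      WeierstrassCurve.Affine.negY, WeierstrassCurve.Affine.addX, hW, cubeCurve_a₁, cubeCurve_a₂,
      cubeCurve_a₃, eval_mul, eval_C, eval_add, eval_sub, eval_pow, eval_X, eval_one, eval_zero]
    rw [← heq]
    field_simp
    linear_combination (8 * y * (-28 * x ^ 3 + 8 * y ^ 2 + 8)) * heq
  rw [e1, e2]
  refine ⟨WeierstrassCurve.Affine.nonsingular_add h h fun hxy => hYne hxy.right, ?_⟩
  rw [← hadd, AddMonoidHom.nsmul_apply, two_nsmul, AddMonoidHom.id_apply]

end Two

/-! ## No element of `ℤ[ω] ∖ ℤ` is defined over `ℚ(i)` -/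

section ZOmega

/-- `E₃(K̄)` is `2`-divisible: `x(2Q) = (x⁴ - 8x) / (4 (x³ + 1))`, and `K̄` is algebraically closed. -/
theorem cubeCurve_exists_half (P : PtsBar cubeCurve) : ∃ Q : PtsBar cubeCurve, Q + Q = P := by
  rcases P with _ | ⟨x₀, y₀, h₀⟩
  · exact ⟨0, add_zero 0⟩
  · set W := (cubeCurve⁄Cm3Bar).toAffine with hW
    let p : Cm3Bar[X] := X ^ 4 - C (4 * x₀) * X ^ 3 - C 8 * X - C (4 * x₀)
    have hdeg : p.degree ≠ 0 := by
      have h2 : p.natDegree = 4 := by
        simp only [p]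
        compute_degree!
      intro h0
      have h3 : p.natDegree = 0 := natDegree_eq_zero_iff_degree_le_zero.mpr h0.le
      omega
    obtain ⟨x₁, hx₁⟩ := IsAlgClosed.exists_root p hdeg
    have hx₁' : x₁ ^ 4 - 4 * x₀ * x₁ ^ 3 - 8 * x₁ - 4 * x₀ = 0 := by
      simpa [p, IsRoot] using hx₁
    have hne : x₁ ^ 3 + 1 ≠ 0 := by
      intro h
      have h9 : 9 * x₁ = 0 := by linear_combination (x₁ - 4 * x₀) * h - hx₁'
      have h0 : x₁ = 0 := by
        rcases mul_eq_zero.mp h9 with h | h
        · norm_num at h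
        · exact h
      rw [h0] at h
      norm_num at h
    obtain ⟨y₁, hy₁⟩ := IsAlgClosed.exists_pow_nat_eq (x₁ ^ 3 + 1) (n := 2) (by norm_num)
    have hy₁0 : y₁ ≠ 0 := by
      rintro rfl
      exact hne (by rw [← hy₁]; ring)
    have hYne : y₁ ≠ W.negY x₁ y₁ := by
      rw [WeierstrassCurve.Affine.negY, cubeCurve_a₁, cubeCurve_a₃]
      intro h
      apply hy₁0
      linear_combination h / 2
    have hQ : W.Nonsingular x₁ y₁ := by
      rw [WeierstrassCurve.Affine.nonsingular_iff, WeierstrassCurve.Affine.equation_iff]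
      simp only [hW, cubeCurve_a₁, cubeCurve_a₂, cubeCurve_a₃, cubeCurve_a₄, cubeCurve_a₆]
      refine ⟨by linear_combination hy₁, Or.inr ?_⟩
      intro h
      apply hy₁0
      linear_combination h / 2
    have hadd := WeierstrassCurve.Affine.Point.add_self_of_Y_ne (h₁ := hQ) hYne
    have hns := WeierstrassCurve.Affine.nonsingular_add hQ hQ fun hxy => hYne hxy.right
    have hX : W.addX x₁ x₁ (W.slope x₁ x₁ y₁ y₁) = x₀ := by
      rw [WeierstrassCurve.Affine.slope_of_Y_ne rfl hYne]
      simp only [WeierstrassCurve.Affine.addX, WeierstrassCurve.Affine.negY, hW, cubeCurve_a₁,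
        cubeCurve_a₂, cubeCurve_a₃, cubeCurve_a₄]
      have e : y₁ - (-y₁ - 0 * x₁ - 0) = 2 * y₁ := by ring
      rw [e]
      field_simp
      linear_combination hx₁' + (-8 * x₁ - 4 * x₀) * hy₁
    rcases WeierstrassCurve.Affine.Y_eq_of_X_eq hns.left h₀.left hX with hY | hY
    · refine ⟨.some x₁ y₁ hQ, ?_⟩
      rw [hadd, WeierstrassCurve.Affine.Point.some.injEq]
      exact ⟨hX, hY⟩
    · refine ⟨-.some x₁ y₁ hQ, ?_⟩
      rw [← neg_add, hadd, WeierstrassCurve.Affine.Point.neg_some,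
        WeierstrassCurve.Affine.Point.some.injEq]
      refine ⟨hX, ?_⟩
      rw [hY, hX, WeierstrassCurve.Affine.negY_negY]

/-- In a `2`-divisible abelian group, an endomorphism `δ` that takes a value of order `2` is killed by no integer `b ≠ 0`. -/
theorem exists_zsmul_ne_zero_of_two_divisible {A : Type} [AddCommGroup A] (δ : A →+ A)
    (hdiv : ∀ P : A, ∃ Q, Q + Q = P) (P₀ : A) (h2 : δ P₀ + δ P₀ = 0) (hne : δ P₀ ≠ 0) :
    ∀ b : ℤ, b ≠ 0 → ∃ P, b • δ P ≠ 0 := by
  intro b
  induction hn : b.natAbs using Nat.strong_induction_on generalizing b with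
  | _ n ih =>
    intro hb
    rcases Int.even_or_odd' b with ⟨k, rfl | rfl⟩
    · have hk : k ≠ 0 := by
        rintro rfl
        exact hb rfl
      obtain ⟨P, hP⟩ := ih k.natAbs (by omega) k rfl hk
      obtain ⟨Q, rfl⟩ := hdiv P
      refine ⟨Q, ?_⟩
      rwa [mul_comm, mul_zsmul, two_zsmul, ← map_add]
    · refine ⟨P₀, ?_⟩
      rwa [add_zsmul, mul_comm, mul_zsmul, two_zsmul, h2, zsmul_zero, zero_add, one_zsmul]

/-- No element `a + b [ω]`, `b ≠ 0`, of `ℤ[ω] ⊆ End(E₃)` is defined over `K = ℚ(i)`. -/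
theorem sanity_cubeCurve_no_witness_over_bot (a b : ℤ) (hb : b ≠ 0) :
    ¬ ∀ σ ∈ (⊥ : IntermediateField Cm3Field Cm3Bar).fixingSubgroup, ∀ P : PtsBar cubeCurve,
      (a • AddMonoidHom.id (PtsBar cubeCurve) + b • cubeCurveEndo) (galPts cubeCurve σ P) =
        galPts cubeCurve σ ((a • AddMonoidHom.id (PtsBar cubeCurve) + b • cubeCurveEndo) P) := by
  intro hall
  obtain ⟨σ, hσ⟩ := exists_gal_omegaBar_ne
  have hall' := hall σ (by rw [IntermediateField.fixingSubgroup_bot]; exact Subgroup.mem_top σ)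
  let δ : PtsBar cubeCurve →+ PtsBar cubeCurve :=
    cubeCurveEndo.comp (galPts cubeCurve σ) - (galPts cubeCurve σ).comp cubeCurveEndo
  set P₀ : PtsBar cubeCurve := .some (-1) 0 cubeCurve_nonsingular_neg_one with hP₀
  have h2P : P₀ + P₀ = 0 := WeierstrassCurve.Affine.Point.add_self_of_Y_eq (by
    rw [WeierstrassCurve.Affine.negY, cubeCurve_a₁, cubeCurve_a₃]; ring)
  have h2 : δ P₀ + δ P₀ = 0 := by rw [← map_add, h2P, map_zero]
  have hne : δ P₀ ≠ 0 := by
    intro h0
    have h1 : cubeCurveEndo (galPts cubeCurve σ P₀) = galPts cubeCurve σ (cubeCurveEndo P₀) :=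
      sub_eq_zero.mp h0
    obtain ⟨h', e⟩ := galPts_some_eq cubeCurve σ cubeCurve_nonsingular_neg_one
    rw [hP₀, e, cubeCurveEndo_some, cubeCurveEndo_some] at h1
    obtain ⟨h'', e'⟩ := galPts_some_eq cubeCurve σ
      (cm3Ex_nonsingular _ omegaBar cubeCurve_a₁ cubeCurve_a₂ cubeCurve_a₃ cubeCurve_a₄
        omegaBar_cube cubeCurve_nonsingular_neg_one)
    rw [e', WeierstrassCurve.Affine.Point.some.injEq] at h1
    have h3 := h1.1
    rw [map_mul, map_neg, map_one] at h3
    exact hσ (by linear_combination h3)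
  obtain ⟨P, hP⟩ := exists_zsmul_ne_zero_of_two_divisible δ cubeCurve_exists_half P₀ h2 hne b hb
  apply hP
  have h4 := hall' P
  simp only [AddMonoidHom.add_apply, AddMonoidHom.zsmul_apply, AddMonoidHom.id_apply, map_add,
    map_zsmul] at h4
  have h5 : b • cubeCurveEndo (galPts cubeCurve σ P) = b • galPts cubeCurve σ (cubeCurveEndo P) :=
    add_left_cancel h4
  show b • (cubeCurveEndo (galPts cubeCurve σ P) - galPts cubeCurve σ (cubeCurveEndo P)) = 0
  rw [zsmul_sub, h5, sub_self]

/-- So `¬ HasCMOver E₃ ⊥`, the premise of the last clause of `Statement`, follows from `End(E₃) = ℤ[ω]`.  (This hypothesis is a true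
theorem, Silverman III.9–III.10, which is **not** proved here.) -/
theorem sanity_cubeCurve_not_hasCMOver_bot_of_end
    (hEnd : ∀ f : PtsBar cubeCurve →+ PtsBar cubeCurve, IsAlgebraicEndomorphism cubeCurve f →
      ∃ a b : ℤ, f = a • AddMonoidHom.id (PtsBar cubeCurve) + b • cubeCurveEndo) :
    ¬ HasCMOver cubeCurve ⊥ := by
  rintro ⟨f, hf, hns, hcomm⟩
  obtain ⟨a, b, rfl⟩ := hEnd f hf
  by_cases hb : b = 0
  · subst hb
    obtain ⟨P, hP⟩ := hns a
    exact hP (by simp)
  · exact sanity_cubeCurve_no_witness_over_bot a b hb hcomm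

end ZOmega

end

end Claimed.Open.R030
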