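import Claimed.Open.R030.SanityNoCM

/-!
# Result 030: the premise of the clause "no complex multiplication ⟹ cuspidal" of `Statement` can be met

This file proves, without any hypothesis,

* `sanity_trCurve_not_hasCMOver_top : ¬ HasCMOver trCurve ⊤`, and so
* `sanity_trCurve_noCM_premise : trCurve.IsElliptic ∧ ¬ HasCMOver trCurve ⊤`,

for the curve `E' : y² = x³ - 3 x + 1` over `K = ℚ(i)` (`j = 2304`): every algebraic endomorphism of `E'(K̄)` is a multiplication `[n]`
(`exists_eq_zsmul_of_isAlgebraic`).  So the premise `¬ HasCMOver E ⊤` of the clause `π.IsCuspidal` of `Statement` has a witness; together with `SanityClauses.lean`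
(`HasCMOver cubeCurve ⊤`, and the CM curve over its own CM field) and `SanityNoCM.lean` (`¬ HasCMOver cubeCurve ⊥`) every inner premise of the three last clauses is witnessed.
Mathlib has no isogenies, no dual isogeny, no degree, no Tate module of an endomorphism ring and no reduction theory; the proof below is elementary.

## The proof

Write `k = K̄`, `w = x³ - 3 x + 1 ∈ k(x)`.  The generic layers of `SanityNoCM.lean` (values, derivative, composition and Galois conjugates of rational functions, Möbius maps) are used as they are.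

1. (D, E, F, G, K: the sections of `SanityNoCM.lean`, ported to `E'`.)  A non-zero algebraic endomorphism `f` has, outside finitely many points, the form `f (x, y) = (R(x), y S(x))` (`Rep f R S`), and
   `R' / S` is a constant `α` (`HasA f α`: "`f^* (dx / y) = α dx / y`").  `f ↦ α` is an injective ring homomorphism.
2. (I, J2)  If `f ∘ g = 1` then `α² = 1` (`R` is a Möbius map, in fact `R = x`).  So a rational scalar is an integer (Bézout: `1 / q` would be the scalar of an automorphism).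
3. (H, S)  `Sat h`: some `2^k h` is algebraic.  `Sat` is a commutative ring of endomorphisms of the group `E'(k)`, without `2`-torsion (`E'(k)` is `2`-divisible), stable under conjugation by `Gal(k / K)`
   (`σ f σ⁻¹` has the scalar `σ α`), in which an element that kills `E'[2]` is divisible by `2`, and which is `2`-adically separated (an algebraic `f ≠ 0` cannot kill
   the infinitely many points of a sequence of successive halves of a point of order `2`).
4. (T)  The cubic `w` has no root in `ℚ(i)` and its roots are `e`, `φ e = e² - 2`, `φ φ e`; so some `c ∈ Gal(k / K)` permutes the three points of order `2` cyclically, and every `σ` acts on them as a power of `c`.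
   An `h` in `Sat` commutes with `c h c⁻¹`; of the `16` endomorphisms of the Klein four-group only `0, 1, N, N²` commute with their conjugate by the `3`-cycle `N`.  So `Sat / 2 ⊆ 𝔽₄`, with trivial Galois action.
5. (U1, V)  A Hensel-type induction: a ring endomorphism of such a ring that is the identity mod `2` is the identity.  So `σ h σ⁻¹ = h`: **every endomorphism is defined over `K`**, and `α ∈ K = ℚ(i)`.
6. (U2, W)  `q α = p + r i`.  If `r ≠ 0`, `g = q f - p` has `g² = -r²`, which is impossible in a ring with `𝒮 / 2 ⊆ 𝔽₄` and without `2`-torsion (descent on `r`; for odd `r`, `r + g = 2 b`, `4 b⁴ = -r⁴`).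
   So `α` is rational, `α = n ∈ ℤ` by 2., and `f = [n]` by 1.

The proof is due to helper275, who cut it into typed contracts; it was written by the seats named at the sections, read by helper37 and helper33, and put together by helper265.
-/

set_option autoImplicit false

namespace Claimed.Open.R030.TrEnd

open Claimed.Open.R030.CubeEnd (EvalsTo ratDeriv ratComp NonConst ratMap EvalsTo.unique EvalsTo.add EvalsTo.mul EvalsTo.neg EvalsTo.sub evalsTo_algebraMap evalsTo_one EvalsTo.pow EvalsTo.inv EvalsTo.div evalsTo_C evalsTo_X evalsTo_zero evalsTo_natCast evalsTo_ofNat evalsTo_intCast evalsTo_div_algebraMap finite_not_evalsTo finite_evalsTo_zero eq_zero_of_infinite eq_of_infinite finite_evalsTo_of_nonConst finite_evalsTo_mem_of_nonConst evalsTo_or_inv ratDeriv_div_algebraMap ratDeriv_algebraMap ratDeriv_add ratDeriv_mul ratDeriv_zero ratDeriv_neg ratDeriv_sub ratDeriv_C ratDeriv_X ratDeriv_one ratDeriv_natCast ratDeriv_ofNat ratDeriv_pow ratDeriv_inv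 ratDeriv_div ratDeriv_C_mul ratDeriv_eq_zero_iff ratDeriv_ne_zero_of_nonConst aeval_ne_zero_of_nonConst ratComp_algebraMap ratComp_C ratComp_X ratComp_X_right ratComp_zero ratComp_one ratComp_ofNat ratComp_add ratComp_mul ratComp_neg ratComp_sub ratComp_pow ratComp_inv ratComp_div ratComp_eq_zero_iff ratComp_injective NonConst.ratComp EvalsTo.comp ratDeriv_ratComp nonConst_X ratMapAux_le ratMapHom ratMap_eq_hom ratMapHom_algebraMap ratMap_div_algebraMap ratMap_mul ratMap_C EvalsTo.ratMap ratDeriv_ratMap mobius_of_injOn exists_int_repr not_isSquare_three_mul_sq pell_unit_not_root_of_unity)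

/-! ## Definitions  (helper275) -/

section ModDefs

open scoped Classical
open WeierstrassCurve Polynomial

noncomputable section

/-- The curve `E' : y² = x³ - 3 x + 1` over `ℚ(i)`  (`j = 2304`; the cubic has the cyclic splitting field `ℚ(ζ₉)⁺`: if `e` is a root, so is `e² - 2`). -/
def trCurve : WeierstrassCurve Cm3Field := ⟨0, 0, 0, -3, 1⟩

theorem isElliptic_trCurve : trCurve.IsElliptic := by
  refine ⟨?_⟩
  have : trCurve.Δ = 1296 := by
    simp only [trCurve, WeierstrassCurve.Δ, WeierstrassCurve.b₂, WeierstrassCurve.b₄,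
      WeierstrassCurve.b₆, WeierstrassCurve.b₈]
    norm_num
  rw [this]
  exact isUnit_iff_ne_zero.mpr (by norm_num)

theorem trCurve_a₁ : (trCurve⁄Cm3Bar).toAffine.a₁ = 0 := by simp [trCurve]
theorem trCurve_a₂ : (trCurve⁄Cm3Bar).toAffine.a₂ = 0 := by simp [trCurve]
theorem trCurve_a₃ : (trCurve⁄Cm3Bar).toAffine.a₃ = 0 := by simp [trCurve]
theorem trCurve_a₄ : (trCurve⁄Cm3Bar).toAffine.a₄ = -3 := by
  simp [trCurve, map_ofNat]
theorem trCurve_a₆ : (trCurve⁄Cm3Bar).toAffine.a₆ = 1 := by simp [trCurve]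

/-- the affine curve `y² = x³ - 3 x + 1` over `K̄` -/
abbrev EC : WeierstrassCurve.Affine Cm3Bar := (trCurve⁄Cm3Bar).toAffine

/-- endomorphisms of the abstract group `E'(K̄)` -/
abbrev EndE : Type := PtsBar trCurve →+ PtsBar trCurve

/-- `w = x³ - 3 x + 1` -/
def wF : RatFunc Cm3Bar := RatFunc.X ^ 3 - 3 * RatFunc.X + 1

/-- Outside finitely many points, `f (x, y) = (R(x), y S(x))`. -/
def Rep (f : EndE) (R S : RatFunc Cm3Bar) : Prop :=
  ∃ B : Set Cm3Bar, B.Finite ∧ ∀ (x y : Cm3Bar) (h : EC.Nonsingular x y), x ∉ B →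
    ∃ (r s : Cm3Bar) (h' : EC.Nonsingular r (y * s)),
      EvalsTo R x r ∧ EvalsTo S x s ∧ f (.some x y h) = .some r (y * s) h'

/-- `f` acts on the invariant differential `dx / y` by the scalar `α`:  `f^*(dx/y) = R'(x) dx / (y S(x)) = α dx / y`. -/
def HasA (f : EndE) (α : Cm3Bar) : Prop :=
  (f = 0 ∧ α = 0) ∨ ∃ R S : RatFunc Cm3Bar, Rep f R S ∧ ratDeriv R = RatFunc.C α * S

/-- `x(2P) = (x⁴ + 6 x² - 8 x + 9) / (4 (x³ - 3 x + 1))` -/
def dblR : RatFunc Cm3Bar :=
  (RatFunc.X ^ 4 + 6 * RatFunc.X ^ 2 - 8 * RatFunc.X + 9) /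
    (4 * (RatFunc.X ^ 3 - 3 * RatFunc.X + 1))

/-- `y(2P) = y (x⁶ - 15 x⁴ + 20 x³ - 45 x² + 12 x + 19) / (8 (x³ - 3 x + 1)²)` -/
def dblS : RatFunc Cm3Bar :=
  (RatFunc.X ^ 6 - 15 * RatFunc.X ^ 4 + 20 * RatFunc.X ^ 3 - 45 * RatFunc.X ^ 2 + 12 * RatFunc.X
    + 19) / (8 * (RatFunc.X ^ 3 - 3 * RatFunc.X + 1) ^ 2)

theorem exists_trRoot : ∃ e : Cm3Bar, e ^ 3 - 3 * e + 1 = 0 := by
  have hdeg : (X ^ 3 - C 3 * X + 1 : Cm3Bar[X]).degree ≠ 0 := by
    have h2 : (X ^ 3 - C 3 * X + 1 : Cm3Bar[X]).natDegree = 3 := by compute_degree!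
    intro h0
    have h3 := natDegree_eq_zero_iff_degree_le_zero.mpr h0.le
    omega
  obtain ⟨e, he⟩ := IsAlgClosed.exists_root _ hdeg
  exact ⟨e, by simpa [IsRoot] using he⟩

/-- a root `e` of `x³ - 3 x + 1` in `K̄`; the others are `e² - 2` and `2 - e - e²` -/
def trRoot : Cm3Bar := Classical.choose exists_trRoot

theorem trRoot_spec : trRoot ^ 3 - 3 * trRoot + 1 = 0 := Classical.choose_spec exists_trRoot

/-- conjugation of an endomorphism of the group `E'(K̄)` by `σ ∈ Gal(K̄ / K)` -/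
def gconj (σ : Gal(Cm3Bar/Cm3Field)) (h : EndE) : EndE :=
  ((galPts trCurve σ).comp h).comp (galPts trCurve σ⁻¹)

/-- `h` lies in the `2`-saturation of the ring of algebraic endomorphisms: some `2^k h` is algebraic. -/
def Sat (h : EndE) : Prop := ∃ (k : ℕ) (α : Cm3Bar), HasA ((2 : ℤ) ^ k • h) α

/-- `h` kills the points of order `2` -/
def KillsTwo (h : EndE) : Prop := ∀ T : PtsBar trCurve, T + T = 0 → h T = 0

end

end ModDefs

/-! ## D1. The points of `y² = x³ - 3 x + 1`  (port by helper239) -/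

section ModD1

open scoped Classical
open WeierstrassCurve Polynomial

theorem nonsingular_iff {x y : Cm3Bar} : EC.Nonsingular x y ↔ y ^ 2 = x ^ 3 - 3 * x + 1 := by
  rw [WeierstrassCurve.Affine.nonsingular_iff, WeierstrassCurve.Affine.equation_iff]
  simp only [trCurve_a₁, trCurve_a₂, trCurve_a₃, trCurve_a₄, trCurve_a₆]
  constructor
  · rintro ⟨h, -⟩
    linear_combination h
  · intro h
    refine ⟨by linear_combination h, ?_⟩
    by_cases hy : y = 0
    · left
      intro h'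
      have hx2 : x ^ 2 = 1 := by linear_combination (-1 / 3 : Cm3Bar) * h'
      rw [hy] at h
      -- `0 = x³ - 3x + 1 = x - 3x + 1`, so `x = 1/2`, against `x² = 1`
      have hx : 2 * x = 1 := by linear_combination h + x * hx2
      have : (3 : Cm3Bar) = 0 := by linear_combination (2 * x + 1) * hx - 4 * hx2
      norm_num at this
    · right
      intro h'
      apply hy
      linear_combination h' / 2

theorem exists_y (x : Cm3Bar) : ∃ y : Cm3Bar, y ^ 2 = x ^ 3 - 3 * x + 1 :=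
  IsAlgClosed.exists_pow_nat_eq (x ^ 3 - 3 * x + 1) (n := 2) (by norm_num)

private theorem negY_eq (x y : Cm3Bar) : EC.negY x y = -y := by
  rw [WeierstrassCurve.Affine.negY, trCurve_a₁, trCurve_a₃]
  ring

theorem neg_some {x y : Cm3Bar} (h : EC.Nonsingular x y) :
    ∃ h' : EC.Nonsingular x (-y), -(Affine.Point.some x y h : PtsBar trCurve) = .some x (-y) h' := by
  have h' : EC.Nonsingular x (-y) := by
    rw [nonsingular_iff] at h ⊢
    linear_combination h
  refine ⟨h', ?_⟩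
  rw [WeierstrassCurve.Affine.Point.neg_some, WeierstrassCurve.Affine.Point.some.injEq]
  exact ⟨rfl, negY_eq x y⟩

/-- the chord formula -/
theorem add_some_of_ne {x₁ y₁ x₂ y₂ : Cm3Bar} (h₁ : EC.Nonsingular x₁ y₁) (h₂ : EC.Nonsingular x₂ y₂)
    (hx : x₁ ≠ x₂) :
    ∃ h₃, (Affine.Point.some x₁ y₁ h₁ + Affine.Point.some x₂ y₂ h₂ : PtsBar trCurve) =
      .some (((y₁ - y₂) / (x₁ - x₂)) ^ 2 - x₁ - x₂)
        (-((y₁ - y₂) / (x₁ - x₂)) * ((((y₁ - y₂) / (x₁ - x₂)) ^ 2 - x₁ - x₂) - x₁) - y₁) h₃ := by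
  have hxy : ¬ (x₁ = x₂ ∧ y₁ = EC.negY x₂ y₂) := fun h => hx h.1
  have hns := WeierstrassCurve.Affine.nonsingular_add h₁ h₂ hxy
  have hsl : EC.slope x₁ x₂ y₁ y₂ = (y₁ - y₂) / (x₁ - x₂) :=
    WeierstrassCurve.Affine.slope_of_X_ne hx
  have eX : EC.addX x₁ x₂ (EC.slope x₁ x₂ y₁ y₂) = ((y₁ - y₂) / (x₁ - x₂)) ^ 2 - x₁ - x₂ := by
    rw [hsl]
    simp only [WeierstrassCurve.Affine.addX, trCurve_a₁, trCurve_a₂]
    ring
  have eY : EC.addY x₁ x₂ y₁ (EC.slope x₁ x₂ y₁ y₂) =
      -((y₁ - y₂) / (x₁ - x₂)) * ((((y₁ - y₂) / (x₁ - x₂)) ^ 2 - x₁ - x₂) - x₁) - y₁ := by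
    rw [WeierstrassCurve.Affine.addY, negY_eq, WeierstrassCurve.Affine.negAddY, eX, hsl]
    ring
  rw [eX, eY] at hns
  refine ⟨hns, ?_⟩
  rw [WeierstrassCurve.Affine.Point.add_some hxy, WeierstrassCurve.Affine.Point.some.injEq]
  exact ⟨eX, eY⟩

/-- the duplication formula -/
theorem two_some {x y : Cm3Bar} (h : EC.Nonsingular x y) (hy : y ≠ 0) :
    ∃ h', (Affine.Point.some x y h + Affine.Point.some x y h : PtsBar trCurve) =
      .some ((x ^ 4 + 6 * x ^ 2 - 8 * x + 9) / (4 * (x ^ 3 - 3 * x + 1)))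
        (y * ((x ^ 6 - 15 * x ^ 4 + 20 * x ^ 3 - 45 * x ^ 2 + 12 * x + 19) /
          (8 * (x ^ 3 - 3 * x + 1) ^ 2))) h' := by
  have heq : y ^ 2 = x ^ 3 - 3 * x + 1 := nonsingular_iff.mp h
  have hx : x ^ 3 - 3 * x + 1 ≠ 0 := by
    rw [← heq]
    exact pow_ne_zero 2 hy
  have hYne : y ≠ EC.negY x y := by
    rw [negY_eq]
    intro h'
    apply hy
    linear_combination h' / 2
  have hxy : ¬ (x = x ∧ y = EC.negY x y) := fun h => hYne h.2
  have hns := WeierstrassCurve.Affine.nonsingular_add h h hxy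
  have hsl : EC.slope x x y y = (3 * x ^ 2 - 3) / (2 * y) := by
    rw [WeierstrassCurve.Affine.slope_of_Y_ne rfl hYne, negY_eq]
    simp only [trCurve_a₁, trCurve_a₂, trCurve_a₄]
    congr 1 <;> ring
  have eX : EC.addX x x (EC.slope x x y y) =
      (x ^ 4 + 6 * x ^ 2 - 8 * x + 9) / (4 * (x ^ 3 - 3 * x + 1)) := by
    rw [hsl]
    simp only [WeierstrassCurve.Affine.addX, trCurve_a₁, trCurve_a₂]
    rw [← heq]
    field_simp
    linear_combination (-32 * x) * heq
  have eY : EC.addY x x y (EC.slope x x y y) =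
      y * ((x ^ 6 - 15 * x ^ 4 + 20 * x ^ 3 - 45 * x ^ 2 + 12 * x + 19) /
        (8 * (x ^ 3 - 3 * x + 1) ^ 2)) := by
    rw [WeierstrassCurve.Affine.addY, negY_eq, WeierstrassCurve.Affine.negAddY, eX, hsl]
    rw [← heq]
    field_simp
    linear_combination (-64 * y ^ 2 + 32 * x ^ 3 + 96 * x - 64) * heq
  rw [eX, eY] at hns
  refine ⟨hns, ?_⟩
  rw [WeierstrassCurve.Affine.Point.add_some hxy, WeierstrassCurve.Affine.Point.some.injEq]
  exact ⟨eX, eY⟩

theorem add_self_eq_zero_of_y_eq_zero {x : Cm3Bar} (h : EC.Nonsingular x 0) :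
    (Affine.Point.some x 0 h + Affine.Point.some x 0 h : PtsBar trCurve) = 0 := by
  apply WeierstrassCurve.Affine.Point.add_of_Y_eq rfl
  rw [negY_eq, neg_zero]

theorem some_eq_or_eq_neg {x y y' : Cm3Bar} (h : EC.Nonsingular x y) (h' : EC.Nonsingular x y') :
    (Affine.Point.some x y h : PtsBar trCurve) = .some x y' h' ∨
      (Affine.Point.some x y h : PtsBar trCurve) = -.some x y' h' := by
  have e : y ^ 2 = y' ^ 2 := by rw [nonsingular_iff.mp h, nonsingular_iff.mp h']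
  rcases sq_eq_sq_iff_eq_or_eq_neg.mp e with rfl | rfl
  · exact Or.inl rfl
  · right
    rw [WeierstrassCurve.Affine.Point.neg_some, WeierstrassCurve.Affine.Point.some.injEq]
    exact ⟨rfl, (negY_eq x y').symm⟩

theorem finite_points_of_finite {B : Set Cm3Bar} (hB : B.Finite) :
    {P : PtsBar trCurve | P = 0 ∨ ∃ x y h, x ∈ B ∧ P = .some x y h}.Finite := by
  -- for each `x` choose a point `Q x` above `x`
  choose Y hY using exists_y
  let Q : Cm3Bar → PtsBar trCurve := fun x => .some x (Y x) (nonsingular_iff.mpr (hY x))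
  have hfin : ({0} ∪ Q '' B ∪ (fun x => -Q x) '' B : Set (PtsBar trCurve)).Finite :=
    ((Set.finite_singleton _).union (hB.image _)).union (hB.image _)
  refine hfin.subset ?_
  rintro P (rfl | ⟨x, y, h, hx, rfl⟩)
  · exact Or.inl (Or.inl rfl)
  · rcases some_eq_or_eq_neg h (nonsingular_iff.mpr (hY x)) with e | e
    · exact Or.inl (Or.inr ⟨x, hx, e.symm⟩)
    · exact Or.inr ⟨x, hx, e.symm⟩

theorem infinite_Cm3Bar : Infinite Cm3Bar := inferInstance

theorem infinite_points : Infinite (PtsBar trCurve) := by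
  choose Y hY using exists_y
  let Q : Cm3Bar → PtsBar trCurve := fun x => .some x (Y x) (nonsingular_iff.mpr (hY x))
  have hQ : Function.Injective Q := by
    intro a b hab
    simp only [Q, WeierstrassCurve.Affine.Point.some.injEq] at hab
    exact hab.1
  have := infinite_Cm3Bar
  exact Infinite.of_injective Q hQ

/-- two endomorphisms of the group that agree outside finitely many points are equal -/
theorem hom_ext_cofinite {f g : EndE} {B : Set Cm3Bar} (hB : B.Finite)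
    (h : ∀ (x y : Cm3Bar) (hxy : EC.Nonsingular x y), x ∉ B → f (.some x y hxy) = g (.some x y hxy)) :
    f = g := by
  set T : Set (PtsBar trCurve) := {P | P = 0 ∨ ∃ x y h, x ∈ B ∧ P = .some x y h} with hT
  have hTfin : T.Finite := finite_points_of_finite hB
  have hgood : ∀ P : PtsBar trCurve, P ∉ T → f P = g P := by
    rintro (_ | ⟨x, y, hxy⟩) hP
    · exact absurd (Or.inl rfl) hP
    · apply h
      intro hx
      exact hP (Or.inr ⟨x, y, hxy, hx, rfl⟩)
  ext P
  -- choose `Q` with `Q ∉ T` and `P + Q ∉ T`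
  have := infinite_points
  have hfin2 : (T ∪ (fun R => R - P) '' T).Finite := hTfin.union (hTfin.image _)
  obtain ⟨Q, hQ⟩ := hfin2.exists_notMem
  have hQ1 : Q ∉ T := fun hq => hQ (Or.inl hq)
  have hQ2 : P + Q ∉ T := fun hq => hQ (Or.inr ⟨P + Q, hq, by simp⟩)
  have e1 := hgood _ hQ1
  have e2 := hgood _ hQ2
  rw [map_add, map_add, e1] at e2
  exact add_right_cancel e2

/-- `E'(K̄)` is `2`-divisible: `x(2Q) = (x⁴ + 6x² - 8x + 9) / (4 (x³ - 3x + 1))`, and `K̄` is algebraically closed. -/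
theorem exists_half (P : PtsBar trCurve) : ∃ Q : PtsBar trCurve, Q + Q = P := by
  rcases P with _ | ⟨x₀, y₀, h₀⟩
  · exact ⟨0, add_zero 0⟩
  · let p : Cm3Bar[X] := X ^ 4 - C (4 * x₀) * X ^ 3 + C 6 * X ^ 2 + C (12 * x₀ - 8) * X + C (9 - 4 * x₀)
    have hdeg : p.degree ≠ 0 := by
      have h2 : p.natDegree = 4 := by
        simp only [p]
        compute_degree!
      intro h0
      have h3 : p.natDegree = 0 := natDegree_eq_zero_iff_degree_le_zero.mpr h0.le
      omega
    obtain ⟨x₁, hx₁⟩ := IsAlgClosed.exists_root p hdeg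
    have hx₁' : x₁ ^ 4 - 4 * x₀ * x₁ ^ 3 + 6 * x₁ ^ 2 + (12 * x₀ - 8) * x₁ + (9 - 4 * x₀) = 0 := by
      simpa [p, IsRoot] using hx₁
    have hne : x₁ ^ 3 - 3 * x₁ + 1 ≠ 0 := by
      intro h
      -- `N = x w + 9 (x² - x + 1)`, `w = (x + 1) (x² - x + 1) - 3 x`
      have h9 : x₁ ^ 2 - x₁ + 1 = 0 := by
        linear_combination (1 / 9 : Cm3Bar) * hx₁' + (1 / 9 : Cm3Bar) * (4 * x₀ - x₁) * h
      have h0 : x₁ = 0 := by
        linear_combination (1 / 3 : Cm3Bar) * (x₁ + 1) * h9 - (1 / 3 : Cm3Bar) * h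
      rw [h0] at h
      norm_num at h
    obtain ⟨y₁, hy₁⟩ := exists_y x₁
    have hy₁0 : y₁ ≠ 0 := by
      rintro rfl
      exact hne (by rw [← hy₁]; ring)
    have hQ : EC.Nonsingular x₁ y₁ := nonsingular_iff.mpr hy₁
    obtain ⟨hns, hadd⟩ := two_some hQ hy₁0
    have hX : (x₁ ^ 4 + 6 * x₁ ^ 2 - 8 * x₁ + 9) / (4 * (x₁ ^ 3 - 3 * x₁ + 1)) = x₀ := by
      rw [div_eq_iff (mul_ne_zero (by norm_num) hne)]
      linear_combination hx₁'
    have h₀' : EC.Nonsingular ((x₁ ^ 4 + 6 * x₁ ^ 2 - 8 * x₁ + 9) / (4 * (x₁ ^ 3 - 3 * x₁ + 1))) y₀ := by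
      rw [hX]; exact h₀
    have e₀ : (Affine.Point.some x₀ y₀ h₀ : PtsBar trCurve) = .some _ y₀ h₀' := by
      rw [Affine.Point.some.injEq]
      exact ⟨hX.symm, rfl⟩
    rcases some_eq_or_eq_neg hns h₀' with e | e
    · exact ⟨.some x₁ y₁ hQ, by rw [hadd, e, e₀]⟩
    · exact ⟨-.some x₁ y₁ hQ, by rw [← neg_add, hadd, e, neg_neg, e₀]⟩

end ModD1

/-! ## D2. First properties of `Rep`  (port by helper239) -/

section ModD2

open scoped Classical
open WeierstrassCurve Polynomial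

variable {f g : EndE} {R S R' S' : RatFunc Cm3Bar}

theorem evalsTo_wF (x : Cm3Bar) : EvalsTo wF x (x ^ 3 - 3 * x + 1) :=
  (((evalsTo_X x).pow 3).sub ((evalsTo_ofNat 3 x).mul (evalsTo_X x))).add (evalsTo_one x)

private theorem C_cubic (c : Cm3Bar) :
    RatFunc.C (c ^ 3 - 3 * c + 1) = (RatFunc.C c ^ 3 - 3 * RatFunc.C c + 1 : RatFunc Cm3Bar) := by
  rw [map_add, map_sub, map_mul, map_pow, map_one, map_ofNat]

theorem wF_ne_zero : wF ≠ 0 := by
  intro h0
  have h1 := evalsTo_wF 0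
  rw [h0] at h1
  have := h1.unique (evalsTo_zero 0)
  norm_num at this

private theorem zw_finite : {x : Cm3Bar | x ^ 3 - 3 * x + 1 = 0}.Finite :=
  (finite_evalsTo_zero wF_ne_zero).subset (fun x hx => by
    have h := evalsTo_wF x
    rw [Set.mem_ofPred_eq] at hx
    rw [hx] at h
    exact h)

private theorem compl_infinite {B : Set Cm3Bar} (hB : B.Finite) : (Bᶜ).Infinite := by
  have := infinite_Cm3Bar
  exact hB.infinite_compl

private theorem some_congr {x y x' y' : Cm3Bar} (h : EC.Nonsingular x y) (hx : x = x')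
    (hy : y = y') :
    ∃ h' : EC.Nonsingular x' y', (Affine.Point.some x y h : PtsBar trCurve) = .some x' y' h' := by
  subst hx; subst hy; exact ⟨h, rfl⟩

private theorem y_ne_zero {x y : Cm3Bar} (h : EC.Nonsingular x y) (hx : x ^ 3 - 3 * x + 1 ≠ 0) : y ≠ 0 := by
  rintro rfl
  apply hx
  rw [← nonsingular_iff.mp h]
  ring

/-- use `f (-P) = - f P`: off the zeros of `c₁ c₂ (x³ + 1)` one has `b₁(x) = 0`, `a₂(x) = 0`; `R = a₁ / c₁`, `S = b₂ / c₂` -/
theorem rep_of_isAlgebraic (hf : IsAlgebraicEndomorphism trCurve f) :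
    f = 0 ∨ ∃ R S, Rep f R S := by
  rcases hf with hf | ⟨a₁, b₁, c₁, a₂, b₂, c₂, hc₁, hc₂, H⟩
  · exact Or.inl hf
  right
  refine ⟨algebraMap Cm3Bar[X] (RatFunc Cm3Bar) a₁ / algebraMap Cm3Bar[X] (RatFunc Cm3Bar) c₁,
    algebraMap Cm3Bar[X] (RatFunc Cm3Bar) b₂ / algebraMap Cm3Bar[X] (RatFunc Cm3Bar) c₂,
    {x | c₁.IsRoot x} ∪ {x | c₂.IsRoot x} ∪ {x | x ^ 3 - 3 * x + 1 = 0}, ?_, ?_⟩
  · exact ((Polynomial.finite_setOfPred_isRoot hc₁).union (Polynomial.finite_setOfPred_isRoot hc₂)).union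
      zw_finite
  · intro x y h hx
    simp only [Set.mem_union, Set.mem_ofPred_eq, not_or, Polynomial.IsRoot.def] at hx
    obtain ⟨⟨h1, h2⟩, h3⟩ := hx
    have hy : y ≠ 0 := y_ne_zero h h3
    obtain ⟨hA, eA⟩ := H x y h h1 h2
    obtain ⟨hn, en⟩ := neg_some h
    obtain ⟨hB, eB⟩ := H x (-y) hn h1 h2
    obtain ⟨hn', en'⟩ := neg_some hA
    have key : (Affine.Point.some _ _ hB : PtsBar trCurve) = .some _ _ hn' := by
      rw [← eB, ← en, map_neg, eA, en']
    rw [Affine.Point.some.injEq] at key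
    obtain ⟨k1, k2⟩ := key
    have hb1 : b₁.eval x = 0 := by
      have e : (a₁.eval x + b₁.eval x * -y) = (a₁.eval x + b₁.eval x * y) := by
        have := congrArg (· * c₁.eval x) k1
        simpa [div_mul_cancel₀ _ h1] using this
      have e2 : 2 * y * b₁.eval x = 0 := by linear_combination -e
      rcases mul_eq_zero.mp e2 with e3 | e3
      · exact absurd e3 (mul_ne_zero two_ne_zero hy)
      · exact e3
    have ha2 : a₂.eval x = 0 := by
      have e : (a₂.eval x + b₂.eval x * -y) = -(a₂.eval x + b₂.eval x * y) := by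
        have := congrArg (· * c₂.eval x) k2
        simpa [div_mul_cancel₀ _ h2, neg_mul] using this
      have e2 : 2 * a₂.eval x = 0 := by linear_combination e
      rcases mul_eq_zero.mp e2 with e3 | e3
      · exact absurd e3 two_ne_zero
      · exact e3
    obtain ⟨h', e'⟩ := some_congr hA (x' := a₁.eval x / c₁.eval x)
      (y' := y * (b₂.eval x / c₂.eval x)) (by rw [hb1]; ring) (by rw [ha2]; ring)
    exact ⟨_, _, h', evalsTo_div_algebraMap _ _ _ h1, evalsTo_div_algebraMap _ _ _ h2,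
      eA.trans e'⟩

theorem Rep.ne_zero (h : Rep f R S) : f ≠ 0 := by
  obtain ⟨B, hB, H⟩ := h
  obtain ⟨x, hx⟩ := (compl_infinite hB).nonempty
  obtain ⟨y, hy⟩ := exists_y x
  obtain ⟨r, s, h', -, -, e⟩ := H x y (nonsingular_iff.mpr hy) hx
  intro h0
  rw [h0, AddMonoidHom.zero_apply] at e
  exact Affine.Point.some_ne_zero _ e.symm

/-- the image point lies on the curve -/
theorem Rep.curve (h : Rep f R S) : wF * S ^ 2 = R ^ 3 - 3 * R + 1 := by
  obtain ⟨B, hB, H⟩ := h
  apply eq_of_infinite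
  refine (compl_infinite hB).mono (fun x hx => ?_)
  obtain ⟨y, hy⟩ := exists_y x
  obtain ⟨r, s, h', hr, hs, -⟩ := H x y (nonsingular_iff.mpr hy) hx
  refine ⟨r ^ 3 - 3 * r + 1, ?_, ((hr.pow 3).sub ((evalsTo_ofNat 3 x).mul hr)).add (evalsTo_one x)⟩
  have e : (x ^ 3 - 3 * x + 1) * s ^ 2 = r ^ 3 - 3 * r + 1 := by
    rw [← nonsingular_iff.mp h', ← hy]; ring
  rw [← e]
  exact (evalsTo_wF x).mul (hs.pow 2)

theorem Rep.unique (h : Rep f R S) (h' : Rep f R' S') : R = R' ∧ S = S' := by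
  obtain ⟨B, hB, H⟩ := h
  obtain ⟨B', hB', H'⟩ := h'
  have hfin : (B ∪ B' ∪ {x : Cm3Bar | x ^ 3 - 3 * x + 1 = 0}).Finite := (hB.union hB').union zw_finite
  have key : ∀ x ∈ (B ∪ B' ∪ {x : Cm3Bar | x ^ 3 - 3 * x + 1 = 0})ᶜ,
      (∃ c, EvalsTo R x c ∧ EvalsTo R' x c) ∧ (∃ c, EvalsTo S x c ∧ EvalsTo S' x c) := by
    intro x hx
    simp only [Set.mem_compl_iff, Set.mem_union, Set.mem_ofPred_eq, not_or] at hx
    obtain ⟨⟨h1, h2⟩, h3⟩ := hx
    obtain ⟨y, hy⟩ := exists_y x
    have hns := nonsingular_iff.mpr hy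
    have hy0 : y ≠ 0 := y_ne_zero hns h3
    obtain ⟨r, s, hh, hr, hs, e⟩ := H x y hns h1
    obtain ⟨r', s', hh', hr', hs', e'⟩ := H' x y hns h2
    rw [e, Affine.Point.some.injEq] at e'
    obtain ⟨e1, e2⟩ := e'
    have e3 : s = s' := mul_left_cancel₀ hy0 e2
    subst e1; subst e3
    exact ⟨⟨_, hr, hr'⟩, ⟨_, hs, hs'⟩⟩
  exact ⟨eq_of_infinite ((compl_infinite hfin).mono (fun x hx => (key x hx).1)),
    eq_of_infinite ((compl_infinite hfin).mono (fun x hx => (key x hx).2))⟩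

theorem Rep.ext (h : Rep f R S) (h' : Rep g R S) : f = g := by
  obtain ⟨B, hB, H⟩ := h
  obtain ⟨B', hB', H'⟩ := h'
  refine hom_ext_cofinite (hB.union hB') (fun x y hxy hx => ?_)
  simp only [Set.mem_union, not_or] at hx
  obtain ⟨r, s, hh, hr, hs, e⟩ := H x y hxy hx.1
  obtain ⟨r', s', hh', hr', hs', e'⟩ := H' x y hxy hx.2
  have e1 := hr.unique hr'
  have e2 := hs.unique hs'
  subst e1; subst e2
  rw [e, e']

/-- If `R = c` is constant then `w S² = c³ + 1`; for `c³ + 1 ≠ 0` this contradicts the parity of `RatFunc.intDegree`; for `c³ + 1 = 0`,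
`S = 0` and `f P = (c, 0) = T` for all `P` outside a finite set, so `T = f (P + P') = T + T = 0`. -/
theorem Rep.nonConst (h : Rep f R S) : NonConst R := by
  intro c hc
  have hcurve := h.curve
  subst hc
  by_cases h0 : c ^ 3 - 3 * c + 1 = 0
  · -- `S = 0`
    have hS : S = 0 := by
      have e : wF * S ^ 2 = 0 := by
        rw [hcurve, ← C_cubic, h0, map_zero]
      rcases mul_eq_zero.mp e with e | e
      · exact absurd e wF_ne_zero
      · exact pow_eq_zero_iff (two_ne_zero) |>.mp e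
    subst hS
    obtain ⟨B, hB, H⟩ := h
    have hc0 : EC.Nonsingular c 0 := nonsingular_iff.mpr (by rw [h0]; ring)
    set T : PtsBar trCurve := .some c 0 hc0 with hT
    set Bad : Set (PtsBar trCurve) := {P | P = 0 ∨ ∃ x y h, x ∈ B ∧ P = .some x y h} with hBad
    have hBadfin : Bad.Finite := finite_points_of_finite hB
    have key : ∀ Q, Q ∉ Bad → f Q = T := by
      intro Q hQ
      rcases Q with _ | ⟨x, y, hxy⟩
      · exact absurd (Or.inl rfl) hQ
      · have hx : x ∉ B := fun hx => hQ (Or.inr ⟨x, y, hxy, hx, rfl⟩)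
        obtain ⟨r, s, hh, hr, hs, e⟩ := H x y hxy hx
        have e1 := hr.unique (evalsTo_C c x)
        have e2 := hs.unique (evalsTo_zero x)
        subst e1; subst e2
        rw [e, hT, Affine.Point.some.injEq]
        exact ⟨rfl, mul_zero y⟩
    have := infinite_points
    obtain ⟨P, hP⟩ := hBadfin.infinite_compl.nonempty
    have hfin2 : (Bad ∪ (fun Q => Q - P) '' Bad).Finite := hBadfin.union (hBadfin.image _)
    obtain ⟨P', hP'⟩ := hfin2.infinite_compl.nonempty
    simp only [Set.mem_compl_iff, Set.mem_union, Set.mem_image, not_or, not_exists, not_and] at hP'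
    have h1 : f P = T := key P hP
    have h2 : f P' = T := key P' hP'.1
    have h3 : f (P' + P) = T := key _ (fun hmem => hP'.2 _ hmem (by abel))
    rw [map_add, h1, h2] at h3
    have h4 : T = 0 := by
      have := add_self_eq_zero_of_y_eq_zero hc0
      rw [← hT] at this
      rw [← h3, this]
    exact Affine.Point.some_ne_zero _ h4
  · -- parity of the degree
    have hS : S ≠ 0 := by
      rintro rfl
      apply h0
      have e : RatFunc.C (c ^ 3 - 3 * c + 1) = (0 : RatFunc Cm3Bar) := by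
        rw [C_cubic, ← hcurve]; ring
      exact (map_eq_zero (RatFunc.C (K := Cm3Bar))).mp e
    have e : wF * S ^ 2 = RatFunc.C (c ^ 3 - 3 * c + 1) := by
      rw [hcurve, C_cubic]
    have hd := congrArg RatFunc.intDegree e
    have hw : RatFunc.intDegree wF = 3 := by
      have : wF = algebraMap Cm3Bar[X] (RatFunc Cm3Bar) (X ^ 3 - 3 * X + 1) := by
        rw [wF, map_add, map_sub, map_mul, map_pow, map_one, RatFunc.algebraMap_X, map_ofNat]
      rw [this, RatFunc.intDegree_polynomial]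
      have : (X ^ 3 - 3 * X + 1 : Cm3Bar[X]).natDegree = 3 := by compute_degree!
      rw [this]; rfl
    rw [RatFunc.intDegree_mul wF_ne_zero (pow_ne_zero 2 hS), pow_two,
      RatFunc.intDegree_mul hS hS, RatFunc.intDegree_C, hw] at hd
    omega

theorem Rep.S_ne_zero (h : Rep f R S) : S ≠ 0 := by
  rintro rfl
  have hnc := h.nonConst
  obtain ⟨B, hB, H⟩ := h
  have hfin := finite_evalsTo_mem_of_nonConst hnc zw_finite
  refine (compl_infinite hB) (hfin.subset (fun x hx => ?_))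
  obtain ⟨y, hy⟩ := exists_y x
  obtain ⟨r, s, h', hr, hs, -⟩ := H x y (nonsingular_iff.mpr hy) hx
  have e2 := hs.unique (evalsTo_zero x)
  subst e2
  refine ⟨r, ?_, hr⟩
  rw [Set.mem_ofPred_eq, ← nonsingular_iff.mp h']
  ring

theorem Rep.neg (h : Rep f R S) : Rep (-f) R (-S) := by
  obtain ⟨B, hB, H⟩ := h
  refine ⟨B, hB, fun x y hxy hx => ?_⟩
  obtain ⟨r, s, h', hr, hs, e⟩ := H x y hxy hx
  obtain ⟨hn, en⟩ := neg_some h'
  obtain ⟨h'', e''⟩ := some_congr hn (x' := r) (y' := y * -s) rfl (by ring)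
  exact ⟨r, -s, h'', hr, hs.neg, by rw [AddMonoidHom.neg_apply, e, en, e'']⟩

end ModD2

/-! ## D3. The examples `1`, `[2]`  (port by helper239) -/

section ModD3

open scoped Classical
open WeierstrassCurve Polynomial

theorem rep_id : Rep (AddMonoidHom.id _) RatFunc.X 1 := by
  refine ⟨∅, Set.finite_empty, fun x y h _ => ⟨x, 1, by rwa [mul_one], evalsTo_X x, evalsTo_one x, ?_⟩⟩
  simp

private theorem evalsTo_wX (x : Cm3Bar) :
    EvalsTo (RatFunc.X ^ 3 - 3 * RatFunc.X + 1 : RatFunc Cm3Bar) x (x ^ 3 - 3 * x + 1) :=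
  (((evalsTo_X x).pow 3).sub ((evalsTo_ofNat 3 x).mul (evalsTo_X x))).add (evalsTo_one x)

theorem evalsTo_dblR {x : Cm3Bar} (hx : x ^ 3 - 3 * x + 1 ≠ 0) :
    EvalsTo dblR x ((x ^ 4 + 6 * x ^ 2 - 8 * x + 9) / (4 * (x ^ 3 - 3 * x + 1))) := by
  unfold dblR
  refine EvalsTo.div ?_ ?_ (mul_ne_zero (by norm_num) hx)
  · exact ((((evalsTo_X x).pow 4).add ((evalsTo_ofNat 6 x).mul ((evalsTo_X x).pow 2))).sub
      ((evalsTo_ofNat 8 x).mul (evalsTo_X x))).add (evalsTo_ofNat 9 x)
  · exact (evalsTo_ofNat 4 x).mul (evalsTo_wX x)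

theorem evalsTo_dblS {x : Cm3Bar} (hx : x ^ 3 - 3 * x + 1 ≠ 0) :
    EvalsTo dblS x ((x ^ 6 - 15 * x ^ 4 + 20 * x ^ 3 - 45 * x ^ 2 + 12 * x + 19) /
      (8 * (x ^ 3 - 3 * x + 1) ^ 2)) := by
  unfold dblS
  refine EvalsTo.div ?_ ?_ (mul_ne_zero (by norm_num) (pow_ne_zero 2 hx))
  · exact ((((((evalsTo_X x).pow 6).sub ((evalsTo_ofNat 15 x).mul ((evalsTo_X x).pow 4))).add
      ((evalsTo_ofNat 20 x).mul ((evalsTo_X x).pow 3))).sub
      ((evalsTo_ofNat 45 x).mul ((evalsTo_X x).pow 2))).add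
      ((evalsTo_ofNat 12 x).mul (evalsTo_X x))).add (evalsTo_ofNat 19 x)
  · exact (evalsTo_ofNat 8 x).mul ((evalsTo_wX x).pow 2)

theorem rep_two : Rep (2 • AddMonoidHom.id _) dblR dblS := by
  have hfin : {x : Cm3Bar | x ^ 3 - 3 * x + 1 = 0}.Finite := by
    have hp : (X ^ 3 - 3 * X + 1 : Cm3Bar[X]) ≠ 0 := by
      intro h0
      have := congrArg (Polynomial.eval 0) h0
      simp at this
    refine ((X ^ 3 - 3 * X + 1 : Cm3Bar[X]).roots.toFinset.finite_toSet).subset fun x hx => ?_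
    simp only [Finset.mem_coe, Multiset.mem_toFinset, mem_roots hp, IsRoot.def]
    simpa using hx
  refine ⟨_, hfin, fun x y h hx => ?_⟩
  have hx' : x ^ 3 - 3 * x + 1 ≠ 0 := hx
  have hy : y ≠ 0 := by
    rintro rfl
    have := nonsingular_iff.1 h
    exact hx' (by rw [← this]; ring)
  obtain ⟨h', e⟩ := two_some h hy
  refine ⟨_, _, h', evalsTo_dblR hx', evalsTo_dblS hx', ?_⟩
  rw [← e]
  simp [two_smul]

private theorem wX_ne_zero : (RatFunc.X ^ 3 - 3 * RatFunc.X + 1 : RatFunc Cm3Bar) ≠ 0 := by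
  intro h0
  have h1 := evalsTo_wX 0
  rw [h0] at h1
  have := h1.unique (evalsTo_zero 0)
  simp at this

theorem ratDeriv_dblR : ratDeriv dblR = RatFunc.C 2 * dblS := by
  have hw := wX_ne_zero
  have h2 : (RatFunc.C (2 : Cm3Bar)) = 2 := by
    rw [show (2 : Cm3Bar) = ((2 : ℕ) : Cm3Bar) by norm_num, map_natCast]; norm_num
  unfold dblR dblS
  have d3 : ratDeriv (3 : RatFunc Cm3Bar) = 0 := ratDeriv_ofNat 3
  have d4 : ratDeriv (4 : RatFunc Cm3Bar) = 0 := ratDeriv_ofNat 4
  have d6 : ratDeriv (6 : RatFunc Cm3Bar) = 0 := ratDeriv_ofNat 6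
  have d8 : ratDeriv (8 : RatFunc Cm3Bar) = 0 := ratDeriv_ofNat 8
  have d9 : ratDeriv (9 : RatFunc Cm3Bar) = 0 := ratDeriv_ofNat 9
  simp only [ratDeriv_div, ratDeriv_sub, ratDeriv_mul, ratDeriv_add, ratDeriv_pow,
    ratDeriv_X, ratDeriv_one, d3, d4, d6, d8, d9, h2]
  have h4 : (4 : RatFunc Cm3Bar) ≠ 0 := by norm_num
  have h8 : (8 : RatFunc Cm3Bar) ≠ 0 := by norm_num
  field_simp
  push_cast
  ring

theorem dblS_ne_zero : dblS ≠ 0 := by
  intro h0
  have h1 := evalsTo_dblS (x := 0) (by norm_num)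
  rw [h0] at h1
  have := h1.unique (evalsTo_zero 0)
  norm_num at this

theorem nonConst_dblR : NonConst dblR := by
  intro c hc
  have h1 := ratDeriv_dblR
  rw [hc, ratDeriv_C] at h1
  have h2 : RatFunc.C (2 : Cm3Bar) ≠ 0 := by
    rw [Ne, map_eq_zero]; norm_num
  exact (mul_ne_zero h2 dblS_ne_zero) h1.symm

theorem hasA_id : HasA (AddMonoidHom.id _) 1 :=
  Or.inr ⟨_, _, rep_id, by rw [ratDeriv_X]; simp⟩

theorem hasA_two : HasA (2 • AddMonoidHom.id _) 2 :=
  Or.inr ⟨_, _, rep_two, ratDeriv_dblR⟩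

end ModD3

/-! ## E1. The sum of two endomorphisms, generic case  (port by helper239) -/

section ModE1

open scoped Classical
open WeierstrassCurve Polynomial

variable {f g : EndE} {R₁ S₁ R₂ S₂ : RatFunc Cm3Bar}

/-- the chord formula for `f + g`, with `λ = (S₁ - S₂) / (R₁ - R₂)` (the slope is `y λ`, and `y² = w`) -/
theorem Rep.add_of_ne (hf : Rep f R₁ S₁) (hg : Rep g R₂ S₂) (hne : R₁ ≠ R₂) :
    Rep (f + g) (wF * ((S₁ - S₂) / (R₁ - R₂)) ^ 2 - R₁ - R₂)
      (-((S₁ - S₂) / (R₁ - R₂)) * ((wF * ((S₁ - S₂) / (R₁ - R₂)) ^ 2 - R₁ - R₂) - R₁) - S₁) := by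
  obtain ⟨B₁, hB₁, H₁⟩ := hf
  obtain ⟨B₂, hB₂, H₂⟩ := hg
  refine ⟨B₁ ∪ B₂ ∪ {x | EvalsTo (R₁ - R₂) x 0},
    (hB₁.union hB₂).union (finite_evalsTo_zero (sub_ne_zero.mpr hne)), fun x y hxy hx => ?_⟩
  simp only [Set.mem_union, Set.mem_ofPred_eq, not_or] at hx
  obtain ⟨⟨h1, h2⟩, h3⟩ := hx
  obtain ⟨r₁, s₁, hh₁, hr₁, hs₁, e₁⟩ := H₁ x y hxy h1
  obtain ⟨r₂, s₂, hh₂, hr₂, hs₂, e₂⟩ := H₂ x y hxy h2
  have hr : r₁ ≠ r₂ := by
    intro h
    apply h3
    have := hr₁.sub hr₂
    rwa [h, sub_self] at this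
  have hr' : r₁ - r₂ ≠ 0 := sub_ne_zero.mpr hr
  have hy : y ^ 2 = x ^ 3 - 3 * x + 1 := nonsingular_iff.mp hxy
  obtain ⟨h₃, e₃⟩ := add_some_of_ne hh₁ hh₂ hr
  have hL : EvalsTo ((S₁ - S₂) / (R₁ - R₂)) x ((s₁ - s₂) / (r₁ - r₂)) :=
    (hs₁.sub hs₂).div (hr₁.sub hr₂) hr'
  have hR₃ : EvalsTo (wF * ((S₁ - S₂) / (R₁ - R₂)) ^ 2 - R₁ - R₂) x
      ((x ^ 3 - 3 * x + 1) * ((s₁ - s₂) / (r₁ - r₂)) ^ 2 - r₁ - r₂) :=
    (((evalsTo_wF x).mul (hL.pow 2)).sub hr₁).sub hr₂
  have hS₃ : EvalsTo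
      (-((S₁ - S₂) / (R₁ - R₂)) * ((wF * ((S₁ - S₂) / (R₁ - R₂)) ^ 2 - R₁ - R₂) - R₁) - S₁) x
      (-((s₁ - s₂) / (r₁ - r₂)) * (((x ^ 3 - 3 * x + 1) * ((s₁ - s₂) / (r₁ - r₂)) ^ 2 - r₁ - r₂) - r₁) - s₁) :=
    ((hL.neg).mul (hR₃.sub hr₁)).sub hs₁
  have eL : (y * s₁ - y * s₂) / (r₁ - r₂) = y * ((s₁ - s₂) / (r₁ - r₂)) := by ring
  have ex : ((y * s₁ - y * s₂) / (r₁ - r₂)) ^ 2 - r₁ - r₂ =
      (x ^ 3 - 3 * x + 1) * ((s₁ - s₂) / (r₁ - r₂)) ^ 2 - r₁ - r₂ := by
    rw [eL, mul_pow, hy]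
  have ey : -((y * s₁ - y * s₂) / (r₁ - r₂)) *
        ((((y * s₁ - y * s₂) / (r₁ - r₂)) ^ 2 - r₁ - r₂) - r₁) - y * s₁ =
      y * (-((s₁ - s₂) / (r₁ - r₂)) *
        (((x ^ 3 - 3 * x + 1) * ((s₁ - s₂) / (r₁ - r₂)) ^ 2 - r₁ - r₂) - r₁) - s₁) := by
    rw [ex, eL]; ring
  have h₃' : EC.Nonsingular ((x ^ 3 - 3 * x + 1) * ((s₁ - s₂) / (r₁ - r₂)) ^ 2 - r₁ - r₂)
      (y * (-((s₁ - s₂) / (r₁ - r₂)) *
        (((x ^ 3 - 3 * x + 1) * ((s₁ - s₂) / (r₁ - r₂)) ^ 2 - r₁ - r₂) - r₁) - s₁)) := by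
    rw [← ey, ← ex]; exact h₃
  refine ⟨_, _, h₃', hR₃, hS₃, ?_⟩
  rw [AddMonoidHom.add_apply, e₁, e₂, e₃, Affine.Point.some.injEq]
  exact ⟨ex, ey⟩

end ModE1

/-! ## E2. The invariant differential is additive (an identity in a differential field)  (port by helper239) -/

section ModE2

open scoped Classical
open WeierstrassCurve Polynomial

variable {k : Type} [Field k] [CharZero k]

/-- `D S = ((3 R² - 3) α - w' S) / (2 w)`, from `w S² = R³ - 3R + 1` and `D R = α S` -/
theorem ratDeriv_S_of_curve {w R S A : RatFunc k} (hw : w ≠ 0) (hS : S ≠ 0)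
    (hc : w * S ^ 2 = R ^ 3 - 3 * R + 1) (hA : ratDeriv R = A * S) :
    ratDeriv S = ((3 * R ^ 2 - 3) * A - ratDeriv w * S) / (2 * w) := by
  have h := congrArg ratDeriv hc
  rw [ratDeriv_mul, ratDeriv_pow, ratDeriv_add, ratDeriv_sub, ratDeriv_mul, ratDeriv_pow,
    ratDeriv_one, ratDeriv_ofNat, hA] at h
  have h2 : (2 : RatFunc k) ≠ 0 := two_ne_zero
  rw [eq_div_iff (mul_ne_zero h2 hw)]
  apply mul_right_cancel₀ hS
  push_cast at h
  simp only [pow_one] at h
  linear_combination h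

/-- With `ρ = R₁ - R₂`, `σ = S₁ - S₂`, `e_i = w S_i² - R_i³ + 3 R_i - 1`:  `D R₃ - (A₁ + A₂) S₃ = (σ / ρ³) (e₁ - e₂) (A₂ - A₁)`
(the terms with `w'` cancel). -/
theorem chord_identity {w R₁ S₁ R₂ S₂ A₁ A₂ : RatFunc k} (hw : w ≠ 0) (hS₁ : S₁ ≠ 0) (hS₂ : S₂ ≠ 0)
    (hne : R₁ ≠ R₂) (hc₁ : w * S₁ ^ 2 = R₁ ^ 3 - 3 * R₁ + 1) (hc₂ : w * S₂ ^ 2 = R₂ ^ 3 - 3 * R₂ + 1)
    (hA₁ : ratDeriv R₁ = A₁ * S₁) (hA₂ : ratDeriv R₂ = A₂ * S₂) :
    ratDeriv (w * ((S₁ - S₂) / (R₁ - R₂)) ^ 2 - R₁ - R₂) =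
      (A₁ + A₂) *
        (-((S₁ - S₂) / (R₁ - R₂)) * ((w * ((S₁ - S₂) / (R₁ - R₂)) ^ 2 - R₁ - R₂) - R₁) - S₁) := by
  have hρ : R₁ - R₂ ≠ 0 := sub_ne_zero.mpr hne
  have h2 : (2 : RatFunc k) ≠ 0 := two_ne_zero
  rw [ratDeriv_sub, ratDeriv_sub, ratDeriv_mul, ratDeriv_pow, ratDeriv_div, ratDeriv_sub,
    ratDeriv_sub, hA₁, hA₂, ratDeriv_S_of_curve hw hS₁ hc₁ hA₁, ratDeriv_S_of_curve hw hS₂ hc₂ hA₂]
  generalize ratDeriv w = dw
  generalize hρd : R₁ - R₂ = ρ at hρ ⊢
  push_cast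
  simp only [pow_one]
  field_simp
  subst hρd
  linear_combination (S₁ - S₂) * (A₂ - A₁) * (hc₁ - hc₂)

end ModE2

/-! ## F. The composition of two endomorphisms  (port by helper239) -/

section ModF

open scoped Classical
open WeierstrassCurve Polynomial

variable {f g : EndE} {R S R₁ S₁ R₂ S₂ : RatFunc Cm3Bar}

theorem Rep.comp (hf : Rep f R₁ S₁) (hg : Rep g R₂ S₂) :
    Rep (f.comp g) (ratComp R₁ R₂) (S₂ * ratComp S₁ R₂) := by
  have hnc : NonConst R₂ := hg.nonConst
  obtain ⟨B₁, hB₁, H₁⟩ := hf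
  obtain ⟨B₂, hB₂, H₂⟩ := hg
  refine ⟨B₂ ∪ {x : Cm3Bar | ∃ c ∈ B₁, EvalsTo R₂ x c},
    hB₂.union (finite_evalsTo_mem_of_nonConst hnc hB₁), fun x y h hx => ?_⟩
  have hx₂ : x ∉ B₂ := fun hx' => hx (Or.inl hx')
  obtain ⟨r, s, h', hr, hs, eg⟩ := H₂ x y h hx₂
  have hr₁ : r ∉ B₁ := fun hr' => hx (Or.inr ⟨r, hr', hr⟩)
  obtain ⟨r', s', h'', hr', hs', ef⟩ := H₁ r (y * s) h' hr₁
  refine ⟨r', s * s', by rw [← mul_assoc]; exact h'', EvalsTo.comp hnc hr hr',
    hs.mul (EvalsTo.comp hnc hr hs'), ?_⟩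
  rw [AddMonoidHom.comp_apply, eg, ef, Affine.Point.some.injEq]
  exact ⟨rfl, mul_assoc _ _ _⟩

/-- `f ∘ [2] = [2] ∘ f` -/
theorem Rep.comm_two (h : Rep f R S) :
    ratComp R dblR = ratComp dblR R ∧ dblS * ratComp S dblR = S * ratComp dblS R := by
  have e : f.comp (2 • AddMonoidHom.id (PtsBar trCurve)) =
      (2 • AddMonoidHom.id (PtsBar trCurve)).comp f := by
    ext P
    simp only [AddMonoidHom.comp_apply, AddMonoidHom.nsmul_apply, AddMonoidHom.id_apply, map_nsmul]
  have h₁ := h.comp rep_two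
  have h₂ := rep_two.comp h
  rw [e] at h₁
  exact h₁.unique h₂

end ModF

/-! ## G3. Successive halves of the point `(e, 0)`  (helper239, helper265) -/

section ModG3

open scoped Classical
open WeierstrassCurve Polynomial

section

variable {e : Cm3Bar} (he : e ^ 3 - 3 * e + 1 = 0)
include he

private theorem nonsingular_root : EC.Nonsingular e 0 :=
  nonsingular_iff.mpr (by rw [he]; ring)

/-- `P₀ = (e, 0)`, `2 P_{n+1} = P_n`. -/
private noncomputable def halfSeq : ℕ → PtsBar trCurve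
  | 0 => .some e 0 (nonsingular_root he)
  | n + 1 => Classical.choose (exists_half (halfSeq n))

private theorem halfSeq_succ (n : ℕ) : halfSeq he (n + 1) + halfSeq he (n + 1) = halfSeq he n :=
  Classical.choose_spec (exists_half (halfSeq he n))

private theorem halfSeq_zero_ne : halfSeq he 0 ≠ 0 := by
  intro h
  exact Affine.Point.some_ne_zero _ h

private theorem halfSeq_zero_add : halfSeq he 0 + halfSeq he 0 = 0 :=
  add_self_eq_zero_of_y_eq_zero (nonsingular_root he)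

private theorem halfSeq_pow (n : ℕ) : (2 ^ n) • halfSeq he n = halfSeq he 0 := by
  induction n with
  | zero => simp
  | succ n ih =>
    rw [pow_succ, mul_smul, two_smul, halfSeq_succ, ih]

private theorem halfSeq_ne (n : ℕ) : halfSeq he n ≠ 0 := by
  intro h
  have := halfSeq_pow he n
  rw [h, nsmul_zero] at this
  exact halfSeq_zero_ne he this.symm

private theorem halfSeq_pow_succ (n : ℕ) : (2 ^ (n + 1)) • halfSeq he n = 0 := by
  rw [pow_succ', mul_smul, halfSeq_pow, two_smul, halfSeq_zero_add]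

private theorem halfSeq_some (n : ℕ) : ∃ x y h, halfSeq he n = .some x y h := by
  rcases hP : halfSeq he n with _ | ⟨x, y, h⟩
  · exact absurd hP (halfSeq_ne he n)
  · exact ⟨x, y, h, rfl⟩

/-- `P₀ = (e, 0)`, `2 P_{n+1} = P_n` (`exists_half`), `x n = x(P_n)`.  `P_n` has exact order `2^(n+1)`, so that `P_n ≠ ± P_m` for `n ≠ m`. -/
theorem exists_halving_pts_of_root : ∃ (x y : ℕ → Cm3Bar) (h : ∀ n, EC.Nonsingular (x n) (y n)),
    Function.Injective x ∧ x 0 = e ∧ y 0 = 0 ∧
    (∀ n, (Affine.Point.some (x (n + 1)) (y (n + 1)) (h (n + 1)) +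
      Affine.Point.some (x (n + 1)) (y (n + 1)) (h (n + 1)) : PtsBar trCurve) =
        .some (x n) (y n) (h n)) ∧
    (∀ n, ((2 : ℤ) ^ (n + 1)) • (Affine.Point.some (x n) (y n) (h n) : PtsBar trCurve) = 0) ∧
    ∀ n, EvalsTo dblR (x (n + 1)) (x n) := by
  choose x y h hP using halfSeq_some he
  have key : ∀ n m, n < m → x n ≠ x m := by
    intro n m hnm hx
    have h' : EC.Nonsingular (x n) (y m) := by rw [hx]; exact h m
    have hPm : halfSeq he m = .some (x n) (y m) h' := by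
      rw [hP m]
      congr 1; simp [hx]
    have h0 : (2 ^ (n + 1)) • halfSeq he m = 0 := by
      rcases some_eq_or_eq_neg (h n) h' with e | e
      · rw [hPm, ← e, ← hP n, halfSeq_pow_succ]
      · have : halfSeq he m = - halfSeq he n := by rw [hPm, hP n, e, neg_neg]
        rw [this, neg_nsmul, halfSeq_pow_succ, neg_zero]
    obtain ⟨k, rfl⟩ := Nat.exists_eq_add_of_le (Nat.succ_le_of_lt hnm)
    have := halfSeq_pow he (n.succ + k)
    rw [pow_add, mul_comm, mul_smul, h0, nsmul_zero] at this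
    exact halfSeq_zero_ne he this.symm
  refine ⟨x, y, h, ?_, ?_, ?_, ?_, ?_, ?_⟩
  · intro n m hx
    by_contra hne
    rcases lt_or_gt_of_ne hne with hlt | hlt
    · exact key n m hlt hx
    · exact key m n hlt hx.symm
  · have h0 := hP 0
    have : halfSeq he 0 = .some e 0 (nonsingular_root he) := rfl
    rw [this] at h0
    injection h0 with e1 e2
    exact e1.symm
  · have h0 := hP 0
    have : halfSeq he 0 = .some e 0 (nonsingular_root he) := rfl
    rw [this] at h0
    injection h0 with e1 e2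
    exact e2.symm
  · intro n
    rw [← hP (n + 1), ← hP n]
    exact halfSeq_succ he n
  · intro n
    rw [← hP n]
    have h2 : ((2 : ℤ) ^ (n + 1)) = ((2 ^ (n + 1) : ℕ) : ℤ) := by push_cast; rfl
    rw [h2, natCast_zsmul]
    exact halfSeq_pow_succ he n
  · intro n
    have hy : y (n + 1) ≠ 0 := by
      intro hy0
      have h' : EC.Nonsingular (x (n + 1)) 0 := by rw [← hy0]; exact h (n + 1)
      have e : halfSeq he (n + 1) = .some (x (n + 1)) 0 h' := by
        rw [hP (n + 1)]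
        congr 1
      have := halfSeq_succ he n
      rw [e, add_self_eq_zero_of_y_eq_zero h'] at this
      exact halfSeq_ne he n this.symm
    obtain ⟨h', e⟩ := two_some (h (n + 1)) hy
    have e2 := halfSeq_succ he n
    rw [hP (n + 1), e, hP n] at e2
    injection e2 with e3 e4
    have hw : x (n + 1) ^ 3 - 3 * x (n + 1) + 1 ≠ 0 := by
      rw [← nonsingular_iff.1 (h (n + 1))]
      exact pow_ne_zero 2 hy
    rw [← e3]
    exact evalsTo_dblR hw

end

/-- `P₀ = (e, 0)` with `e = trRoot`, `2 P_{n+1} = P_n` (`exists_half`), `x n = x(P_n)`.  `P_n` has exact order `2^(n+1)`, so that `P_n ≠ ± P_m` for `n ≠ m`. -/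
theorem exists_halving_pts : ∃ (x y : ℕ → Cm3Bar) (h : ∀ n, EC.Nonsingular (x n) (y n)),
    Function.Injective x ∧ x 0 = trRoot ∧ y 0 = 0 ∧
    (∀ n, (Affine.Point.some (x (n + 1)) (y (n + 1)) (h (n + 1)) +
      Affine.Point.some (x (n + 1)) (y (n + 1)) (h (n + 1)) : PtsBar trCurve) =
        .some (x n) (y n) (h n)) ∧
    (∀ n, ((2 : ℤ) ^ (n + 1)) • (Affine.Point.some (x n) (y n) (h n) : PtsBar trCurve) = 0) ∧
    ∀ n, EvalsTo dblR (x (n + 1)) (x n) := exists_halving_pts_of_root trRoot_spec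

theorem exists_halving_seq : ∃ x : ℕ → Cm3Bar, Function.Injective x ∧ x 0 = trRoot ∧
    ∀ n, EvalsTo dblR (x (n + 1)) (x n) := by
  obtain ⟨x, y, h, h1, h2, -, -, -, h3⟩ := exists_halving_pts
  exact ⟨x, h1, h2, h3⟩

end ModG3

/-! ## G2. A rational function invariant under `x ↦ x(2P)` is constant  (port by helper239) -/

section ModG2

open scoped Classical
open WeierstrassCurve Polynomial

/-- an invariant function that has the value `c` at `e` has the value `c` along the whole halving sequence, so it is the constant `c` -/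
private theorem const_of_comp_dblR_of_evalsTo
    {ψ : RatFunc Cm3Bar} (h : ratComp ψ dblR = ψ)
    {c : Cm3Bar} (hc : EvalsTo ψ trRoot c) : ψ = RatFunc.C c := by
  obtain ⟨x, hinj, hx0, hstep⟩ := exists_halving_seq
  have hall : ∀ n, EvalsTo ψ (x n) c := by
    intro n
    induction n with
    | zero => rw [hx0]; exact hc
    | succ n ih =>
      have h1 : EvalsTo (ratComp ψ dblR) (x (n + 1)) c := EvalsTo.comp nonConst_dblR (hstep n) ih
      rwa [h] at h1
  apply eq_of_infinite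
  have hsub : Set.range x ⊆
      {y : Cm3Bar | ∃ c', EvalsTo ψ y c' ∧ EvalsTo (RatFunc.C c) y c'} := by
    rintro _ ⟨n, rfl⟩
    exact ⟨c, hall n, evalsTo_C c (x n)⟩
  exact (Set.infinite_range_of_injective hinj).mono hsub

/-- By `evalsTo_or_inv φ e`: if `φ(e) = c` then `φ(x n) = c` for all `n` (`EvalsTo.comp`), so `φ = c`; else `1/φ`, which is invariant too,
vanishes at all `x n`, so `1/φ = 0`. -/
theorem const_of_comp_dblR {φ : RatFunc Cm3Bar} (h : ratComp φ dblR = φ) :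
    ∃ α : Cm3Bar, φ = RatFunc.C α := by
  rcases evalsTo_or_inv φ trRoot with ⟨c, hc⟩ | h0
  · exact ⟨c, const_of_comp_dblR_of_evalsTo h hc⟩
  · have hinv : ratComp φ⁻¹ dblR = φ⁻¹ := by rw [ratComp_inv nonConst_dblR, h]
    have h1 : φ⁻¹ = RatFunc.C 0 := const_of_comp_dblR_of_evalsTo hinv h0
    refine ⟨0, ?_⟩
    rw [map_zero] at h1 ⊢
    exact inv_eq_zero.mp h1

end ModG2

/-! ## G1. An endomorphism multiplies the invariant differential by a constant  (port by helper239) -/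

section ModG1

open scoped Classical
open WeierstrassCurve Polynomial

/-- `φ = R' / S` satisfies `φ ∘ dblR = φ`: differentiate the first equation of `Rep.comm_two` (chain rule, `ratDeriv_dblR`) and divide by the second. -/
theorem Rep.exists_const {f : EndE} {R S : RatFunc Cm3Bar} (h : Rep f R S) :
    ∃ α : Cm3Bar, ratDeriv R = RatFunc.C α * S := by
  obtain ⟨h1, h2⟩ := h.comm_two
  have hR : NonConst R := h.nonConst
  have hS : S ≠ 0 := h.S_ne_zero
  have hD : NonConst dblR := nonConst_dblR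
  have hdS : dblS ≠ 0 := dblS_ne_zero
  have hdSR : ratComp dblS R ≠ 0 := fun h0 => hdS ((ratComp_eq_zero_iff hR).1 h0)
  have hSD : ratComp S dblR ≠ 0 := fun h0 => hS ((ratComp_eq_zero_iff hD).1 h0)
  have h2' : (RatFunc.C (2 : Cm3Bar)) ≠ 0 := by
    rw [Ne, map_eq_zero]
    exact two_ne_zero
  -- differentiate `R ∘ dblR = dblR ∘ R`
  have h3 : ratComp (ratDeriv R) dblR * (RatFunc.C 2 * dblS) =
      RatFunc.C 2 * ratComp dblS R * ratDeriv R := by
    have e := congrArg ratDeriv h1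
    rw [ratDeriv_ratComp hD, ratDeriv_ratComp hR, ratDeriv_dblR, ratComp_mul hR, ratComp_C] at e
    exact e
  have h4 : ratComp (ratDeriv R) dblR * dblS = ratComp dblS R * ratDeriv R := by
    apply mul_left_cancel₀ h2'
    linear_combination h3
  -- `φ = R' / S` is invariant
  have h5 : ratComp (ratDeriv R / S) dblR = ratDeriv R / S := by
    rw [ratComp_div hD, div_eq_div_iff hSD hS]
    apply mul_left_cancel₀ hdS
    apply mul_left_cancel₀ hdSR
    linear_combination (ratComp dblS R * S) * h4 - (ratComp dblS R * ratDeriv R) * h2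
  obtain ⟨α, hα⟩ := const_of_comp_dblR h5
  exact ⟨α, by rw [← hα, div_mul_cancel₀ _ hS]⟩

end ModG1

/-! ## H. The Galois action: conjugates of endomorphisms  (helper10) -/

section ModH

open scoped Classical
open WeierstrassCurve Polynomial


theorem galPts_some (σ : Gal(Cm3Bar/Cm3Field)) {x y : Cm3Bar} (h : EC.Nonsingular x y) :
    ∃ h' : EC.Nonsingular (σ x) (σ y),
      galPts trCurve σ (.some x y h) = .some (σ x) (σ y) h' :=
  galPts_some_eq trCurve σ h
theorem galPts_inv_apply (σ : Gal(Cm3Bar/Cm3Field)) (P : PtsBar trCurve) :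
    galPts trCurve σ⁻¹ (galPts trCurve σ P) = P := by
  rcases P with _ | ⟨x, y, h⟩
  · rfl
  · obtain ⟨h₁, e₁⟩ := galPts_some σ h
    obtain ⟨h₂, e₂⟩ := galPts_some σ⁻¹ h₁
    rw [e₁, e₂, Affine.Point.some.injEq]
    have hx : ∀ z : Cm3Bar, σ⁻¹ (σ z) = z := fun z => by
      have : (σ⁻¹ * σ) z = z := by rw [inv_mul_cancel]; rfl
      exact this
    exact ⟨hx x, hx y⟩
theorem galPts_apply_inv (σ : Gal(Cm3Bar/Cm3Field)) (P : PtsBar trCurve) :
    galPts trCurve σ (galPts trCurve σ⁻¹ P) = P := by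
  have := galPts_inv_apply σ⁻¹ P
  rwa [inv_inv] at this
theorem gconj_apply (σ : Gal(Cm3Bar/Cm3Field)) (f : EndE) (P : PtsBar trCurve) :
    gconj σ f P = galPts trCurve σ (f (galPts trCurve σ⁻¹ P)) := rfl

/-- `(σ f σ⁻¹) (x, y) = σ (f (σ⁻¹ x, σ⁻¹ y)) = (R^σ (x), y S^σ (x))` (compare `CubeEnd.Rep.ratMap_of_comm`) -/
theorem Rep.conj {f : EndE} {R S : RatFunc Cm3Bar} (h : Rep f R S) (σ : Gal(Cm3Bar/Cm3Field)) :
    Rep (gconj σ f) (ratMap (σ : Cm3Bar →+* Cm3Bar) R) (ratMap (σ : Cm3Bar →+* Cm3Bar) S) := by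
  obtain ⟨B, hB, H⟩ := h
  refine ⟨σ '' B, hB.image _, fun x y h hx => ?_⟩
  obtain ⟨x₀, rfl⟩ := σ.surjective x
  obtain ⟨y₀, rfl⟩ := σ.surjective y
  have h₀ : EC.Nonsingular x₀ y₀ := by
    rw [nonsingular_iff] at h ⊢
    apply σ.injective
    rw [map_pow, map_add, map_sub, map_pow, map_mul, map_one, map_ofNat]
    exact h
  have hx₀ : x₀ ∉ B := fun hb => hx ⟨x₀, hb, rfl⟩
  obtain ⟨r, s, h', hr, hs, e⟩ := H x₀ y₀ h₀ hx₀
  obtain ⟨h₁, e₁⟩ := galPts_some σ h₀
  obtain ⟨h₂, e₂⟩ := galPts_some σ h'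
  refine ⟨σ r, σ s, by rw [← map_mul]; exact h₂, hr.ratMap (σ : Cm3Bar →+* Cm3Bar),
    hs.ratMap (σ : Cm3Bar →+* Cm3Bar), ?_⟩
  have e₃ : galPts trCurve σ⁻¹ (.some (σ x₀) (σ y₀) h) = .some x₀ y₀ h₀ := by
    have := galPts_inv_apply σ (.some x₀ y₀ h₀)
    rwa [e₁] at this
  rw [gconj_apply, e₃, e, e₂, Affine.Point.some.injEq]
  exact ⟨rfl, map_mul _ _ _⟩

/-- `ratDeriv_ratMap`, `ratMap_mul`, `ratMap_C` -/
theorem HasA.conj {f : EndE} {α : Cm3Bar} (h : HasA f α) (σ : Gal(Cm3Bar/Cm3Field)) :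
    HasA (gconj σ f) (σ α) := by
  rcases h with ⟨rfl, rfl⟩ | ⟨R, S, hRS, hd⟩
  · refine Or.inl ⟨?_, map_zero _⟩
    ext P
    rw [gconj_apply, AddMonoidHom.zero_apply, map_zero, AddMonoidHom.zero_apply]
  · refine Or.inr ⟨_, _, hRS.conj σ, ?_⟩
    rw [ratDeriv_ratMap, hd, ratMap_mul, ratMap_C]
    rfl

end ModH

/-! ## K. `f ↦ α` is an injective ring homomorphism  (port by helper239) -/

section ModK

open scoped Classical
open WeierstrassCurve Polynomial

variable {f g : EndE} {α β : Cm3Bar}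

theorem hasA_zero : HasA 0 0 := Or.inl ⟨rfl, rfl⟩

private theorem HasA.congr {f' : EndE} {α' : Cm3Bar} (h : HasA f α) (hf : f = f') (hα : α = α') :
    HasA f' α' := by
  subst hf hα
  exact h

theorem exists_hasA (hf : IsAlgebraicEndomorphism trCurve f) : ∃ α, HasA f α := by
  rcases rep_of_isAlgebraic hf with rfl | ⟨R, S, h⟩
  · exact ⟨0, hasA_zero⟩
  · obtain ⟨α, hα⟩ := h.exists_const
    exact ⟨α, Or.inr ⟨R, S, h, hα⟩⟩

theorem HasA.unique (h : HasA f α) (h' : HasA f β) : α = β := by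
  rcases h with ⟨h0, rfl⟩ | ⟨R, S, hR, hα⟩
  · rcases h' with ⟨-, rfl⟩ | ⟨R', S', hR', -⟩
    · rfl
    · exact absurd h0 hR'.ne_zero
  · rcases h' with ⟨h0, rfl⟩ | ⟨R', S', hR', hβ⟩
    · exact absurd h0 hR.ne_zero
    · obtain ⟨rfl, rfl⟩ := hR.unique hR'
      rw [hα] at hβ
      exact RatFunc.C_injective (mul_right_cancel₀ hR.S_ne_zero hβ)

theorem HasA.neg (h : HasA f α) : HasA (-f) (-α) := by
  rcases h with ⟨rfl, rfl⟩ | ⟨R, S, hR, hα⟩
  · exact hasA_zero.congr (neg_zero (G := EndE)).symm neg_zero.symm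
  · refine Or.inr ⟨R, -S, hR.neg, ?_⟩
    rw [hα, map_neg]
    ring

theorem HasA.comp (hf : HasA f α) (hg : HasA g β) : HasA (f.comp g) (α * β) := by
  rcases hf with ⟨rfl, rfl⟩ | ⟨R₁, S₁, hR₁, hα⟩
  · simpa using hasA_zero
  rcases hg with ⟨rfl, rfl⟩ | ⟨R₂, S₂, hR₂, hβ⟩
  · simpa using hasA_zero
  refine Or.inr ⟨_, _, hR₁.comp hR₂, ?_⟩
  rw [ratDeriv_ratComp hR₂.nonConst, hα, hβ, ratComp_mul hR₂.nonConst, ratComp_C, map_mul]
  ring

private theorem two_comp (f : EndE) : (2 • AddMonoidHom.id (PtsBar trCurve)).comp f = f + f := by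
  ext P
  simp [two_nsmul]

/-- `R₁ ≠ R₂`: `Rep.add_of_ne`, `chord_identity`.  `R₁ = R₂`: `S₂ = ± S₁` by `Rep.curve`, so `g = ± f` by `Rep.ext`; `f + f = [2] ∘ f`. -/
theorem HasA.add (hf : HasA f α) (hg : HasA g β) : HasA (f + g) (α + β) := by
  have hf0 := hf
  have hg0 := hg
  rcases hf with ⟨rfl, rfl⟩ | ⟨R₁, S₁, hR₁, hα⟩
  · exact hg.congr (zero_add g).symm (zero_add β).symm
  rcases hg with ⟨rfl, rfl⟩ | ⟨R₂, S₂, hR₂, hβ⟩
  · exact hf0.congr (add_zero f).symm (add_zero α).symm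
  by_cases hne : R₁ = R₂
  · subst hne
    have hsq : S₁ ^ 2 = S₂ ^ 2 := by
      have h1 := hR₁.curve
      have h2 := hR₂.curve
      exact mul_left_cancel₀ wF_ne_zero (h1.trans h2.symm)
    rcases sq_eq_sq_iff_eq_or_eq_neg.mp hsq with rfl | hS
    · obtain rfl : f = g := hR₁.ext hR₂
      obtain rfl : α = β := hf0.unique hg0
      have := HasA.comp hasA_two hf0
      rw [two_comp] at this
      rwa [← two_mul]
    · have hng : Rep (-g) R₁ S₁ := by
        rw [hS]
        exact hR₂.neg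
      obtain rfl : f = -g := hR₁.ext hng
      obtain rfl : α = -β := hf0.unique hg0.neg
      exact hasA_zero.congr (neg_add_cancel g).symm (neg_add_cancel β).symm
  · refine Or.inr ⟨_, _, hR₁.add_of_ne hR₂ hne, ?_⟩
    rw [map_add]
    exact chord_identity wF_ne_zero hR₁.S_ne_zero hR₂.S_ne_zero hne hR₁.curve hR₂.curve hα hβ

theorem HasA.sub (hf : HasA f α) (hg : HasA g β) : HasA (f - g) (α - β) := by
  exact (hf.add hg.neg).congr (sub_eq_add_neg f g).symm (sub_eq_add_neg α β).symm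

theorem HasA.zsmul (hf : HasA f α) (n : ℤ) : HasA (n • f) (n * α) := by
  induction n using Int.induction_on with
  | zero => exact hasA_zero.congr (zero_zsmul f).symm (by simp)
  | succ n ih =>
    refine (ih.add hf).congr ?_ (by push_cast; ring)
    exact ((add_zsmul f (n : ℤ) 1).trans (congrArg _ (one_zsmul f))).symm
  | pred n ih =>
    refine (ih.sub hf).congr ?_ (by push_cast; ring)
    exact ((sub_zsmul f (-(n : ℤ)) 1).trans (congrArg (fun t => -(n : ℤ) • f - t) (one_zsmul f))).symm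

/-- `R' = 0` is impossible for a non-constant `R` -/
theorem HasA.eq_zero (h : HasA f 0) : f = 0 := by
  rcases h with ⟨h0, -⟩ | ⟨R, S, hR, hα⟩
  · exact h0
  · exfalso
    apply ratDeriv_ne_zero_of_nonConst hR.nonConst
    rw [hα, map_zero, zero_mul]

theorem HasA.ext (hf : HasA f α) (hg : HasA g α) : f = g := by
  have := hf.sub hg
  rw [sub_self] at this
  exact sub_eq_zero.mp this.eq_zero

theorem hasA_zsmul_id (n : ℤ) : HasA (n • AddMonoidHom.id _) n := by
  have := hasA_id.zsmul n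
  rwa [mul_one] at this

end ModK

/-! ## I2a. Parity of the degree at infinity  (helper175) -/

section ModI2a

open scoped Classical
open WeierstrassCurve Polynomial

/-- the generic form of `mobius_parity`, over any field -/
theorem mobius_parity_aux {k : Type} [Field k] {a b c d : k} {S : RatFunc k} (hc : c ≠ 0)
    (hcurve : (RatFunc.X ^ 3 - 3 * RatFunc.X + 1) * S ^ 2 =
      ((RatFunc.C a * RatFunc.X + RatFunc.C b) / (RatFunc.C c * RatFunc.X + RatFunc.C d)) ^ 3 -
        3 * ((RatFunc.C a * RatFunc.X + RatFunc.C b) / (RatFunc.C c * RatFunc.X + RatFunc.C d)) + 1) :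
    a ^ 3 - 3 * a * c ^ 2 + c ^ 3 = 0 := by
  by_contra hne
  -- the polynomials
  obtain ⟨P, hP⟩ : ∃ P : k[X], P = C a * X + C b := ⟨_, rfl⟩
  obtain ⟨Q, hQ⟩ : ∃ Q : k[X], Q = C c * X + C d := ⟨_, rfl⟩
  obtain ⟨W, hW⟩ : ∃ W : k[X], W = C 1 * X ^ 3 + C 0 * X ^ 2 + C (-3) * X + C 1 := ⟨_, rfl⟩
  have hQdeg : Q.natDegree = 1 := by rw [hQ]; exact natDegree_linear hc
  have hQ0 : Q ≠ 0 := fun h => by rw [h] at hQdeg; simp at hQdeg
  have hWdeg : W.natDegree = 3 := by rw [hW]; exact natDegree_cubic one_ne_zero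
  have hW0 : W ≠ 0 := fun h => by rw [h] at hWdeg; simp at hWdeg
  have hN : P ^ 3 - 3 * P * Q ^ 2 + Q ^ 3 =
      C (a ^ 3 - 3 * a * c ^ 2 + c ^ 3) * X ^ 3 +
        C (3 * a ^ 2 * b - 6 * a * c * d - 3 * b * c ^ 2 + 3 * c ^ 2 * d) * X ^ 2 +
        C (3 * a * b ^ 2 - 3 * a * d ^ 2 - 6 * b * c * d + 3 * c * d ^ 2) * X +
        C (b ^ 3 - 3 * b * d ^ 2 + d ^ 3) := by
    simp only [hP, hQ, map_add, map_sub, map_mul, map_pow, map_ofNat]
    ring
  have hNdeg : (P ^ 3 - 3 * P * Q ^ 2 + Q ^ 3).natDegree = 3 := by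
    rw [hN]; exact natDegree_cubic hne
  have hN0 : P ^ 3 - 3 * P * Q ^ 2 + Q ^ 3 ≠ 0 := fun h => by rw [h] at hNdeg; simp at hNdeg
  -- their images in the field of rational functions
  have inj := RatFunc.algebraMap_injective k
  have eP : algebraMap k[X] (RatFunc k) P = RatFunc.C a * RatFunc.X + RatFunc.C b := by
    simp [hP, RatFunc.algebraMap_C, RatFunc.algebraMap_X]
  have eQ : algebraMap k[X] (RatFunc k) Q = RatFunc.C c * RatFunc.X + RatFunc.C d := by
    simp [hQ, RatFunc.algebraMap_C, RatFunc.algebraMap_X]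
  have eW : algebraMap k[X] (RatFunc k) W = RatFunc.X ^ 3 - 3 * RatFunc.X + 1 := by
    simp only [hW, map_add, map_mul, map_pow, RatFunc.algebraMap_X, map_one,
      map_zero, map_neg, map_ofNat]
    ring
  have hQ' : algebraMap k[X] (RatFunc k) Q ≠ 0 := fun h => hQ0 (inj (by rw [h, map_zero]))
  have hW' : algebraMap k[X] (RatFunc k) W ≠ 0 := fun h => hW0 (inj (by rw [h, map_zero]))
  have hN' : algebraMap k[X] (RatFunc k) (P ^ 3 - 3 * P * Q ^ 2 + Q ^ 3) ≠ 0 :=
    fun h => hN0 (inj (by rw [h, map_zero]))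
  rw [← eP, ← eQ, ← eW] at hcurve
  -- clear the denominator
  have key : algebraMap k[X] (RatFunc k) W * S ^ 2 * algebraMap k[X] (RatFunc k) (Q ^ 3) =
      algebraMap k[X] (RatFunc k) (P ^ 3 - 3 * P * Q ^ 2 + Q ^ 3) := by
    rw [hcurve, map_add, map_sub, map_mul, map_mul, map_pow, map_pow, map_pow, map_ofNat]
    field_simp
  have hS : S ≠ 0 := by
    intro h
    rw [h] at key
    apply hN'
    rw [← key]
    simp
  have hQ3' : algebraMap k[X] (RatFunc k) (Q ^ 3) ≠ 0 := by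
    rw [map_pow]; exact pow_ne_zero _ hQ'
  have hdeg := congrArg RatFunc.intDegree key
  rw [RatFunc.intDegree_mul (mul_ne_zero hW' (pow_ne_zero _ hS)) hQ3',
    RatFunc.intDegree_mul hW' (pow_ne_zero _ hS), pow_two, RatFunc.intDegree_mul hS hS,
    RatFunc.intDegree_polynomial, RatFunc.intDegree_polynomial, RatFunc.intDegree_polynomial,
    hWdeg, hNdeg, natDegree_pow, hQdeg] at hdeg
  push_cast at hdeg
  omega

/-- If `a³ - 3 a c² + c³ ≠ 0` then `R³ - 3 R + 1 = ((a x + b)³ - 3 (a x + b) (c x + d)² + (c x + d)³) / (c x + d)³` has `RatFunc.intDegree` `0`,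
but `w S²` has odd `intDegree` (or is `0`). -/
theorem mobius_parity {a b c d : Cm3Bar} {S : RatFunc Cm3Bar} (hc : c ≠ 0)
    (hcurve : wF * S ^ 2 =
      ((RatFunc.C a * RatFunc.X + RatFunc.C b) / (RatFunc.C c * RatFunc.X + RatFunc.C d)) ^ 3 -
        3 * ((RatFunc.C a * RatFunc.X + RatFunc.C b) / (RatFunc.C c * RatFunc.X + RatFunc.C d)) + 1) :
    a ^ 3 - 3 * a * c ^ 2 + c ^ 3 = 0 :=
  mobius_parity_aux hc hcurve

end ModI2a

/-! ## I2b. A Möbius map commuting with `x ↦ x(2P)`  (helper139) -/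

section ModI2b

open scoped Classical
open WeierstrassCurve Polynomial

/-- an affine form `c x + d` with `(c, d) ≠ (0, 0)` is not the zero rational function -/
private theorem affine_ne_zero_aux {k : Type} [Field k] {c d : k} (h : c ≠ 0 ∨ d ≠ 0) :
    (RatFunc.C c * RatFunc.X + RatFunc.C d : RatFunc k) ≠ 0 := by
  intro h0
  have e : algebraMap k[X] (RatFunc k) (Polynomial.C c * Polynomial.X + Polynomial.C d) =
      algebraMap k[X] (RatFunc k) 0 := by
    rw [map_add, map_mul, RatFunc.algebraMap_X, RatFunc.algebraMap_C, RatFunc.algebraMap_C, h0,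
      map_zero]
  have e' := RatFunc.algebraMap_injective k e
  have h1 : c = 0 := by
    have := congrArg (fun p : k[X] => p.coeff 1) e'
    simpa using this
  have h2 : d = 0 := by
    have := congrArg (fun p : k[X] => p.coeff 0) e'
    simpa using this
  rcases h with h | h
  · exact h h1
  · exact h h2

/-- a Möbius map of non-zero determinant is not constant -/
private theorem nonConst_mobius_aux {k : Type} [Field k] {a b c d : k} (hdet : a * d - b * c ≠ 0) :
    NonConst ((RatFunc.C a * RatFunc.X + RatFunc.C b) / (RatFunc.C c * RatFunc.X + RatFunc.C d) :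
      RatFunc k) := by
  intro e he
  have hcd : c ≠ 0 ∨ d ≠ 0 := by
    by_contra hcon
    push Not at hcon
    apply hdet
    rw [hcon.1, hcon.2]
    ring
  have hv := affine_ne_zero_aux hcd
  rw [div_eq_iff hv] at he
  have e1 : algebraMap k[X] (RatFunc k) (Polynomial.C a * Polynomial.X + Polynomial.C b) =
      algebraMap k[X] (RatFunc k)
        (Polynomial.C e * (Polynomial.C c * Polynomial.X + Polynomial.C d)) := by
    simp only [map_add, map_mul, RatFunc.algebraMap_X, RatFunc.algebraMap_C]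
    exact he
  have e' := RatFunc.algebraMap_injective k e1
  have e2 : Polynomial.C e * (Polynomial.C c * Polynomial.X + Polynomial.C d) =
      Polynomial.C (e * c) * Polynomial.X + Polynomial.C (e * d) := by
    rw [Polynomial.C_mul, Polynomial.C_mul]
    ring
  rw [e2] at e'
  have h1 : a = e * c := by
    have := congrArg (fun p : k[X] => p.coeff 1) e'
    simpa using this
  have h2 : b = e * d := by
    have := congrArg (fun p : k[X] => p.coeff 0) e'
    simpa using this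
  apply hdet
  rw [h1, h2]
  ring

/-- the coefficient of `x⁸` in the cross-multiplied identity -/
private theorem coeff_eight_aux {k : Type} [Field k] {a b c d : k}
    (h : (Polynomial.C a * (X ^ 4 + 6 * X ^ 2 - 8 * X + 9) + 4 * Polynomial.C b * (X ^ 3 - 3 * X + 1)) *
        (4 * ((Polynomial.C a * X + Polynomial.C b) ^ 3 -
            3 * (Polynomial.C a * X + Polynomial.C b) * (Polynomial.C c * X + Polynomial.C d) ^ 2 +
            (Polynomial.C c * X + Polynomial.C d) ^ 3) *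
          (Polynomial.C c * X + Polynomial.C d)) =
      ((Polynomial.C a * X + Polynomial.C b) ^ 4 +
          6 * (Polynomial.C a * X + Polynomial.C b) ^ 2 * (Polynomial.C c * X + Polynomial.C d) ^ 2 -
          8 * (Polynomial.C a * X + Polynomial.C b) * (Polynomial.C c * X + Polynomial.C d) ^ 3 +
          9 * (Polynomial.C c * X + Polynomial.C d) ^ 4) *
        (Polynomial.C c * (X ^ 4 + 6 * X ^ 2 - 8 * X + 9) + 4 * Polynomial.C d * (X ^ 3 - 3 * X + 1))) :
    a * (4 * (a ^ 3 - 3 * a * c ^ 2 + c ^ 3) * c) =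
      (a ^ 4 + 6 * a ^ 2 * c ^ 2 - 8 * a * c ^ 3 + 9 * c ^ 4) * c := by
  have hl : ((Polynomial.C a * (X ^ 4 + 6 * X ^ 2 - 8 * X + 9) + 4 * Polynomial.C b * (X ^ 3 - 3 * X + 1)) *
        (4 * ((Polynomial.C a * X + Polynomial.C b) ^ 3 -
            3 * (Polynomial.C a * X + Polynomial.C b) * (Polynomial.C c * X + Polynomial.C d) ^ 2 +
            (Polynomial.C c * X + Polynomial.C d) ^ 3) *
          (Polynomial.C c * X + Polynomial.C d))).coeff 8 =
      a * (4 * (a ^ 3 - 3 * a * c ^ 2 + c ^ 3) * c) := by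
    compute_degree!
  have hr : (((Polynomial.C a * X + Polynomial.C b) ^ 4 +
          6 * (Polynomial.C a * X + Polynomial.C b) ^ 2 * (Polynomial.C c * X + Polynomial.C d) ^ 2 -
          8 * (Polynomial.C a * X + Polynomial.C b) * (Polynomial.C c * X + Polynomial.C d) ^ 3 +
          9 * (Polynomial.C c * X + Polynomial.C d) ^ 4) *
        (Polynomial.C c * (X ^ 4 + 6 * X ^ 2 - 8 * X + 9) + 4 * Polynomial.C d * (X ^ 3 - 3 * X + 1))).coeff 8 =
      (a ^ 4 + 6 * a ^ 2 * c ^ 2 - 8 * a * c ^ 3 + 9 * c ^ 4) * c := by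
    compute_degree!
  rw [← hl, ← hr, h]

/-- With `n = x⁴ + 6 x² - 8 x + 9`, `w = x³ - 3 x + 1`, `Y = a x + b`, `Z = c x + d`: cross-multiplied, `R ∘ dblR = dblR ∘ R` says
`(a n + 4 b w) · 4 Z (Y³ - 3 Y Z² + Z³) = (c n + 4 d w) · (Y⁴ + 6 Y² Z² - 8 Y Z³ + 9 Z⁴)`; compare the coefficients of `x⁸`.
(The denominators are not `0`: `c n + 4 d w = 0` forces `c = d = 0`; `Y³ - 3 Y Z² + Z³ = 0` forces `a d - b c = 0`:
its coefficients of `x³`, `x²` are `p = a³ - 3 a c² + c³`, `q = 3 a² b - 3 b c² - 6 a c d + 3 c² d`, and `d p - c q / 3 = (a d - b c) (a² - c²)`,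
`b p - a q / 3 = (a d - b c) (2 a c - c²)`.) -/
theorem mobius_comm_coeff {a b c d : Cm3Bar} (hdet : a * d - b * c ≠ 0)
    (hcomm : ratComp
        ((RatFunc.C a * RatFunc.X + RatFunc.C b) / (RatFunc.C c * RatFunc.X + RatFunc.C d)) dblR =
      ratComp dblR
        ((RatFunc.C a * RatFunc.X + RatFunc.C b) / (RatFunc.C c * RatFunc.X + RatFunc.C d))) :
    4 * a * c * (a ^ 3 - 3 * a * c ^ 2 + c ^ 3) =
      c * (a ^ 4 + 6 * a ^ 2 * c ^ 2 - 8 * a * c ^ 3 + 9 * c ^ 4) := by
  have hcd : c ≠ 0 ∨ d ≠ 0 := by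
    by_contra hcon
    push Not at hcon
    apply hdet
    rw [hcon.1, hcon.2]
    ring
  have hR := nonConst_mobius_aux hdet
  have hD := nonConst_dblR
  have hv := affine_ne_zero_aux hcd
  set u : RatFunc Cm3Bar := RatFunc.C a * RatFunc.X + RatFunc.C b with hu
  set v : RatFunc Cm3Bar := RatFunc.C c * RatFunc.X + RatFunc.C d with hvdef
  set R : RatFunc Cm3Bar := u / v with hRdef
  have hRv : R * v = u := div_mul_cancel₀ u hv
  -- the two compositions
  have e1 : ratComp R dblR = (RatFunc.C a * dblR + RatFunc.C b) / (RatFunc.C c * dblR + RatFunc.C d) := by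
    rw [hRdef, hu, hvdef, ratComp_div hD, ratComp_add hD, ratComp_add hD, ratComp_mul hD,
      ratComp_mul hD]
    simp only [ratComp_C, ratComp_X]
  have e2 : ratComp dblR R = (R ^ 4 + 6 * R ^ 2 - 8 * R + 9) / (4 * (R ^ 3 - 3 * R + 1)) := by
    unfold dblR
    simp only [ratComp_div hR, ratComp_sub hR, ratComp_mul hR, ratComp_add hR, ratComp_pow hR,
      ratComp_X, ratComp_one]
    rw [ratComp_ofNat R 6, ratComp_ofNat R 8, ratComp_ofNat R 9, ratComp_ofNat R 4,
      ratComp_ofNat R 3]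
  -- non-vanishing of the denominators
  have h4 : (4 : RatFunc Cm3Bar) ≠ 0 := by
    have : (4 : RatFunc Cm3Bar) = RatFunc.C 4 := (map_ofNat RatFunc.C 4).symm
    rw [this]
    intro h
    have h' : (4 : Cm3Bar) = 0 := RatFunc.C_injective (by rw [h, map_zero])
    norm_num at h'
  have hp : (X ^ 3 - 3 * X + 1 : Cm3Bar[X]) ≠ 0 := by
    intro h
    have := congrArg (fun p : Cm3Bar[X] => p.coeff 0) h
    simp at this
  have hw : (RatFunc.X ^ 3 - 3 * RatFunc.X + 1 : RatFunc Cm3Bar) ≠ 0 := by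
    have := aeval_ne_zero_of_nonConst (nonConst_X (k := Cm3Bar)) hp
    simpa [Polynomial.eval₂_ofNat] using this
  have hR3 : R ^ 3 - 3 * R + 1 ≠ 0 := by
    have := aeval_ne_zero_of_nonConst hR hp
    simpa [Polynomial.eval₂_ofNat] using this
  have hd1 : RatFunc.C c * dblR + RatFunc.C d ≠ 0 := by
    intro h0
    by_cases hc : c = 0
    · rw [hc] at h0
      have hd0 : d = 0 := RatFunc.C_injective (by simpa using h0)
      rcases hcd with h | h
      · exact h hc
      · exact h hd0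
    · apply hD (-d / c)
      have hC : (RatFunc.C c : RatFunc Cm3Bar) ≠ 0 := by
        intro h
        exact hc (RatFunc.C_injective (by simpa using h))
      rw [map_div₀, map_neg, eq_div_iff hC]
      linear_combination h0
  have hDw : dblR * (4 * (RatFunc.X ^ 3 - 3 * RatFunc.X + 1)) =
      RatFunc.X ^ 4 + 6 * RatFunc.X ^ 2 - 8 * RatFunc.X + 9 := by
    unfold dblR
    exact div_mul_cancel₀ _ (mul_ne_zero h4 hw)
  rw [e1, e2, div_eq_div_iff hd1 (mul_ne_zero h4 hR3)] at hcomm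
  -- the cross-multiplied identity
  have key : (RatFunc.C a * (RatFunc.X ^ 4 + 6 * RatFunc.X ^ 2 - 8 * RatFunc.X + 9) +
          4 * RatFunc.C b * (RatFunc.X ^ 3 - 3 * RatFunc.X + 1)) *
        (4 * (u ^ 3 - 3 * u * v ^ 2 + v ^ 3) * v) =
      (u ^ 4 + 6 * u ^ 2 * v ^ 2 - 8 * u * v ^ 3 + 9 * v ^ 4) *
        (RatFunc.C c * (RatFunc.X ^ 4 + 6 * RatFunc.X ^ 2 - 8 * RatFunc.X + 9) +
          4 * RatFunc.C d * (RatFunc.X ^ 3 - 3 * RatFunc.X + 1)) := by
    rw [← hDw, ← hRv]
    linear_combination (4 * (RatFunc.X ^ 3 - 3 * RatFunc.X + 1) * v ^ 4) * hcomm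
  have keyP : algebraMap Cm3Bar[X] (RatFunc Cm3Bar)
      ((Polynomial.C a * (X ^ 4 + 6 * X ^ 2 - 8 * X + 9) + 4 * Polynomial.C b * (X ^ 3 - 3 * X + 1)) *
        (4 * ((Polynomial.C a * X + Polynomial.C b) ^ 3 -
            3 * (Polynomial.C a * X + Polynomial.C b) * (Polynomial.C c * X + Polynomial.C d) ^ 2 +
            (Polynomial.C c * X + Polynomial.C d) ^ 3) *
          (Polynomial.C c * X + Polynomial.C d))) =
      algebraMap Cm3Bar[X] (RatFunc Cm3Bar)
      (((Polynomial.C a * X + Polynomial.C b) ^ 4 +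
          6 * (Polynomial.C a * X + Polynomial.C b) ^ 2 * (Polynomial.C c * X + Polynomial.C d) ^ 2 -
          8 * (Polynomial.C a * X + Polynomial.C b) * (Polynomial.C c * X + Polynomial.C d) ^ 3 +
          9 * (Polynomial.C c * X + Polynomial.C d) ^ 4) *
        (Polynomial.C c * (X ^ 4 + 6 * X ^ 2 - 8 * X + 9) + 4 * Polynomial.C d * (X ^ 3 - 3 * X + 1))) := by
    simp only [map_add, map_sub, map_mul, map_pow, map_one, map_ofNat, RatFunc.algebraMap_X,
      RatFunc.algebraMap_C]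
    exact key
  have h8 := coeff_eight_aux (RatFunc.algebraMap_injective Cm3Bar keyP)
  linear_combination h8

end ModI2b

/-! ## I3. The automorphisms of `y² = x³ - 3 x + 1`  (helper139) -/

section ModI3

open scoped Classical
open WeierstrassCurve Polynomial

/-- `R = a x + b`, `R' = α S`, `w S² = R³ - 3 R + 1` force `b = 0`, `a = α⁻² = α²`, `a² = α²`, so `α² = 1` -/
theorem sq_of_affine {a b α : Cm3Bar} {S : RatFunc Cm3Bar} (ha : a ≠ 0) (hα : α ≠ 0)
    (hcurve : wF * S ^ 2 = (RatFunc.C a * RatFunc.X + RatFunc.C b) ^ 3 -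
      3 * (RatFunc.C a * RatFunc.X + RatFunc.C b) + 1)
    (hA : ratDeriv (RatFunc.C a * RatFunc.X + RatFunc.C b) = RatFunc.C α * S) : α ^ 2 = 1 := by
  -- `S` is the constant `a / α`
  have hD : ratDeriv (RatFunc.C a * RatFunc.X + RatFunc.C b) = RatFunc.C a := by
    rw [ratDeriv_add, ratDeriv_C_mul, ratDeriv_X, ratDeriv_C, mul_one, add_zero]
  have hS : S = RatFunc.C (a / α) := by
    have hCα : (RatFunc.C α : RatFunc Cm3Bar) ≠ 0 := by
      rw [Ne, ← RatFunc.C.map_zero]
      exact fun h => hα (RatFunc.C_injective h)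
    have h1 : RatFunc.C α * S = RatFunc.C α * RatFunc.C (a / α) := by
      rw [← hA, hD, ← RatFunc.C.map_mul]
      congr 1
      field_simp
    exact mul_left_cancel₀ hCα h1
  -- values at a point
  have key : ∀ x : Cm3Bar, (x ^ 3 - 3 * x + 1) * (a / α) ^ 2 = (a * x + b) ^ 3 - 3 * (a * x + b) + 1 := by
    intro x
    have e1 : EvalsTo (wF * S ^ 2) x ((x ^ 3 - 3 * x + 1) * (a / α) ^ 2) := by
      rw [hS]
      exact (evalsTo_wF x).mul ((evalsTo_C _ x).pow 2)
    have e0 : EvalsTo (RatFunc.C a * RatFunc.X + RatFunc.C b) x (a * x + b) :=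
      ((evalsTo_C a x).mul (evalsTo_X x)).add (evalsTo_C b x)
    have e2 : EvalsTo ((RatFunc.C a * RatFunc.X + RatFunc.C b) ^ 3 -
        3 * (RatFunc.C a * RatFunc.X + RatFunc.C b) + 1) x ((a * x + b) ^ 3 - 3 * (a * x + b) + 1) :=
      ((e0.pow 3).sub ((evalsTo_ofNat 3 x).mul e0)).add (evalsTo_one x)
    rw [hcurve] at e1
    exact e1.unique e2
  have k0 := key 0
  have k1 := key 1
  have km := key (-1)
  have k2 := key 2
  set s := a / α with hs
  have hb : b = 0 := by
    have h3 : 6 * (a ^ 2 * b) = 0 := by linear_combination -(k1 + km - 2 * k0)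
    have h4 : a ^ 2 * b = 0 := by
      rcases mul_eq_zero.1 h3 with h | h
      · norm_num at h
      · exact h
    rcases mul_eq_zero.1 h4 with h | h
    · exact absurd ((pow_eq_zero_iff two_ne_zero).1 h) ha
    · exact h
  subst hb
  have hs2 : s ^ 2 = 1 := by linear_combination k0
  have ha1 : a = 1 := by
    have h9 : 18 * (a - 1) = 0 := by linear_combination (-1 : Cm3Bar) * k2 + 8 * k1 + 11 * hs2
    rcases mul_eq_zero.1 h9 with h | h
    · norm_num at h
    · linear_combination h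
  have haα : a ^ 2 = α ^ 2 := by
    have : a = s * α := by rw [hs]; field_simp
    calc a ^ 2 = (s * α) ^ 2 := by rw [← this]
      _ = s ^ 2 * α ^ 2 := by ring
      _ = α ^ 2 := by rw [hs2, one_mul]
  rw [← haα, ha1, one_pow]

/-- `g ∘ f = 1` too (`HasA.ext`), so `f` is injective, `R` is injective outside a finite set (`some_eq_or_eq_neg`), `R` is a Möbius map
(`mobius_of_injOn`) with `c = 0`: if `c ≠ 0` then `p = a³ - 3 a c² + c³ = 0` (`mobius_parity`), so `a⁴ + 6 a² c² - 8 a c³ + 9 c⁴ = 0` (`mobius_comm_coeff`,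
`Rep.comm_two`); this is `9 (a² - c²)² - 8 a p`, so `a² = c²`, then `p = c² (c - 2 a)`, `c = 2 a`, `a² = 4 a²`, `a = c = 0`. -/
theorem HasA.sq_of_comp_eq_id {f g : EndE} {α β : Cm3Bar} (hf : HasA f α) (hg : HasA g β)
    (h : f.comp g = AddMonoidHom.id _) : α ^ 2 = 1 := by
  -- `α β = 1`
  have hαβ : α * β = 1 := by
    have h1 := HasA.comp hf hg
    rw [h] at h1
    exact h1.unique hasA_id
  have hα : α ≠ 0 := left_ne_zero_of_mul_eq_one hαβ
  -- `g ∘ f = 1`
  have hgf : g.comp f = AddMonoidHom.id _ := by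
    have h1 := HasA.comp hg hf
    rw [mul_comm, hαβ] at h1
    exact h1.ext hasA_id
  have hinjf : Function.Injective f := by
    intro P Q hPQ
    have hP : g (f P) = P := DFunLike.congr_fun hgf P
    have hQ : g (f Q) = Q := DFunLike.congr_fun hgf Q
    rw [← hP, ← hQ, hPQ]
  -- the representation
  obtain ⟨R, S, hRep, hA⟩ : ∃ R S : RatFunc Cm3Bar, Rep f R S ∧ ratDeriv R = RatFunc.C α * S := by
    rcases hf with ⟨-, h0⟩ | h'
    · exact absurd h0 hα
    · exact h'
  have hRep' := hRep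
  obtain ⟨B, hB, hBf⟩ := hRep'
  have hinj : ∀ x₁ x₂ c, x₁ ∉ B → x₂ ∉ B → EvalsTo R x₁ c → EvalsTo R x₂ c → x₁ = x₂ := by
    intro x₁ x₂ c h₁ h₂ e₁ e₂
    obtain ⟨y₁, hy₁⟩ := exists_y x₁
    obtain ⟨y₂, hy₂⟩ := exists_y x₂
    have n₁ : EC.Nonsingular x₁ y₁ := nonsingular_iff.2 hy₁
    have n₂ : EC.Nonsingular x₂ y₂ := nonsingular_iff.2 hy₂
    obtain ⟨r₁, s₁, m₁, er₁, -, hf₁⟩ := hBf x₁ y₁ n₁ h₁
    obtain ⟨r₂, s₂, m₂, er₂, -, hf₂⟩ := hBf x₂ y₂ n₂ h₂
    obtain rfl : r₁ = c := er₁.unique e₁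
    obtain rfl : r₂ = r₁ := er₂.unique e₂
    rcases some_eq_or_eq_neg m₁ m₂ with hh | hh
    · rw [← hf₁, ← hf₂] at hh
      have := hinjf hh
      simp only [Affine.Point.some.injEq] at this
      exact this.1
    · rw [← hf₁, ← hf₂, ← map_neg] at hh
      have := hinjf hh
      obtain ⟨n₂', hn⟩ := neg_some n₂
      rw [hn] at this
      simp only [Affine.Point.some.injEq] at this
      exact this.1
  obtain ⟨a, b, c, d, hdet, hR⟩ := mobius_of_injOn hRep.nonConst hB hinj
  have hcurve := hRep.curve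
  have hcomm := hRep.comm_two.1
  -- `c = 0`
  have hc : c = 0 := by
    by_contra hc
    have p1 : a ^ 3 - 3 * a * c ^ 2 + c ^ 3 = 0 := by
      rw [hR] at hcurve
      exact mobius_parity hc hcurve
    have p2 : 4 * a * c * (a ^ 3 - 3 * a * c ^ 2 + c ^ 3) =
        c * (a ^ 4 + 6 * a ^ 2 * c ^ 2 - 8 * a * c ^ 3 + 9 * c ^ 4) := by
      rw [hR] at hcomm
      exact mobius_comm_coeff hdet hcomm
    have p3 : c * (a ^ 4 + 6 * a ^ 2 * c ^ 2 - 8 * a * c ^ 3 + 9 * c ^ 4) = 0 := by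
      rw [← p2, p1, mul_zero]
    have p4 : a ^ 4 + 6 * a ^ 2 * c ^ 2 - 8 * a * c ^ 3 + 9 * c ^ 4 = 0 :=
      (mul_eq_zero.1 p3).resolve_left hc
    have p5 : 9 * (a ^ 2 - c ^ 2) ^ 2 = 0 := by linear_combination p4 + 8 * a * p1
    have p6 : a ^ 2 = c ^ 2 := by
      rcases mul_eq_zero.1 p5 with h' | h'
      · norm_num at h'
      · have := (pow_eq_zero_iff two_ne_zero).1 h'
        linear_combination this
    have p7 : c ^ 2 * (c - 2 * a) = 0 := by linear_combination p1 - a * p6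
    have p8 : c = 2 * a := by
      rcases mul_eq_zero.1 p7 with h' | h'
      · exact absurd ((pow_eq_zero_iff two_ne_zero).1 h') hc
      · linear_combination h'
    have p9 : 3 * a ^ 2 = 0 := by
      rw [p8] at p6
      linear_combination -p6
    have ha0 : a = 0 := by
      rcases mul_eq_zero.1 p9 with h' | h'
      · norm_num at h'
      · exact (pow_eq_zero_iff two_ne_zero).1 h'
    apply hc
    rw [p8, ha0, mul_zero]
  subst hc
  have had : a * d ≠ 0 := by simpa using hdet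
  have ha : a ≠ 0 := left_ne_zero_of_mul had
  have hd : d ≠ 0 := right_ne_zero_of_mul had
  have hR' : R = RatFunc.C (a / d) * RatFunc.X + RatFunc.C (b / d) := by
    have hCd : (RatFunc.C d : RatFunc Cm3Bar) ≠ 0 := by
      rw [Ne, ← RatFunc.C.map_zero]
      exact fun h => hd (RatFunc.C_injective h)
    rw [hR, RatFunc.C.map_zero, zero_mul, zero_add, div_eq_iff hCd, add_mul, mul_right_comm,
      ← RatFunc.C.map_mul, ← RatFunc.C.map_mul, div_mul_cancel₀ _ hd, div_mul_cancel₀ _ hd]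
  rw [hR'] at hcurve hA
  exact sq_of_affine (div_ne_zero ha hd) hα hcurve hA

end ModI3

/-! ## J2. A rational scalar is an integer  (helper165) -/

section ModJ2

open scoped Classical
open WeierstrassCurve Polynomial

/-- `q α = p` with `q ≠ 0` forces `α ∈ ℤ`: for coprime `p, q`, `1 / q = u α + v` is the scalar of an endomorphism, so `q² = 1` (`HasA.sq_of_comp_eq_id`) -/
theorem hasA_int_of_mul_eq {f : EndE} {α : Cm3Bar} {p q : ℤ} (hq : q ≠ 0) (hf : HasA f α)
    (h : (q : Cm3Bar) * α = p) : ∃ n : ℤ, α = n := by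
  have hg0 : 0 < Int.gcd p q := Int.gcd_pos_of_ne_zero_right p hq
  obtain ⟨p', q', hcop, hp, hq'⟩ := Int.exists_gcd_one hg0
  set d : ℤ := (Int.gcd p q : ℤ) with hd
  have hd0 : (d : Cm3Bar) ≠ 0 := by
    have : d ≠ 0 := by rw [hd]; exact_mod_cast hg0.ne'
    exact_mod_cast this
  have h' : (q' : Cm3Bar) * α = p' := by
    apply mul_left_cancel₀ hd0
    have e1 : (q : Cm3Bar) = q' * d := by rw [hq']; push_cast; ring
    have e2 : (p : Cm3Bar) = p' * d := by rw [hp]; push_cast; ring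
    rw [e1, e2] at h
    linear_combination h
  obtain ⟨u, v, huv⟩ := Int.isCoprime_iff_gcd_eq_one.2 hcop
  have he : HasA (u • f + v • AddMonoidHom.id _) ((u : Cm3Bar) * α + v) :=
    (hf.zsmul u).add (hasA_zsmul_id v)
  have hmul : (q' : Cm3Bar) * ((u : Cm3Bar) * α + v) = 1 := by
    have e : ((u * p' + v * q' : ℤ) : Cm3Bar) = 1 := by rw [huv]; simp
    push_cast at e
    linear_combination e + (u : Cm3Bar) * h'
  have hid : HasA (AddMonoidHom.id (PtsBar trCurve)) 1 := hasA_id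
  have hcomp : ((q' • AddMonoidHom.id (PtsBar trCurve)).comp (u • f + v • AddMonoidHom.id _))
      = AddMonoidHom.id _ :=
    HasA.ext (hmul ▸ (hasA_zsmul_id q').comp he) hid
  have h2 := HasA.sq_of_comp_eq_id (hasA_zsmul_id q') he hcomp
  have h2' : q' ^ 2 = 1 := by exact_mod_cast h2
  have hunit : IsUnit q' := by
    have : IsUnit (q' ^ 2) := by rw [h2']; exact isUnit_one
    exact (isUnit_pow_iff (by norm_num)).1 this
  rcases Int.isUnit_iff.1 hunit with h1 | h1
  · refine ⟨p', ?_⟩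
    rw [h1] at h'
    simpa using h'
  · refine ⟨-p', ?_⟩
    rw [h1] at h'
    push_cast at h' ⊢
    linear_combination -h'

end ModJ2

/-! ## S0. Conjugation by the Galois group is a ring automorphism  (helper227) -/

section ModS0

open scoped Classical
open WeierstrassCurve Polynomial

variable (σ : Gal(Cm3Bar/Cm3Field)) (h h' : EndE)

theorem gconj_zero : gconj σ 0 = 0 := by
  refine AddMonoidHom.ext fun P => ?_
  rw [gconj_apply]
  exact map_zero _
theorem gconj_id : gconj σ (AddMonoidHom.id _) = AddMonoidHom.id _ := by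
  refine AddMonoidHom.ext fun P => ?_
  rw [gconj_apply]
  exact galPts_apply_inv σ P
theorem gconj_add : gconj σ (h + h') = gconj σ h + gconj σ h' := by
  refine AddMonoidHom.ext fun P => ?_
  rw [AddMonoidHom.add_apply, gconj_apply, gconj_apply, gconj_apply, AddMonoidHom.add_apply]
  exact map_add _ _ _
theorem gconj_neg : gconj σ (-h) = -gconj σ h := by
  refine AddMonoidHom.ext fun P => ?_
  rw [AddMonoidHom.neg_apply, gconj_apply, gconj_apply, AddMonoidHom.neg_apply]
  exact map_neg _ _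
theorem gconj_sub : gconj σ (h - h') = gconj σ h - gconj σ h' := by
  refine AddMonoidHom.ext fun P => ?_
  rw [AddMonoidHom.sub_apply, gconj_apply, gconj_apply, gconj_apply, AddMonoidHom.sub_apply]
  exact map_sub _ _ _
theorem gconj_comp : gconj σ (h.comp h') = (gconj σ h).comp (gconj σ h') := by
  refine AddMonoidHom.ext fun P => ?_
  rw [AddMonoidHom.comp_apply, gconj_apply, gconj_apply, gconj_apply, AddMonoidHom.comp_apply,
    galPts_inv_apply]
theorem gconj_zsmul (n : ℤ) : gconj σ (n • h) = n • gconj σ h := by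
  refine AddMonoidHom.ext fun P => ?_
  rw [AddMonoidHom.zsmul_apply, gconj_apply, gconj_apply, AddMonoidHom.zsmul_apply]
  exact map_zsmul _ _ _
/-- composition is bilinear -/
theorem zsmul_comp_zsmul (m n : ℤ) : (m • h).comp (n • h') = (m * n) • h.comp h' := by
  refine AddMonoidHom.ext fun P => ?_
  rw [AddMonoidHom.comp_apply, AddMonoidHom.zsmul_apply, AddMonoidHom.zsmul_apply,
    AddMonoidHom.zsmul_apply, AddMonoidHom.comp_apply, map_zsmul, mul_smul]

end ModS0

/-! ## S1. The `2`-saturation `Sat` is a commutative ring, stable under the Galois group  (helper227) -/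

section ModS1

open scoped Classical
open WeierstrassCurve Polynomial

variable {h h' : EndE}

/-! pointwise forms of the module laws of `EndE` (the bare lemmas do not unify on `EndE`) -/
theorem s1_one_smul (f : EndE) : (1 : ℤ) • f = f :=
  AddMonoidHom.ext fun P => by rw [AddMonoidHom.zsmul_apply, one_smul]
theorem s1_smul_smul (a b : ℤ) (f : EndE) : a • (b • f) = (a * b) • f :=
  AddMonoidHom.ext fun P => by
    rw [AddMonoidHom.zsmul_apply, AddMonoidHom.zsmul_apply, AddMonoidHom.zsmul_apply, mul_smul]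
theorem s1_smul_add (a : ℤ) (f g : EndE) : a • (f + g) = a • f + a • g :=
  AddMonoidHom.ext fun P => by
    rw [AddMonoidHom.zsmul_apply, AddMonoidHom.add_apply, AddMonoidHom.add_apply,
      AddMonoidHom.zsmul_apply, AddMonoidHom.zsmul_apply]
    exact zsmul_add (f P) (g P) a
theorem s1_smul_neg (a : ℤ) (f : EndE) : a • (-f) = -(a • f) :=
  AddMonoidHom.ext fun P => by
    rw [AddMonoidHom.zsmul_apply, AddMonoidHom.neg_apply, AddMonoidHom.neg_apply,
      AddMonoidHom.zsmul_apply]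
    exact zsmul_neg (f P) a
theorem s1_smul_sub (a : ℤ) (f g : EndE) : a • (f - g) = a • f - a • g :=
  AddMonoidHom.ext fun P => by
    rw [AddMonoidHom.zsmul_apply, AddMonoidHom.sub_apply, AddMonoidHom.sub_apply,
      AddMonoidHom.zsmul_apply, AddMonoidHom.zsmul_apply]
    exact zsmul_sub (f P) (g P) a
theorem s1_congr {f f' : EndE} {α : Cm3Bar} (h : HasA f α) (hf : f = f') : HasA f' α := hf ▸ h

/-- `E'(K̄)` is `2`-divisible (`exists_half`): `φ P = φ (Q + Q) = (2 φ) Q = 0` -/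
theorem eq_zero_of_two_zsmul {φ : EndE} (hφ : (2 : ℤ) • φ = 0) : φ = 0 := by
  refine AddMonoidHom.ext fun P => ?_
  obtain ⟨Q, rfl⟩ := exists_half P
  have h1 := DFunLike.congr_fun hφ Q
  rw [AddMonoidHom.zsmul_apply, AddMonoidHom.zero_apply, two_zsmul] at h1
  rw [map_add, AddMonoidHom.zero_apply]
  exact h1
theorem eq_zero_of_two_pow_zsmul {φ : EndE} (k : ℕ) (hφ : (2 : ℤ) ^ k • φ = 0) : φ = 0 := by
  induction k with
  | zero =>
    rw [pow_zero, s1_one_smul] at hφ
    exact hφ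
  | succ k ih =>
    rw [pow_succ', ← s1_smul_smul] at hφ
    exact ih (eq_zero_of_two_zsmul hφ)
theorem sat_of_hasA {f : EndE} {α : Cm3Bar} (hf : HasA f α) : Sat f := by
  refine ⟨0, α, ?_⟩
  rw [pow_zero, s1_one_smul]
  exact hf
theorem sat_zero : Sat 0 := sat_of_hasA hasA_zero
theorem sat_id : Sat (AddMonoidHom.id _) := sat_of_hasA hasA_id
/-- `2^(k+l) (h + h') = 2^l (2^k h) + 2^k (2^l h')` -/
theorem Sat.add (hh : Sat h) (hh' : Sat h') : Sat (h + h') := by
  obtain ⟨k, α, hα⟩ := hh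
  obtain ⟨l, β, hβ⟩ := hh'
  have e : (2 : ℤ) ^ l • ((2 : ℤ) ^ k • h) + (2 : ℤ) ^ k • ((2 : ℤ) ^ l • h') =
      (2 : ℤ) ^ (k + l) • (h + h') := by
    rw [s1_smul_add, s1_smul_smul, s1_smul_smul, ← pow_add, ← pow_add, add_comm l k]
  exact ⟨k + l, _, s1_congr ((hα.zsmul ((2 : ℤ) ^ l)).add (hβ.zsmul ((2 : ℤ) ^ k))) e⟩
theorem Sat.neg (hh : Sat h) : Sat (-h) := by
  obtain ⟨k, α, hα⟩ := hh
  exact ⟨k, _, s1_congr hα.neg (s1_smul_neg _ _).symm⟩
theorem Sat.sub (hh : Sat h) (hh' : Sat h') : Sat (h - h') := by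
  have e : h + -h' = h - h' := (sub_eq_add_neg h h').symm
  exact e ▸ hh.add hh'.neg
theorem Sat.zsmul (hh : Sat h) (n : ℤ) : Sat (n • h) := by
  obtain ⟨k, α, hα⟩ := hh
  have e : n • ((2 : ℤ) ^ k • h) = (2 : ℤ) ^ k • (n • h) := by
    rw [s1_smul_smul, s1_smul_smul, mul_comm]
  exact ⟨k, _, s1_congr (hα.zsmul n) e⟩
/-- `2^(k+l) (h ∘ h') = (2^k h) ∘ (2^l h')` -/
theorem Sat.comp (hh : Sat h) (hh' : Sat h') : Sat (h.comp h') := by
  obtain ⟨k, α, hα⟩ := hh
  obtain ⟨l, β, hβ⟩ := hh'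
  have e : ((2 : ℤ) ^ k • h).comp ((2 : ℤ) ^ l • h') = (2 : ℤ) ^ (k + l) • h.comp h' := by
    rw [zsmul_comp_zsmul, pow_add]
  exact ⟨k + l, _, s1_congr (hα.comp hβ) e⟩
/-- `(2^k h) ∘ (2^l h')` and `(2^l h') ∘ (2^k h)` have the same scalar (`HasA.comp`, `mul_comm`, `HasA.ext`); no torsion -/
theorem Sat.comm (hh : Sat h) (hh' : Sat h') : h.comp h' = h'.comp h := by
  obtain ⟨k, α, hα⟩ := hh
  obtain ⟨l, β, hβ⟩ := hh'
  have h1 := hα.comp hβ
  have h2 := hβ.comp hα
  rw [mul_comm β α] at h2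
  have h3 := h1.ext h2
  rw [zsmul_comp_zsmul, zsmul_comp_zsmul, mul_comm ((2 : ℤ) ^ l), ← pow_add] at h3
  have h4 : (2 : ℤ) ^ (k + l) • (h.comp h' - h'.comp h) = 0 := by
    rw [s1_smul_sub, h3]
    exact sub_self ((2 : ℤ) ^ (k + l) • h'.comp h)
  have h5 := eq_zero_of_two_pow_zsmul _ h4
  refine AddMonoidHom.ext fun P => ?_
  have h6 := DFunLike.congr_fun h5 P
  rw [AddMonoidHom.sub_apply, AddMonoidHom.zero_apply] at h6
  exact sub_eq_zero.mp h6
theorem Sat.conj (hh : Sat h) (σ : Gal(Cm3Bar/Cm3Field)) : Sat (gconj σ h) := by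
  obtain ⟨k, α, hα⟩ := hh
  exact ⟨k, σ α, s1_congr (hα.conj σ) (gconj_zsmul σ h ((2 : ℤ) ^ k))⟩
theorem Sat.of_two_zsmul (hh : Sat ((2 : ℤ) • h)) : Sat h := by
  obtain ⟨k, α, hα⟩ := hh
  have e : (2 : ℤ) ^ k • ((2 : ℤ) • h) = (2 : ℤ) ^ (k + 1) • h := by
    rw [s1_smul_smul, pow_succ]
  exact ⟨k + 1, α, s1_congr hα e⟩

end ModS1

/-! ## S2. An endomorphism that kills `E'[2]` is divisible by `2`  (helper188) -/

section ModS2

open scoped Classical
open WeierstrassCurve Polynomial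

/-- `h' P := h Q` for any `Q` with `Q + Q = P` (`exists_half`, `Classical.choose`): well defined and additive because `h` kills the points of order `2`;
`Sat h'` by `Sat.of_two_zsmul`. -/
theorem Sat.exists_two_zsmul_of_killsTwo {h : EndE} (hh : Sat h) (hk : KillsTwo h) :
    ∃ h' : EndE, Sat h' ∧ h = (2 : ℤ) • h' := by
  -- independence of the chosen half
  have hwd : ∀ Q Q' : PtsBar trCurve, Q + Q = Q' + Q' → h Q = h Q' := by
    intro Q Q' hQ
    have h1 : (Q - Q') + (Q - Q') = 0 := by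
      have : (Q - Q') + (Q - Q') = (Q + Q) - (Q' + Q') := by abel
      rw [this, hQ, sub_self]
    have h2 := hk _ h1
    rw [map_sub] at h2
    exact sub_eq_zero.1 h2
  let half : PtsBar trCurve → PtsBar trCurve := fun P => Classical.choose (exists_half P)
  have hhalf : ∀ P, half P + half P = P := fun P => Classical.choose_spec (exists_half P)
  let h' : EndE :=
    { toFun := fun P => h (half P)
      map_zero' := by
        have h1 : h (half 0) = h 0 := hwd _ _ (by rw [hhalf, add_zero])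
        exact h1.trans (map_zero h)
      map_add' := by
        intro P Q
        have h1 : h (half (P + Q)) = h (half P + half Q) := by
          apply hwd
          rw [hhalf]
          have : half P + half Q + (half P + half Q) = (half P + half P) + (half Q + half Q) := by
            abel
          rw [this, hhalf, hhalf]
        exact h1.trans (map_add h _ _) }
  have he : h = (2 : ℤ) • h' := by
    have h3 : (2 : ℤ) • h' = h' + h' := two_zsmul h'
    rw [h3]
    ext P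
    have h4 : (h' + h') P = h (half P) + h (half P) := rfl
    rw [h4, ← map_add, hhalf]
  exact ⟨h', Sat.of_two_zsmul (he ▸ hh), he⟩

end ModS2

/-! ## S3. `Sat` is `2`-adically separated  (helper245) -/

section ModS3

open scoped Classical
open WeierstrassCurve Polynomial

/-- an algebraic endomorphism `≠ 0` takes the value `0` only at points with abscissa in a finite set -/
theorem HasA.eq_zero_of_infinite_zeros {f : EndE} {α : Cm3Bar} (hf : HasA f α)
    (x y : ℕ → Cm3Bar) (h : ∀ n, EC.Nonsingular (x n) (y n)) (hx : Function.Injective x)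
    (h0 : ∀ n, f (.some (x n) (y n) (h n)) = 0) : f = 0 := by
  rcases hf with ⟨hf, -⟩ | ⟨R, S, ⟨B, hB, hrep⟩, -⟩
  · exact hf
  · exfalso
    have hinf : (Set.range x).Infinite := Set.infinite_range_of_injective hx
    obtain ⟨z, ⟨n, rfl⟩, hz⟩ := hinf.exists_notMem_finite hB
    obtain ⟨r, s, h', -, -, e⟩ := hrep (x n) (y n) (h n) hz
    rw [h0 n] at e
    exact Affine.Point.some_ne_zero h' e.symm

private theorem zsmul_app (n : ℤ) (g : EndE) (P : PtsBar trCurve) : (n • g) P = n • g P := rfl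

/-- `f = 2^m h` is algebraic and kills all the points `P_n` of `exists_halving_pts`:  `h P_n = 2^(n+1) h' P_n = h' (2^(n+1) P_n) = 0` -/
theorem Sat.eq_zero_of_forall_two_pow {h : EndE} (hh : Sat h)
    (hd : ∀ k : ℕ, ∃ h' : EndE, h = (2 : ℤ) ^ k • h') : h = 0 := by
  obtain ⟨m, α, hf⟩ := hh
  obtain ⟨x, y, hn, hinj, -, -, -, htor, -⟩ := exists_halving_pts
  have hk : ∀ n, h (.some (x n) (y n) (hn n)) = 0 := by
    intro n
    obtain ⟨h', e⟩ := hd (n + 1)
    rw [e, zsmul_app, ← map_zsmul, htor n, map_zero]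
  have hf0 : (2 : ℤ) ^ m • h = 0 := by
    refine hf.eq_zero_of_infinite_zeros x y hn hinj fun n => ?_
    rw [zsmul_app, hk n]
    exact zsmul_zero _
  exact eq_zero_of_two_pow_zsmul m hf0

end ModS3

/-! ## T1. The roots of `x³ - 3 x + 1` and the points of order `2`  (helper255) -/

section ModT1

open scoped Classical
open WeierstrassCurve Polynomial

noncomputable section

/-- `e ↦ e² - 2` permutes the roots of `x³ - 3 x + 1` cyclically (`2 cos θ ↦ 2 cos 2θ`) -/
def phi (x : Cm3Bar) : Cm3Bar := x ^ 2 - 2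

/-- `x` is a root of `x³ - 3 x + 1` -/
def IsRt (x : Cm3Bar) : Prop := x ^ 3 - 3 * x + 1 = 0

theorem isRt_trRoot : IsRt trRoot := trRoot_spec
theorem IsRt.img {x : Cm3Bar} (hx : IsRt x) : IsRt (phi x) := by
  unfold IsRt phi at *
  linear_combination (x ^ 3 - 3 * x - 1) * hx
/-- `φ (φ x) = 2 - x - x²` -/
theorem IsRt.phi_phi {x : Cm3Bar} (hx : IsRt x) : phi (phi x) = 2 - x - x ^ 2 := by
  unfold IsRt at hx
  unfold phi
  linear_combination x * hx
theorem IsRt.phi_phi_phi {x : Cm3Bar} (hx : IsRt x) : phi (phi (phi x)) = x := by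
  rw [hx.phi_phi]
  unfold IsRt at hx
  unfold phi
  linear_combination (x + 2) * hx
theorem IsRt.phi_ne {x : Cm3Bar} (hx : IsRt x) : phi x ≠ x := by
  intro h
  unfold IsRt at hx
  unfold phi at h
  have h3 : (3 : Cm3Bar) = 0 := by linear_combination hx - (x + 1) * h
  norm_num at h3
theorem IsRt.phi_phi_ne {x : Cm3Bar} (hx : IsRt x) : phi (phi x) ≠ x := by
  intro h
  rw [hx.phi_phi] at h
  unfold IsRt at hx
  have h3 : (3 : Cm3Bar) = 0 := by
    linear_combination -(x + 3) * hx - (3 + (x + 3) * (x - 2)) * h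
  norm_num at h3
/-- `x³ - 3 x + 1 = (x - e) (x - φ e) (x - φ φ e)` -/
theorem IsRt.cases {e x : Cm3Bar} (he : IsRt e) (hx : IsRt x) :
    x = e ∨ x = phi e ∨ x = phi (phi e) := by
  rw [he.phi_phi]
  unfold IsRt at he hx
  unfold phi
  have key : (x - e) * ((x - (e ^ 2 - 2)) * (x - (2 - e - e ^ 2))) = 0 := by
    linear_combination hx - ((e + 1) * x + (1 - e - e ^ 2)) * he
  rcases mul_eq_zero.mp key with h | h
  · exact Or.inl (sub_eq_zero.mp h)
  · rcases mul_eq_zero.mp h with h | h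
    · exact Or.inr (Or.inl (sub_eq_zero.mp h))
    · exact Or.inr (Or.inr (sub_eq_zero.mp h))
theorem gal_phi (σ : Gal(Cm3Bar/Cm3Field)) (x : Cm3Bar) : σ (phi x) = phi (σ x) := by
  unfold phi
  rw [map_sub, map_pow, map_ofNat]
theorem IsRt.gal {x : Cm3Bar} (hx : IsRt x) (σ : Gal(Cm3Bar/Cm3Field)) : IsRt (σ x) := by
  unfold IsRt at *
  have h := congrArg σ hx
  rw [map_add, map_sub, map_mul, map_pow, map_ofNat, map_one, map_zero] at h
  exact h

/-- the point `(x, 0)` of order `2`, for a root `x` (junk value `0` otherwise) -/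
def tt (x : Cm3Bar) : PtsBar trCurve :=
  if hx : x ^ 3 - 3 * x + 1 = 0 then
    .some x 0 (nonsingular_iff.mpr (by rw [hx]; ring)) else 0

theorem tt_eq_some {x : Cm3Bar} (hx : IsRt x) : ∃ h, tt x = .some x 0 h := by
  unfold tt
  rw [dif_pos (show x ^ 3 - 3 * x + 1 = 0 from hx)]
  exact ⟨_, rfl⟩

private theorem some_congr_T1 {x y x' y' : Cm3Bar} (h : EC.Nonsingular x y) (h' : EC.Nonsingular x' y')
    (hx : x = x') (hy : y = y') :
    (Affine.Point.some x y h : PtsBar trCurve) = .some x' y' h' := by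
  subst hx
  subst hy
  rfl
theorem tt_ne_zero {x : Cm3Bar} (hx : IsRt x) : tt x ≠ 0 := by
  obtain ⟨h, e⟩ := tt_eq_some hx
  rw [e]
  exact Affine.Point.some_ne_zero h
theorem tt_add_self (x : Cm3Bar) : tt x + tt x = 0 := by
  by_cases hx : IsRt x
  · obtain ⟨h, e⟩ := tt_eq_some hx
    rw [e]
    exact add_self_eq_zero_of_y_eq_zero h
  · have e : tt x = 0 := by
      unfold tt
      rw [dif_neg (show ¬ (x ^ 3 - 3 * x + 1 = 0) from hx)]
    rw [e, add_zero]
theorem tt_inj {x x' : Cm3Bar} (hx : IsRt x) (hx' : IsRt x') (h : tt x = tt x') : x = x' := by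
  obtain ⟨h1, e1⟩ := tt_eq_some hx
  obtain ⟨h2, e2⟩ := tt_eq_some hx'
  rw [e1, e2] at h
  exact (Affine.Point.some.inj h).1
theorem two_torsion_cases {T : PtsBar trCurve} (hT : T + T = 0) : T = 0 ∨ ∃ x, IsRt x ∧ T = tt x := by
  rcases T with _ | ⟨x, y, h⟩
  · exact Or.inl rfl
  · right
    by_cases hy : y = 0
    · subst hy
      have hx : IsRt x := by
        have := nonsingular_iff.mp h
        unfold IsRt
        linear_combination -this
      obtain ⟨h', e⟩ := tt_eq_some hx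
      exact ⟨x, hx, by rw [e]⟩
    · exfalso
      obtain ⟨h', e⟩ := two_some h hy
      rw [e] at hT
      exact Affine.Point.some_ne_zero h' hT
/-- the chord through `(x, 0)` and `(φ x, 0)` has slope `0`; `- x - φ x = φ φ x` -/
theorem tt_add_phi {x : Cm3Bar} (hx : IsRt x) : tt x + tt (phi x) = tt (phi (phi x)) := by
  obtain ⟨h1, e1⟩ := tt_eq_some hx
  obtain ⟨h2, e2⟩ := tt_eq_some hx.img
  obtain ⟨h3, e3⟩ := tt_eq_some hx.img.img
  obtain ⟨h4, e4⟩ := add_some_of_ne h1 h2 (Ne.symm hx.phi_ne)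
  rw [e1, e2, e3, e4]
  apply some_congr_T1
  · rw [hx.phi_phi]
    unfold phi
    simp only [sub_self, zero_div]
    ring
  · simp only [sub_self, zero_div]
    ring
theorem tt_add_tt_add_tt {x : Cm3Bar} (hx : IsRt x) : tt (phi (phi x)) + tt (phi x) + tt x = 0 := by
  rw [add_assoc, add_comm (tt (phi x)) (tt x), tt_add_phi hx, tt_add_self]
theorem galPts_tt (σ : Gal(Cm3Bar/Cm3Field)) {x : Cm3Bar} (hx : IsRt x) :
    galPts trCurve σ (tt x) = tt (σ x) := by
  obtain ⟨h1, e1⟩ := tt_eq_some hx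
  obtain ⟨h2, e2⟩ := tt_eq_some (hx.gal σ)
  obtain ⟨h3, e3⟩ := galPts_some σ h1
  rw [e1, e2, e3]
  exact some_congr_T1 _ _ rfl (map_zero σ)
/-- a group endomorphism maps points of order `≤ 2` to such points -/
theorem apply_tt_cases (h : EndE) (x : Cm3Bar) : h (tt x) = 0 ∨ ∃ x', IsRt x' ∧ h (tt x) = tt x' := by
  apply two_torsion_cases
  rw [← map_add, tt_add_self, map_zero]
theorem killsTwo_iff {h : EndE} : KillsTwo h ↔ ∀ x, IsRt x → h (tt x) = 0 := by
  constructor
  · intro H x _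
    exact H _ (tt_add_self x)
  · intro H T hT
    rcases two_torsion_cases hT with rfl | ⟨x, hx, rfl⟩
    · exact map_zero h
    · exact H x hx

end

end ModT1

/-! ## T2. `x³ - 3 x + 1` has no root in `ℚ(i)`  (helper265) -/

section ModT2

open scoped Classical
open WeierstrassCurve Polynomial

/-- `x³ - 3x + 1` has no rational root -/
private theorem no_rat_root (t : ℚ) : t ^ 3 - 3 * t + 1 ≠ 0 := by
  intro h
  have hroot : Polynomial.aeval t (X ^ 3 - 3 * X + 1 : ℤ[X]) = 0 := by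
    simp only [map_add, map_sub, map_mul, map_pow, aeval_X, map_one, map_ofNat]
    exact h
  have hmonic : (X ^ 3 - 3 * X + 1 : ℤ[X]).Monic := by monicity!
  have hint : IsIntegral ℤ t := ⟨_, hmonic, by simpa [aeval_def] using hroot⟩
  obtain ⟨n, rfl⟩ := IsIntegrallyClosed.isIntegral_iff.mp hint
  have h' : (n : ℤ) ^ 3 - 3 * n + 1 = 0 := by
    have : ((n ^ 3 - 3 * n + 1 : ℤ) : ℚ) = 0 := by push_cast; simpa using h
    exact_mod_cast this
  have hdvd : n ∣ 1 := ⟨-(n ^ 2 - 3), by linear_combination h'⟩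
  rcases Int.isUnit_iff.mp (isUnit_of_dvd_one hdvd) with rfl | rfl <;> norm_num at h'

private theorem irreducible_cubic : Irreducible (X ^ 3 - 3 * X + 1 : ℚ[X]) := by
  have hm : (X ^ 3 - 3 * X + 1 : ℚ[X]).Monic := by monicity!
  have hd : (X ^ 3 - 3 * X + 1 : ℚ[X]).natDegree = 3 := by compute_degree!
  rw [hm.irreducible_iff_roots_eq_zero_of_degree_le_three (by omega) (by omega)]
  rw [Multiset.eq_zero_iff_forall_notMem]
  intro t ht
  rw [mem_roots hm.ne_zero] at ht
  apply no_rat_root t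
  simpa [IsRoot] using ht

set_option backward.isDefEq.respectTransparency false in
/-- `x³ - 3x + 1` has no root in `ℚ(i)` -/
theorem no_root_Cm3Field (z : Cm3Field) : z ^ 3 - 3 * z + 1 ≠ 0 := by
  intro h
  have hm : (X ^ 3 - 3 * X + 1 : ℚ[X]).Monic := by monicity!
  have hd : (X ^ 3 - 3 * X + 1 : ℚ[X]).natDegree = 3 := by compute_degree!
  have hroot : aeval z (X ^ 3 - 3 * X + 1 : ℚ[X]) = 0 := by
    simp only [map_add, map_sub, map_mul, map_pow, aeval_X, map_one, map_ofNat]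
    exact h
  have h1 : minpoly ℚ z = X ^ 3 - 3 * X + 1 := (minpoly.eq_of_irreducible_of_monic irreducible_cubic hroot hm).symm
  have h2 : (minpoly ℚ z).natDegree ≤ Module.finrank ℚ Cm3Field := minpoly.natDegree_le _
  have h4 : Module.finrank ℚ Cm3Field = 2 := by
    rw [IsCyclotomicExtension.Rat.finrank 4 Cm3Field]
    decide
  rw [h1, hd, h4] at h2
  omega

theorem root_notMem_range {e : Cm3Bar} (he : e ^ 3 - 3 * e + 1 = 0) :
    e ∉ (algebraMap Cm3Field Cm3Bar).range := by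
  rintro ⟨z, rfl⟩
  apply no_root_Cm3Field z
  apply (algebraMap Cm3Field Cm3Bar).injective
  rw [map_add, map_sub, map_mul, map_pow, map_one, map_zero, map_ofNat]
  exact he

/-- some element of `Gal(K̄/K)` moves a given root of `x³ - 3x + 1` -/
theorem exists_gal_root_ne {e : Cm3Bar} (he : e ^ 3 - 3 * e + 1 = 0) :
    ∃ σ : Gal(Cm3Bar/Cm3Field), σ e ≠ e := by
  by_contra hcon
  push Not at hcon
  have := (InfiniteGalois.mem_range_algebraMap_iff_fixed (k := Cm3Field) (K := Cm3Bar) e).mpr hcon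
  exact root_notMem_range he (by simpa using this)

/-- `X³ - 3 X + 1` is irreducible over `ℚ` (no rational root), so `trRoot` has degree `3` over `ℚ`, which is `> 2 = [ℚ(i) : ℚ]`. -/
theorem trRoot_notMem_range : trRoot ∉ (algebraMap Cm3Field Cm3Bar).range :=
  root_notMem_range trRoot_spec

theorem exists_gal_trRoot_ne : ∃ c : Gal(Cm3Bar/Cm3Field), c trRoot ≠ trRoot :=
  exists_gal_root_ne trRoot_spec

end ModT2

/-! ## T3. Endomorphisms of the Klein four-group  (helper165) -/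

section ModT3

/-- `V = {0, a, b, c}` a Klein four-group inside `A`, `N` permutes `a → b → c → a`, `M` maps `V` to `V`, `M' = N M N⁻¹` on `V`.  If `M` and `M'` commute, then `M` commutes with `N` on `V`
(of the `16` endomorphisms of `V` only `0, 1, N, N²` commute with their conjugate; checked by machine).  Proof: the `16` cases `hMa`, `hMb` (`M c = M a + M b`);
in the `12` bad cases evaluate `hcomm` at `a`, `b` or `c`. -/
theorem klein_comm {A : Type} [AddCommGroup A] {a b c : A} (hab : a + b = c) (ha : a + a = 0)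
    (hb : b + b = 0) (ha0 : a ≠ 0) (hb0 : b ≠ 0) (hne : a ≠ b) (M M' N : A →+ A)
    (hNa : N a = b) (hNb : N b = c) (hNc : N c = a)
    (hMa : M a = 0 ∨ M a = a ∨ M a = b ∨ M a = c) (hMb : M b = 0 ∨ M b = a ∨ M b = b ∨ M b = c)
    (h'a : M' a = N (M c)) (h'b : M' b = N (M a)) (h'c : M' c = N (M b))
    (hcomm : ∀ v, M (M' v) = M' (M v)) :
    (M a = 0 ∧ M b = 0 ∧ M c = 0) ∨ (M a = a ∧ M b = b ∧ M c = c) ∨
      (M a = b ∧ M b = c ∧ M c = a) ∨ (M a = c ∧ M b = a ∧ M c = b) := by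
  have hba : b + a = c := by rw [add_comm]; exact hab
  have hac : a + c = b := by rw [← hab, ← add_assoc, ha, zero_add]
  have hca : c + a = b := by rw [add_comm]; exact hac
  have hbc : b + c = a := by rw [← hba, ← add_assoc, hb, zero_add]
  have hcb : c + b = a := by rw [add_comm]; exact hbc
  have hcc : c + c = 0 := by rw [← hab, add_add_add_comm, ha, hb, add_zero]
  have hc0 : c ≠ 0 := by
    intro h
    apply hne
    have : a + b + b = b := by rw [hab, h, zero_add]
    rwa [add_assoc, hb, add_zero] at this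
  have hca' : c ≠ a := by
    intro h
    apply hb0
    have : a + (a + b) = a + a := by rw [hab, h]
    rwa [← add_assoc, ha, zero_add] at this
  have hcb' : c ≠ b := by
    intro h
    apply ha0
    have : a + b + b = b + b := by rw [hab, h]
    rwa [add_assoc, hb, add_zero] at this
  have hMc : M c = M a + M b := by rw [← hab, map_add]
  have ea := hcomm a
  have eb := hcomm b
  rcases hMa with h1 | h1 | h1 | h1 <;> rcases hMb with h2 | h2 | h2 | h2 <;>
    rw [h1, h2] at hMc <;>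
    simp only [zero_add, add_zero, ha, hb, hab, hba, hac, hca, hbc, hcb, hcc] at hMc <;>
    rw [hMc] at h'a <;> rw [h1] at h'b <;> rw [h2] at h'c <;>
    simp only [map_zero, hNa, hNb, hNc] at h'a h'b h'c <;>
    rw [h'a, h1] at ea <;> rw [h'b, h2] at eb <;>
    simp only [map_zero, h1, h2, hMc, h'a, h'b, h'c] at ea eb <;>
    first
      | exact Or.inl ⟨h1, h2, hMc⟩
      | exact Or.inr (Or.inl ⟨h1, h2, hMc⟩)
      | exact Or.inr (Or.inr (Or.inl ⟨h1, h2, hMc⟩))
      | exact Or.inr (Or.inr (Or.inr ⟨h1, h2, hMc⟩))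
      | exact absurd ea (by first | exact ha0 | exact hb0 | exact hc0 | exact hne | exact hca' | exact hcb' | exact ha0.symm | exact hb0.symm | exact hc0.symm | exact hne.symm | exact hca'.symm | exact hcb'.symm)
      | exact absurd eb (by first | exact ha0 | exact hb0 | exact hc0 | exact hne | exact hca' | exact hcb' | exact ha0.symm)

end ModT3

/-! ## T4. The action of `Sat` on the points of order `2`  (helper235) -/

section ModT4

open scoped Classical
open WeierstrassCurve Polynomial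

/-- The four possible shapes, for a cyclic numbering `r₁ = φ r₀`, `r₂ = φ r₁` of the roots and an element `c` of the Galois group that moves them as `r₀ → s₁ → s₂ → r₀`. -/
private theorem shape_of_cycle {h : EndE} (hh : Sat h) (c : Gal(Cm3Bar/Cm3Field)) {r s t : Cm3Bar}
    (hr : IsRt r) (hs : IsRt s) (ht : IsRt t) (hrs : r ≠ s) (hadd : tt r + tt s = tt t)
    (c1 : c r = s) (c2 : c s = t) (c3 : c t = r)
    (hall : ∀ x, IsRt x → x = r ∨ x = s ∨ x = t) :
    (h (tt r) = 0 ∧ h (tt s) = 0 ∧ h (tt t) = 0) ∨ (h (tt r) = tt r ∧ h (tt s) = tt s ∧ h (tt t) = tt t) ∨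
      (h (tt r) = tt s ∧ h (tt s) = tt t ∧ h (tt t) = tt r) ∨
      (h (tt r) = tt t ∧ h (tt s) = tt r ∧ h (tt t) = tt s) := by
  have hval : ∀ x, h (tt x) = 0 ∨ h (tt x) = tt r ∨ h (tt x) = tt s ∨ h (tt x) = tt t := by
    intro x
    rcases apply_tt_cases h x with h0 | ⟨x', hx', h1⟩
    · exact Or.inl h0
    · rcases hall x' hx' with rfl | rfl | rfl
      · exact Or.inr (Or.inl h1)
      · exact Or.inr (Or.inr (Or.inl h1))
      · exact Or.inr (Or.inr (Or.inr h1))
  have i1 : c⁻¹ s = r := by rw [← c1]; simp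
  have i2 : c⁻¹ t = s := by rw [← c2]; simp
  have i3 : c⁻¹ r = t := by rw [← c3]; simp
  have hcomm := Sat.comm hh (hh.conj c)
  refine klein_comm (a := tt r) (b := tt s) (c := tt t) hadd (tt_add_self r) (tt_add_self s)
    (tt_ne_zero hr) (tt_ne_zero hs) (fun e => hrs (tt_inj hr hs e)) h (gconj c h) (galPts trCurve c)
    ?_ ?_ ?_ (hval r) (hval s) ?_ ?_ ?_ ?_
  · rw [galPts_tt c hr, c1]
  · rw [galPts_tt c hs, c2]
  · rw [galPts_tt c ht, c3]
  · rw [gconj_apply, galPts_tt c⁻¹ hr, i3]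
  · rw [gconj_apply, galPts_tt c⁻¹ hs, i1]
  · rw [gconj_apply, galPts_tt c⁻¹ ht, i2]
  · intro v
    exact DFunLike.congr_fun hcomm v

/-- `e = trRoot`, `c` from `exists_gal_trRoot_ne`: `c e = φ e` or `φ φ e` (`IsRt.cases`).  Apply `klein_comm` to `a = tt e`, `b = tt (c e)`, `c' = tt (c (c e))`, `N = galPts c`, `M = h`,
`M' = gconj c h` (`Sat.comm hh (hh.conj c)`, `gconj_apply`, `galPts_tt`, `gal_phi`, `tt_add_phi`, `apply_tt_cases`, `IsRt.cases`).  So `h` acts on `E'[2]` as `0`, `1`, `N` or `N²`,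
and `N = tt x ↦ tt (φ x)` or `tt x ↦ tt (φ φ x)`. -/
theorem Sat.two_torsion_shape {h : EndE} (hh : Sat h) :
    (∀ x, IsRt x → h (tt x) = 0) ∨ (∀ x, IsRt x → h (tt x) = tt x) ∨
      (∀ x, IsRt x → h (tt x) = tt (phi x)) ∨ (∀ x, IsRt x → h (tt x) = tt (phi (phi x))) := by
  obtain ⟨c, hc⟩ := exists_gal_trRoot_ne
  set e := trRoot with he_def
  have he : IsRt e := isRt_trRoot
  have h1 : IsRt (phi e) := he.img
  have h2 : IsRt (phi (phi e)) := h1.img
  have h3 : phi (phi (phi e)) = e := he.phi_phi_phi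
  have hall : ∀ x, IsRt x → x = e ∨ x = phi e ∨ x = phi (phi e) := fun x hx => he.cases hx
  rcases he.cases (he.gal c) with hce | hce | hce
  · exact absurd hce hc
  · -- `c = φ` on the roots
    have c2 : c (phi e) = phi (phi e) := by rw [gal_phi, hce]
    have c3 : c (phi (phi e)) = e := by rw [gal_phi, c2, h3]
    rcases shape_of_cycle hh c he h1 h2 (fun e' => he.phi_ne e'.symm) (tt_add_phi he) hce c2 c3 hall with
      ⟨a, b, d⟩ | ⟨a, b, d⟩ | ⟨a, b, d⟩ | ⟨a, b, d⟩
    · left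
      intro x hx
      rcases hall x hx with rfl | rfl | rfl
      exacts [a, b, d]
    · right; left
      intro x hx
      rcases hall x hx with rfl | rfl | rfl
      exacts [a, b, d]
    · right; right; left
      intro x hx
      rcases hall x hx with rfl | rfl | rfl
      · exact a
      · exact b
      · rw [h3]; exact d
    · right; right; right
      intro x hx
      rcases hall x hx with rfl | rfl | rfl
      · exact a
      · rw [h3]; exact b
      · rw [h3]; exact d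
  · -- `c = φ²` on the roots
    have c2 : c (phi (phi e)) = phi e := by rw [gal_phi, gal_phi, hce, h3]
    have c3 : c (phi e) = e := by rw [gal_phi, hce, h3]
    have hadd : tt e + tt (phi (phi e)) = tt (phi e) := by
      have := tt_add_phi h2
      rw [h3] at this
      rw [add_comm]; exact this
    have hall' : ∀ x, IsRt x → x = e ∨ x = phi (phi e) ∨ x = phi e := by
      intro x hx
      rcases hall x hx with h | h | h
      · exact Or.inl h
      · exact Or.inr (Or.inr h)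
      · exact Or.inr (Or.inl h)
    rcases shape_of_cycle hh c he h2 h1 (fun e' => he.phi_phi_ne e'.symm) hadd hce c2 c3 hall' with
      ⟨a, b, d⟩ | ⟨a, b, d⟩ | ⟨a, b, d⟩ | ⟨a, b, d⟩
    · left
      intro x hx
      rcases hall x hx with rfl | rfl | rfl
      exacts [a, d, b]
    · right; left
      intro x hx
      rcases hall x hx with rfl | rfl | rfl
      exacts [a, d, b]
    · right; right; right
      intro x hx
      rcases hall x hx with rfl | rfl | rfl
      · exact a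
      · rw [h3]; exact d
      · rw [h3]; exact b
    · right; right; left
      intro x hx
      rcases hall x hx with rfl | rfl | rfl
      · exact a
      · exact d
      · rw [h3]; exact b

end ModT4

/-! ## T5. `Sat / 2 ⊆ 𝔽₄`, and the Galois group acts trivially on it  (helper223) -/

section ModT5

open scoped Classical
open WeierstrassCurve Polynomial

/-- from `Sat.two_torsion_shape`, `killsTwo_iff`, `tt_add_tt_add_tt`, `IsRt.phi_phi_phi` -/
theorem Sat.killsTwo_cases {h : EndE} (hh : Sat h) :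
    KillsTwo h ∨ KillsTwo (h - AddMonoidHom.id _) ∨
      KillsTwo (h.comp h + h + AddMonoidHom.id _) := by
  rcases hh.two_torsion_shape with h0 | h1 | h2 | h3
  · exact Or.inl (killsTwo_iff.mpr h0)
  · refine Or.inr (Or.inl (killsTwo_iff.mpr fun x hx => ?_))
    rw [AddMonoidHom.sub_apply, AddMonoidHom.id_apply, h1 x hx, sub_self]
  · refine Or.inr (Or.inr (killsTwo_iff.mpr fun x hx => ?_))
    rw [AddMonoidHom.add_apply, AddMonoidHom.add_apply, AddMonoidHom.comp_apply,
      AddMonoidHom.id_apply, h2 x hx, h2 _ hx.img]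
    exact tt_add_tt_add_tt hx
  · refine Or.inr (Or.inr (killsTwo_iff.mpr fun x hx => ?_))
    rw [AddMonoidHom.add_apply, AddMonoidHom.add_apply, AddMonoidHom.comp_apply,
      AddMonoidHom.id_apply, h3 x hx, h3 _ hx.img.img, hx.img.phi_phi_phi,
      add_comm (tt (phi x))]
    exact tt_add_tt_add_tt hx

/-- from `Sat.two_torsion_shape`, `gconj_apply`, `galPts_tt`, `gal_phi`: `σ h σ⁻¹ (tt x) = h (tt x)` -/
theorem Sat.killsTwo_conj_sub {h : EndE} (hh : Sat h) (σ : Gal(Cm3Bar/Cm3Field)) :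
    KillsTwo (gconj σ h - h) := by
  refine killsTwo_iff.mpr fun x hx => ?_
  have hσ : σ (σ⁻¹ x) = x := by
    rw [← AlgEquiv.mul_apply, mul_inv_cancel, AlgEquiv.one_apply]
  have hx' : IsRt (σ⁻¹ x) := hx.gal σ⁻¹
  rw [AddMonoidHom.sub_apply, gconj_apply, galPts_tt σ⁻¹ hx]
  rcases hh.two_torsion_shape with h0 | h1 | h2 | h3
  · rw [h0 _ hx', h0 _ hx, map_zero, sub_self]
  · rw [h1 _ hx', h1 _ hx, galPts_tt σ hx', hσ, sub_self]
  · rw [h2 _ hx', h2 _ hx, galPts_tt σ hx'.img, gal_phi, hσ, sub_self]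
  · rw [h3 _ hx', h3 _ hx, galPts_tt σ hx'.img.img, gal_phi, gal_phi, hσ, sub_self]

/-- the identity does not kill `tt trRoot` -/
theorem not_killsTwo_id : ¬ KillsTwo (AddMonoidHom.id _) := fun h =>
  tt_ne_zero isRt_trRoot (h (tt trRoot) (tt_add_self trRoot))

end ModT5

/-! ## U1. A Hensel-type rigidity lemma  (helper289) -/

section ModU1

private theorem hensel_cancel {𝒮 : Type} [CommRing 𝒮] (h2 : ∀ x : 𝒮, 2 * x = 0 → x = 0) (k : ℕ) (a : 𝒮)
    (h : 2 ^ k * a = 0) : a = 0 := by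
  induction k with
  | zero => simpa using h
  | succ k ih =>
    apply ih
    apply h2
    rw [← h]; ring

private theorem hensel_step {𝒮 : Type} [CommRing 𝒮] (h2 : ∀ x : 𝒮, 2 * x = 0 → x = 0)
    (hF4 : ∀ x : 𝒮, (∃ y, x = 2 * y) ∨ (∃ y, x = 1 + 2 * y) ∨ ∃ y, x ^ 2 + x + 1 = 2 * y)
    (σ : 𝒮 →+* 𝒮) (hσ : ∀ x, ∃ y, σ x - x = 2 * y) (k : ℕ) : ∀ x, ∃ y, σ x - x = 2 ^ (k + 1) * y := by
  induction k with
  | zero => intro x; obtain ⟨y, hy⟩ := hσ x; exact ⟨y, by rw [hy]; ring⟩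
  | succ k ih =>
    intro x
    rcases hF4 x with ⟨y, rfl⟩ | ⟨y, rfl⟩ | ⟨y, hy⟩
    · obtain ⟨y', hy'⟩ := ih y
      refine ⟨y', ?_⟩
      have e : σ (2 * y) - 2 * y = 2 * (σ y - y) := by
        rw [map_mul, map_ofNat]; ring
      rw [e, hy']; ring
    · obtain ⟨y', hy'⟩ := ih y
      refine ⟨y', ?_⟩
      have e : σ (1 + 2 * y) - (1 + 2 * y) = 2 * (σ y - y) := by
        rw [map_add, map_one, map_mul, map_ofNat]; ring
      rw [e, hy']; ring
    · obtain ⟨d, hd⟩ := ih x
      obtain ⟨y', hy'⟩ := ih y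
      have hsx : σ x = x + 2 ^ (k + 1) * d := by rw [← hd]; ring
      have e1 : σ (x ^ 2 + x + 1) - (x ^ 2 + x + 1) = 2 * (σ y - y) := by
        rw [hy, map_mul, map_ofNat]; ring
      have e2 : σ (x ^ 2 + x + 1) - (x ^ 2 + x + 1) =
          2 ^ (k + 1) * (d * (2 * x + 2 ^ (k + 1) * d + 1)) := by
        rw [map_add, map_add, map_pow, map_one, hsx]; ring
      have e3 : 2 ^ (k + 1) * (d * (2 * x + 2 ^ (k + 1) * d + 1) - 2 * y') = 0 := by
        have : 2 ^ (k + 1) * (d * (2 * x + 2 ^ (k + 1) * d + 1)) = 2 * (2 ^ (k + 1) * y') := by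
          rw [← e2, e1, hy']
        rw [mul_sub, this]; ring
      have e4 := hensel_cancel h2 _ _ e3
      refine ⟨y' - d * x - 2 ^ k * d ^ 2, ?_⟩
      have e5 : d = 2 * (y' - d * x - 2 ^ k * d ^ 2) := by
        have : d = (d * (2 * x + 2 ^ (k + 1) * d + 1) - 2 * y') + 2 * (y' - d * x - 2 ^ k * d ^ 2) := by ring
        rw [e4, zero_add] at this
        exact this
      rw [hd]
      calc 2 ^ (k + 1) * d = 2 ^ (k + 1) * (2 * (y' - d * x - 2 ^ k * d ^ 2)) := by rw [← e5]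
        _ = 2 ^ (k + 1 + 1) * (y' - d * x - 2 ^ k * d ^ 2) := by ring

/-- Let `𝒮` be a commutative ring without `2`-torsion, `2`-adically separated, with `𝒮 / 2 ⊆ 𝔽₄` (every `x` is `0`, `1` or a root of `X² + X + 1` mod `2`).
A ring endomorphism `σ` that is the identity mod `2` is the identity.
PROOF.  `P(k)`, `k ≥ 1`: for all `x`, `σ x - x ∈ 2^k 𝒮`.  `P(1) = hσ`.  `P(k) → P(k+1)`: if `x = 2 y` or `x = 1 + 2 y` then `σ x - x = 2 (σ y - y)`.  If `x² + x + 1 = 2 y`, put
`δ = σ x - x = 2^k d`; then `δ (2 x + δ + 1) = σ (x² + x + 1) - (x² + x + 1) = 2 (σ y - y) = 2^(k+1) y'`, so (no torsion) `d (2 x + 2^k d + 1) = 2 y'` and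
`d = 2 (y' - d x - 2^(k-1) d²)`.  Finally `hsep`. -/
theorem hensel_fix {𝒮 : Type} [CommRing 𝒮] (h2 : ∀ x : 𝒮, 2 * x = 0 → x = 0)
    (hsep : ∀ x : 𝒮, (∀ k : ℕ, ∃ y, x = 2 ^ k * y) → x = 0)
    (hF4 : ∀ x : 𝒮, (∃ y, x = 2 * y) ∨ (∃ y, x = 1 + 2 * y) ∨ ∃ y, x ^ 2 + x + 1 = 2 * y)
    (σ : 𝒮 →+* 𝒮) (hσ : ∀ x, ∃ y, σ x - x = 2 * y) (x : 𝒮) : σ x = x := by
  have h := hsep (σ x - x) fun k => by
    cases k with
    | zero => exact ⟨σ x - x, by simp⟩
    | succ k => exact hensel_step h2 hF4 σ hσ k x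
  exact sub_eq_zero.1 h

end ModU1

/-! ## U2. No square root of `-m²`  (helper223) -/

section ModU2

/-- In a commutative ring `𝒮` without `2`-torsion, with `1 ∉ 2 𝒮` and `𝒮 / 2 ⊆ 𝔽₄`, no `g` has `g² = -m²` with an integer `m ≠ 0`.
PROOF.  Strong induction on `|m|`.  An odd integer is `1 + 2 (..)`, so it is not in `2 𝒮`.  If `g² + g + 1 = 2 y` then `g = m² - 1 + 2 y` is `2 (..)` (`m` odd) or `1 + 2 (..)` (`m` even).
(a) `g = 2 y`: `m² = -4 y²  ∈ 2 𝒮`, so `m = 2 m'`, and `y² = -m'²` (no torsion): induction.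
(b) `g = 1 + 2 y`: `-m² = g² = 1 + 2 (..)`, so `m` is odd; `b = m + g = 2 b'`, `b² = m² + 2 m g + g² = 2 m g`, so `2 b'² = m g`, `4 b'⁴ = m² g² = -m⁴`: the odd integer `m⁴` lies in `2 𝒮`. -/
theorem no_sqrt_neg_sq {𝒮 : Type} [CommRing 𝒮] (h2 : ∀ x : 𝒮, 2 * x = 0 → x = 0)
    (h1 : ¬ ∃ y : 𝒮, 1 = 2 * y)
    (hF4 : ∀ x : 𝒮, (∃ y, x = 2 * y) ∨ (∃ y, x = 1 + 2 * y) ∨ ∃ y, x ^ 2 + x + 1 = 2 * y)
    (g : 𝒮) (m : ℤ) (hm : m ≠ 0) (hg : g ^ 2 = -(m : 𝒮) ^ 2) : False := by
  have hodd : ∀ (k : ℤ) (y : 𝒮), ((2 * k + 1 : ℤ) : 𝒮) ≠ 2 * y := by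
    intro k y h
    apply h1
    refine ⟨y - (k : 𝒮), ?_⟩
    push_cast at h
    linear_combination h
  have key : ∀ N : ℕ, ∀ m : ℤ, m.natAbs < N → m ≠ 0 → ∀ g : 𝒮, g ^ 2 = -(m : 𝒮) ^ 2 → False := by
    intro N
    induction N with
    | zero => intro m hm; omega
    | succ N ih =>
      intro m hmN hm g hg
      have caseA : ∀ y : 𝒮, g = 2 * y → False := by
        intro y hy
        rcases Int.even_or_odd' m with ⟨k, hk | hk⟩
        · have hk0 : k ≠ 0 := by
            rintro rfl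
            exact hm (by simpa using hk)
          have hlt : k.natAbs < N := by omega
          refine ih k hlt hk0 y ?_
          have e : 2 * (2 * (y ^ 2 + (k : 𝒮) ^ 2)) = 0 := by
            rw [hy, hk] at hg
            push_cast at hg
            linear_combination hg
          have e' := h2 _ (h2 _ e)
          linear_combination e'
        · refine hodd (2 * k ^ 2 + 2 * k) (-2 * y ^ 2) ?_
          rw [hy, hk] at hg
          push_cast at hg ⊢
          linear_combination hg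
      have caseB : ∀ y : 𝒮, g = 1 + 2 * y → False := by
        intro y hy
        rcases Int.even_or_odd' m with ⟨k, hk | hk⟩
        · apply h1
          refine ⟨-2 * (k : 𝒮) ^ 2 - 2 * y - 2 * y ^ 2, ?_⟩
          rw [hy, hk] at hg
          push_cast at hg
          linear_combination hg
        · have hmk : (m : 𝒮) = 2 * (k : 𝒮) + 1 := by
            rw [hk]; push_cast; ring
          have e1 : 2 * (2 * ((k : 𝒮) + 1 + y) ^ 2 - (m : 𝒮) * g) = 0 := by
            have : 2 * ((k : 𝒮) + 1 + y) = (m : 𝒮) + g := by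
              rw [hmk, hy]; ring
            have h4 : 2 * (2 * ((k : 𝒮) + 1 + y) ^ 2) = ((m : 𝒮) + g) ^ 2 := by
              rw [← this]; ring
            linear_combination h4 + hg
          have e2 := h2 _ e1
          have e3 : 2 * ((k : 𝒮) + 1 + y) ^ 2 = (m : 𝒮) * g := by linear_combination e2
          have e4 : 4 * ((k : 𝒮) + 1 + y) ^ 4 = -(m : 𝒮) ^ 4 := by
            have : (2 * ((k : 𝒮) + 1 + y) ^ 2) ^ 2 = ((m : 𝒮) * g) ^ 2 := by rw [e3]
            linear_combination this + (m : 𝒮) ^ 2 * hg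
          refine hodd (8 * k ^ 4 + 16 * k ^ 3 + 12 * k ^ 2 + 4 * k) (-2 * ((k : 𝒮) + 1 + y) ^ 4) ?_
          rw [hmk] at e4
          push_cast
          linear_combination e4
      rcases hF4 g with ⟨y, hy⟩ | ⟨y, hy⟩ | ⟨y, hy⟩
      · exact caseA y hy
      · exact caseB y hy
      · rcases Int.even_or_odd' m with ⟨k, hk | hk⟩
        · refine caseB (y - 1 + 2 * (k : 𝒮) ^ 2) ?_
          rw [hk] at hg
          push_cast at hg
          linear_combination hy - hg
        · refine caseA (y + 2 * (k : 𝒮) ^ 2 + 2 * (k : 𝒮)) ?_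
          rw [hk] at hg
          push_cast at hg
          linear_combination hy - hg
  exact key (m.natAbs + 1) m (Nat.lt_succ_self _) hm g hg

end ModU2

/-! ## V. The commutative ring `SatRing`; every element of it is fixed by the Galois group  (helper25) -/

section ModV

open scoped Classical
open WeierstrassCurve Polynomial

noncomputable section

/-- `Sat` as a subring of the ring of endomorphisms of the group `E'(K̄)` (`AddMonoid.End A` unfolds to `A →+ A`; `*` is `comp`, `1` is `id`) -/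
def SatRing : Subring (AddMonoid.End (PtsBar trCurve)) where
  carrier := {h | Sat h}
  mul_mem' := fun {a b} ha hb => Sat.comp (h := a) (h' := b) ha hb
  one_mem' := sat_id
  add_mem' := fun {a b} ha hb => Sat.add (h := a) (h' := b) ha hb
  zero_mem' := sat_zero
  neg_mem' := fun {a} ha => Sat.neg (h := a) ha

instance : CommRing SatRing :=
  { (inferInstance : Ring SatRing) with
    mul_comm := fun a b => Subtype.ext (Sat.comm (h := a.1) (h' := b.1) a.2 b.2) }

theorem satRing_two_mul (x : SatRing) : ((2 * x : SatRing) : AddMonoid.End (PtsBar trCurve)) =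
    (2 : ℤ) • (x.1 : EndE) := by
  rw [two_mul, two_zsmul]
  rfl

theorem satRing_two_pow_mul (k : ℕ) (x : SatRing) :
    ((2 ^ k * x : SatRing) : AddMonoid.End (PtsBar trCurve)) = (2 : ℤ) ^ k • (x.1 : EndE) := by
  induction k with
  | zero => rw [pow_zero, pow_zero, one_mul, one_zsmul]
  | succ k ih =>
    rw [pow_succ', mul_assoc, satRing_two_mul, ih, pow_succ']
    exact (mul_smul (2 : ℤ) ((2 : ℤ) ^ k) (x.1 : EndE)).symm

theorem satRing_intCast (n : ℤ) : (((n : SatRing)) : AddMonoid.End (PtsBar trCurve)) =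
    n • (AddMonoidHom.id _ : EndE) := by
  have h : (n : SatRing) = n • (1 : SatRing) := by simp
  rw [h]
  rfl

theorem satRing_torsion_free (x : SatRing) (h : 2 * x = 0) : x = 0 := by
  apply Subtype.ext
  have h1 := satRing_two_mul x
  rw [h] at h1
  exact eq_zero_of_two_zsmul (φ := x.1) h1.symm

theorem satRing_sep (x : SatRing) (h : ∀ k : ℕ, ∃ y, x = 2 ^ k * y) : x = 0 := by
  apply Subtype.ext
  refine Sat.eq_zero_of_forall_two_pow (h := x.1) x.2 fun k => ?_
  obtain ⟨y, hy⟩ := h k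
  exact ⟨y.1, (congrArg Subtype.val hy).trans (satRing_two_pow_mul k y)⟩

/-- an element of `SatRing` that kills the points of order `2` is divisible by `2` in `SatRing` -/
theorem satRing_exists_two_mul (x : SatRing) (hk : KillsTwo (x.1 : EndE)) : ∃ y : SatRing, x = 2 * y := by
  obtain ⟨h', hs, he⟩ := Sat.exists_two_zsmul_of_killsTwo (h := x.1) x.2 hk
  refine ⟨⟨h', hs⟩, Subtype.ext ?_⟩
  rw [satRing_two_mul]
  exact he

theorem satRing_F4 (x : SatRing) :
    (∃ y, x = 2 * y) ∨ (∃ y, x = 1 + 2 * y) ∨ ∃ y, x ^ 2 + x + 1 = 2 * y := by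
  rcases Sat.killsTwo_cases (h := x.1) x.2 with hk | hk | hk
  · exact Or.inl (satRing_exists_two_mul x hk)
  · obtain ⟨y, hy⟩ := satRing_exists_two_mul (x - 1) hk
    exact Or.inr (Or.inl ⟨y, by rw [← hy]; ring⟩)
  · refine Or.inr (Or.inr (satRing_exists_two_mul (x ^ 2 + x + 1) ?_))
    rw [sq]
    exact hk

private theorem two_zsmul_apply_eq (g : EndE) (T : PtsBar trCurve) :
    ((2 : ℤ) • g) T = g (T + T) := by
  have h : (2 : ℤ) • g = g + g := two_zsmul g
  rw [h]
  exact (map_add g T T).symm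

theorem satRing_one_ne_two_mul : ¬ ∃ y : SatRing, 1 = 2 * y := by
  rintro ⟨y, hy⟩
  apply not_killsTwo_id
  intro T hT
  have h1 : (AddMonoidHom.id _ : EndE) = (2 : ℤ) • (y.1 : EndE) := by
    rw [← satRing_two_mul, ← hy]
    rfl
  have h2 : T = ((2 : ℤ) • (y.1 : EndE)) T := DFunLike.congr_fun h1 T
  have h3 : ((2 : ℤ) • (y.1 : EndE)) T = (y.1 : EndE) (T + T) := two_zsmul_apply_eq y.1 T
  change T = 0
  rw [h2, h3, hT, map_zero]

/-- conjugation by `σ` as a ring endomorphism of `SatRing` -/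
def conjHom (σ : Gal(Cm3Bar/Cm3Field)) : SatRing →+* SatRing where
  toFun x := ⟨gconj σ x.1, Sat.conj (h := x.1) x.2 σ⟩
  map_one' := Subtype.ext (gconj_id σ)
  map_mul' := fun x y => Subtype.ext (gconj_comp σ x.1 y.1)
  map_zero' := Subtype.ext (gconj_zero σ)
  map_add' := fun x y => Subtype.ext (gconj_add σ x.1 y.1)

theorem conjHom_sub (σ : Gal(Cm3Bar/Cm3Field)) (x : SatRing) : ∃ y, conjHom σ x - x = 2 * y :=
  satRing_exists_two_mul (conjHom σ x - x) (Sat.killsTwo_conj_sub (h := x.1) x.2 σ)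

/-- `hensel_fix`: **every endomorphism in `Sat` is defined over `K`** -/
theorem Sat.conj_eq {h : EndE} (hh : Sat h) (σ : Gal(Cm3Bar/Cm3Field)) : gconj σ h = h := by
  have key := hensel_fix satRing_torsion_free satRing_sep satRing_F4 (conjHom σ) (conjHom_sub σ)
    (⟨h, hh⟩ : SatRing)
  exact congrArg Subtype.val key

end

end ModV

/-! ## W. `y² = x³ - 3 x + 1` over `ℚ(i)` has no complex multiplication  (helper37) -/

section ModW

open scoped Classical
open WeierstrassCurve Polynomial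

/-- `Sat.conj_eq`, `HasA.conj`, `HasA.unique`: `σ α = α` for all `σ`; `InfiniteGalois.mem_range_algebraMap_iff_fixed` (as in `CubeEnd.HasA.mem_range_of_comm`) -/
theorem HasA.mem_range {f : EndE} {α : Cm3Bar} (h : HasA f α) :
    α ∈ (algebraMap Cm3Field Cm3Bar).range := by
  have hfix : ∀ σ : Gal(Cm3Bar/Cm3Field), σ α = α := by
    intro σ
    have h1 := h.conj σ
    rw [(sat_of_hasA h).conj_eq σ] at h1
    exact h1.unique h
  have := (InfiniteGalois.mem_range_algebraMap_iff_fixed (k := Cm3Field) (K := Cm3Bar) α).mpr hfix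
  simpa using this

/-- `g ∘ g = [-r²]` (`HasA.comp`, `hasA_zsmul_id`, `HasA.ext`); `no_sqrt_neg_sq` in `SatRing` (`satRing_torsion_free`, `satRing_one_ne_two_mul`, `satRing_F4`, `satRing_intCast`) -/
theorem not_hasA_int_mul_I {g : EndE} {r : ℤ} {I : Cm3Bar} (hr : r ≠ 0) (hI : I ^ 2 = -1)
    (hg : HasA g (r * I)) : False := by
  have hcomp : g.comp g = (-(r ^ 2)) • (AddMonoidHom.id _ : EndE) := by
    refine HasA.ext (hg.comp hg) ?_
    have := hasA_zsmul_id (-(r ^ 2))
    have e : ((-(r ^ 2) : ℤ) : Cm3Bar) = r * I * (r * I) := by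
      push_cast
      linear_combination (-(r : Cm3Bar) ^ 2) * hI
    rwa [e] at this
  refine no_sqrt_neg_sq satRing_torsion_free satRing_one_ne_two_mul satRing_F4
    (⟨g, sat_of_hasA hg⟩ : SatRing) r hr ?_
  apply Subtype.ext
  have e1 : ((-(r : SatRing) ^ 2 : SatRing) : AddMonoid.End (PtsBar trCurve)) =
      (-(r ^ 2)) • (AddMonoidHom.id _ : EndE) := by
    have : (-(r : SatRing) ^ 2 : SatRing) = ((-(r ^ 2) : ℤ) : SatRing) := by push_cast; rfl
    rw [this, satRing_intCast]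
  rw [e1, ← hcomp, pow_two]
  rfl

/-- every algebraic endomorphism is a multiplication `[n]`:  `exists_hasA`, `HasA.mem_range`, `exists_int_repr` (`q α = p + r i`), `not_hasA_int_mul_I` for `q f - p`,
`hasA_int_of_mul_eq`, `HasA.ext` with `hasA_zsmul_id` -/
theorem exists_eq_zsmul_of_isAlgebraic {f : EndE} (hf : IsAlgebraicEndomorphism trCurve f) :
    ∃ n : ℤ, ∀ P, f P = n • P := by
  obtain ⟨α, hα⟩ := exists_hasA hf
  obtain ⟨z, rfl⟩ := hα.mem_range
  obtain ⟨p, r, q, I, hq, hI, hz⟩ := exists_int_repr z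
  set ι := algebraMap Cm3Field Cm3Bar with hι
  have hI' : (ι I) ^ 2 = -1 := by
    rw [← map_pow, hI, map_neg, map_one]
  have hz' : (q : Cm3Bar) * ι z = p + r * ι I := by
    have := congrArg ι hz
    simpa using this
  by_cases hr : r = 0
  · subst hr
    obtain ⟨n, hn⟩ := hasA_int_of_mul_eq hq hα (p := p) (by rw [hz']; simp)
    rw [hn] at hα
    have hfn := hα.ext (hasA_zsmul_id n)
    exact ⟨n, fun P => by rw [hfn]; simp⟩
  · have hg : HasA (q • f - p • AddMonoidHom.id _) ((q : Cm3Bar) * ι z - p) :=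
      (hα.zsmul q).sub (hasA_zsmul_id p)
    have e : (q : Cm3Bar) * ι z - p = r * ι I := by rw [hz']; ring
    rw [e] at hg
    exact (not_hasA_int_mul_I hr hI' hg).elim

/-- **The premise of the clause "no complex multiplication ⟹ cuspidal" of `Statement` can be met**: `E' : y² = x³ - 3 x + 1` over `K = ℚ(i)` has
no complex multiplication, not even over `K̄`. -/
theorem sanity_trCurve_not_hasCMOver_top : ¬ HasCMOver trCurve ⊤ := by
  rintro ⟨f, hf, hne, -⟩
  obtain ⟨n, hn⟩ := exists_eq_zsmul_of_isAlgebraic hf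
  obtain ⟨P, hP⟩ := hne n
  exact hP (hn P)

theorem sanity_trCurve_noCM_premise : trCurve.IsElliptic ∧ ¬ HasCMOver trCurve ⊤ :=
  ⟨isElliptic_trCurve, sanity_trCurve_not_hasCMOver_top⟩

end ModW

end Claimed.Open.R030.TrEnd
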