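import Claimed.Open.R030.SanityCMField
import Claimed.Open.R030.SanityNoCM2

/-!
# Result 030: `IsAlgebraicEndomorphism` on two curves — the endomorphism rings, determined

`HasCMOver` of `Statement.lean` quantifies over the endomorphisms `f` of the abstract group `E(K̄)` with `IsAlgebraicEndomorphism E f` (`f = 0`, or `f` is given by
rational functions outside finitely many points).  This file checks that this predicate cuts out exactly the endomorphism ring of the curve, on a curve with and on a curve without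
complex multiplication, both over `K = ℚ(i)`:

* `sanity_cubeCurve_isAlgebraicEndomorphism_iff : IsAlgebraicEndomorphism cubeCurve f ↔ ∃ a b : ℤ, f = a • id + b • [ω]`  (`E₃ : y² = x³ + 1`, `End(E₃) = ℤ[ω]`);
* `sanity_trCurve_isAlgebraicEndomorphism_iff : IsAlgebraicEndomorphism trCurve f ↔ ∃ n : ℤ, f = n • id`  (`E' : y² = x³ - 3 x + 1`, `End(E') = ℤ`).

So the hypothesis `End(E₃) = ℤ[ω]` of `sanity_cubeCurve_not_hasCMOver_bot_of_end` (`SanityClauses.lean`, where it is called "not proved") is a theorem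
(`sanity_cubeCurve_end`).  The directions `⇐` are new checks of the definition: **every** multiplication `[n]` and every `a + b [ω]` is algebraic in the sense of `Statement.lean` (so far: `±1`, `[2]`, `[ω]`),
and on both curves the algebraic endomorphisms are closed under sums and compositions (`sanity_isAlgebraicEndomorphism_add_comp`).

## The proofs

`⇐`  (M1)  `f ↦ α` (`HasA f α`, `SanityNoCM.lean`, `SanityNoCM2.lean`) is defined through a representation `f (x, y) = (R(x), y S(x))` outside the points with abscissa in a finite set `B`; sums, multiples and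
compositions of such endomorphisms have such representations (`HasA.add`, `HasA.zsmul`, `HasA.comp`).  Clearing denominators, and multiplying the numerator and the denominator of `R` by
`∏_{b ∈ B} (X - b)`, gives the polynomials asked for by `IsAlgebraicEndomorphism` (`isAlgebraicEndomorphism_of_evalsTo`).

`⇒` for `E'` is `TrEnd.exists_eq_zsmul_of_isAlgebraic`.

`⇒` for `E₃`  (M2).  The scalar `α` of `f` lies in `K(ω)` (`HasA.mem_cm3L`, `SanityCMField.lean`): `α = z₀ + z₁ ω` with `z₀, z₁ ∈ K`.  Let `σ ∈ Gal(K̄/K)` with `σ ω = ω² = -1 - ω` and `f^σ = σ f σ⁻¹`, with the scalar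
`σ α` (`HasA.conj`).  The endomorphisms `f + f^σ`, `(f - f^σ) ∘ (2 [ω] + 1)` and `f ∘ f^σ` have the scalars `2 z₀ - z₁`, `-3 z₁`, `z₀² - z₀ z₁ + z₁²` in `K`; a scalar in `K` is an integer
(`HasA.int_of_mem_range`).  Call them `n, m, ν`: then `m² = 12 ν - 3 n²`, so `3 ∣ m`, `m = 3 m'`, `n² + 3 m'² = 4 ν`, so `n ≡ m' mod 2`, and `z₁ = -m'`, `z₀ = (n - m') / 2` are integers
(`int_of_trace_norm`).  Finally `f = z₀ + z₁ [ω]`, because the scalar determines the endomorphism (`HasA.ext`).

(written by helper265)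
-/

set_option autoImplicit false

namespace Claimed.Open.R030.CubeEnd

/-! ## M1. An endomorphism given by rational functions is algebraic in the sense of `Statement.lean` -/

section EndM1

open scoped Classical
open WeierstrassCurve Polynomial

/-- the value of a rational function at a point where its reduced denominator does not vanish -/
theorem EvalsTo.eq_num_div_denom {k : Type} [Field k] {F : RatFunc k} {x c : k} (h : EvalsTo F x c)
    (hd : F.denom.eval x ≠ 0) : c = F.num.eval x / F.denom.eval x := by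
  have h1 := evalsTo_div_algebraMap F.num F.denom x hd
  rw [RatFunc.num_div_denom] at h1
  exact h.unique h1

/-- If `f (x, y) = (R(x), y S(x))` outside the points with abscissa in a finite set `B`, then `f` is algebraic in the sense of `IsAlgebraicEndomorphism`: take
`a₁ / c₁ = R`, `b₂ / c₂ = S`, `b₁ = a₂ = 0`, and multiply `a₁`, `c₁` by `∏_{b ∈ B} (X - b)`. -/
theorem isAlgebraicEndomorphism_of_evalsTo (E : WeierstrassCurve Cm3Field) (f : PtsBar E →+ PtsBar E)
    (R S : RatFunc Cm3Bar) {B : Set Cm3Bar} (hB : B.Finite)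
    (h : ∀ (x y : Cm3Bar) (hxy : (E⁄Cm3Bar).toAffine.Nonsingular x y), x ∉ B →
      ∃ (r s : Cm3Bar) (h' : (E⁄Cm3Bar).toAffine.Nonsingular r (y * s)),
        EvalsTo R x r ∧ EvalsTo S x s ∧ f (.some x y hxy) = .some r (y * s) h') :
    IsAlgebraicEndomorphism E f := by
  set P : Cm3Bar[X] := ∏ b ∈ hB.toFinset, (X - C b) with hP
  have hP0 : P ≠ 0 := Finset.prod_ne_zero_iff.mpr fun b _ => X_sub_C_ne_zero b
  have hPB : ∀ x, P.eval x ≠ 0 → x ∉ B := by
    intro x hx hxB
    apply hx
    rw [hP, eval_prod]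
    exact Finset.prod_eq_zero (hB.mem_toFinset.mpr hxB) (by simp)
  refine Or.inr ⟨R.num * P, 0, R.denom * P, 0, S.num, S.denom, mul_ne_zero R.denom_ne_zero hP0,
    S.denom_ne_zero, ?_⟩
  intro x y hxy hc₁ hc₂
  rw [eval_mul] at hc₁
  have hRd : R.denom.eval x ≠ 0 := left_ne_zero_of_mul hc₁
  have hPx : P.eval x ≠ 0 := right_ne_zero_of_mul hc₁
  obtain ⟨r, s, h', hr, hs, e⟩ := h x y hxy (hPB x hPx)
  have e₁ : ((R.num * P).eval x + (0 : Cm3Bar[X]).eval x * y) / (R.denom * P).eval x = r := by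
    rw [hr.eq_num_div_denom hRd, eval_mul, eval_mul, eval_zero, zero_mul, add_zero,
      mul_div_mul_right _ _ hPx]
  have e₂ : ((0 : Cm3Bar[X]).eval x + S.num.eval x * y) / S.denom.eval x = y * s := by
    rw [hs.eq_num_div_denom hc₂, eval_zero, zero_add]
    ring
  rw [e₁, e₂]
  exact ⟨h', e⟩

theorem HasA.isAlgebraic {f : EndE} {α : Cm3Bar} (h : HasA f α) :
    IsAlgebraicEndomorphism cubeCurve f := by
  rcases h with ⟨rfl, -⟩ | ⟨R, S, ⟨B, hB, hrep⟩, -⟩
  · exact Or.inl rfl
  · exact isAlgebraicEndomorphism_of_evalsTo cubeCurve f R S hB hrep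

end EndM1

/-! ## M2. `End(E₃) = ℤ[ω]` -/

section EndM2

open scoped Classical
open WeierstrassCurve Polynomial

/-- `K(ω) = K + K ω` -/
theorem exists_repr_of_mem_cm3L {α : Cm3Bar} (hα : α ∈ cm3L) : ∃ z₀ z₁ : Cm3Field,
    α = algebraMap Cm3Field Cm3Bar z₀ + algebraMap Cm3Field Cm3Bar z₁ * omegaBar := by
  have h1 : α ∈ cm3L.toSubalgebra := hα
  rw [cm3L, IntermediateField.adjoin_simple_toSubalgebra_of_isAlgebraic isIntegral_omegaBar.isAlgebraic,
    Algebra.adjoin_singleton_eq_range_aeval] at h1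
  obtain ⟨p, rfl⟩ := h1
  have hm : (X ^ 2 + X + 1 : Cm3Field[X]).Monic := by monicity!
  have hd : (X ^ 2 + X + 1 : Cm3Field[X]).natDegree = 2 := by compute_degree!
  have hroot : aeval omegaBar (X ^ 2 + X + 1 : Cm3Field[X]) = 0 := by
    simp [omegaBar_spec]
  have hp : aeval omegaBar p = aeval omegaBar (p %ₘ (X ^ 2 + X + 1)) := by
    conv_lhs => rw [← Polynomial.modByMonic_add_div p (X ^ 2 + X + 1 : Cm3Field[X])]
    simp [hroot]
  have hdeg : (p %ₘ (X ^ 2 + X + 1 : Cm3Field[X])).natDegree ≤ 1 := by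
    have hne : (X ^ 2 + X + 1 : Cm3Field[X]) ≠ 1 := by
      intro h
      rw [h] at hd
      simp at hd
    have := Polynomial.natDegree_modByMonic_lt p hm hne
    omega
  obtain ⟨b, a, hab⟩ := Polynomial.exists_eq_X_add_C_of_natDegree_le_one hdeg
  refine ⟨a, b, ?_⟩
  change aeval omegaBar p = _
  rw [hp, hab]
  simp [add_comm]

/-- the non-trivial conjugate of `ω` is `ω² = -1 - ω` -/
theorem gal_omegaBar_of_ne {σ : Gal(Cm3Bar/Cm3Field)} (hσ : σ omegaBar ≠ omegaBar) :
    σ omegaBar = -1 - omegaBar := by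
  have h1 : (σ omegaBar) ^ 2 + σ omegaBar + 1 = 0 := by
    have := congrArg σ omegaBar_spec
    simpa only [map_add, map_pow, map_one, map_zero] using this
  have h2 : (σ omegaBar - omegaBar) * (σ omegaBar + omegaBar + 1) = 0 := by
    linear_combination h1 - omegaBar_spec
  rcases mul_eq_zero.mp h2 with h | h
  · exact absurd (sub_eq_zero.mp h) hσ
  · linear_combination h

/-- the arithmetic at the end: trace `n = 2 x - y`, `m = -3 y` and norm `ν = x² - x y + y²` in `ℤ` force `x, y ∈ ℤ` -/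
theorem int_of_trace_norm {k : Type} [Field k] [CharZero k] {x y : k} {n m ν : ℤ}
    (hn : 2 * x - y = n) (hm : -3 * y = m) (hν : x ^ 2 - x * y + y ^ 2 = ν) :
    ∃ a b : ℤ, x = a ∧ y = b := by
  have h1 : (m : k) ^ 2 = 12 * ν - 3 * n ^ 2 := by
    rw [← hn, ← hm, ← hν]; ring
  have h1' : m ^ 2 = 12 * ν - 3 * n ^ 2 := by exact_mod_cast h1
  have h3 : (3 : ℤ) ∣ m := by
    have : (3 : ℤ) ∣ m ^ 2 := ⟨4 * ν - n ^ 2, by rw [h1']; ring⟩
    exact Int.prime_three.dvd_of_dvd_pow this
  obtain ⟨m', rfl⟩ := h3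
  have h4 : n ^ 2 + 3 * m' ^ 2 = 4 * ν := by linarith [h1']
  have hy : y = ((-m' : ℤ) : k) := by
    have h3k : (3 : k) ≠ 0 := by norm_num
    apply mul_left_cancel₀ h3k
    push_cast at hm ⊢
    linear_combination -hm
  have h5 : (2 : ℤ) ∣ n - m' := by
    have h6 : (n - m') * (n + m') = 4 * ν - 4 * m' ^ 2 := by linarith [h4]
    have h7 : (2 : ℤ) ∣ (n - m') * (n + m') := ⟨2 * ν - 2 * m' ^ 2, by rw [h6]; ring⟩
    rcases Int.prime_two.dvd_or_dvd h7 with h | h
    · exact h
    · have : n - m' = (n + m') - 2 * m' := by ring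
      rw [this]
      exact dvd_sub h ⟨m', rfl⟩
  obtain ⟨a, ha⟩ := h5
  refine ⟨a, -m', ?_, hy⟩
  have h2k : (2 : k) ≠ 0 := by norm_num
  apply mul_left_cancel₀ h2k
  have ha' : (n : k) - m' = 2 * a := by exact_mod_cast congrArg (fun t : ℤ => (t : k)) ha
  rw [hy] at hn
  push_cast at hn
  linear_combination hn + ha'

/-- **`End(E₃) ⊆ ℤ[ω]`**, on the scalars -/
theorem HasA.exists_int_add_int_mul_omega {f : EndE} {α : Cm3Bar} (hf : HasA f α) :
    ∃ a b : ℤ, α = a + b * omegaBar := by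
  obtain ⟨z₀, z₁, hα⟩ := exists_repr_of_mem_cm3L hf.mem_cm3L
  obtain ⟨σ, hσ⟩ := exists_gal_omegaBar_ne
  have hσω := gal_omegaBar_of_ne hσ
  set ι := algebraMap Cm3Field Cm3Bar with hι
  have hσα : σ α = ι z₀ + ι z₁ * (-1 - omegaBar) := by
    rw [hα, map_add, map_mul, hσω, hι, AlgEquiv.commutes, AlgEquiv.commutes]
  have hf' : HasA (conjE σ f) (σ α) := hf.conj σ
  have hω := omegaBar_spec
  -- the trace
  obtain ⟨n, hn⟩ := (hf.add hf').int_of_mem_range ⟨2 * z₀ - z₁, by
    rw [hσα, hα, map_sub, map_mul, map_ofNat]; ring⟩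
  -- `(α - σ α) (2 ω + 1) = - 3 z₁`
  have h2ω : HasA ((2 : ℤ) • cubeCurveEndo + AddMonoidHom.id _) ((2 : ℤ) * omegaBar + 1) :=
    (hasA_omega.zsmul 2).add hasA_id
  obtain ⟨m, hm⟩ := ((hf.sub hf').comp h2ω).int_of_mem_range ⟨-3 * z₁, by
    rw [hσα, hα, map_mul, map_neg, map_ofNat]
    push_cast
    linear_combination (-4 * ι z₁) * hω⟩
  -- the norm
  obtain ⟨ν, hν⟩ := (hf.comp hf').int_of_mem_range ⟨z₀ ^ 2 - z₀ * z₁ + z₁ ^ 2, by
    rw [hσα, hα, map_add, map_sub, map_mul, map_pow, map_pow]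
    linear_combination (ι z₁ ^ 2) * hω⟩
  obtain ⟨a, b, ha, hb⟩ := int_of_trace_norm (x := ι z₀) (y := ι z₁) (n := n) (m := m) (ν := ν)
    (by rw [← hn, hσα, hα]; ring)
    (by rw [← hm, hσα, hα]; push_cast; linear_combination (-4 * ι z₁) * hω)
    (by rw [← hν, hσα, hα]; linear_combination (ι z₁ ^ 2) * hω)
  exact ⟨a, b, by rw [hα, ha, hb]⟩

/-- **`End(E₃) = ℤ[ω]`**: the endomorphisms of the group `E₃(K̄)`, `E₃ : y² = x³ + 1`, that are algebraic in the sense of `Statement.lean` are exactly the `a + b [ω]`, `a, b ∈ ℤ`. -/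
theorem sanity_cubeCurve_isAlgebraicEndomorphism_iff (f : PtsBar cubeCurve →+ PtsBar cubeCurve) :
    IsAlgebraicEndomorphism cubeCurve f ↔
      ∃ a b : ℤ, f = a • AddMonoidHom.id (PtsBar cubeCurve) + b • cubeCurveEndo := by
  have key : ∀ a b : ℤ, HasA (a • AddMonoidHom.id (PtsBar cubeCurve) + b • cubeCurveEndo)
      (a + b * omegaBar) := fun a b => (hasA_zsmul_id a).add (hasA_omega.zsmul b)
  constructor
  · intro hf
    obtain ⟨α, hα⟩ := exists_hasA hf
    obtain ⟨a, b, rfl⟩ := hα.exists_int_add_int_mul_omega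
    exact ⟨a, b, hα.ext (key a b)⟩
  · rintro ⟨a, b, rfl⟩
    exact (key a b).isAlgebraic

/-- the hypothesis of `sanity_cubeCurve_not_hasCMOver_bot_of_end` (`SanityClauses.lean`) -/
theorem sanity_cubeCurve_end (f : PtsBar cubeCurve →+ PtsBar cubeCurve)
    (hf : IsAlgebraicEndomorphism cubeCurve f) :
    ∃ a b : ℤ, f = a • AddMonoidHom.id (PtsBar cubeCurve) + b • cubeCurveEndo :=
  (sanity_cubeCurve_isAlgebraicEndomorphism_iff f).mp hf

/-- so the road of `SanityClauses.lean` to `¬ HasCMOver cubeCurve ⊥` is complete as well -/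
theorem sanity_cubeCurve_not_hasCMOver_bot' : ¬ HasCMOver cubeCurve ⊥ :=
  sanity_cubeCurve_not_hasCMOver_bot_of_end sanity_cubeCurve_end

/-- every multiplication `[n]` on `E₃` is algebraic in the sense of `Statement.lean` -/
theorem sanity_cubeCurve_isAlgebraicEndomorphism_zsmul (n : ℤ) :
    IsAlgebraicEndomorphism cubeCurve (n • AddMonoidHom.id (PtsBar cubeCurve)) :=
  (hasA_zsmul_id n).isAlgebraic

end EndM2

end Claimed.Open.R030.CubeEnd

namespace Claimed.Open.R030.TrEnd

/-! ## M3. `End(E') = ℤ` -/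

section EndM3

open scoped Classical
open WeierstrassCurve Polynomial

theorem HasA.isAlgebraic {f : EndE} {α : Cm3Bar} (h : HasA f α) :
    IsAlgebraicEndomorphism trCurve f := by
  rcases h with ⟨rfl, -⟩ | ⟨R, S, ⟨B, hB, hrep⟩, -⟩
  · exact Or.inl rfl
  · exact CubeEnd.isAlgebraicEndomorphism_of_evalsTo trCurve f R S hB hrep

/-- every multiplication `[n]` on `E'` is algebraic in the sense of `Statement.lean` -/
theorem sanity_trCurve_isAlgebraicEndomorphism_zsmul (n : ℤ) :
    IsAlgebraicEndomorphism trCurve (n • AddMonoidHom.id (PtsBar trCurve)) :=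
  (hasA_zsmul_id n).isAlgebraic

/-- **`End(E') = ℤ`**: the endomorphisms of the group `E'(K̄)`, `E' : y² = x³ - 3 x + 1`, that are algebraic in the sense of `Statement.lean` are exactly the multiplications `[n]`, `n ∈ ℤ`. -/
theorem sanity_trCurve_isAlgebraicEndomorphism_iff (f : PtsBar trCurve →+ PtsBar trCurve) :
    IsAlgebraicEndomorphism trCurve f ↔ ∃ n : ℤ, f = n • AddMonoidHom.id (PtsBar trCurve) := by
  constructor
  · intro hf
    obtain ⟨n, hn⟩ := exists_eq_zsmul_of_isAlgebraic hf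
    exact ⟨n, by ext P; exact hn P⟩
  · rintro ⟨n, rfl⟩
    exact sanity_trCurve_isAlgebraicEndomorphism_zsmul n

/-- On both curves the algebraic endomorphisms are closed under sums and compositions. -/
theorem sanity_isAlgebraicEndomorphism_add_comp :
    (∀ f g : PtsBar cubeCurve →+ PtsBar cubeCurve, IsAlgebraicEndomorphism cubeCurve f →
      IsAlgebraicEndomorphism cubeCurve g →
      IsAlgebraicEndomorphism cubeCurve (f + g) ∧ IsAlgebraicEndomorphism cubeCurve (f.comp g)) ∧
    (∀ f g : PtsBar trCurve →+ PtsBar trCurve, IsAlgebraicEndomorphism trCurve f →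
      IsAlgebraicEndomorphism trCurve g →
      IsAlgebraicEndomorphism trCurve (f + g) ∧ IsAlgebraicEndomorphism trCurve (f.comp g)) := by
  constructor
  · intro f g hf hg
    obtain ⟨α, hα⟩ := CubeEnd.exists_hasA hf
    obtain ⟨β, hβ⟩ := CubeEnd.exists_hasA hg
    exact ⟨(hα.add hβ).isAlgebraic, (hα.comp hβ).isAlgebraic⟩
  · intro f g hf hg
    obtain ⟨α, hα⟩ := exists_hasA hf
    obtain ⟨β, hβ⟩ := exists_hasA hg
    exact ⟨(hα.add hβ).isAlgebraic, (hα.comp hβ).isAlgebraic⟩

end EndM3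

end Claimed.Open.R030.TrEnd
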