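import Claimed.Open.R030.Statement

/-!
# Result 030: checked examples for the Galois side of `Statement.lean` (§3 and §6)

* isomorphisms `ι : Q̄_l ≃ ℂ` exist; embeddings `K̄ → K̄_v` exist;
* on a curve `y² = x³ + a₄ x` over a field containing `i`, the map `[i] : (x, y) ↦ (-x, i y)` is an endomorphism of the group of points
  (`cmExHom`; it is applied in `Sanity.lean` to `y² = x³ - x` over `ℚ(i)`: `HasCMOver gaussCurve ⊥` and `HasCMOver gaussCurve ⊤`);
* `0`, `id`, `-id` are algebraic endomorphisms;
* elementary facts on inertia, Frobenius lifts, the Weil group, `nilExp`, Weil–Deligne representations.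

The deeper facts on local Galois groups (existence of Frobenius lifts, structure of the Weil group) are in
`SanityLocalField.lean`.
-/

set_option autoImplicit false
set_option linter.unusedSectionVars false

namespace Claimed.Open.R030

open scoped Classical
open WeierstrassCurve IsDedekindDomain NumberField Cardinal

noncomputable section

/-! ## Isomorphisms `Q̄_l ≃ ℂ` exist -/

theorem sanity_card_padic (l : ℕ) [Fact l.Prime] : #ℚ_[l] = 𝔠 := by
  apply le_antisymm
  · have h1 : #ℚ_[l] ≤ #(CauSeq ℚ (padicNorm l)) :=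
      Cardinal.mk_le_of_surjective (f := fun x => (CauSeq.Completion.mk x : ℚ_[l]))
        (fun x => Quotient.exists_rep x)
    have h2 : #(CauSeq ℚ (padicNorm l)) ≤ #(ℕ → ℚ) := Cardinal.mk_subtype_le _
    have h3 : #(ℕ → ℚ) = 𝔠 := by simp
    exact h1.trans (h2.trans h3.le)
  · exact continuum_le_cardinal_of_nontriviallyNormedField ℚ_[l]

theorem sanity_card_padicAlgCl (l : ℕ) [Fact l.Prime] : #(PadicAlgCl l) = 𝔠 := by
  apply le_antisymm
  · have := Algebra.IsAlgebraic.cardinalMk_le_max ℚ_[l] (PadicAlgCl l)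
    rw [sanity_card_padic, max_eq_left Cardinal.aleph0_le_continuum] at this
    exact this
  · rw [← sanity_card_padic l]
    exact Cardinal.mk_le_of_injective (algebraMap ℚ_[l] (PadicAlgCl l)).injective

theorem sanity_exists_iota (l : ℕ) [Fact l.Prime] : Nonempty (PadicAlgCl l ≃+* ℂ) := by
  apply IsAlgClosed.ringEquiv_of_equiv_of_charZero
  · rw [sanity_card_padicAlgCl]; exact Cardinal.aleph0_lt_continuum
  · rw [← Cardinal.eq, sanity_card_padicAlgCl, Cardinal.mk_complex]

/-! ## Decomposition groups -/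

theorem sanity_exists_embedding {K : Type} [Field K] [NumberField K]
    (v : HeightOneSpectrum (𝓞 K)) :
    Nonempty (AlgebraicClosure K →ₐ[K] AlgebraicClosure (v.adicCompletion K)) :=
  ⟨IsAlgClosed.lift⟩

/-! ## Complex multiplication: the endomorphism `[i] : (x, y) ↦ (-x, i y)` of `y² = x³ + a₄ x` -/

section CMex
variable {F : Type} [Field F] (W : WeierstrassCurve.Affine F) (i : F)

lemma cmEx_nonsingular (h1 : W.a₁ = 0) (h2 : W.a₂ = 0) (h3 : W.a₃ = 0) (h6 : W.a₆ = 0)
    (hi : i ^ 2 = -1) {x y : F} (h : W.Nonsingular x y) : W.Nonsingular (-x) (i * y) := by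
  rw [WeierstrassCurve.Affine.nonsingular_iff, WeierstrassCurve.Affine.equation_iff] at h ⊢
  simp only [h1, h2, h3, h6] at h ⊢
  obtain ⟨he, hn⟩ := h
  have hi0 : i ≠ 0 := by
    rintro rfl
    norm_num at hi
  refine ⟨?_, ?_⟩
  · have : (i * y) ^ 2 = - y ^ 2 := by rw [mul_pow, hi]; ring
    linear_combination (-1 : F) * he + y ^ 2 * hi
  · rcases hn with hn | hn
    · left
      intro h'
      apply hn
      linear_combination h'
    · right
      intro h'
      apply hn
      have : i * (y - (-y - 0 * x - 0)) = 0 := by linear_combination h'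
      rcases mul_eq_zero.mp this with h0 | h0
      · exact absurd h0 hi0
      · linear_combination h0

/-- `(x, y) ↦ (-x, i y)` -/
def cmExFun (h1 : W.a₁ = 0) (h2 : W.a₂ = 0) (h3 : W.a₃ = 0) (h6 : W.a₆ = 0)
    (hi : i ^ 2 = -1) : W.Point → W.Point
  | .zero => .zero
  | .some _ _ h => .some _ _ (cmEx_nonsingular W i h1 h2 h3 h6 hi h)

lemma cmEx_slope (h1 : W.a₁ = 0) (h2 : W.a₂ = 0) (h3 : W.a₃ = 0)
    (hi : i ^ 2 = -1) (x₁ x₂ y₁ y₂ : F) :
    W.slope (-x₁) (-x₂) (i * y₁) (i * y₂) = -i * W.slope x₁ x₂ y₁ y₂ := by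
  have hi0 : i ≠ 0 := by
    rintro rfl
    norm_num at hi
  have hinv : i⁻¹ = -i := by
    apply inv_eq_of_mul_eq_one_right
    linear_combination -hi
  simp only [WeierstrassCurve.Affine.slope, WeierstrassCurve.Affine.negY, h1, h2, h3, neg_inj]
  by_cases hx : x₁ = x₂
  · simp only [hx, if_true]
    by_cases hy : y₁ = -y₂ - 0 * x₂ - 0
    · have hy' : i * y₁ = -(i * y₂) - 0 * -x₂ - 0 := by rw [hy]; ring
      simp only [if_pos hy, if_pos hy', mul_zero]
    · have hy' : ¬ (i * y₁ = -(i * y₂) - 0 * -x₂ - 0) := by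
        intro h
        apply hy
        have : i * (y₁ - (-y₂ - 0 * x₂ - 0)) = 0 := by linear_combination h
        rcases mul_eq_zero.mp this with h0 | h0
        · exact absurd h0 hi0
        · linear_combination h0
      simp only [if_neg hy, if_neg hy']
      have e1 : i * y₁ - (-(i * y₁) - 0 * -x₂ - 0) = i * (y₁ - (-y₁ - 0 * x₂ - 0)) := by ring
      rw [e1, div_mul_eq_div_div_swap, div_eq_mul_inv _ i, hinv]
      ring
  · simp only [if_neg hx]
    have e1 : i * y₁ - i * y₂ = i * (y₁ - y₂) := by ring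
    have e2 : -x₁ - -x₂ = -(x₁ - x₂) := by ring
    rw [e1, e2, div_neg, mul_div_assoc]
    ring

/-- `[i] : (x, y) ↦ (-x, i y)` as an endomorphism of the group of points of `y² = x³ + a₄ x`. -/
def cmExHom (h1 : W.a₁ = 0) (h2 : W.a₂ = 0) (h3 : W.a₃ = 0) (h6 : W.a₆ = 0)
    (hi : i ^ 2 = -1) : W.Point →+ W.Point where
  toFun := cmExFun W i h1 h2 h3 h6 hi
  map_zero' := rfl
  map_add' := by
    have hi0 : i ≠ 0 := by
      rintro rfl
      norm_num at hi
    rintro (_ | ⟨x₁, y₁, k₁⟩) (_ | ⟨x₂, y₂, k₂⟩)
    any_goals rfl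
    by_cases hxy : x₁ = x₂ ∧ y₁ = W.negY x₂ y₂
    · rw [WeierstrassCurve.Affine.Point.add_of_Y_eq hxy.left hxy.right]
      show _ = WeierstrassCurve.Affine.Point.some _ _ _ + WeierstrassCurve.Affine.Point.some _ _ _
      rw [WeierstrassCurve.Affine.Point.add_of_Y_eq (congrArg _ hxy.left) (by
        rw [hxy.right]; simp only [WeierstrassCurve.Affine.negY, h1, h3]; ring)]
      rfl
    · have hxy' : ¬ (-x₁ = -x₂ ∧ i * y₁ = W.negY (-x₂) (i * y₂)) := by
        rintro ⟨ha, hb⟩
        apply hxy
        refine ⟨neg_inj.mp ha, ?_⟩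
        simp only [WeierstrassCurve.Affine.negY, h1, h3] at hb ⊢
        have : i * (y₁ - (-y₂ - 0 * x₂ - 0)) = 0 := by linear_combination hb
        rcases mul_eq_zero.mp this with h0 | h0
        · exact absurd h0 hi0
        · linear_combination h0
      rw [WeierstrassCurve.Affine.Point.add_some hxy]
      show WeierstrassCurve.Affine.Point.some _ _ _ =
        WeierstrassCurve.Affine.Point.some _ _ _ + WeierstrassCurve.Affine.Point.some _ _ _
      rw [WeierstrassCurve.Affine.Point.add_some hxy']
      rw [WeierstrassCurve.Affine.Point.some.injEq]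
      rw [cmEx_slope W i h1 h2 h3 hi]
      simp only [WeierstrassCurve.Affine.addX, WeierstrassCurve.Affine.addY,
        WeierstrassCurve.Affine.negAddY, WeierstrassCurve.Affine.negY, h1, h2, h3]
      constructor
      · linear_combination (-(W.slope x₁ x₂ y₁ y₂) ^ 2) * hi
      · linear_combination (-i * (W.slope x₁ x₂ y₁ y₂) ^ 3) * hi

end CMex

/-! ## Local Galois groups: inertia, Frobenius, Weil group -/

section LocalFacts

open scoped WithZero

variable {F : Type} [Field F] [Valued F ℤᵐ⁰]

theorem inMaxBar_zero : InMaxBar (0 : AlgebraicClosure F) := ⟨isIntegral_zero, Or.inl rfl⟩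

theorem InMaxBar.neg {x : AlgebraicClosure F} (h : InMaxBar x) : InMaxBar (-x) := by
  refine ⟨h.1.neg, ?_⟩
  rcases h.2 with h0 | h0
  · left; rw [h0, neg_zero]
  · right
    intro h1
    apply h0
    have : x⁻¹ = -((-x)⁻¹) := by rw [inv_neg, neg_neg]
    rw [this]
    exact IsIntegral.neg h1

theorem IsIntBar.map {x : AlgebraicClosure F} (h : IsIntBar x) (σ : GalAbs F) : IsIntBar (σ x) :=
  IsIntegral.map ((σ.toAlgHom).restrictScalars (intRing F)) h

/-- The identity lies in the inertia group. -/
theorem sanity_isInertia_one : IsInertia (1 : GalAbs F) := by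
  intro x _
  simpa using inMaxBar_zero

/-- `1` is not a Frobenius lift... unless the residue field is trivial: the identity acts as
`Frob^n` iff `x^(q^n) ≡ x` for all integral `x`. -/
theorem sanity_actsAsFrobZPow_one_iff (n : ℕ) :
    ActsAsFrobZPow (1 : GalAbs F) n ↔
      ∀ x : AlgebraicClosure F, IsIntBar x → InMaxBar (x - x ^ (resCard F ^ n)) := by
  unfold ActsAsFrobZPow
  simp

/-- The geometric Frobenius lifts are the inverses of the arithmetic Frobenius lifts. -/
theorem sanity_isGeomFrob_iff (σ : GalAbs F) : IsGeomFrob σ ↔ IsArithFrob σ⁻¹ := by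
  constructor
  · intro h x hx
    have := (h (σ⁻¹ x) (hx.map σ⁻¹)).neg
    have e : σ (σ⁻¹ x) = x := by
      rw [← AlgEquiv.mul_apply, mul_inv_cancel, AlgEquiv.one_apply]
    simp only [e] at this
    simpa using this
  · intro h x hx
    have := (h (σ x) (hx.map σ)).neg
    have e : σ⁻¹ (σ x) = x := by
      rw [← AlgEquiv.mul_apply, inv_mul_cancel, AlgEquiv.one_apply]
    simp only [e] at this
    simpa using this

theorem sanity_arithFrob_mem_weilGroup {σ : GalAbs F} (h : IsArithFrob σ) : σ ∈ weilGroup F :=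
  Subgroup.subset_closure h

theorem sanity_geomFrob_mem_weilGroup {σ : GalAbs F} (h : IsGeomFrob σ) : σ ∈ weilGroup F := by
  have := sanity_arithFrob_mem_weilGroup ((sanity_isGeomFrob_iff σ).mp h)
  simpa using (weilGroup F).inv_mem this

end LocalFacts

/-! ## Weil–Deligne representations -/

section WDFacts

open scoped WithZero

variable {F : Type} [Field F] [Valued F ℤᵐ⁰]
variable {C : Type} [Field C] {V : Type} [AddCommGroup V] [Module C V]

theorem sanity_nilExp_zero : nilExp (0 : Module.End C V) = 1 := by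
  unfold nilExp
  rcases subsingleton_or_nontrivial (Module.End C V) with h | h
  · exact Subsingleton.elim _ _
  · rw [nilpotencyClass_zero]
    simp

theorem sanity_nilExp_of_sq_zero {N : Module.End C V} (h0 : N ≠ 0) (h : N ^ 2 = 0) :
    nilExp N = 1 + N := by
  unfold nilExp
  have : nilpotencyClass N = 2 := by
    rw [nilpotencyClass_eq_succ_iff]
    exact ⟨h, by simpa using h0⟩
  rw [this]
  simp [Finset.sum_range_succ]

/-- The trivial Weil–Deligne representation on `V`. -/
def trivialWDRep (F : Type) [Field F] [Valued F ℤᵐ⁰] (C : Type) [Field C] (V : Type)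
    [AddCommGroup V] [Module C V] : WDRep F C V where
  r := 1
  N := 0
  smooth := ⟨⊥, inferInstance, fun _ _ _ => rfl⟩
  nilpotent := IsNilpotent.zero
  rel := by intro w n _; simp

theorem sanity_isoAlong_refl (A : WDRep F C V) : A.IsoAlong (RingEquiv.refl C) A :=
  ⟨AddEquiv.refl V, fun _ _ => rfl, fun _ _ => rfl, fun _ => rfl⟩

theorem sanity_trivialWDRep_frobSemisimple : (trivialWDRep F C V).IsFrobSemisimple := by
  intro Φ _
  show Module.End.IsSemisimple (1 : Module.End C V)
  exact Module.End.isSemisimple_id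

end WDFacts

/-! ## Algebraic endomorphisms: `0`, `id`, `-id` -/

section AlgEndoFacts

variable {K : Type} [Field K] [NumberField K] (E : WeierstrassCurve K)

theorem sanity_isAlgebraicEndomorphism_zero : IsAlgebraicEndomorphism E 0 := Or.inl rfl

theorem sanity_isAlgebraicEndomorphism_id : IsAlgebraicEndomorphism E (AddMonoidHom.id _) := by
  refine Or.inr ⟨Polynomial.X, 0, 1, 0, 1, 1, one_ne_zero, one_ne_zero, fun x y h _ _ => ?_⟩
  have e1 : ((Polynomial.X : Polynomial (AlgebraicClosure K)).eval x +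
      (0 : Polynomial (AlgebraicClosure K)).eval x * y) /
      (1 : Polynomial (AlgebraicClosure K)).eval x = x := by simp
  have e2 : ((0 : Polynomial (AlgebraicClosure K)).eval x +
      (1 : Polynomial (AlgebraicClosure K)).eval x * y) /
      (1 : Polynomial (AlgebraicClosure K)).eval x = y := by simp
  rw [e1, e2]
  exact ⟨h, rfl⟩

theorem sanity_isAlgebraicEndomorphism_neg : IsAlgebraicEndomorphism E (-AddMonoidHom.id _) := by
  refine Or.inr ⟨Polynomial.X, 0, 1,
    -(Polynomial.C (E⁄(AlgebraicClosure K)).toAffine.a₁ * Polynomial.X)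
      - Polynomial.C (E⁄(AlgebraicClosure K)).toAffine.a₃, -1, 1, one_ne_zero, one_ne_zero,
    fun x y h _ _ => ?_⟩
  have e1 : ((Polynomial.X : Polynomial (AlgebraicClosure K)).eval x +
      (0 : Polynomial (AlgebraicClosure K)).eval x * y) /
      (1 : Polynomial (AlgebraicClosure K)).eval x = x := by simp
  have e2 : ((-(Polynomial.C (E⁄(AlgebraicClosure K)).toAffine.a₁ * Polynomial.X)
      - Polynomial.C (E⁄(AlgebraicClosure K)).toAffine.a₃ : Polynomial (AlgebraicClosure K)).eval x +
      (-1 : Polynomial (AlgebraicClosure K)).eval x * y) /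
      (1 : Polynomial (AlgebraicClosure K)).eval x =
      (E⁄(AlgebraicClosure K)).toAffine.negY x y := by
    simp [WeierstrassCurve.Affine.negY]
    ring
  rw [e1, e2]
  exact ⟨(WeierstrassCurve.Affine.nonsingular_neg ..).mpr h, rfl⟩

/-- Multiplication by an integer does not count as complex multiplication. -/
theorem sanity_not_cm_witness_zsmul (m : ℤ) :
    ¬ ∀ n : ℤ, ∃ P : PtsBar E, (m • AddMonoidHom.id (PtsBar E)) P ≠ n • P := by
  intro h
  obtain ⟨P, hP⟩ := h m
  exact hP rfl

end AlgEndoFacts

end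

end Claimed.Open.R030
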