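import Claimed.Open.R030.SanityArch
import Claimed.Open.R030.SanityAutomorphic

/-!
# Result 030: the global principal series `I(χ₁, χ₂)` of `Statement.lean` is what its docstring says

`globalInduced w χ₁ χ₂` is *defined* as the largest `(𝔤, K_∞) × GL₂(𝔸_K^f)`-stable subspace consisting of functions that satisfy `IsGlobalInducedSection w χ₁ χ₂`; its docstring says that
these functions form a stable subspace.  Here this is a theorem (the global twin of `mem_archInduced_iff` of `SanityArch.lean`):
* `IsGlobalInducedSection.zero / add / smul / cpt / lie / fin / heckeAlg_smul` : stability under sums, scalars, `K_∞`, the Lie algebra, `GL₂(𝔸_K^f)`, the whole algebra `HeckeAlg K`;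
* **`mem_globalInduced_iff`** : `f ∈ globalInduced w χ₁ χ₂ ↔ IsGlobalInducedSection w χ₁ χ₂ f`.
NOT checked here: that `globalInduced w χ₁ χ₂ ≠ ⊥`.
-/

set_option autoImplicit false

namespace Claimed.Open.R030

open scoped Classical
open scoped Matrix.Norms.Operator ContDiff
open IsDedekindDomain NumberField

noncomputable section

namespace GlobalInduced

variable {K : Type} [Field K] [NumberField K]

theorem rightTranslate_inf (h : GL2C) (φ : SmoothAdelic K) :
    rightTranslate ((h, 1) : GAdele K) φ = rightTranslateInf h φ := by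
  refine Subtype.ext (funext fun g => ?_)
  show φ.1 (g.1 * h, g.2 * 1) = φ.1 (g.1 * h, g.2)
  rw [mul_one]

theorem rightTranslate_fin (u : GFin K) (φ : SmoothAdelic K) :
    rightTranslate ((1, u) : GAdele K) φ = reindexAux (fun x => x * u) φ := by
  refine Subtype.ext (funext fun g => ?_)
  show φ.1 (g.1 * 1, g.2 * u) = φ.1 (g.1, g.2 * u)
  rw [mul_one]

theorem reindexAux_lieDeriv (e : GFin K → GFin K) (A : M2C) (φ : SmoothAdelic K) :
    reindexAux e (lieDeriv A φ) = lieDeriv A (reindexAux e φ) := rfl

theorem reindexAux_rightTranslateInf (e : GFin K → GFin K) (h : GL2C) (φ : SmoothAdelic K) :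
    reindexAux e (rightTranslateInf h φ) = rightTranslateInf h (reindexAux e φ) := rfl

/-- the clause `compact_finite` is `IsKFin` of `SanityArch.lean` -/
theorem compact_finite_iff (f : SmoothAdelic K) :
    FiniteDimensional ℂ
      (Submodule.span ℂ (Set.range fun k : KInf => rightTranslate ((kInfToGL k, 1) : GAdele K) f)) ↔ IsKFin f := by
  have h : (fun k : KInf => rightTranslate ((kInfToGL k, 1) : GAdele K) f) = fun k : KInf => rightTranslateInf (kInfToGL k) f :=
    funext fun k => rightTranslate_inf _ f
  unfold IsKFin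
  rw [h]

theorem isKFin_reindexAux {f : SmoothAdelic K} (hf : IsKFin f) (e : GFin K → GFin K) : IsKFin (reindexAux e f) := by
  obtain ⟨V, hV, hfV, hst⟩ := (isKFin_iff f).mp hf
  refine (isKFin_iff _).mpr ⟨V.map (reindexAux e), inferInstance, Submodule.mem_map_of_mem hfV, ?_⟩
  rintro k _ ⟨y, hy, rfl⟩
  rw [← reindexAux_rightTranslateInf]
  exact Submodule.mem_map_of_mem (hst k y hy)

variable {w : InfinitePlace K} {χ₁ χ₂ : HeckeCharacter K}

theorem zero : IsGlobalInducedSection w χ₁ χ₂ 0 where
  equivariant a d x g := by simp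
  finite_smooth := ⟨⊤, isOpen_univ, fun u _ => map_zero _⟩
  compact_finite := (compact_finite_iff 0).2 IsKFin.zero

theorem add {f f' : SmoothAdelic K} (hf : IsGlobalInducedSection w χ₁ χ₂ f) (hf' : IsGlobalInducedSection w χ₁ χ₂ f') :
    IsGlobalInducedSection w χ₁ χ₂ (f + f') where
  equivariant a d x g := by
    simp only [Submodule.coe_add, Pi.add_apply, hf.equivariant, hf'.equivariant, mul_add]
  finite_smooth := by
    obtain ⟨U, hU, h⟩ := hf.finite_smooth
    obtain ⟨U', hU', h'⟩ := hf'.finite_smooth
    refine ⟨U ⊓ U', hU.inter hU', fun u hu => ?_⟩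
    rw [map_add, h u hu.1, h' u hu.2]
  compact_finite := (compact_finite_iff _).2
    (IsKFin.add ((compact_finite_iff f).1 hf.compact_finite) ((compact_finite_iff f').1 hf'.compact_finite))

theorem smul {f : SmoothAdelic K} (hf : IsGlobalInducedSection w χ₁ χ₂ f) (c : ℂ) :
    IsGlobalInducedSection w χ₁ χ₂ (c • f) where
  equivariant a d x g := by
    simp only [Submodule.coe_smul, Pi.smul_apply, hf.equivariant, smul_eq_mul]
    ring
  finite_smooth := by
    obtain ⟨U, hU, h⟩ := hf.finite_smooth
    exact ⟨U, hU, fun u hu => by rw [map_smul, h u hu]⟩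
  compact_finite := (compact_finite_iff _).2 (IsKFin.smul ((compact_finite_iff f).1 hf.compact_finite) c)

theorem cpt {f : SmoothAdelic K} (hf : IsGlobalInducedSection w χ₁ χ₂ f) (k : KInf) :
    IsGlobalInducedSection w χ₁ χ₂ (rightTranslate ((kInfToGL k, 1) : GAdele K) f) where
  equivariant a d x g := by
    rw [rightTranslate_apply, rightTranslate_apply, mul_assoc, hf.equivariant]
  finite_smooth := by
    obtain ⟨U, hU, h⟩ := hf.finite_smooth
    refine ⟨U, hU, fun u hu => ?_⟩
    rw [← rightTranslate_mul]
    have e : ((1, u) : GAdele K) * (kInfToGL k, 1) = (kInfToGL k, 1) * (1, u) := by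
      ext1 <;> simp
    rw [e, rightTranslate_mul, h u hu]
  compact_finite := by
    rw [compact_finite_iff, rightTranslate_inf]
    exact IsKFin.rightTranslateInf ((compact_finite_iff f).1 hf.compact_finite) k

theorem lie {f : SmoothAdelic K} (hf : IsGlobalInducedSection w χ₁ χ₂ f) (A : M2C) :
    IsGlobalInducedSection w χ₁ χ₂ (lieDeriv A f) where
  equivariant a d x g :=
    lieDeriv_left_equivariant A f (borelAdelic w a d x).1 g.2 ((borelAdelic w a d x).2 * g.2) _
      (fun g₁ => hf.equivariant a d x (g₁, g.2)) g.1
  finite_smooth := by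
    obtain ⟨U, hU, h⟩ := hf.finite_smooth
    refine ⟨U, hU, fun u hu => ?_⟩
    rw [rightTranslate_fin, reindexAux_lieDeriv, ← rightTranslate_fin, h u hu]
  compact_finite := (compact_finite_iff _).2 (IsKFin.lieDeriv ((compact_finite_iff f).1 hf.compact_finite) A)

theorem fin {f : SmoothAdelic K} (hf : IsGlobalInducedSection w χ₁ χ₂ f) (y : GFin K) :
    IsGlobalInducedSection w χ₁ χ₂ (rightTranslate ((1, y) : GAdele K) f) where
  equivariant a d x g := by
    rw [rightTranslate_apply, rightTranslate_apply, mul_assoc, hf.equivariant]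
  finite_smooth := by
    obtain ⟨U, hU, h⟩ := hf.finite_smooth
    refine ⟨U.comap (MulAut.conj y⁻¹).toMonoidHom, ?_, fun u hu => ?_⟩
    · have hc : Continuous fun u : GFin K => y⁻¹ * u * y := by fun_prop
      have := hU.preimage hc
      convert this using 1
      ext u
      simp
    · have hu' : y⁻¹ * u * y ∈ U := by simpa [MulAut.conj_apply] using hu
      rw [← rightTranslate_mul]
      have e : ((1, u) : GAdele K) * (1, y) = (1, y) * (1, y⁻¹ * u * y) := by
        ext1
        · simp
        · simp [mul_assoc]
      rw [e, rightTranslate_mul, h _ hu']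
  compact_finite := by
    rw [compact_finite_iff, rightTranslate_fin]
    exact isKFin_reindexAux ((compact_finite_iff f).1 hf.compact_finite) _

theorem heckeAlg_smul (a : HeckeAlg K) :
    ∀ {f : SmoothAdelic K}, IsGlobalInducedSection w χ₁ χ₂ f → IsGlobalInducedSection w χ₁ χ₂ (a • f) := by
  induction a using FreeAlgebra.induction with
  | grade0 c => intro f hf; rw [heckeAlg_algebraMap_smul]; exact smul hf c
  | grade1 o =>
    intro f hf
    rw [heckeAlg_ι_smul]
    cases o with
    | cpt k => exact cpt hf k
    | lie A => exact lie hf A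
    | fin y => exact fin hf y
  | mul a b ha hb => intro f hf; rw [mul_smul]; exact ha (hb hf)
  | add a b ha hb => intro f hf; rw [add_smul]; exact add (ha hf) (hb hf)

variable (w χ₁ χ₂) in
/-- The functions satisfying `IsGlobalInducedSection w χ₁ χ₂` form a `(𝔤, K_∞) × GL₂(𝔸_K^f)`-stable subspace. -/
def sections : Submodule (HeckeAlg K) (SmoothAdelic K) where
  carrier := {f | IsGlobalInducedSection w χ₁ χ₂ f}
  zero_mem' := zero
  add_mem' := add
  smul_mem' a _ hf := heckeAlg_smul a hf

/-- **`globalInduced w χ₁ χ₂` is exactly the space of the functions satisfying `IsGlobalInducedSection w χ₁ χ₂`**, as the docstring of `globalInduced` claims. -/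
theorem mem_globalInduced_iff (f : SmoothAdelic K) :
    f ∈ globalInduced w χ₁ χ₂ ↔ IsGlobalInducedSection w χ₁ χ₂ f := by
  have h : globalInduced w χ₁ χ₂ = sections w χ₁ χ₂ :=
    le_antisymm (sSup_le fun M hM f hf => hM f hf) (le_sSup fun f hf => hf)
  rw [h]
  rfl

end GlobalInduced

end

end Claimed.Open.R030
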