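import Claimed.Open.R030.Statement

/-!
# Result 030: the norm `heightInf` of the clause `moderate_growth` of `IsAutomorphicForm`

`Statement.lean` defines "slowly increasing" (Borel–Jacquet 1.2, 4.2 (d)) through `heightInf g = tr(g g*) + tr(g⁻¹ g⁻¹*)`.
This file checks that `heightInf` has the properties of a norm on the group `GL₂(ℂ)` on which that notion rests:

* `heightInf_eq`: `heightInf g = ∑ |g_ij|² + ∑ |(g⁻¹)_ij|²` (`frobSq`); `heightInf_one : heightInf 1 = 4`;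
* **`four_le_heightInf`**: `4 ≤ heightInf g` for all `g` (so `heightInf g ^ N` increases with `N`);
* `heightInf_inv`, **`heightInf_mul_le`** (`‖g h‖ ≤ ‖g‖ ‖h‖`), `heightInf_kInf_mul`, `heightInf_mul_kInf` (invariance under `K_∞ = U(2)` on both sides);
* `heightInf_diagElt`: the value `|a|² + |d|² + |a|⁻² + |d|⁻²` on `diag(a, d)`.

`IsSlowlyIncreasing f` is, verbatim, the body of the clause `moderate_growth` (`IsAutomorphicForm.isSlowlyIncreasing`).  Consequences: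

* `IsSlowlyIncreasing.mono` (the exponent may be raised), `.add`, `.mul`, `.neg`, `.comp_inv`,
  **`IsSlowlyIncreasing.comp_mul_right`**, `.comp_mul_left` (stability under translations: the clause is compatible with the right regular representation);
* examples: constants, the matrix entries, `det` and `det⁻¹` (`isSlowlyIncreasing_entry`, `isSlowlyIncreasing_det`, `isSlowlyIncreasing_det_inv`);
* **non-example** `not_isSlowlyIncreasing_expEntry`: the smooth function `g ↦ exp(|g₀₀|²)` (`isSmoothOnGL2C_expEntry`) is not slowly increasing,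
  so the clause `moderate_growth` is a restriction on smooth functions (`not_moderate_growth_expEntry`);
* **`moderate_growth_rightTranslate`**: the clause `moderate_growth` is stable under `rightTranslate h`, `h ∈ GL₂(𝔸_K)`.
-/

set_option autoImplicit false

namespace Claimed.Open.R030

open scoped Classical
open scoped Matrix.Norms.Operator ContDiff

noncomputable section

/-! ## The square of the Frobenius norm -/

/-- `∑_{i,j} |m_ij|²`. -/
def frobSq (m : M2C) : ℝ := ∑ i, ∑ j, ‖m i j‖ ^ 2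

theorem frobSq_nonneg (m : M2C) : 0 ≤ frobSq m :=
  Finset.sum_nonneg fun _ _ => Finset.sum_nonneg fun _ _ => sq_nonneg _

theorem frobSq_eq (m : M2C) : frobSq m = ‖m 0 0‖ ^ 2 + ‖m 0 1‖ ^ 2 + (‖m 1 0‖ ^ 2 + ‖m 1 1‖ ^ 2) := by
  simp only [frobSq, Fin.sum_univ_two]

theorem norm_entry_sq_le_frobSq (m : M2C) (i j : Fin 2) : ‖m i j‖ ^ 2 ≤ frobSq m := by
  rw [frobSq_eq]
  have h00 := sq_nonneg ‖m 0 0‖
  have h01 := sq_nonneg ‖m 0 1‖
  have h10 := sq_nonneg ‖m 1 0‖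
  have h11 := sq_nonneg ‖m 1 1‖
  fin_cases i <;> fin_cases j <;> simp only [Fin.zero_eta, Fin.mk_one, Fin.isValue] <;> linarith

theorem trace_mul_conjTranspose_re (m : M2C) : (m * m.conjTranspose).trace.re = frobSq m := by
  simp only [Matrix.trace, Matrix.diag_apply, Matrix.mul_apply, Matrix.conjTranspose_apply, frobSq, Complex.re_sum]
  refine Finset.sum_congr rfl fun i _ => Finset.sum_congr rfl fun j _ => ?_
  rw [Complex.star_def, Complex.mul_conj, Complex.ofReal_re, Complex.normSq_eq_norm_sq]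

theorem norm_sq_dot_le (x₁ x₂ y₁ y₂ : ℂ) :
    ‖x₁ * y₁ + x₂ * y₂‖ ^ 2 ≤ (‖x₁‖ ^ 2 + ‖x₂‖ ^ 2) * (‖y₁‖ ^ 2 + ‖y₂‖ ^ 2) := by
  have h : ‖x₁ * y₁ + x₂ * y₂‖ ≤ ‖x₁‖ * ‖y₁‖ + ‖x₂‖ * ‖y₂‖ := by
    refine (norm_add_le _ _).trans ?_
    rw [norm_mul, norm_mul]
  have h2 : ‖x₁ * y₁ + x₂ * y₂‖ ^ 2 ≤ (‖x₁‖ * ‖y₁‖ + ‖x₂‖ * ‖y₂‖) ^ 2 :=
    pow_le_pow_left₀ (norm_nonneg _) h 2
  nlinarith [sq_nonneg (‖x₁‖ * ‖y₂‖ - ‖x₂‖ * ‖y₁‖)]

/-- The Frobenius norm is submultiplicative. -/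
theorem frobSq_mul_le (a b : M2C) : frobSq (a * b) ≤ frobSq a * frobSq b := by
  rw [frobSq_eq, frobSq_eq a, frobSq_eq b]
  simp only [Matrix.mul_apply, Fin.sum_univ_two]
  have h00 := norm_sq_dot_le (a 0 0) (a 0 1) (b 0 0) (b 1 0)
  have h01 := norm_sq_dot_le (a 0 0) (a 0 1) (b 0 1) (b 1 1)
  have h10 := norm_sq_dot_le (a 1 0) (a 1 1) (b 0 0) (b 1 0)
  have h11 := norm_sq_dot_le (a 1 0) (a 1 1) (b 0 1) (b 1 1)
  nlinarith [h00, h01, h10, h11]

/-- `tr(a b) = 2` and `2 |x y| ≤ |x|² + |y|²`. -/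
theorem four_le_frobSq_add_of_mul_eq_one {a b : M2C} (h : a * b = 1) : 4 ≤ frobSq a + frobSq b := by
  have h0 : a 0 0 * b 0 0 + a 0 1 * b 1 0 = 1 := by
    have := congrFun (congrFun h 0) 0
    simpa [Matrix.mul_apply, Fin.sum_univ_two] using this
  have h1 : a 1 0 * b 0 1 + a 1 1 * b 1 1 = 1 := by
    have := congrFun (congrFun h 1) 1
    simpa [Matrix.mul_apply, Fin.sum_univ_two] using this
  have e0 : (1 : ℝ) ≤ ‖a 0 0‖ * ‖b 0 0‖ + ‖a 0 1‖ * ‖b 1 0‖ := by
    have := norm_add_le (a 0 0 * b 0 0) (a 0 1 * b 1 0)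
    rwa [h0, norm_one, norm_mul, norm_mul] at this
  have e1 : (1 : ℝ) ≤ ‖a 1 0‖ * ‖b 0 1‖ + ‖a 1 1‖ * ‖b 1 1‖ := by
    have := norm_add_le (a 1 0 * b 0 1) (a 1 1 * b 1 1)
    rwa [h1, norm_one, norm_mul, norm_mul] at this
  rw [frobSq_eq, frobSq_eq]
  nlinarith [sq_nonneg (‖a 0 0‖ - ‖b 0 0‖), sq_nonneg (‖a 0 1‖ - ‖b 1 0‖), sq_nonneg (‖a 1 0‖ - ‖b 0 1‖),
    sq_nonneg (‖a 1 1‖ - ‖b 1 1‖)]

theorem frobSq_unitary_mul {u : M2C} (hu : u.conjTranspose * u = 1) (m : M2C) : frobSq (u * m) = frobSq m := by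
  rw [← trace_mul_conjTranspose_re, ← trace_mul_conjTranspose_re, Matrix.conjTranspose_mul, Matrix.mul_assoc,
    Matrix.trace_mul_comm, Matrix.mul_assoc, Matrix.mul_assoc, hu, Matrix.mul_one]

theorem frobSq_mul_unitary {u : M2C} (hu : u * u.conjTranspose = 1) (m : M2C) : frobSq (m * u) = frobSq m := by
  rw [← trace_mul_conjTranspose_re, ← trace_mul_conjTranspose_re, Matrix.conjTranspose_mul, Matrix.mul_assoc,
    ← Matrix.mul_assoc u, hu, Matrix.one_mul]

/-! ## `heightInf` is a norm on the group `GL₂(ℂ)` -/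

theorem heightInf_eq (g : GL2C) : heightInf g = frobSq (g : M2C) + frobSq ((g⁻¹ : GL2C) : M2C) := by
  rw [heightInf, trace_mul_conjTranspose_re, trace_mul_conjTranspose_re]

theorem heightInf_one : heightInf 1 = 4 := by
  rw [heightInf_eq, inv_one, frobSq_eq]
  simp
  norm_num

theorem heightInf_inv (g : GL2C) : heightInf g⁻¹ = heightInf g := by
  rw [heightInf_eq, heightInf_eq, inv_inv, add_comm]

/-- **`heightInf ≥ 4`**, with equality at `1`. -/
theorem four_le_heightInf (g : GL2C) : 4 ≤ heightInf g := by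
  rw [heightInf_eq]
  exact four_le_frobSq_add_of_mul_eq_one (Units.mul_inv g)

theorem one_le_heightInf (g : GL2C) : 1 ≤ heightInf g := le_trans (by norm_num) (four_le_heightInf g)

theorem heightInf_pos (g : GL2C) : 0 < heightInf g := lt_of_lt_of_le (by norm_num) (four_le_heightInf g)

/-- **`heightInf` is submultiplicative.** -/
theorem heightInf_mul_le (g h : GL2C) : heightInf (g * h) ≤ heightInf g * heightInf h := by
  rw [heightInf_eq, heightInf_eq g, heightInf_eq h, mul_inv_rev, Units.val_mul, Units.val_mul]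
  have h1 := frobSq_mul_le (g : M2C) (h : M2C)
  have h2 := frobSq_mul_le ((h⁻¹ : GL2C) : M2C) ((g⁻¹ : GL2C) : M2C)
  have a1 := frobSq_nonneg (g : M2C)
  have a2 := frobSq_nonneg (h : M2C)
  have a3 := frobSq_nonneg ((g⁻¹ : GL2C) : M2C)
  have a4 := frobSq_nonneg ((h⁻¹ : GL2C) : M2C)
  nlinarith [mul_nonneg a1 a4, mul_nonneg a3 a2]

theorem kInfToGL_val (k : KInf) : ((kInfToGL k : GL2C) : M2C) = (k : M2C) := rfl

theorem kInfToGL_inv (k : KInf) : (kInfToGL k)⁻¹ = kInfToGL k⁻¹ := (map_inv Unitary.toUnits k).symm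

theorem kInf_conjTranspose_mul (k : KInf) : (k : M2C).conjTranspose * (k : M2C) = 1 :=
  Matrix.mem_unitaryGroup_iff'.1 k.2

theorem kInf_mul_conjTranspose (k : KInf) : (k : M2C) * (k : M2C).conjTranspose = 1 :=
  Matrix.mem_unitaryGroup_iff.1 k.2

/-- Left invariance under `K_∞ = U(2)`. -/
theorem heightInf_kInf_mul (k : KInf) (g : GL2C) : heightInf (kInfToGL k * g) = heightInf g := by
  rw [heightInf_eq, heightInf_eq g, mul_inv_rev, Units.val_mul, Units.val_mul, kInfToGL_inv, kInfToGL_val, kInfToGL_val,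
    frobSq_unitary_mul (kInf_conjTranspose_mul k), frobSq_mul_unitary (kInf_mul_conjTranspose k⁻¹)]

/-- Right invariance under `K_∞ = U(2)`. -/
theorem heightInf_mul_kInf (g : GL2C) (k : KInf) : heightInf (g * kInfToGL k) = heightInf g := by
  rw [heightInf_eq, heightInf_eq g, mul_inv_rev, Units.val_mul, Units.val_mul, kInfToGL_inv, kInfToGL_val, kInfToGL_val,
    frobSq_mul_unitary (kInf_mul_conjTranspose k), frobSq_unitary_mul (kInf_conjTranspose_mul k⁻¹)]

/-- The value on the diagonal torus. -/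
theorem heightInf_diagElt (a d : ℂˣ) :
    heightInf (diagElt a d) = ‖(a : ℂ)‖ ^ 2 + ‖(d : ℂ)‖ ^ 2 + ((‖(a : ℂ)‖ ^ 2)⁻¹ + (‖(d : ℂ)‖ ^ 2)⁻¹) := by
  have h1 : ((diagElt a d : GL2C) : M2C) = !![(a : ℂ), 0; 0, (d : ℂ)] := rfl
  have h2 : (((diagElt a d)⁻¹ : GL2C) : M2C) = !![((a⁻¹ : ℂˣ) : ℂ), 0; 0, ((d⁻¹ : ℂˣ) : ℂ)] := rfl
  rw [heightInf_eq, h1, h2, frobSq_eq, frobSq_eq]
  simp

/-! ## Slowly increasing functions -/

/-- The body of the clause `moderate_growth` of `IsAutomorphicForm`, for one function on `GL₂(ℂ)`. -/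
def IsSlowlyIncreasing (f : GL2C → ℂ) : Prop := ∃ (C : ℝ) (N : ℕ), ∀ g : GL2C, ‖f g‖ ≤ C * heightInf g ^ N

/-- The clause `moderate_growth` says that all the functions `g ↦ φ(g, x)` are slowly increasing. -/
theorem IsAutomorphicForm.isSlowlyIncreasing {K : Type} [Field K] [NumberField K] {w : NumberField.InfinitePlace K}
    {φ : SmoothAdelic K} (h : IsAutomorphicForm w φ) (x : GFin K) : IsSlowlyIncreasing fun g => φ.1 (g, x) :=
  h.moderate_growth x

/-- The constant in a bound `‖f g‖ ≤ C ‖g‖^N` is not negative. -/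
theorem slowInc_const_nonneg {f : GL2C → ℂ} {C : ℝ} {N : ℕ} (h : ∀ g : GL2C, ‖f g‖ ≤ C * heightInf g ^ N) : 0 ≤ C := by
  have h1 := (norm_nonneg _).trans (h 1)
  exact nonneg_of_mul_nonneg_left h1 (pow_pos (heightInf_pos 1) N)

/-- The exponent may be raised, because `heightInf ≥ 1`. -/
theorem slowInc_mono {f : GL2C → ℂ} {C : ℝ} {N M : ℕ} (h : ∀ g : GL2C, ‖f g‖ ≤ C * heightInf g ^ N) (hNM : N ≤ M)
    (g : GL2C) : ‖f g‖ ≤ C * heightInf g ^ M :=
  (h g).trans (mul_le_mul_of_nonneg_left (pow_le_pow_right₀ (one_le_heightInf g) hNM) (slowInc_const_nonneg h))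

theorem IsSlowlyIncreasing.mono {f : GL2C → ℂ} (h : IsSlowlyIncreasing f) :
    ∃ (C : ℝ) (N : ℕ), 0 ≤ C ∧ ∀ M, N ≤ M → ∀ g : GL2C, ‖f g‖ ≤ C * heightInf g ^ M := by
  obtain ⟨C, N, hf⟩ := h
  exact ⟨C, N, slowInc_const_nonneg hf, fun M hM => slowInc_mono hf hM⟩

theorem isSlowlyIncreasing_const (c : ℂ) : IsSlowlyIncreasing fun _ => c :=
  ⟨‖c‖, 0, fun g => by simp⟩

theorem IsSlowlyIncreasing.add {f₁ f₂ : GL2C → ℂ} (h₁ : IsSlowlyIncreasing f₁) (h₂ : IsSlowlyIncreasing f₂) :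
    IsSlowlyIncreasing fun g => f₁ g + f₂ g := by
  obtain ⟨C₁, N₁, -, h₁⟩ := h₁.mono
  obtain ⟨C₂, N₂, -, h₂⟩ := h₂.mono
  refine ⟨C₁ + C₂, max N₁ N₂, fun g => (norm_add_le _ _).trans ?_⟩
  rw [add_mul]
  exact add_le_add (h₁ _ (le_max_left _ _) g) (h₂ _ (le_max_right _ _) g)

theorem IsSlowlyIncreasing.neg {f : GL2C → ℂ} (h : IsSlowlyIncreasing f) : IsSlowlyIncreasing fun g => - f g := by
  obtain ⟨C, N, h⟩ := h
  exact ⟨C, N, fun g => by rw [norm_neg]; exact h g⟩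

theorem IsSlowlyIncreasing.mul {f₁ f₂ : GL2C → ℂ} (h₁ : IsSlowlyIncreasing f₁) (h₂ : IsSlowlyIncreasing f₂) :
    IsSlowlyIncreasing fun g => f₁ g * f₂ g := by
  obtain ⟨C₁, N₁, h₁⟩ := h₁
  obtain ⟨C₂, N₂, h₂⟩ := h₂
  refine ⟨C₁ * C₂, N₁ + N₂, fun g => ?_⟩
  rw [norm_mul, pow_add, mul_mul_mul_comm]
  exact mul_le_mul (h₁ g) (h₂ g) (norm_nonneg _) ((norm_nonneg _).trans (h₁ g))

theorem IsSlowlyIncreasing.comp_inv {f : GL2C → ℂ} (h : IsSlowlyIncreasing f) : IsSlowlyIncreasing fun g => f g⁻¹ := by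
  obtain ⟨C, N, h⟩ := h
  exact ⟨C, N, fun g => by rw [← heightInf_inv g]; exact h g⁻¹⟩

/-- **Right translates of slowly increasing functions are slowly increasing**, with the same exponent. -/
theorem IsSlowlyIncreasing.comp_mul_right {f : GL2C → ℂ} (h : IsSlowlyIncreasing f) (h₀ : GL2C) :
    IsSlowlyIncreasing fun g => f (g * h₀) := by
  obtain ⟨C, N, h⟩ := h
  refine ⟨C * heightInf h₀ ^ N, N, fun g => (h (g * h₀)).trans ?_⟩
  rw [mul_assoc, ← mul_pow, mul_comm (heightInf h₀)]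
  exact mul_le_mul_of_nonneg_left (pow_le_pow_left₀ (heightInf_pos _).le (heightInf_mul_le g h₀) N)
    (slowInc_const_nonneg h)

theorem IsSlowlyIncreasing.comp_mul_left {f : GL2C → ℂ} (h : IsSlowlyIncreasing f) (h₀ : GL2C) :
    IsSlowlyIncreasing fun g => f (h₀ * g) := by
  obtain ⟨C, N, h⟩ := h
  refine ⟨C * heightInf h₀ ^ N, N, fun g => (h (h₀ * g)).trans ?_⟩
  rw [mul_assoc, ← mul_pow]
  exact mul_le_mul_of_nonneg_left (pow_le_pow_left₀ (heightInf_pos _).le (heightInf_mul_le h₀ g) N)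
    (slowInc_const_nonneg h)

theorem norm_entry_le_heightInf (g : GL2C) (i j : Fin 2) : ‖(g : M2C) i j‖ ≤ heightInf g := by
  have h1 : ‖(g : M2C) i j‖ ^ 2 ≤ heightInf g := by
    rw [heightInf_eq]
    exact (norm_entry_sq_le_frobSq _ i j).trans (le_add_of_nonneg_right (frobSq_nonneg _))
  have h2 := four_le_heightInf g
  by_contra hc
  push Not at hc
  nlinarith

/-- Example: the matrix entries. -/
theorem isSlowlyIncreasing_entry (i j : Fin 2) : IsSlowlyIncreasing fun g => (g : M2C) i j :=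
  ⟨1, 1, fun g => by rw [one_mul, pow_one]; exact norm_entry_le_heightInf g i j⟩

/-- Example: the determinant. -/
theorem isSlowlyIncreasing_det : IsSlowlyIncreasing fun g => (g : M2C).det := by
  have h := ((isSlowlyIncreasing_entry 0 0).mul (isSlowlyIncreasing_entry 1 1)).add
    ((isSlowlyIncreasing_entry 0 1).mul (isSlowlyIncreasing_entry 1 0)).neg
  refine (iff_of_eq (congrArg IsSlowlyIncreasing (funext fun g => ?_))).1 h
  rw [Matrix.det_fin_two, sub_eq_add_neg]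

/-- Example: the inverse of the determinant. -/
theorem isSlowlyIncreasing_det_inv : IsSlowlyIncreasing fun g => ((g : M2C).det)⁻¹ := by
  refine (iff_of_eq (congrArg IsSlowlyIncreasing (funext fun g => ?_))).1 isSlowlyIncreasing_det.comp_inv
  have h : (g : M2C).det * ((g⁻¹ : GL2C) : M2C).det = 1 := by
    rw [← Matrix.det_mul, Units.mul_inv, Matrix.det_one]
  exact eq_inv_of_mul_eq_one_right h

/-! ## A smooth function that is not slowly increasing -/

/-- `g ↦ exp(|g₀₀|²)`. -/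
def expEntry (g : GL2C) : ℂ := ((Real.exp (‖(g : M2C) 0 0‖ ^ 2) : ℝ) : ℂ)

theorem isSmoothOnGL2C_expEntry : IsSmoothOnGL2C expEntry := by
  have h1 : ContDiff ℝ ∞ (fun m : M2C => m 0 0) :=
    (LinearMap.toContinuousLinearMap (Matrix.entryLinearMap ℝ ℂ (0 : Fin 2) (0 : Fin 2))).contDiff
  have h2 : ContDiff ℝ ∞ (fun m : M2C => ((Real.exp (‖m 0 0‖ ^ 2) : ℝ) : ℂ)) :=
    Complex.ofRealCLM.contDiff.comp (Real.contDiff_exp.comp ((contDiff_norm_sq ℝ).comp h1))
  refine h2.contDiffOn.congr ?_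
  intro m hm
  rw [extendByZero_of_isUnit _ hm]
  rfl

/-- **Non-example**: `g ↦ exp(|g₀₀|²)` is smooth, but not slowly increasing (look at `diag(t, 1)`, `t → ∞`). -/
theorem not_isSlowlyIncreasing_expEntry : ¬ IsSlowlyIncreasing expEntry := by
  rintro ⟨C, N, h⟩
  have hC := slowInc_const_nonneg h
  -- `exp s ≤ C e³ s^N` for all `s ≥ 4`
  have key : ∀ s : ℝ, 4 ≤ s → Real.exp s / s ^ N ≤ C * Real.exp 3 := by
    intro s hs
    have ht : 0 < Real.sqrt (s - 3) := Real.sqrt_pos.2 (by linarith)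
    have ht2 : Real.sqrt (s - 3) ^ 2 = s - 3 := Real.sq_sqrt (by linarith)
    have hne : ((Real.sqrt (s - 3) : ℝ) : ℂ) ≠ 0 := Complex.ofReal_ne_zero.2 ht.ne'
    have hg := h (diagElt (Units.mk0 _ hne) 1)
    have hn : ‖((Real.sqrt (s - 3) : ℝ) : ℂ)‖ ^ 2 = s - 3 := by
      rw [Complex.norm_real, Real.norm_eq_abs, sq_abs, ht2]
    have e1 : expEntry (diagElt (Units.mk0 _ hne) 1) = ((Real.exp (s - 3) : ℝ) : ℂ) := by
      have : ((diagElt (Units.mk0 _ hne) 1 : GL2C) : M2C) 0 0 = ((Real.sqrt (s - 3) : ℝ) : ℂ) := rfl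
      rw [expEntry, this, hn]
    have e2 : heightInf (diagElt (Units.mk0 _ hne) 1) ≤ s := by
      rw [heightInf_diagElt, Units.val_mk0, hn]
      have : (s - 3)⁻¹ ≤ 1 := inv_le_one_of_one_le₀ (by linarith)
      simp only [Units.val_one, norm_one, one_pow, inv_one]
      linarith
    rw [e1, Complex.norm_real, Real.norm_eq_abs, abs_of_pos (Real.exp_pos _)] at hg
    have h3 : Real.exp (s - 3) ≤ C * s ^ N :=
      hg.trans (mul_le_mul_of_nonneg_left (pow_le_pow_left₀ (heightInf_pos _).le e2 N) hC)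
    have hs0 : 0 < s ^ N := pow_pos (by linarith) N
    rw [div_le_iff₀ hs0]
    have h4 : Real.exp s = Real.exp (s - 3) * Real.exp 3 := by rw [← Real.exp_add]; congr 1; ring
    rw [h4]
    calc Real.exp (s - 3) * Real.exp 3 ≤ C * s ^ N * Real.exp 3 :=
          mul_le_mul_of_nonneg_right h3 (Real.exp_pos 3).le
      _ = C * Real.exp 3 * s ^ N := by ring
  have hlim := Real.tendsto_exp_div_pow_atTop N
  obtain ⟨s, hs1, hs2⟩ := ((hlim.eventually_gt_atTop (C * Real.exp 3)).and (Filter.eventually_ge_atTop 4)).exists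
  exact absurd (key s hs2) (not_le.2 hs1)

/-- The clause `moderate_growth` is a restriction on `SmoothAdelic K`: the smooth function `(g, x) ↦ exp(|g₀₀|²)` violates it. -/
theorem not_moderate_growth_expEntry (K : Type) [Field K] [NumberField K] :
    ∃ φ : SmoothAdelic K, ∀ x : GFin K, ¬ ∃ (C : ℝ) (N : ℕ), ∀ g : GL2C, ‖φ.1 (g, x)‖ ≤ C * heightInf g ^ N :=
  ⟨⟨fun p => expEntry p.1, fun _ => isSmoothOnGL2C_expEntry⟩, fun _ => not_isSlowlyIncreasing_expEntry⟩

/-- **The clause `moderate_growth` is stable under the right regular representation** `rightTranslate h`, `h ∈ GL₂(𝔸_K)`. -/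
theorem moderate_growth_rightTranslate {K : Type} [Field K] [NumberField K] {φ : SmoothAdelic K}
    (hφ : ∀ x : GFin K, ∃ (C : ℝ) (N : ℕ), ∀ g : GL2C, ‖φ.1 (g, x)‖ ≤ C * heightInf g ^ N) (h : GAdele K) :
    ∀ x : GFin K, ∃ (C : ℝ) (N : ℕ), ∀ g : GL2C, ‖(rightTranslate h φ).1 (g, x)‖ ≤ C * heightInf g ^ N :=
  fun x => IsSlowlyIncreasing.comp_mul_right (f := fun g => φ.1 (g, x * h.2)) (hφ (x * h.2)) h.1

end

end Claimed.Open.R030
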