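import Claimed.Open.R030.Statement

/-!
# Sanity for R030: smoothness on `GL₂(ℂ)` and the action of `𝔤𝔩₂(ℂ)`, evaluated

`Statement.lean` §1 defines `IsSmoothOnGL2C`, `SmoothFun`, `lieDerivFun`, `lieDeriv`, `lieAction`.  The other sanity
files prove structural properties of `lieDeriv` (equivariance, `K`-finiteness); here the definitions are *evaluated*:

* every function that is the restriction of a `C^∞` function on `M₂(ℂ)` is smooth (`isSmoothOnGL2C_of_contDiff`), in
  particular the matrix entries `g ↦ g i j` and their complex conjugates (`entryFun`, `conjEntryFun`);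
* `(A · g_{ij})(g) = (g A)_{ij}` and `(A · \bar g_{ij})(g) = \overline{(g A)_{ij}}` (`lieDeriv_entryFun`,
  `lieDeriv_conjEntryFun`), and `A · g_{ij} = ∑_k A_{kj} g_{ik}` in `SmoothFun X` (`lieDeriv_entryFun_eq_sum`);
* the formula of the docstring of `lieDerivFun`, `(A φ)(g, x) = d/dt φ(g exp(tA), x) |_{t = 0}`, for every smooth `φ`
  (`hasDerivAt_exp_lieDeriv`);
* `lieAction` is injective (`lieAction_injective`), and it is *not* `ℂ`-linear in `A`
  (`lieAction_not_complex_linear`): `𝔤𝔩₂(ℂ)` acts as a real Lie algebra, as `Statement.lean` says;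
* a non-example: the indicator function of `{g | 0 < Re g₀₀}` is not smooth (`not_isSmoothOnGL2C_indicator`).
-/

set_option autoImplicit false

namespace Claimed.Open.R030.LieEval

open scoped Classical
open scoped Matrix.Norms.Operator ContDiff

noncomputable section

attribute [local instance 100] LieRing.ofAssociativeRing

/-! ## Restrictions of smooth functions on `M₂(ℂ)` -/

/-- The restriction to `GL₂(ℂ)` of a `C^∞` function on the real vector space `M₂(ℂ)` is smooth. -/
theorem isSmoothOnGL2C_of_contDiff {F : M2C → ℂ} (hF : ContDiff ℝ ∞ F) :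
    IsSmoothOnGL2C (fun g : GL2C => F (g : M2C)) := by
  refine hF.contDiffOn.congr ?_
  intro m hm
  rw [extendByZero_of_isUnit _ hm]
  rfl

/-- Constant functions are smooth. -/
theorem isSmoothOnGL2C_const (c : ℂ) : IsSmoothOnGL2C (fun _ : GL2C => c) :=
  isSmoothOnGL2C_of_contDiff (F := fun _ => c) contDiff_const

variable (X : Type*)

/-- The element `(g, x) ↦ F g` of `SmoothFun X`, for `F` a `C^∞` function on `M₂(ℂ)`. -/
def restrictSmooth (F : M2C → ℂ) (hF : ContDiff ℝ ∞ F) : SmoothFun X :=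
  ⟨fun p => F (p.1 : M2C), fun _ => isSmoothOnGL2C_of_contDiff hF⟩

variable {X}

/-- `(A · F)(g) = dF_g (g A)`. -/
theorem lieDeriv_restrictSmooth (A : M2C) (F : M2C → ℂ) (hF : ContDiff ℝ ∞ F) (g : GL2C) (x : X) :
    (lieDeriv A (restrictSmooth X F hF)).1 (g, x) = fderiv ℝ F (g : M2C) ((g : M2C) * A) := by
  rw [lieDeriv_apply]
  have heq : (extendByZero fun g' => (restrictSmooth X F hF).1 (g', x)) =ᶠ[nhds (g : M2C)] F := by
    filter_upwards [isOpen_units_M2C.mem_nhds g.isUnit] with m hm
    rw [extendByZero_of_isUnit _ hm]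
    rfl
  rw [heq.fderiv_eq]

/-- `lieDerivFun` is the function underlying `lieDeriv`. -/
theorem lieDerivFun_eq_lieDeriv (A : M2C) (φ : SmoothFun X) : lieDerivFun A φ.1 = (lieDeriv A φ).1 := rfl

/-- `lieAction` is `lieDeriv`. -/
theorem lieAction_apply (A : M2C) (φ : SmoothFun X) : lieAction A φ = lieDeriv A φ := rfl

/-! ## Real-linear forms: the matrix entries and their conjugates -/

variable (X) in
/-- The element `(g, x) ↦ L g` of `SmoothFun X`, for a real-linear form `L` on `M₂(ℂ)`. -/
def linFun (L : M2C →L[ℝ] ℂ) : SmoothFun X := restrictSmooth X L L.contDiff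

theorem linFun_apply (L : M2C →L[ℝ] ℂ) (g : GL2C) (x : X) : (linFun X L).1 (g, x) = L (g : M2C) := rfl

/-- `(A · L)(g) = L (g A)`. -/
theorem lieDeriv_linFun (A : M2C) (L : M2C →L[ℝ] ℂ) (g : GL2C) (x : X) :
    (lieDeriv A (linFun X L)).1 (g, x) = L ((g : M2C) * A) := by
  unfold linFun
  rw [lieDeriv_restrictSmooth, ContinuousLinearMap.fderiv]

/-- The real-linear form `m ↦ m i j`. -/
def entryCLM (i j : Fin 2) : M2C →L[ℝ] ℂ :=
  LinearMap.toContinuousLinearMap
    { toFun := fun m => m i j, map_add' := fun _ _ => rfl, map_smul' := fun _ _ => rfl }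

theorem entryCLM_apply (i j : Fin 2) (m : M2C) : entryCLM i j m = m i j := rfl

/-- The real-linear form `m ↦ conj (m i j)`. -/
def conjEntryCLM (i j : Fin 2) : M2C →L[ℝ] ℂ :=
  (Complex.conjCLE : ℂ →L[ℝ] ℂ).comp (entryCLM i j)

theorem conjEntryCLM_apply (i j : Fin 2) (m : M2C) :
    conjEntryCLM i j m = (starRingEnd ℂ) (m i j) := rfl

variable (X) in
/-- The matrix entry `(g, x) ↦ g i j`, a smooth function. -/
def entryFun (i j : Fin 2) : SmoothFun X := linFun X (entryCLM i j)

variable (X) in
/-- The conjugate matrix entry `(g, x) ↦ conj (g i j)`, a smooth function. -/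
def conjEntryFun (i j : Fin 2) : SmoothFun X := linFun X (conjEntryCLM i j)

theorem entryFun_apply (i j : Fin 2) (g : GL2C) (x : X) : (entryFun X i j).1 (g, x) = (g : M2C) i j := rfl

theorem conjEntryFun_apply (i j : Fin 2) (g : GL2C) (x : X) :
    (conjEntryFun X i j).1 (g, x) = (starRingEnd ℂ) ((g : M2C) i j) := rfl

/-- The matrix entries are smooth in the sense of `Statement.lean`. -/
theorem isSmoothOnGL2C_entry (i j : Fin 2) : IsSmoothOnGL2C (fun g : GL2C => (g : M2C) i j) :=
  (entryFun Unit i j).2 ()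

/-- `(A · g_{ij})(g) = (g A)_{ij}`. -/
theorem lieDeriv_entryFun (A : M2C) (i j : Fin 2) (g : GL2C) (x : X) :
    (lieDeriv A (entryFun X i j)).1 (g, x) = ((g : M2C) * A) i j :=
  lieDeriv_linFun A _ g x

/-- `(A · \bar g_{ij})(g) = \overline{(g A)_{ij}}`. -/
theorem lieDeriv_conjEntryFun (A : M2C) (i j : Fin 2) (g : GL2C) (x : X) :
    (lieDeriv A (conjEntryFun X i j)).1 (g, x) = (starRingEnd ℂ) (((g : M2C) * A) i j) :=
  lieDeriv_linFun A _ g x

/-- `A · g_{ij} = ∑_k A_{kj} g_{ik}`: the span of the entries of one row is the standard representation. -/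
theorem lieDeriv_entryFun_eq_sum (A : M2C) (i j : Fin 2) :
    lieDeriv A (entryFun X i j) = ∑ k, A k j • entryFun X i k := by
  ext ⟨g, x⟩
  rw [lieDeriv_entryFun, Matrix.mul_apply]
  simp only [Fin.sum_univ_two, Submodule.coe_add, Submodule.coe_smul, Pi.add_apply, Pi.smul_apply,
    entryFun_apply, smul_eq_mul]
  ring

/-- The bracket relation, checked by hand on the matrix entries:
`A · (B · g_{ij}) - B · (A · g_{ij}) = [A, B] · g_{ij}`, with `[A, B] = A B - B A`. -/
theorem lieDeriv_bracket_entryFun (A B : M2C) (i j : Fin 2) (g : GL2C) (x : X) :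
    (lieDeriv A (lieDeriv B (entryFun X i j))).1 (g, x) - (lieDeriv B (lieDeriv A (entryFun X i j))).1 (g, x)
      = (lieDeriv (A * B - B * A) (entryFun X i j)).1 (g, x) := by
  have h : ∀ A B : M2C, (lieDeriv A (lieDeriv B (entryFun X i j))).1 (g, x) = ((g : M2C) * (A * B)) i j := by
    intro A B
    rw [lieDeriv_entryFun_eq_sum, map_sum]
    simp only [Fin.sum_univ_two, map_smul, Submodule.coe_add, Submodule.coe_smul, Pi.add_apply,
      Pi.smul_apply, lieDeriv_entryFun, smul_eq_mul, Matrix.mul_apply]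
    ring
  rw [h, h, lieDeriv_entryFun, mul_sub, Matrix.sub_apply]

/-! ## `lieAction` is faithful, and real-linear only -/

/-- The representation of `𝔤𝔩₂(ℂ)` on smooth functions is faithful. -/
theorem lieAction_injective [Nonempty X] :
    Function.Injective (lieAction : M2C →ₗ⁅ℝ⁆ Module.End ℂ (SmoothFun X)) := by
  intro A B hAB
  obtain ⟨x⟩ := ‹Nonempty X›
  ext i j
  have h : (lieAction A (entryFun X i j)).1 (1, x) = (lieAction B (entryFun X i j)).1 (1, x) := by
    rw [hAB]
  rw [lieAction_apply, lieAction_apply, lieDeriv_entryFun, lieDeriv_entryFun] at h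
  simpa using h

/-- `lieAction (i A) = -i lieAction A` on the conjugate entries. -/
theorem lieDeriv_I_smul_conjEntryFun (A : M2C) (i j : Fin 2) :
    lieDeriv (Complex.I • A) (conjEntryFun X i j) = -Complex.I • lieDeriv A (conjEntryFun X i j) := by
  ext ⟨g, x⟩
  rw [lieDeriv_conjEntryFun]
  simp only [Submodule.coe_smul, Pi.smul_apply, lieDeriv_conjEntryFun, smul_eq_mul,
    Matrix.mul_smul, Matrix.smul_apply, map_mul, Complex.conj_I]

/-- `𝔤𝔩₂(ℂ)` acts as a *real* Lie algebra: `A ↦ lieAction A` is not `ℂ`-linear. -/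
theorem lieAction_not_complex_linear [Nonempty X] :
    ∃ A : M2C, (lieAction (Complex.I • A) : Module.End ℂ (SmoothFun X)) ≠ Complex.I • lieAction A := by
  obtain ⟨x⟩ := ‹Nonempty X›
  refine ⟨1, fun h => ?_⟩
  have h1 : (lieAction (Complex.I • (1 : M2C)) (conjEntryFun X 0 0)).1 (1, x)
      = ((Complex.I • (lieAction (1 : M2C) : Module.End ℂ (SmoothFun X))) (conjEntryFun X 0 0)).1 (1, x) := by
    rw [h]
  rw [lieAction_apply, lieDeriv_I_smul_conjEntryFun, LinearMap.smul_apply, lieAction_apply] at h1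
  simp only [Submodule.coe_smul, Pi.smul_apply, lieDeriv_conjEntryFun, smul_eq_mul] at h1
  simp only [Units.val_one, mul_one, Matrix.one_apply_eq, map_one] at h1
  have h2 : (2 : ℂ) * Complex.I = 0 := by linear_combination -h1
  simp at h2

/-! ## The formula of the docstring: `(A φ)(g, x) = d/dt φ(g exp(tA), x) |_{t = 0}` -/

/-- `exp A ∈ GL₂(ℂ)`. -/
def expGL (A : M2C) : GL2C := (Matrix.isUnit_exp A).unit

theorem expGL_coe (A : M2C) : ((expGL A : GL2C) : M2C) = NormedSpace.exp A := rfl

set_option backward.isDefEq.respectTransparency false in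
/-- **The derivative along the left-invariant vector field** attached to `A`:
`t ↦ φ(g exp(tA), x)` has derivative `(A φ)(g, x)` at `t = 0`. -/
theorem hasDerivAt_exp_lieDeriv (A : M2C) (φ : SmoothFun X) (g : GL2C) (x : X) :
    HasDerivAt (fun t : ℝ => φ.1 (g * expGL (t • A), x)) ((lieDeriv A φ).1 (g, x)) 0 := by
  set F := extendByZero fun g => φ.1 (g, x) with hF
  have hc : HasDerivAt (fun t : ℝ => (g : M2C) * NormedSpace.exp (t • A)) ((g : M2C) * A) 0 := by
    have h := (hasDerivAt_exp_smul_const (𝕂 := ℝ) A (0 : ℝ)).const_mul (g : M2C)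
    simpa using h
  have hFd : HasFDerivAt F (fderiv ℝ F (g : M2C)) ((g : M2C) * NormedSpace.exp ((0 : ℝ) • A)) := by
    have : (g : M2C) * NormedSpace.exp ((0 : ℝ) • A) = (g : M2C) := by simp
    rw [this]
    exact (SmoothFun.differentiableAt φ.2 x g).hasFDerivAt
  have h := hFd.comp_hasDerivAt (0 : ℝ) hc
  rw [lieDeriv_apply]
  refine h.congr_of_eventuallyEq (Filter.Eventually.of_forall fun t => ?_)
  have hu : IsUnit ((g : M2C) * NormedSpace.exp (t • A)) := g.isUnit.mul (Matrix.isUnit_exp _)
  show φ.1 (g * expGL (t • A), x) = F ((g : M2C) * NormedSpace.exp (t • A))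
  rw [hF, extendByZero_of_isUnit _ hu]
  have : hu.unit = g * expGL (t • A) := Units.ext rfl
  rw [this]

/-! ## A non-example -/

/-- The path `t ↦ [[t, 1], [1, 0]]` in `GL₂(ℂ)`. -/
def crossPath (t : ℝ) : M2C := !![(t : ℂ), 1; 1, 0]

theorem crossPath_isUnit (t : ℝ) : IsUnit (crossPath t) := by
  rw [Matrix.isUnit_iff_isUnit_det, crossPath, Matrix.det_fin_two_of]
  simp

theorem crossPath_continuous : Continuous crossPath := by
  have h : crossPath = fun t : ℝ => (!![0, 1; 1, 0] : M2C) + t • (!![1, 0; 0, 0] : M2C) := by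
    funext t
    ext i j
    fin_cases i <;> fin_cases j <;> simp [crossPath]
  rw [h]
  exact continuous_const.add (continuous_id.smul continuous_const)

/-- The indicator function of the set `{g | 0 < Re g₀₀}` (which is not closed in `GL₂(ℂ)`) is not smooth: it is not even
continuous at `[[0, 1], [1, 0]]`. -/
theorem not_isSmoothOnGL2C_indicator :
    ¬ IsSmoothOnGL2C (fun g : GL2C => if 0 < ((g : M2C) 0 0).re then (1 : ℂ) else 0) := by
  intro h
  have hc : Continuous
      ((extendByZero fun g : GL2C => if 0 < ((g : M2C) 0 0).re then (1 : ℂ) else 0) ∘ crossPath) :=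
    h.continuousOn.comp_continuous crossPath_continuous crossPath_isUnit
  have hval : ((extendByZero fun g : GL2C => if 0 < ((g : M2C) 0 0).re then (1 : ℂ) else 0) ∘ crossPath)
      = fun t : ℝ => if 0 < t then (1 : ℂ) else 0 := by
    funext t
    rw [Function.comp_apply, extendByZero_of_isUnit _ (crossPath_isUnit t)]
    have : (((crossPath_isUnit t).unit : GL2C) : M2C) 0 0 = (t : ℂ) := by
      show crossPath t 0 0 = _
      simp [crossPath]
    rw [this, Complex.ofReal_re]
  rw [hval] at hc
  have hcl : IsClosed ((fun t : ℝ => if 0 < t then (1 : ℂ) else 0) ⁻¹' {1}) :=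
    isClosed_singleton.preimage hc
  have hset : ((fun t : ℝ => if 0 < t then (1 : ℂ) else 0) ⁻¹' {1}) = Set.Ioi 0 := by
    ext t
    by_cases ht : 0 < t <;> simp [ht]
  rw [hset] at hcl
  have h0 : (0 : ℝ) ∈ closure (Set.Ioi (0 : ℝ)) := by rw [closure_Ioi]; simp
  rw [hcl.closure_eq] at h0
  exact lt_irrefl (0 : ℝ) (Set.mem_Ioi.mp h0)

end

end Claimed.Open.R030.LieEval
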