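import Claimed.Open.R030.Statement

/-!
# Result 030 — sanity: `IsSmoothOnGL2C` and `lieDerivFun`

`Statement.lean` defines smoothness on `GL₂(ℂ)` by extension by zero to the real vector space `M₂(ℂ)` (`IsSmoothOnGL2C`) and the action of
`A ∈ 𝔤𝔩₂(ℂ)` by the formula `(dφ(·, x))_g (g A)` (`lieDerivFun`).  This file checks both definitions against their docstrings.

* `isSmoothOnGL2C_entry`, `isSmoothOnGL2C_conj_entry`, `isSmoothOnGL2C_det`: the matrix entries `g ↦ g_{ij}`, their complex conjugates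
  (smoothness is meant in the real sense) and `det` are smooth; `isSmoothOnGL2C_of_contDiffOn`: so is the restriction of every function that
  is `C^∞` on the invertible matrices.
* `not_isSmoothOnGL2C_indicator`: the indicator function of `{1}` is NOT smooth, so `IsSmoothOnGL2C` is a real restriction.
* `hasDerivAt_lieDerivFun`: **the docstring of `lieDerivFun` is a theorem**: for `φ` smooth in the first variable,
  `t ↦ φ(g exp(tA), x)` has the derivative `lieDerivFun A φ (g, x)` at `t = 0` (`expElt A t = exp(tA) ∈ GL₂(ℂ)`).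
* `hasDerivAt_rightTranslateInf`: the docstring of `lieAction`: `lieAction A φ` is the derivative at `t = 0` of the right translates
  `rightTranslateInf (exp(tA)) φ`, pointwise.
* `lieDerivFun_entry`, `lieDerivFun_conj_entry`: `A (g ↦ g_{ij}) = (g ↦ (gA)_{ij})` and `A (g ↦ \bar g_{ij}) = (g ↦ \overline{(gA)_{ij}})`; so the
  action is not zero (`lieDerivFun_entry_one`).
* `lieDerivFun_not_complex_linear`: `A ↦ lieDerivFun A φ` is not `ℂ`-linear in `A`: `𝔤𝔩₂(ℂ)` has to be taken as a *real* Lie algebra, as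
  `Statement.lean` does (`lieAction : M2C →ₗ⁅ℝ⁆ _`).
-/

set_option autoImplicit false

namespace Claimed.Open.R030

open scoped Classical
open scoped Matrix.Norms.Operator ContDiff Topology
open Filter

noncomputable section

/-! ## Examples and a non-example of `IsSmoothOnGL2C` -/

/-- The restriction to `GL₂(ℂ)` of a function that is `C^∞` on the invertible matrices is smooth. -/
theorem isSmoothOnGL2C_of_contDiffOn {F : M2C → ℂ} (hF : ContDiffOn ℝ ∞ F {m | IsUnit m}) :
    IsSmoothOnGL2C (fun g : GL2C => F (g : M2C)) := by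
  refine hF.congr ?_
  intro m hm
  rw [extendByZero_of_isUnit _ hm]
  rfl

/-- Near a point of `GL₂(ℂ)` the extension by zero of `g ↦ F g` is `F`. -/
theorem extendByZero_eventuallyEq (F : M2C → ℂ) (g : GL2C) :
    extendByZero (fun g : GL2C => F (g : M2C)) =ᶠ[𝓝 (g : M2C)] F := by
  filter_upwards [isOpen_units_M2C.mem_nhds g.isUnit] with m hm
  rw [extendByZero_of_isUnit _ hm]
  rfl

/-- The entry `m ↦ m_{ij}` as a real linear map. -/
def entryLin (i j : Fin 2) : M2C →ₗ[ℝ] ℂ where
  toFun m := m i j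
  map_add' _ _ := rfl
  map_smul' _ _ := rfl

/-- The entry `m ↦ m_{ij}` as a continuous real linear map. -/
def entryCLM (i j : Fin 2) : M2C →L[ℝ] ℂ := LinearMap.toContinuousLinearMap (entryLin i j)

theorem entryCLM_apply (i j : Fin 2) (m : M2C) : entryCLM i j m = m i j := rfl

/-- The conjugate entry `m ↦ \bar m_{ij}` as a continuous real linear map. -/
def conjEntryCLM (i j : Fin 2) : M2C →L[ℝ] ℂ := (Complex.conjCLE : ℂ →L[ℝ] ℂ).comp (entryCLM i j)

theorem conjEntryCLM_apply (i j : Fin 2) (m : M2C) :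
    conjEntryCLM i j m = (starRingEnd ℂ) (m i j) := rfl

theorem isSmoothOnGL2C_entry (i j : Fin 2) : IsSmoothOnGL2C (fun g : GL2C => (g : M2C) i j) :=
  isSmoothOnGL2C_of_contDiffOn (F := entryCLM i j) (entryCLM i j).contDiff.contDiffOn

/-- Smoothness is meant in the real sense: the complex conjugates of the entries are smooth. -/
theorem isSmoothOnGL2C_conj_entry (i j : Fin 2) :
    IsSmoothOnGL2C (fun g : GL2C => (starRingEnd ℂ) ((g : M2C) i j)) :=
  isSmoothOnGL2C_of_contDiffOn (F := conjEntryCLM i j) (conjEntryCLM i j).contDiff.contDiffOn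

theorem isSmoothOnGL2C_det : IsSmoothOnGL2C (fun g : GL2C => (g : M2C).det) := by
  have h : ContDiff ℝ ∞ (fun m : M2C => m.det) := by
    have e : (fun m : M2C => m.det)
        = fun m => entryCLM 0 0 m * entryCLM 1 1 m - entryCLM 0 1 m * entryCLM 1 0 m := by
      funext m
      rw [Matrix.det_fin_two]
      rfl
    rw [e]
    exact ((entryCLM 0 0).contDiff.mul (entryCLM 1 1).contDiff).sub
      ((entryCLM 0 1).contDiff.mul (entryCLM 1 0).contDiff)
  exact isSmoothOnGL2C_of_contDiffOn (F := fun m : M2C => m.det) h.contDiffOn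

/-- **A function on `GL₂(ℂ)` that is not smooth**: the indicator function of `{1}`. -/
theorem not_isSmoothOnGL2C_indicator :
    ¬ IsSmoothOnGL2C (fun g : GL2C => if g = 1 then (1 : ℂ) else 0) := by
  intro h
  set F : M2C → ℂ := extendByZero (fun g : GL2C => if g = 1 then (1 : ℂ) else 0) with hF
  have h1 : IsUnit (1 : M2C) := isUnit_one
  have hc : ContinuousAt F 1 := (h.continuousOn).continuousAt (isOpen_units_M2C.mem_nhds h1)
  have hF1 : F 1 = 1 := by
    have e : h1.unit = (1 : GL2C) := Units.ext rfl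
    rw [hF, extendByZero_of_isUnit _ h1, if_pos e]
  have hne : ∀ᶠ m in 𝓝 (1 : M2C), F m ≠ 0 := hc.eventually_ne (by rw [hF1]; exact one_ne_zero)
  have himp : ∀ m : M2C, F m ≠ 0 → m = 1 := by
    intro m hm
    by_contra hm1
    apply hm
    by_cases hu : IsUnit m
    · rw [hF, extendByZero_of_isUnit _ hu, if_neg]
      intro e
      exact hm1 (by simpa using congrArg (fun u : GL2C => (u : M2C)) e)
    · simp only [hF, extendByZero, dif_neg hu]
  have hev : ∀ᶠ m in 𝓝[≠] (1 : M2C), m = 1 :=
    (hne.mono himp).filter_mono nhdsWithin_le_nhds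
  have hev' : ∀ᶠ m in 𝓝[≠] (1 : M2C), m ≠ 1 := self_mem_nhdsWithin
  have : NeBot (𝓝[≠] (1 : M2C)) := Module.punctured_nhds_neBot ℝ M2C 1
  obtain ⟨m, e1, e2⟩ := (hev.and hev').exists
  exact e2 e1

/-! ## `lieDerivFun` is the derivative along the one-parameter subgroup -/

/-- `exp(tA) ∈ GL₂(ℂ)`. -/
def expElt (A : M2C) (t : ℝ) : GL2C := (Matrix.isUnit_exp (t • A)).unit

theorem expElt_coe (A : M2C) (t : ℝ) : ((expElt A t : GL2C) : M2C) = NormedSpace.exp (t • A) := rfl

theorem expElt_zero (A : M2C) : expElt A 0 = 1 :=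
  Units.ext (by rw [expElt_coe, zero_smul, NormedSpace.exp_zero]; rfl)

variable {X : Type*}

/-- **The docstring of `lieDerivFun`**: `(A φ)(g, x) = d/dt φ(g exp(tA), x) |_{t = 0}`. -/
theorem hasDerivAt_lieDerivFun {φ : GL2C × X → ℂ} (hφ : φ ∈ SmoothFun X) (A : M2C) (g : GL2C) (x : X) :
    HasDerivAt (fun t : ℝ => φ (g * expElt A t, x)) (lieDerivFun A φ (g, x)) 0 := by
  set F : M2C → ℂ := extendByZero fun g => φ (g, x) with hF
  have hc : HasDerivAt (fun t : ℝ => (g : M2C) * NormedSpace.exp (t • A)) ((g : M2C) * A) 0 := by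
    have h := (hasDerivAt_exp_smul_const A (0 : ℝ)).const_mul (g : M2C)
    rwa [zero_smul, NormedSpace.exp_zero, one_mul] at h
  have h0 : (g : M2C) * NormedSpace.exp ((0 : ℝ) • A) = (g : M2C) := by
    rw [zero_smul, NormedSpace.exp_zero, mul_one]
  have hd : HasFDerivAt F (fderiv ℝ F (g : M2C)) ((g : M2C) * NormedSpace.exp ((0 : ℝ) • A)) := by
    rw [h0]
    exact (SmoothFun.differentiableAt hφ x g).hasFDerivAt
  have hcomp := hd.comp_hasDerivAt (0 : ℝ) hc
  have e : (fun t : ℝ => φ (g * expElt A t, x)) = F ∘ fun t : ℝ => (g : M2C) * NormedSpace.exp (t • A) := by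
    funext t
    have hu : IsUnit ((g : M2C) * NormedSpace.exp (t • A)) := (g * expElt A t).isUnit
    rw [Function.comp_apply, hF, extendByZero_of_isUnit _ hu]
    have : hu.unit = g * expElt A t := Units.ext rfl
    rw [this]
  rw [e]
  exact hcomp

/-- **The docstring of `lieAction`**: it is the differential of the right regular representation,
`(A φ)(g, x) = d/dt (R_{exp(tA)} φ)(g, x) |_{t = 0}`. -/
theorem hasDerivAt_rightTranslateInf (φ : SmoothFun X) (A : M2C) (g : GL2C) (x : X) :
    HasDerivAt (fun t : ℝ => (rightTranslateInf (expElt A t) φ).1 (g, x)) ((lieAction A φ).1 (g, x)) 0 :=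
  hasDerivAt_lieDerivFun φ.2 A g x

/-- `A (g ↦ F g) = (g ↦ F (g A))` for a continuous real linear form `F` on `M₂(ℂ)`. -/
theorem lieDerivFun_clm (F : M2C →L[ℝ] ℂ) (A : M2C) (g : GL2C) (x : X) :
    lieDerivFun A (fun p : GL2C × X => F (p.1 : M2C)) (g, x) = F ((g : M2C) * A) := by
  show fderiv ℝ (extendByZero fun g : GL2C => F (g : M2C)) (g : M2C) ((g : M2C) * A) = _
  rw [(extendByZero_eventuallyEq F g).fderiv_eq, ContinuousLinearMap.fderiv]

theorem lieDerivFun_entry (i j : Fin 2) (A : M2C) (g : GL2C) (x : X) :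
    lieDerivFun A (fun p : GL2C × X => (p.1 : M2C) i j) (g, x) = ((g : M2C) * A) i j :=
  lieDerivFun_clm (entryCLM i j) A g x

theorem lieDerivFun_conj_entry (i j : Fin 2) (A : M2C) (g : GL2C) (x : X) :
    lieDerivFun A (fun p : GL2C × X => (starRingEnd ℂ) ((p.1 : M2C) i j)) (g, x)
      = (starRingEnd ℂ) (((g : M2C) * A) i j) :=
  lieDerivFun_clm (conjEntryCLM i j) A g x

/-- The action is not zero: at `g = 1` the derivative of the entry function along `A` is `A_{ij}`. -/
theorem lieDerivFun_entry_one (i j : Fin 2) (A : M2C) (x : X) :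
    lieDerivFun A (fun p : GL2C × X => (p.1 : M2C) i j) (1, x) = A i j := by
  rw [lieDerivFun_entry, Units.val_one, one_mul]

theorem entry_mem_smoothFun (i j : Fin 2) : (fun p : GL2C × X => (p.1 : M2C) i j) ∈ SmoothFun X :=
  fun _ => isSmoothOnGL2C_entry i j

theorem conj_entry_mem_smoothFun (i j : Fin 2) :
    (fun p : GL2C × X => (starRingEnd ℂ) ((p.1 : M2C) i j)) ∈ SmoothFun X :=
  fun _ => isSmoothOnGL2C_conj_entry i j

/-- **`A ↦ lieDerivFun A φ` is not `ℂ`-linear**: `𝔤𝔩₂(ℂ)` acts as a real Lie algebra. -/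
theorem lieDerivFun_not_complex_linear (x : X) :
    ∃ φ ∈ SmoothFun X, ∃ A : M2C,
      lieDerivFun (Complex.I • A) φ (1, x) ≠ Complex.I * lieDerivFun A φ (1, x) := by
  refine ⟨_, conj_entry_mem_smoothFun 0 0, 1, ?_⟩
  rw [lieDerivFun_conj_entry, lieDerivFun_conj_entry]
  simp only [Units.val_one, one_mul, Matrix.smul_apply, Matrix.one_apply_eq, smul_eq_mul, mul_one,
    Complex.conj_I, map_one]
  intro h
  have h2 : (2 : ℂ) * Complex.I = 0 := by linear_combination -h
  rcases mul_eq_zero.1 h2 with h3 | h3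
  · norm_num at h3
  · exact Complex.I_ne_zero h3

end

end Claimed.Open.R030
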