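import Claimed.Open.R030.Statement

/-!
# Result 030: checked facts about the local definitions of `Statement.lean` (§4 and §5)

Everything here is proved in full; nothing here is used by `Statement`.  The aim is to show that the
relations by which `Statement.lean` introduces the local constants are *functional* (they determine the
value they describe) and give the expected values in the basic examples.

* `mulLaurent` is the action of `ℂ[X]` on two-sided formal series (`mulLaurent_eq_aeval`, `mulLaurent_mul`, ...).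
* `IsGJPoly.unique`: the conditions of `IsGJPoly` determine the polynomial `P` with `L(π, s) = P(q^{-s})⁻¹`.
* `gjEpsilon_unique`: the Godement–Jacquet functional equation determines the constant `c = ε(π, 0, ψ)`
  (for given Haar measures).
* `absF_mul`, `absF_of_v_eq_exp`: `absF` is the normalised absolute value (`|ϖ| = q⁻¹`).
* `isIntOf_self_iff`, `weilOver_self`, `inducedChar_self`: the case `E = F` of the definitions for extensions.
* `revCharpolyOn_coeff_zero`, `revCharpolyOn_leadingCoeff`, `revCharpolyOn_of_finrank_one`: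
  `revCharpolyOn A U = det(1 - X A | U)` has constant term `1` and leading coefficient `det(-A | U)`, and is `1 - a X`
  on a line on which `A` acts by `a`.
* `IsTateEpsilon.unique`: the Gauss-sum formula in `IsTateEpsilon` does not depend on the choice of the generators
  `d`, `f` of the different of `ψ_E` and of the conductor of `χ`, nor on the representatives `R`.
* `isTateEpsilon_of_unramified`, `isTateEpsilon_one_of_unramified`: `ε(χ, ψ_E, dx) = χ(d) |d|_E^{-1/2}` for unramified `χ`; it is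
  `1` if moreover `ψ` has level zero.
* `isWeilEpsilon_of_char`: on characters the Langlands–Deligne constant is Tate's.
* `twistRep_one`, `twistRep_twistRep`, `WDRep.isTwist_one`.
-/

set_option autoImplicit false

namespace Claimed.Open.R030

open Polynomial

noncomputable section

/-! ### `mulLaurent`: the action of `ℂ[X]` on formal two-sided series -/

/-- The shift `(z_m) ↦ (z_{m-1})`, i.e. multiplication by `X` on `∑ z_m X^m`. -/
def shiftLaurent : (ℤ → ℂ) →ₗ[ℂ] (ℤ → ℂ) where
  toFun z := fun m => z (m - 1)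
  map_add' _ _ := rfl
  map_smul' _ _ := rfl

lemma shiftLaurent_pow_apply (k : ℕ) (z : ℤ → ℂ) (m : ℤ) :
    (shiftLaurent ^ k) z m = z (m - k) := by
  induction k generalizing m with
  | zero => simp
  | succ k ih =>
    rw [pow_succ', Module.End.mul_apply]
    show (shiftLaurent ^ k) z (m - 1) = _
    rw [ih]
    congr 1
    push_cast
    ring

/-- `mulLaurent P` is `P(shift)`: so `mulLaurent` is the module structure of two-sided formal
series over the polynomial ring. -/
lemma mulLaurent_eq_aeval (P : ℂ[X]) (z : ℤ → ℂ) :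
    mulLaurent P z = aeval shiftLaurent P z := by
  funext m
  rw [aeval_eq_sum_range, mulLaurent, Polynomial.sum_over_range _ (by simp)]
  simp [LinearMap.sum_apply, Finset.sum_apply, shiftLaurent_pow_apply]

lemma mulLaurent_one (z : ℤ → ℂ) : mulLaurent 1 z = z := by
  simp [mulLaurent_eq_aeval]

lemma mulLaurent_mul (P Q : ℂ[X]) (z : ℤ → ℂ) :
    mulLaurent (P * Q) z = mulLaurent P (mulLaurent Q z) := by
  simp [mulLaurent_eq_aeval]

lemma mulLaurent_X (z : ℤ → ℂ) (m : ℤ) : mulLaurent X z m = z (m - 1) := by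
  simp [mulLaurent_eq_aeval, shiftLaurent]

lemma mulLaurent_C (c : ℂ) (z : ℤ → ℂ) (m : ℤ) : mulLaurent (C c) z m = c * z m := by
  simp [mulLaurent_eq_aeval]

lemma mulLaurent_sum {ι : Type*} (s : Finset ι) (P : ℂ[X]) (z : ι → ℤ → ℂ) :
    mulLaurent P (∑ i ∈ s, z i) = ∑ i ∈ s, mulLaurent P (z i) := by
  simp [mulLaurent_eq_aeval]

/-- The series `1`. -/
def deltaZero : ℤ → ℂ := fun m => if m = 0 then 1 else 0

/-- A polynomial, seen as a two-sided series. -/
lemma mulLaurent_deltaZero (Q : ℂ[X]) (m : ℤ) :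
    mulLaurent Q deltaZero m = if 0 ≤ m then Q.coeff m.toNat else 0 := by
  rw [mulLaurent, Polynomial.sum_def]
  split_ifs with h
  · obtain ⟨n, rfl⟩ := Int.eq_ofNat_of_zero_le h
    simp only [Int.toNat_natCast]
    by_cases hn : n ∈ Q.support
    · rw [Finset.sum_eq_single n]
      · simp [deltaZero]
      · intro b _ hb
        have : (n : ℤ) - b ≠ 0 := by
          intro h0
          apply hb
          omega
        simp [deltaZero, this]
      · intro h0; exact absurd hn h0
    · rw [Finset.sum_eq_zero]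
      · exact (by simpa using hn : Q.coeff n = 0).symm
      · intro b hb
        have : (n : ℤ) - b ≠ 0 := by
          intro h0
          have : b = n := by omega
          exact hn (this ▸ hb)
        simp [deltaZero, this]
  · apply Finset.sum_eq_zero
    intro b _
    have : m - b ≠ 0 := by omega
    simp [deltaZero, this]

lemma mulLaurent_deltaZero_injective {P Q : ℂ[X]}
    (h : mulLaurent P deltaZero = mulLaurent Q deltaZero) : P = Q := by
  ext n
  have := congrFun h n
  simpa [mulLaurent_deltaZero] using this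

/-- If `P(0) = 1`, `A` is a Laurent polynomial and `P A` is a polynomial `Q`, then `A` is a
polynomial. -/
lemma exists_poly_of_mulLaurent_eq {P Q : ℂ[X]} (hP : P.coeff 0 = 1) {A : ℤ → ℂ}
    (hA : (Function.support A).Finite) (h : mulLaurent P A = mulLaurent Q deltaZero) :
    ∃ A' : ℂ[X], P * A' = Q := by
  -- `A` vanishes in negative degrees
  have hneg : ∀ m : ℤ, m < 0 → A m = 0 := by
    by_contra hcon
    push Not at hcon
    obtain ⟨m₁, hm₁, hAm₁⟩ := hcon
    set s := hA.toFinset.filter (· < 0) with hs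
    have hne : s.Nonempty := ⟨m₁, by simp [hs, hm₁, hAm₁]⟩
    set m₀ := s.min' hne with hm₀
    have hm₀s : m₀ ∈ s := s.min'_mem hne
    have hm₀neg : m₀ < 0 := (Finset.mem_filter.mp hm₀s).2
    have hAm₀ : A m₀ ≠ 0 := by
      have := (Finset.mem_filter.mp hm₀s).1
      simpa using this
    have hlow : ∀ m, m < m₀ → A m = 0 := by
      intro m hm
      by_contra h0
      have : m ∈ s := by simp [hs, h0]; omega
      have := s.min'_le m this
      omega
    have h1 := congrFun h m₀
    rw [mulLaurent_deltaZero, if_neg (by omega), mulLaurent, Polynomial.sum_def,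
      Finset.sum_eq_single 0] at h1
    · simp [hP] at h1
      exact hAm₀ h1
    · intro b _ hb
      rw [hlow _ (by omega), mul_zero]
    · intro h0
      simp at h0
      simp [h0] at hP
  refine ⟨∑ m ∈ hA.toFinset, monomial m.toNat (A m), ?_⟩
  apply mulLaurent_deltaZero_injective
  rw [mulLaurent_mul, ← h]
  congr 1
  funext m
  rw [mulLaurent_deltaZero]
  split_ifs with hm
  · rw [Polynomial.finsetSum_coeff]
    by_cases hAm : A m = 0
    · rw [hAm]
      apply Finset.sum_eq_zero
      intro b hb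
      rw [coeff_monomial, if_neg]
      intro hbm
      have hb0 : 0 ≤ b := by
        by_contra hb0
        have := hneg b (by omega)
        simp at hb
        exact hb this
      have : b = m := by omega
      simp at hb
      exact hb (this ▸ hAm)
    · rw [Finset.sum_eq_single m]
      · simp
      · intro b hb hbm
        rw [coeff_monomial, if_neg]
        intro hbm'
        have hb0 : 0 ≤ b := by
          by_contra hb0
          have := hneg b (by omega)
          simp at hb
          exact hb this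
        apply hbm
        omega
      · intro h0
        simp at h0
        exact absurd h0 hAm
  · exact (hneg m (by omega)).symm

/-! ### The Godement–Jacquet polynomial is unique -/

section GJ

open MeasureTheory
open scoped WithZero

variable {F : Type} [Field F] [Valued F ℤᵐ⁰]

attribute [local instance] borelM2 borelGL2

lemma IsGJPoly.exists_mul_eq {μ : Measure (GL (Fin 2) F)} {𝒞 : Submodule ℂ (GL (Fin 2) F → ℂ)}
    {P Q : ℂ[X]} (hP : IsGJPoly μ 𝒞 P) (hQ : IsGJPoly μ 𝒞 Q) : ∃ A : ℂ[X], P * A = Q := by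
  obtain ⟨n, Φ, f, hΦ, hf, hsum⟩ := hP.generates
  set S : ℤ → ℂ := ∑ i, zetaCoeff μ (Φ i) (f i) with hS
  have h1 : mulLaurent P S = deltaZero := by
    rw [hS, mulLaurent_sum]
    funext m
    rw [Finset.sum_apply]
    exact hsum m
  have hfin : (Function.support (mulLaurent Q S)).Finite := by
    rw [hS, mulLaurent_sum]
    refine Set.Finite.subset
      (Set.Finite.biUnion (Finset.univ : Finset (Fin n)).finite_toSet
        (fun i _ => hQ.laurent (Φ i) (f i) (hΦ i) (hf i))) ?_
    intro m hm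
    simp only [Function.mem_support, Finset.sum_apply] at hm
    obtain ⟨i, _, hi⟩ := Finset.exists_ne_zero_of_sum_ne_zero hm
    simp only [Finset.coe_univ, Set.mem_univ, Set.iUnion_true, Set.mem_iUnion]
    exact ⟨i, hi⟩
  apply exists_poly_of_mulLaurent_eq hP.coeff_zero hfin
  rw [← mulLaurent_mul, mul_comm, mulLaurent_mul, h1]

/-- **Well-definedness of the Godement–Jacquet `L`-factor**: the conditions of `IsGJPoly` determine
the polynomial. -/
theorem IsGJPoly.unique {μ : Measure (GL (Fin 2) F)} {𝒞 : Submodule ℂ (GL (Fin 2) F → ℂ)}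
    {P Q : ℂ[X]} (hP : IsGJPoly μ 𝒞 P) (hQ : IsGJPoly μ 𝒞 Q) : P = Q := by
  obtain ⟨A, hA⟩ := hP.exists_mul_eq hQ
  obtain ⟨B, hB⟩ := hQ.exists_mul_eq hP
  have hP0 : P ≠ 0 := by
    intro h
    have := hP.coeff_zero
    simp [h] at this
  have hAB : A * B = 1 := by
    have : P * (A * B) = P * 1 := by rw [← mul_assoc, hA, hB, mul_one]
    exact mul_left_cancel₀ hP0 this
  have hAu : IsUnit A := IsUnit.of_mul_eq_one _ hAB
  obtain ⟨a, _, rfl⟩ := Polynomial.isUnit_iff.mp hAu
  have h0 := hQ.coeff_zero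
  rw [← hA, mul_comm, coeff_C_mul, hP.coeff_zero, mul_one] at h0
  rw [← hA, h0, map_one, mul_one]

/-- **Well-definedness of the Godement–Jacquet local constant** (for given Haar measures): the
functional equation in `IsGJEpsilon` determines `c`. -/
theorem gjEpsilon_unique {V : Type} [AddCommGroup V] [Module ℂ V]
    {π : Representation ℂ (GL (Fin 2) F) V} {ψ : AddChar F ℂ}
    {μ : Measure (GL (Fin 2) F)} {ν : Measure (Matrix (Fin 2) (Fin 2) F)}
    {P P' Q Q' : ℂ[X]} {a b : ℤ} {c c' : ℂ}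
    (hP : IsGJPoly μ (matrixCoeffs π) P) (hQ : IsGJPoly μ (matrixCoeffs π) Q)
    (hP' : IsGJPoly μ (checkCoeffs (matrixCoeffs π)) P')
    (hQ' : IsGJPoly μ (checkCoeffs (matrixCoeffs π)) Q')
    (h : ∀ Φ f, IsSchwartzBruhat Φ → f ∈ matrixCoeffs π → ∀ k : ℤ,
      mulLaurent P' (zetaCoeff μ (fourierM2 ψ ν Φ) (fun g => f g⁻¹)) (-k) * (resCard F : ℂ) ^ k =
        c * mulLaurent P (zetaCoeff μ Φ f) (k - a))
    (h' : ∀ Φ f, IsSchwartzBruhat Φ → f ∈ matrixCoeffs π → ∀ k : ℤ,
      mulLaurent Q' (zetaCoeff μ (fourierM2 ψ ν Φ) (fun g => f g⁻¹)) (-k) * (resCard F : ℂ) ^ k =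
        c' * mulLaurent Q (zetaCoeff μ Φ f) (k - b)) : c = c' := by
  obtain rfl := hP.unique hQ
  obtain rfl := hP'.unique hQ'
  obtain ⟨n, Φ, f, hΦ, hf, hsum⟩ := hP.generates
  have key : ∀ k : ℤ, c * (if k - a = 0 then 1 else 0) = c' * (if k - b = 0 then 1 else 0) := by
    intro k
    rw [← hsum (k - a), ← hsum (k - b), Finset.mul_sum, Finset.mul_sum]
    refine Finset.sum_congr rfl fun i _ => ?_
    rw [← h (Φ i) (f i) (hΦ i) (hf i) k, ← h' (Φ i) (f i) (hΦ i) (hf i) k]
  by_cases hab : a = b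
  · subst hab
    simpa using key a
  · have h1 := key a
    have h2 := key b
    have hab' : a - b ≠ 0 := sub_ne_zero.mpr hab
    have hba' : b - a ≠ 0 := sub_ne_zero.mpr (Ne.symm hab)
    simp only [sub_self, if_true, mul_one, hab', hba', if_false, mul_zero] at h1 h2
    rw [h1, ← h2]

end GJ

/-! ### Section 5: absolute value, integers, Weil groups, induced characters -/

section Five

open scoped WithZero

variable {F : Type} [Field F] [Valued F ℤᵐ⁰]

lemma absF_zero : absF (0 : F) = 0 := by simp [absF]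

lemma absF_one : absF (1 : F) = 1 := by simp [absF]

lemma absF_mul (hq : resCard F ≠ 0) (x y : F) : absF (x * y) = absF x * absF y := by
  by_cases hx : x = 0
  · simp [absF, hx]
  by_cases hy : y = 0
  · simp [absF, hy]
  have hq' : (resCard F : ℝ) ≠ 0 := by exact_mod_cast hq
  simp only [absF, hx, hy, mul_eq_zero, or_self, if_false, map_mul]
  rw [WithZero.log_mul (by simpa using hx) (by simpa using hy), zpow_add₀ hq']

/-- A uniformiser has absolute value `q⁻¹`. -/
lemma absF_of_v_eq_exp {x : F} (n : ℤ) (hx : Valued.v x = WithZero.exp n) :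
    absF x = (resCard F : ℝ) ^ n := by
  have hx0 : x ≠ 0 := by
    rintro rfl
    rw [map_zero] at hx
    exact WithZero.exp_ne_zero hx.symm
  simp [absF, hx0, hx]

/-- For `E = F`, `IsIntOf` is membership in the valuation ring. -/
lemma isIntOf_self_iff (x : F) : IsIntOf (F := F) (E := F) x ↔ Valued.v x ≤ 1 := by
  unfold IsIntOf IsIntBar
  rw [isIntegral_algebraMap_iff (FaithfulSMul.algebraMap_injective F (AlgebraicClosure F))]
  rw [IsIntegrallyClosed.isIntegral_iff]
  constructor
  · rintro ⟨y, rfl⟩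
    exact y.2
  · intro h
    exact ⟨⟨x, h⟩, rfl⟩


lemma weilOver_self : weilOver F F = ⊤ := by
  ext w
  simp only [weilOver, Subgroup.mem_subgroupOf, Subgroup.mem_top, iff_true]
  rw [IntermediateField.mem_fixingSubgroup_iff]
  rintro _ ⟨y, rfl⟩
  exact (w : GalAbs F).commutes y

lemma mem_weilOver_self (w : weilGroup F) : w ∈ weilOver F F := by
  rw [weilOver_self]; trivial

/-- Induction from `W_F` to `W_F` does nothing. -/
lemma inducedChar_self (ξ : weilOver F F →* ℂˣ) (w : weilGroup F) :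
    inducedChar ξ w = ξ ⟨w, mem_weilOver_self w⟩ := by
  have hsub : Subsingleton (weilGroup F ⧸ weilOver F F) := by
    constructor
    intro a b
    induction a using QuotientGroup.induction_on
    induction b using QuotientGroup.induction_on
    exact QuotientGroup.eq.mpr (mem_weilOver_self _)
  unfold inducedChar
  rw [finsum_eq_single _ ((1 : weilGroup F) : weilGroup F ⧸ weilOver F F)
    (fun x hx => absurd (Subsingleton.elim _ _) hx)]
  set g := ((1 : weilGroup F) : weilGroup F ⧸ weilOver F F).out with hg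
  rw [dif_pos (mem_weilOver_self _)]
  have : (⟨g⁻¹ * w * g, mem_weilOver_self _⟩ : weilOver F F) =
      (⟨g, mem_weilOver_self g⟩ : weilOver F F)⁻¹ * ⟨w, mem_weilOver_self w⟩ *
        ⟨g, mem_weilOver_self g⟩ := rfl
  rw [this, map_mul, map_mul, map_inv, mul_comm, mul_inv_cancel_left]

section Charpoly

variable {V : Type} [AddCommGroup V] [Module ℂ V] [FiniteDimensional ℂ V]

/-- `det(1 - X A | U)` has constant term `1`. -/
lemma revCharpolyOn_coeff_zero (A : Module.End ℂ V) (U : Submodule ℂ V) :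
    (revCharpolyOn A U).coeff 0 = 1 := by
  unfold revCharpolyOn
  split_ifs with h
  · rw [coeff_zero_reverse]
    exact (LinearMap.charpoly_monic _).leadingCoeff
  · simp

/-- The leading coefficient of `det(1 - X A | U)` is `det(-A | U)`, for `A` invertible on `U`. -/
lemma revCharpolyOn_leadingCoeff (A : Module.End ℂ V) (U : Submodule ℂ V)
    (h : ∀ x ∈ U, A x ∈ U) (hdet : LinearMap.det (A.restrict h) ≠ 0) :
    (revCharpolyOn A U).leadingCoeff = LinearMap.det (-(A.restrict h)) := by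
  unfold revCharpolyOn
  rw [dif_pos h, reverse_leadingCoeff]
  have h1 := LinearMap.det_eq_sign_charpoly_coeff (A.restrict h)
  have h0 : (A.restrict h).charpoly.coeff 0 ≠ 0 := by
    intro h0
    rw [h0, mul_zero] at h1
    exact hdet h1
  have h2 : (A.restrict h).charpoly.natTrailingDegree = 0 := by
    rw [natTrailingDegree_eq_zero]
    exact Or.inr h0
  rw [trailingCoeff, h2, ← neg_one_smul ℂ (A.restrict h), LinearMap.det_smul, h1, ← mul_assoc,
    ← mul_pow]
  simp

/-- `det(1 - X A | V) = 1 - a X` on a line on which `A` acts by `a`. -/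
lemma revCharpolyOn_of_finrank_one (a : ℂ) (U : Submodule ℂ V) (hU : Module.finrank ℂ U = 1) :
    revCharpolyOn (a • (1 : Module.End ℂ V)) U = 1 - C a * X := by
  have h : ∀ x ∈ U, (a • (1 : Module.End ℂ V)) x ∈ U := fun x hx => by
    simpa using U.smul_mem a hx
  unfold revCharpolyOn
  rw [dif_pos h]
  have h1 : (a • (1 : Module.End ℂ V)).restrict h = a • (1 : Module.End ℂ U) := by
    ext x; simp
  have h2 : (a • (1 : Module.End ℂ U)).charpoly = X - C a := by
    have hm := LinearMap.charpoly_monic (a • (1 : Module.End ℂ U))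
    have hd := LinearMap.charpoly_natDegree (a • (1 : Module.End ℂ U))
    rw [hU] at hd
    have hc := LinearMap.det_eq_sign_charpoly_coeff (a • (1 : Module.End ℂ U))
    rw [hU, LinearMap.det_smul, hU] at hc
    simp only [pow_one, map_one, mul_one, neg_mul, one_mul] at hc
    have hc' : (a • (1 : Module.End ℂ U)).charpoly.coeff 0 = -a := by
      linear_combination hc
    rw [hm.as_sum, hd]
    simp only [pow_one, Finset.range_one, Finset.sum_singleton, pow_zero, mul_one, hc']
    simp [sub_eq_add_neg]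
  rw [h1, h2, reverse, natDegree_X_sub_C, reflect_sub, reflect_C]
  have := reflect_monomial (R := ℂ) 1 1
  rw [pow_one] at this
  rw [this, revAt_le le_rfl]
  simp

end Charpoly

/-! ### Tate's local constant is well defined -/

variable {E : Type} [Field E] [Algebra F E] [Algebra E (AlgebraicClosure F)]
  [IsScalarTower F E (AlgebraicClosure F)]

lemma isScalarTower_intRing : IsScalarTower (intRing F) E (AlgebraicClosure F) :=
  IsScalarTower.of_algebraMap_eq fun x => by
    rw [IsScalarTower.algebraMap_apply (intRing F) F (AlgebraicClosure F),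
      IsScalarTower.algebraMap_apply (intRing F) F E,
      IsScalarTower.algebraMap_apply F E (AlgebraicClosure F)]

lemma isIntOf_iff (x : E) : IsIntOf (F := F) x ↔ IsIntegral (intRing F) x := by
  have := isScalarTower_intRing (F := F) (E := E)
  unfold IsIntOf IsIntBar
  exact isIntegral_algebraMap_iff (FaithfulSMul.algebraMap_injective E (AlgebraicClosure F))

lemma isIntOf_zero : IsIntOf (F := F) (0 : E) := (isIntOf_iff _).mpr isIntegral_zero
lemma isIntOf_one : IsIntOf (F := F) (1 : E) := (isIntOf_iff _).mpr isIntegral_one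
lemma IsIntOf.add {x y : E} (hx : IsIntOf (F := F) x) (hy : IsIntOf (F := F) y) :
    IsIntOf (F := F) (x + y) := (isIntOf_iff _).mpr (((isIntOf_iff _).mp hx).add ((isIntOf_iff _).mp hy))
lemma IsIntOf.mul {x y : E} (hx : IsIntOf (F := F) x) (hy : IsIntOf (F := F) y) :
    IsIntOf (F := F) (x * y) := (isIntOf_iff _).mpr (((isIntOf_iff _).mp hx).mul ((isIntOf_iff _).mp hy))
lemma IsIntOf.neg {x : E} (hx : IsIntOf (F := F) x) :
    IsIntOf (F := F) (-x) := (isIntOf_iff _).mpr ((isIntOf_iff _).mp hx).neg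

/-- The norm of an element of `𝒪_E` lies in `𝒪_F`. -/
lemma IsIntOf.v_norm_le {x : E} (hx : IsIntOf (F := F) x) : Valued.v (Algebra.norm F x) ≤ 1 := by
  have h1 : IsIntegral (intRing F) (Algebra.norm F x) :=
    Algebra.isIntegral_norm F ((isIntOf_iff _).mp hx)
  obtain ⟨y, hy⟩ := IsIntegrallyClosed.isIntegral_iff.mp h1
  rw [← hy]
  exact y.2

lemma absF_congr {x y : F} (h : Valued.v x = Valued.v y) : absF x = absF y := by
  unfold absF
  have : x = 0 ↔ y = 0 := by
    rw [← map_eq_zero (Valued.v : Valuation F ℤᵐ⁰), h, map_eq_zero]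
  by_cases hx : x = 0
  · rw [if_pos hx, if_pos (this.mp hx)]
  · rw [if_neg hx, if_neg (fun hy => hx (this.mpr hy)), h]

/-- The norm of a unit of `𝒪_E` is a unit of `𝒪_F`. -/
lemma v_norm_eq_one {u : Eˣ} (hu : IsIntOf (F := F) (u : E))
    (hu' : IsIntOf (F := F) ((u⁻¹ : Eˣ) : E)) : Valued.v (Algebra.norm F (u : E)) = 1 := by
  have h1 := hu.v_norm_le
  have h2 := hu'.v_norm_le
  have h3 : Valued.v (Algebra.norm F (u : E)) * Valued.v (Algebra.norm F ((u⁻¹ : Eˣ) : E)) = 1 := by
    rw [← map_mul, ← map_mul, Units.mul_inv, map_one, map_one]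
  apply le_antisymm h1
  calc (1 : ℤᵐ⁰) = Valued.v (Algebra.norm F (u : E)) * Valued.v (Algebra.norm F ((u⁻¹ : Eˣ) : E)) :=
        h3.symm
    _ ≤ Valued.v (Algebra.norm F (u : E)) * 1 := by gcongr
    _ = _ := mul_one _


/-- `u ∈ 𝒪_E^×`. -/
def IsUnitInt (F : Type) [Field F] [Valued F ℤᵐ⁰] {E : Type} [Field E] [Algebra F E]
    [Algebra E (AlgebraicClosure F)] (u : Eˣ) : Prop :=
  IsIntOf (F := F) (u : E) ∧ IsIntOf (F := F) ((u⁻¹ : Eˣ) : E)

lemma IsUnitInt.one : IsUnitInt F (1 : Eˣ) := ⟨by simpa using isIntOf_one, by simpa using isIntOf_one⟩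

lemma IsUnitInt.mul {u t : Eˣ} (hu : IsUnitInt F u) (ht : IsUnitInt F t) : IsUnitInt F (u * t) :=
  ⟨by simpa using hu.1.mul ht.1, by rw [mul_inv]; simpa using hu.2.mul ht.2⟩

lemma IsUnitInt.inv {u : Eˣ} (hu : IsUnitInt F u) : IsUnitInt F u⁻¹ := ⟨hu.2, by simpa using hu.1⟩

lemma IsUnitInt.div {u t : Eˣ} (hu : IsUnitInt F u) (ht : IsUnitInt F t) : IsUnitInt F (u / t) := by
  rw [div_eq_mul_inv]; exact hu.mul ht.inv

/-- `t ∈ 𝒪_E^× ∩ (1 + f 𝒪_E)`. -/
def InU (F : Type) [Field F] [Valued F ℤᵐ⁰] {E : Type} [Field E] [Algebra F E]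
    [Algebra E (AlgebraicClosure F)] (f t : Eˣ) : Prop :=
  IsUnitInt F t ∧ IsIntOf (F := F) (((t : E) - 1) / f)

lemma InU.inv {f t : Eˣ} (ht : InU F f t) : InU F f t⁻¹ := by
  refine ⟨ht.1.inv, ?_⟩
  have : (((t⁻¹ : Eˣ) : E) - 1) / f = -(((t⁻¹ : Eˣ) : E) * (((t : E) - 1) / f)) := by
    have ht0 : (t : E) ≠ 0 := t.ne_zero
    have hf0 : (f : E) ≠ 0 := f.ne_zero
    rw [Units.val_inv_eq_inv_val]
    field_simp
    ring
  rw [this]
  exact (ht.1.2.mul ht.2).neg

/-- The data entering `IsTateEpsilon`. -/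
structure TateData (ψ : AddChar F ℂ) (χ : Eˣ →* ℂˣ) (d f : Eˣ) (R : Finset Eˣ) : Prop where
  hd : ∀ y : E, (∀ x : E, IsIntOf (F := F) x → ψ (Algebra.trace F E (y * x)) = 1) ↔
      IsIntOf (F := F) (y * d)
  hf : IsIntOf (F := F) (f : E)
  hcond : ∀ y : Eˣ, IsIntOf (F := F) (y : E) →
      ((∀ u : Eˣ, IsIntOf (F := F) (u : E) → IsIntOf (F := F) ((u⁻¹ : Eˣ) : E) →
          IsIntOf (F := F) (((u : E) - 1) / y) → χ u = 1) ↔ IsIntOf (F := F) ((y : E) / f))
  hR : ∀ r ∈ R, IsIntOf (F := F) (r : E) ∧ IsIntOf (F := F) ((r⁻¹ : Eˣ) : E)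
  hrep : ∀ u : Eˣ, IsIntOf (F := F) (u : E) → IsIntOf (F := F) ((u⁻¹ : Eˣ) : E) →
      ∃! r, r ∈ R ∧ IsIntOf (F := F) (((u : E) / r - 1) / f)

/-- One term of the Gauss sum. -/
def gaussTerm (ψ : AddChar F ℂ) (χ : Eˣ →* ℂˣ) (d f u : Eˣ) : ℂ :=
  ((χ (u / (d * f)) : ℂ))⁻¹ * ψ (Algebra.trace F E ((u : E) / (d * f)))

lemma isTateEpsilon_iff (ψ : AddChar F ℂ) (χ : Eˣ →* ℂˣ) (c : ℂ) :
    IsTateEpsilon ψ χ c ↔ ∃ (d f : Eˣ) (R : Finset Eˣ), TateData ψ χ d f R ∧
      c = ((absF (Algebra.norm F (d : E)) ^ (-(1 / 2) : ℝ) : ℝ) : ℂ) * ∑ r ∈ R, gaussTerm ψ χ d f r := by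
  constructor
  · rintro ⟨d, f, R, h1, h2, h3, h4, h5, h6⟩
    exact ⟨d, f, R, ⟨h1, h2, h3, h4, h5⟩, h6⟩
  · rintro ⟨d, f, R, ⟨h1, h2, h3, h4, h5⟩, h6⟩
    exact ⟨d, f, R, h1, h2, h3, h4, h5, h6⟩

variable {ψ : AddChar F ℂ} {χ : Eˣ →* ℂˣ} {d f d' f' : Eˣ} {R R' : Finset Eˣ}

lemma TateData.psi_eq_one (T : TateData ψ χ d f R) {x : E} (hx : IsIntOf (F := F) x) :
    ψ (Algebra.trace F E (((d⁻¹ : Eˣ) : E) * x)) = 1 :=
  (T.hd ((d⁻¹ : Eˣ) : E)).mpr (by simpa using isIntOf_one) x hx

lemma TateData.chi_eq_one (T : TateData ψ χ d f R) {t : Eˣ} (ht : InU F f t) : χ t = 1 :=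
  (T.hcond f T.hf).mpr (by rw [div_self f.ne_zero]; exact isIntOf_one) t ht.1.1 ht.1.2 ht.2

lemma TateData.d_comp (T : TateData ψ χ d f R) (T' : TateData ψ χ d' f' R') :
    IsIntOf (F := F) (((d' / d : Eˣ) : E)) := by
  have := (T'.hd ((d⁻¹ : Eˣ) : E)).mp (fun x hx => T.psi_eq_one hx)
  rwa [div_eq_mul_inv, mul_comm, Units.val_mul]

lemma TateData.f_comp (T : TateData ψ χ d f R) (T' : TateData ψ χ d' f' R') :
    IsIntOf (F := F) (((f / f' : Eˣ) : E)) := by
  have := (T'.hcond f T.hf).mp (fun u h1 h2 h3 => T.chi_eq_one ⟨⟨h1, h2⟩, h3⟩)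
  rwa [Units.val_div_eq_div_val]

/-- The Gauss-sum term is invariant under `𝒪_E^× ∩ (1 + f 𝒪_E)`. -/
lemma TateData.gaussTerm_mul (T : TateData ψ χ d f R) {u t : Eˣ} (hu : IsUnitInt F u)
    (ht : InU F f t) : gaussTerm ψ χ d f (u * t) = gaussTerm ψ χ d f u := by
  unfold gaussTerm
  have h1 : χ (u * t / (d * f)) = χ (u / (d * f)) := by
    rw [mul_div_right_comm, map_mul, T.chi_eq_one ht, mul_one]
  have h2 : (((u * t : Eˣ) : E)) / (d * f) =
      (u : E) / (d * f) + ((d⁻¹ : Eˣ) : E) * ((u : E) * (((t : E) - 1) / f)) := by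
    have hd0 : (d : E) ≠ 0 := d.ne_zero
    have hf0 : (f : E) ≠ 0 := f.ne_zero
    rw [Units.val_inv_eq_inv_val, Units.val_mul]
    field_simp
    ring
  rw [h1, h2, map_add, AddChar.map_add_eq_mul, T.psi_eq_one (hu.1.mul ht.2), mul_one]

lemma sum_ite_of_existsUnique {α : Type*} (S : Finset α) (p : α → Prop) [DecidablePred p] (c : ℂ)
    (h : ∃! b, b ∈ S ∧ p b) : ∑ b ∈ S, (if p b then c else 0) = c := by
  obtain ⟨b₀, ⟨hb₀, hp⟩, huniq⟩ := h
  rw [Finset.sum_eq_single b₀]
  · rw [if_pos hp]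
  · intro b hb hne
    rw [if_neg]
    intro hpb
    exact hne (huniq b ⟨hb, hpb⟩)
  · intro h; exact absurd hb₀ h

/-- **Well-definedness of Tate's local constant**: the value given by the formula in
`IsTateEpsilon` does not depend on the choices of the generators `d`, `f` and of the system of
representatives `R`. -/
theorem IsTateEpsilon.unique {c c' : ℂ} (h : IsTateEpsilon ψ χ c) (h' : IsTateEpsilon ψ χ c') :
    c = c' := by
  classical
  obtain ⟨d, f, R, T, rfl⟩ := (isTateEpsilon_iff _ _ _).mp h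
  obtain ⟨d', f', R', T', rfl⟩ := (isTateEpsilon_iff _ _ _).mp h'
  have hα : IsUnitInt F (d' / d) := ⟨T.d_comp T', by rw [inv_div]; exact T'.d_comp T⟩
  have hβ : IsUnitInt F (f' / f) := ⟨T'.f_comp T, by rw [inv_div]; exact T.f_comp T'⟩
  -- the absolute values agree
  have habs : absF (Algebra.norm F (d' : E)) = absF (Algebra.norm F (d : E)) := by
    apply absF_congr
    have : (d' : E) = (d : E) * ((d' / d : Eˣ) : E) := by
      rw [← Units.val_mul, mul_div_cancel]
    rw [this, map_mul, map_mul, v_norm_eq_one hα.1 hα.2, mul_one]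
  rw [habs]
  congr 1
  set γ : Eˣ := (d' / d) * (f' / f) with hγ
  have hγu : IsUnitInt F γ := hα.mul hβ
  -- change of the modulus
  have hff' : ∀ x : E, IsIntOf (F := F) (x / f') ↔ IsIntOf (F := F) (x / f) := by
    intro x
    have hf0 : (f : E) ≠ 0 := f.ne_zero
    have hf0' : (f' : E) ≠ 0 := f'.ne_zero
    constructor
    · intro hx
      have : x / f = x / f' * ((f' / f : Eˣ) : E) := by
        rw [Units.val_div_eq_div_val]; field_simp
      rw [this]; exact hx.mul hβ.1
    · intro hx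
      have : x / f' = x / f * (((f' / f)⁻¹ : Eˣ) : E) := by
        rw [inv_div, Units.val_div_eq_div_val]; field_simp
      rw [this]; exact hx.mul hβ.2
  let rel : Eˣ → Eˣ → Prop := fun r r' => IsIntOf (F := F) ((((r * γ / r' : Eˣ) : E) - 1) / f)
  have h1 : ∀ r ∈ R, ∃! r', r' ∈ R' ∧ rel r r' := by
    intro r hr
    have hu : IsUnitInt F (r * γ) := IsUnitInt.mul (T.hR r hr) hγu
    obtain ⟨r', ⟨hr', hrel⟩, huniq⟩ := T'.hrep (r * γ) hu.1 hu.2
    refine ⟨r', ⟨hr', ?_⟩, ?_⟩
    · show IsIntOf (F := F) _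
      rw [Units.val_div_eq_div_val]
      exact (hff' _).mp hrel
    · rintro y ⟨hy, hyrel⟩
      apply huniq y ⟨hy, ?_⟩
      have : IsIntOf (F := F) ((((r * γ / y : Eˣ) : E) - 1) / f) := hyrel
      rw [Units.val_div_eq_div_val] at this
      exact (hff' _).mpr this
  have hinv : ∀ r ∈ R, ∀ r' ∈ R', (rel r r' ↔
      IsIntOf (F := F) ((((r' / γ : Eˣ) : E) / r - 1) / f)) := by
    intro r hr r' hr'
    have hu : IsUnitInt F (r * γ / r') := (IsUnitInt.mul (T.hR r hr) hγu).div (T'.hR r' hr')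
    have he : ((r' / γ : Eˣ) : E) / r = (((r * γ / r')⁻¹ : Eˣ) : E) := by
      rw [← Units.val_div_eq_div_val]
      congr 1
      rw [inv_div, div_div, mul_comm]
    rw [he]
    constructor
    · intro hrel
      exact (InU.inv ⟨hu, hrel⟩).2
    · intro hrel
      have := (InU.inv (t := (r * γ / r')⁻¹) ⟨hu.inv, hrel⟩).2
      rwa [inv_inv] at this
  have h2 : ∀ r' ∈ R', ∃! r, r ∈ R ∧ rel r r' := by
    intro r' hr'
    have hu : IsUnitInt F (r' / γ) := IsUnitInt.div (T'.hR r' hr') hγu
    obtain ⟨r, ⟨hr, hrel⟩, huniq⟩ := T.hrep (r' / γ) hu.1 hu.2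
    refine ⟨r, ⟨hr, (hinv r hr r' hr').mpr hrel⟩, ?_⟩
    rintro y ⟨hy, hyrel⟩
    exact huniq y ⟨hy, (hinv y hy r' hr').mp hyrel⟩
  have h3 : ∀ r ∈ R, ∀ r' ∈ R', rel r r' → gaussTerm ψ χ d f r = gaussTerm ψ χ d' f' r' := by
    intro r hr r' hr' hrel
    have hu : IsUnitInt F (r' / γ) := IsUnitInt.div (T'.hR r' hr') hγu
    have ht : InU F f (r * γ / r') :=
      ⟨(IsUnitInt.mul (T.hR r hr) hγu).div (T'.hR r' hr'), hrel⟩
    have e1 : r = r' / γ * (r * γ / r') := by
      rw [div_mul_div_comm, mul_comm r' (r * γ), mul_assoc, mul_div_cancel_right]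
    have e2 : r' / γ / (d * f) = r' / (d' * f') := by
      rw [hγ, div_div]
      congr 1
      rw [div_mul_div_comm, div_mul_cancel]
    have e3 : gaussTerm ψ χ d f (r' / γ) = gaussTerm ψ χ d' f' r' := by
      unfold gaussTerm
      rw [e2]
      congr 3
      have := congrArg (fun z : Eˣ => (z : E)) e2
      simpa [Units.val_div_eq_div_val] using this
    rw [← e3, ← T.gaussTerm_mul hu ht, ← e1]
  calc ∑ r ∈ R, gaussTerm ψ χ d f r
      = ∑ r ∈ R, ∑ r' ∈ R', (if rel r r' then gaussTerm ψ χ d f r else 0) :=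
        Finset.sum_congr rfl fun r hr => (sum_ite_of_existsUnique R' _ _ (h1 r hr)).symm
    _ = ∑ r' ∈ R', ∑ r ∈ R, (if rel r r' then gaussTerm ψ χ d f r else 0) := Finset.sum_comm
    _ = ∑ r' ∈ R', ∑ r ∈ R, (if rel r r' then gaussTerm ψ χ d' f' r' else 0) := by
        refine Finset.sum_congr rfl fun r' hr' => Finset.sum_congr rfl fun r hr => ?_
        split_ifs with hrel
        · exact h3 r hr r' hr' hrel
        · rfl
    _ = ∑ r' ∈ R', gaussTerm ψ χ d' f' r' :=
        Finset.sum_congr rfl fun r' hr' => sum_ite_of_existsUnique R _ _ (h2 r' hr')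

/-- **Example (unramified characters).**  If `χ` is trivial on `𝒪_E^×` and `d⁻¹ 𝒪_E` is the largest
fractional ideal on which `ψ_E` is trivial, then `ε(χ, ψ_E, dx) = χ(d) |d|_E^{-1/2}`
([T, (3.2.6.1)]). -/
theorem isTateEpsilon_of_unramified (ψ : AddChar F ℂ) (χ : Eˣ →* ℂˣ) (d : Eˣ)
    (hd : ∀ y : E, (∀ x : E, IsIntOf (F := F) x → ψ (Algebra.trace F E (y * x)) = 1) ↔
      IsIntOf (F := F) (y * d))
    (hχ : ∀ u : Eˣ, IsIntOf (F := F) (u : E) → IsIntOf (F := F) ((u⁻¹ : Eˣ) : E) → χ u = 1) :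
    IsTateEpsilon ψ χ
      (((absF (Algebra.norm F (d : E)) ^ (-(1 / 2) : ℝ) : ℝ) : ℂ) * (χ d : ℂ)) := by
  refine ⟨d, 1, {1}, hd, by simpa using isIntOf_one, ?_, ?_, ?_, ?_⟩
  · intro y hy
    constructor
    · intro _; simpa using hy
    · intro _ u h1 h2 _; exact hχ u h1 h2
  · intro r hr
    rw [Finset.mem_singleton] at hr
    subst hr
    exact ⟨by simpa using isIntOf_one, by simpa using isIntOf_one⟩
  · intro u h1 _
    refine ⟨1, ⟨Finset.mem_singleton_self 1, ?_⟩, ?_⟩
    · have : ((u : E) / ((1 : Eˣ) : E) - 1) / ((1 : Eˣ) : E) = (u : E) + -1 := by simp [sub_eq_add_neg]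
      rw [this]
      exact h1.add isIntOf_one.neg
    · rintro y ⟨hy, _⟩
      exact Finset.mem_singleton.mp hy
  · congr 1
    rw [Finset.sum_singleton]
    have h1 : ψ (Algebra.trace F E (((1 : Eˣ) : E) / (d * ((1 : Eˣ) : E)))) = 1 := by
      have := (hd ((d⁻¹ : Eˣ) : E)).mpr (by simpa using isIntOf_one) 1 isIntOf_one
      simpa using this
    rw [h1, mul_one, mul_one, one_div, map_inv, Units.val_inv_eq_inv_val, inv_inv]

/-- **Example.**  For `E = F`, `ψ` of level zero (`𝒪_F` is the largest fractional ideal on which `ψ`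
is trivial) and `χ` unramified, `ε(χ, ψ, dx) = 1`. -/
theorem isTateEpsilon_one_of_unramified (ψ : AddChar F ℂ) (χ : Fˣ →* ℂˣ)
    (hψ : ∀ y : F, (∀ x : F, Valued.v x ≤ 1 → ψ (y * x) = 1) ↔ Valued.v y ≤ 1)
    (hχ : ∀ u : Fˣ, Valued.v (u : F) = 1 → χ u = 1) :
    IsTateEpsilon (E := F) ψ χ 1 := by
  have := isTateEpsilon_of_unramified (E := F) ψ χ 1 (by
    intro y
    simp only [isIntOf_self_iff, Algebra.trace_self_apply, Units.val_one, mul_one]
    exact hψ y) (by
    intro u h1 h2
    rw [isIntOf_self_iff] at h1 h2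
    apply hχ
    apply le_antisymm h1
    rw [Units.val_inv_eq_inv_val, map_inv₀] at h2
    have hu0 : Valued.v (u : F) ≠ 0 := by simp
    exact (inv_le_one₀ (zero_lt_iff.mpr hu0)).mp h2)
  simpa [absF] using this

/-- **On characters the Langlands–Deligne constant is Tate's.** -/
theorem isWeilEpsilon_of_char (ψ : AddChar F ℂ) (θ : Fˣ →* ℂˣ) (η : weilGroup F →* ℂˣ) (c : ℂ)
    (h : CFTBase θ η) (hc : IsTateEpsilon (E := F) ψ θ c)
    (r : Representation ℂ (weilGroup F) ℂ) (hr : ∀ w, r w = (η w : ℂ) • (1 : Module.End ℂ ℂ)) :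
    IsWeilEpsilon ψ r c := by
  refine ⟨1, fun _ => θ, fun _ => η, fun _ => c, 0, Fin.elim0, Fin.elim0, fun i => i.elim0,
    fun i => i.elim0, fun i => i.elim0, fun i => i.elim0, Fin.elim0, Fin.elim0,
    fun _ => ⟨h, hc⟩, fun i => i.elim0, ?_, by simp⟩
  intro w
  rw [hr w]
  simp

section Twist

variable {V : Type} [AddCommGroup V] [Module ℂ V]

lemma twistRep_one (π : Representation ℂ (GL (Fin 2) F) V) : twistRep π 1 = π := by
  ext g x
  simp [twistRep]

lemma twistRep_twistRep (π : Representation ℂ (GL (Fin 2) F) V) (χ χ' : Fˣ →* ℂˣ) :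
    twistRep (twistRep π χ) χ' = twistRep π (χ * χ') := by
  ext g x
  simp [twistRep, smul_smul, mul_comm]

lemma WDRep.isTwist_one (W : WDRep F ℂ V) : W.IsTwist W 1 := ⟨rfl, fun w => by simp⟩

end Twist

end Five

end

end Claimed.Open.R030
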