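import Claimed.Open.R030.SanityPlaces
import Claimed.Open.R002.SanityTamagawa
import Claimed.Open.R002.SanityVarChange

/-!
# Result 030 — sanity: the polynomial `P_v` of the clause "every local factor agrees"

`ellipticLocalPoly E v` (Mathlib's `WeierstrassCurve.localPolynomial` of `E` over `K_v`, with complex coefficients) enters `Statement` twice:
in the clause `π.IsLocalLPoly v (P_v(q_v^{-1/2} X))` and, through Mathlib's `WeierstrassCurve.LSeries`, in the clause on `L(E/K, s)`.  Mathlib defines it
through a *chosen* minimal equation of `E` over `K_v`.  This file evaluates it.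

* `localPolynomial_of_isUnit_disc` (generic discrete valuation ring; text of helper211 for the folder R002, with the tools of that folder): for an
  integral equation with unit discriminant the local polynomial is `1 - a X + q X²`, `a = q + 1 - #W₀(κ)`, whatever minimal equation was chosen.
* `ellipticLocalPoly_of_disc_notMem`: **for every number field `K`, every Weierstrass equation `W₀` with coefficients in `𝒪_K` and every finite place
  `v ∌ Δ(W₀)`**: `ellipticLocalPoly (W₀⁄K) v = 1 - a_v X + q_v X²` with `q_v = placeNorm v` and `a_v = q_v + 1 - #W₀(κ_v)`, the number of points of the equation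
  reduced along `residueMap v : 𝒪_K → κ_v` (surjective with kernel `v`: `SanityPlaces.lean`).
* `ellipticLocalPoly_gauss_card`, `ellipticLocalPoly_gauss`: for `y² = x³ - x` (over `ℚ(i)`: the curve of `hypotheses_can_be_met`) and every `v ∌ 2`:
  `P_v = 1 - (q_v + 1 - #E(κ_v)) X + q_v X² = 1 + (∑_{x ∈ κ_v} ρ(x³ - x)) X + q_v X²`, `ρ` the quadratic character of `κ_v`.
* `ellipticLocalPoly_gauss_of_placeNorm_three`, `ellipticLocalPoly_gauss_of_placeNorm_five`: `P_v = 1 + 3 X²` if `q_v = 3`, `P_v = 1 + 2 X + 5 X²` if `q_v = 5`.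
-/

set_option autoImplicit false

namespace Claimed.Open.R030

open WeierstrassCurve Polynomial IsDedekindDomain NumberField

/-! ## A generic discrete valuation ring -/

section Generic

variable (R : Type*) [CommRing R] [IsDomain R] [IsDiscreteValuationRing R]
variable (K : Type*) [Field K] [Algebra R K] [IsFractionRing R K]

/-- The reduction of a minimal equation with coefficients in `R` is the equation modulo `𝔪`. -/
theorem reduction_baseChange_eq (W₀ : WeierstrassCurve R) [IsMinimal R (W₀⁄K)] :
    (W₀⁄K).reduction R = W₀.map (IsLocalRing.residue R) := by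
  have e : integralModel R (W₀⁄K) = W₀ := by
    apply WeierstrassCurve.map_injective (IsFractionRing.injective R K)
    exact baseChange_integralModel_eq R (W₀⁄K)
  rw [reduction, e]

/-- Unfolding of Mathlib's definition in the case of good reduction. -/
theorem localPolynomial_of_minimal_eq (W W' : WeierstrassCurve K) [IsMinimal R W']
    (h : W' = W.minimal R) (hg : W'.HasGoodReduction R) {n : ℕ}
    (hn : Nat.card (W'.reduction R).toAffine.Point = n) :
    W.localPolynomial R =
      1 - C ((Nat.card (IsLocalRing.ResidueField R) : ℤ) + 1 - (n : ℤ)) * X +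
        C (Nat.card (IsLocalRing.ResidueField R) : ℤ) * X ^ 2 := by
  subst h
  unfold localPolynomial
  rw [if_pos hg, hn]

open Claimed.Open.R002 in
/-- The local polynomial of an integral equation with unit discriminant. -/
theorem localPolynomial_of_isUnit_disc (W₀ : WeierstrassCurve R) (h : IsUnit W₀.Δ) :
    (W₀⁄K).localPolynomial R =
      1 - C ((Nat.card (IsLocalRing.ResidueField R) : ℤ) + 1 -
          (Nat.card (W₀.map (IsLocalRing.residue R)).toAffine.Point : ℤ)) * X +
        C (Nat.card (IsLocalRing.ResidueField R) : ℤ) * X ^ 2 := by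
  classical
  have hell : (W₀⁄K).IsElliptic := by
    refine ⟨?_⟩
    have : (W₀⁄K).Δ = algebraMap R K W₀.Δ := WeierstrassCurve.map_Δ W₀ (algebraMap R K)
    rw [this]
    exact h.map (algebraMap R K)
  have hint : IsIntegral R (W₀⁄K) := ⟨W₀, rfl⟩
  have e : integralModel R (W₀⁄K) = W₀ := by
    apply WeierstrassCurve.map_injective (IsFractionRing.injective R K)
    exact baseChange_integralModel_eq R (W₀⁄K)
  have hgood : (W₀⁄K).HasGoodReduction R :=
    hasGoodReduction_of_isUnit_Δ R (W₀⁄K) (by rw [e]; exact h)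
  have hmin : IsMinimal R (W₀⁄K) := hgood.toIsMinimal
  set Cv : VariableChange K := ((W₀⁄K).exists_isMinimal R).choose with hCv
  have hW' : (W₀⁄K).minimal R = Cv • (W₀⁄K) := rfl
  have hmin' : IsMinimal R (Cv • (W₀⁄K)) := ((W₀⁄K).exists_isMinimal R).choose_spec
  obtain ⟨C₀, hC₀⟩ := exists_vc_lift R hmin hmin'
  have hmin'' : IsMinimal R (C₀.map (algebraMap R K) • (W₀⁄K)) := by rw [hC₀]; exact hmin'
  have hred : (C₀.map (algebraMap R K) • (W₀⁄K)).reduction R =
      C₀.map (IsLocalRing.residue R) • W₀.map (IsLocalRing.residue R) := by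
    rw [reduction_smul R C₀, reduction_baseChange_eq R K W₀]
  have hell₀ : (W₀.map (IsLocalRing.residue R)).IsElliptic := by
    rw [← reduction_baseChange_eq R K W₀]
    exact (hasGoodReduction_iff_isElliptic_reduction R).mp hgood
  have hgood' : (C₀.map (algebraMap R K) • (W₀⁄K)).HasGoodReduction R := by
    rw [hasGoodReduction_iff_isElliptic_reduction R, hred]
    infer_instance
  have hcard : Nat.card ((C₀.map (algebraMap R K) • (W₀⁄K)).reduction R).toAffine.Point =
      Nat.card (W₀.map (IsLocalRing.residue R)).toAffine.Point := by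
    rw [hred]
    exact Nat.card_congr (vcEquiv (W₀.map (IsLocalRing.residue R))
      (C₀.map (IsLocalRing.residue R))).toEquiv
  exact localPolynomial_of_minimal_eq R K (W₀⁄K) _ (by rw [hC₀, hW']) hgood' hcard

end Generic

/-! ## Number fields -/

section NumberField

variable {K : Type} [Field K] [NumberField K]

/-- **`P_v` at the places that do not divide the discriminant of an integral equation.** -/
theorem ellipticLocalPoly_of_disc_notMem (W₀ : WeierstrassCurve (𝓞 K)) (v : HeightOneSpectrum (𝓞 K))
    (hv : W₀.Δ ∉ v.asIdeal) :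
    ellipticLocalPoly (W₀⁄K) v =
      1 - C ((placeNorm v : ℂ) + 1 - (Nat.card (W₀.map (residueMap v)).toAffine.Point : ℂ)) * X +
        C (placeNorm v : ℂ) * X ^ 2 := by
  set W₁ : WeierstrassCurve (v.adicCompletionIntegers K) :=
    W₀.map (algebraMap (𝓞 K) (v.adicCompletionIntegers K)) with hW₁
  have e1 : (W₀⁄K).baseChange (v.adicCompletion K) = W₁⁄(v.adicCompletion K) := by
    rw [hW₁]
    simp only [WeierstrassCurve.baseChange, WeierstrassCurve.map_map]
    congr 1
  have hunit : IsUnit W₁.Δ := by
    rw [hW₁, WeierstrassCurve.map_Δ]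
    by_contra hcon
    apply hv
    rw [← ker_residueMap v, RingHom.mem_ker, residueMap, RingHom.comp_apply,
      IsLocalRing.residue_eq_zero_iff, IsLocalRing.mem_maximalIdeal, mem_nonunits_iff]
    exact hcon
  have e2 : W₁.map (IsLocalRing.residue (v.adicCompletionIntegers K)) = W₀.map (residueMap v) := by
    rw [hW₁, WeierstrassCurve.map_map]
    rfl
  have hq : Nat.card (IsLocalRing.ResidueField (v.adicCompletionIntegers K)) = placeNorm v :=
    resCard_eq_placeNorm v
  rw [ellipticLocalPoly, e1, localPolynomial_of_isUnit_disc _ _ W₁ hunit, e2, hq]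
  simp

end NumberField

/-! ## The number of points of `y² = x³ - x` over a finite field  (text of helper140 for the folder R002) -/

section Count

/-- The equation `y² = x³ - x` over any commutative ring. -/
def gaussEq (A : Type*) [CommRing A] : WeierstrassCurve A := ⟨0, 0, 0, -1, 0⟩

theorem gaussEq_map (A B : Type*) [CommRing A] [CommRing B] (f : A →+* B) :
    (gaussEq A).map f = gaussEq B := by
  ext <;> simp [gaussEq]

theorem gaussEq_disc (A : Type*) [CommRing A] : (gaussEq A).Δ = 64 := by
  simp [gaussEq, WeierstrassCurve.Δ, WeierstrassCurve.b₂, WeierstrassCurve.b₄, WeierstrassCurve.b₆,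
    WeierstrassCurve.b₈]
  norm_num

theorem gaussEq_equation_iff (F : Type*) [Field F] (x y : F) :
    (gaussEq F).toAffine.Equation x y ↔ y ^ 2 = x ^ 3 - x := by
  rw [WeierstrassCurve.Affine.equation_iff]
  simp only [gaussEq]
  constructor
  · intro h
    linear_combination h
  · intro h
    linear_combination h

/-- In characteristic `≠ 2` every solution of the equation is a nonsingular point. -/
theorem gaussEq_nonsingular (F : Type*) [Field F] (hF : ringChar F ≠ 2) {x y : F}
    (h : y ^ 2 = x ^ 3 - x) : (gaussEq F).toAffine.Nonsingular x y := by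
  have h2 : (2 : F) ≠ 0 := Ring.two_ne_zero hF
  rw [WeierstrassCurve.Affine.nonsingular_iff']
  refine ⟨(gaussEq_equation_iff F x y).2 h, ?_⟩
  simp only [gaussEq]
  by_contra hcon
  push Not at hcon
  obtain ⟨h3, h4⟩ := hcon
  have hy : y = 0 := by
    have : 2 * y = 0 := by linear_combination h4
    rcases mul_eq_zero.1 this with h' | h'
    · exact absurd h' h2
    · exact h'
  have hx3 : 3 * x ^ 2 = 1 := by linear_combination -h3
  have hx : x * (x ^ 2 - 1) = 0 := by
    rw [hy] at h
    linear_combination -h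
  rcases mul_eq_zero.1 hx with h' | h'
  · rw [h'] at hx3
    simp at hx3
  · have : (2 : F) = 0 := by linear_combination -3 * h' + hx3
    exact h2 this

/-- Points of `y² = x³ - x` = the point at infinity and the solutions of the equation. -/
noncomputable def gaussEqPointEquiv (F : Type*) [Field F] (hF : ringChar F ≠ 2) :
    (gaussEq F).toAffine.Point ≃ Option {p : F × F // p.2 ^ 2 = p.1 ^ 3 - p.1} where
  toFun P := match P with
    | .zero => none
    | .some x y h => some ⟨(x, y), (gaussEq_equation_iff F x y).1 h.1⟩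
  invFun o := match o with
    | none => .zero
    | some p => .some p.1.1 p.1.2 (gaussEq_nonsingular F hF p.2)
  left_inv := by
    rintro (_ | _) <;> rfl
  right_inv := by
    rintro (_ | ⟨⟨x, y⟩, h⟩) <;> rfl

theorem gaussEq_card_sol (F : Type*) [Field F] [Fintype F] [DecidableEq F] (hF : ringChar F ≠ 2) :
    (Fintype.card {p : F × F // p.2 ^ 2 = p.1 ^ 3 - p.1} : ℤ) =
      (Fintype.card F : ℤ) + ∑ x : F, quadraticChar F (x ^ 3 - x) := by
  rw [Fintype.card_subtype, Finset.card_filter, Fintype.sum_prod_type]
  push_cast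
  have key : ∀ x : F, (∑ y : F, (if y ^ 2 = x ^ 3 - x then 1 else 0 : ℤ)) =
      quadraticChar F (x ^ 3 - x) + 1 := by
    intro x
    rw [← quadraticChar_card_sqrts hF (x ^ 3 - x), Set.toFinset_ofPred, Finset.card_filter]
    push_cast
    rfl
  rw [Finset.sum_congr rfl fun x _ => key x, Finset.sum_add_distrib]
  simp only [Finset.sum_const, Finset.card_univ, nsmul_eq_mul, mul_one]
  ring

/-- `#E(F) = q + 1 + ∑_x ρ(x³ - x)`. -/
theorem gaussEq_card_point (F : Type*) [Field F] [Fintype F] [DecidableEq F] (hF : ringChar F ≠ 2) :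
    (Nat.card (gaussEq F).toAffine.Point : ℤ) =
      (Fintype.card F : ℤ) + 1 + ∑ x : F, quadraticChar F (x ^ 3 - x) := by
  rw [Nat.card_congr (gaussEqPointEquiv F hF), Nat.card_eq_fintype_card, Fintype.card_option]
  push_cast
  rw [gaussEq_card_sol F hF]
  ring

theorem quadraticChar_ringEquiv {F F' : Type*} [Field F] [Fintype F] [DecidableEq F]
    [Field F'] [Fintype F'] [DecidableEq F'] (e : F ≃+* F') (a : F) :
    quadraticChar F' (e a) = quadraticChar F a := by
  have h0 : e a = 0 ↔ a = 0 := EmbeddingLike.map_eq_zero_iff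
  have hs : IsSquare (e a) ↔ IsSquare a := by
    constructor
    · rintro ⟨b, hb⟩
      refine ⟨e.symm b, ?_⟩
      apply e.injective
      rw [hb, map_mul, e.apply_symm_apply]
    · rintro ⟨b, hb⟩
      exact ⟨e b, by rw [hb, map_mul]⟩
  simp only [quadraticChar_apply, quadraticCharFun, h0, hs]

theorem sum_quadraticChar_gauss_congr {F F' : Type*} [Field F] [Fintype F] [DecidableEq F]
    [Field F'] [Fintype F'] [DecidableEq F'] (e : F ≃+* F') :
    ∑ x : F, quadraticChar F (x ^ 3 - x) = ∑ x : F', quadraticChar F' (x ^ 3 - x) := by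
  refine Fintype.sum_equiv e.toEquiv _ _ fun x => ?_
  rw [← quadraticChar_ringEquiv e]
  simp

end Count

/-! ## `P_v` for `y² = x³ - x` -/

section Gauss

variable {K : Type} [Field K] [NumberField K]

theorem two_ne_zero_residueField {v : HeightOneSpectrum (𝓞 K)} (hv : (2 : 𝓞 K) ∉ v.asIdeal) :
    (2 : IsLocalRing.ResidueField (v.adicCompletionIntegers K)) ≠ 0 := by
  intro h
  apply hv
  rw [← ker_residueMap v, RingHom.mem_ker, map_ofNat]
  exact h

/-- **`P_v` for `y² = x³ - x` at every place `v ∤ 2`**, over every number field; over `ℚ(i)` this is the curve of `hypotheses_can_be_met`: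
`P_v = 1 - a_v X + q_v X²`, `a_v = q_v + 1 - #E(κ_v)`. -/
theorem ellipticLocalPoly_gauss_card (v : HeightOneSpectrum (𝓞 K)) (hv : (2 : 𝓞 K) ∉ v.asIdeal) :
    ellipticLocalPoly (⟨0, 0, 0, -1, 0⟩ : WeierstrassCurve K) v =
      1 - C ((placeNorm v : ℂ) + 1 - (Nat.card (gaussEq (IsLocalRing.ResidueField
          (v.adicCompletionIntegers K))).toAffine.Point : ℂ)) * X + C (placeNorm v : ℂ) * X ^ 2 := by
  have e0 : (⟨0, 0, 0, -1, 0⟩ : WeierstrassCurve K) = (gaussEq (𝓞 K))⁄K := by
    rw [WeierstrassCurve.baseChange, gaussEq_map]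
    rfl
  have hΔ : (gaussEq (𝓞 K)).Δ ∉ v.asIdeal := by
    rw [gaussEq_disc, show (64 : 𝓞 K) = 2 ^ 6 by norm_num]
    exact fun h => hv (v.isPrime.mem_of_pow_mem 6 h)
  rw [e0, ellipticLocalPoly_of_disc_notMem _ v hΔ, gaussEq_map]

/-- The same with the character sum: `a_v = - ∑_{x ∈ κ_v} ρ(x³ - x)`. -/
theorem ellipticLocalPoly_gauss (v : HeightOneSpectrum (𝓞 K)) (hv : (2 : 𝓞 K) ∉ v.asIdeal)
    [Fintype (IsLocalRing.ResidueField (v.adicCompletionIntegers K))]
    [DecidableEq (IsLocalRing.ResidueField (v.adicCompletionIntegers K))] :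
    ellipticLocalPoly (⟨0, 0, 0, -1, 0⟩ : WeierstrassCurve K) v =
      1 + C (((∑ x : IsLocalRing.ResidueField (v.adicCompletionIntegers K),
          quadraticChar (IsLocalRing.ResidueField (v.adicCompletionIntegers K)) (x ^ 3 - x) : ℤ)) : ℂ) * X
        + C (placeNorm v : ℂ) * X ^ 2 := by
  have hchar : ringChar (IsLocalRing.ResidueField (v.adicCompletionIntegers K)) ≠ 2 := by
    intro h
    apply two_ne_zero_residueField hv
    have := ringChar.Nat.cast_ringChar (R := IsLocalRing.ResidueField (v.adicCompletionIntegers K))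
    rw [h] at this
    exact_mod_cast this
  have hq : Fintype.card (IsLocalRing.ResidueField (v.adicCompletionIntegers K)) = placeNorm v := by
    rw [← Nat.card_eq_fintype_card]
    exact resCard_eq_placeNorm v
  have hcount := gaussEq_card_point (IsLocalRing.ResidueField (v.adicCompletionIntegers K)) hchar
  rw [hq] at hcount
  have hcount' : (Nat.card (gaussEq (IsLocalRing.ResidueField
      (v.adicCompletionIntegers K))).toAffine.Point : ℂ) = (placeNorm v : ℂ) + 1 +
        ((∑ x : IsLocalRing.ResidueField (v.adicCompletionIntegers K),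
          quadraticChar (IsLocalRing.ResidueField (v.adicCompletionIntegers K)) (x ^ 3 - x) : ℤ) : ℂ) := by
    exact_mod_cast congrArg (Int.cast : ℤ → ℂ) hcount
  rw [ellipticLocalPoly_gauss_card v hv, hcount']
  have : (placeNorm v : ℂ) + 1 - ((placeNorm v : ℂ) + 1 +
      ((∑ x : IsLocalRing.ResidueField (v.adicCompletionIntegers K),
        quadraticChar (IsLocalRing.ResidueField (v.adicCompletionIntegers K)) (x ^ 3 - x) : ℤ) : ℂ)) =
      -((∑ x : IsLocalRing.ResidueField (v.adicCompletionIntegers K),
        quadraticChar (IsLocalRing.ResidueField (v.adicCompletionIntegers K)) (x ^ 3 - x) : ℤ) : ℂ) := by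
    ring
  rw [this, C_neg]
  ring

/-- the general form of the two numerical examples -/
theorem ellipticLocalPoly_gauss_of_placeNorm_prime (v : HeightOneSpectrum (𝓞 K)) (p : ℕ) [Fact p.Prime]
    (hp2 : (2 : ZMod p) ≠ 0) (hq : placeNorm v = p) :
    ellipticLocalPoly (⟨0, 0, 0, -1, 0⟩ : WeierstrassCurve K) v =
      1 + C (((∑ x : ZMod p, quadraticChar (ZMod p) (x ^ 3 - x) : ℤ)) : ℂ) * X + C (p : ℂ) * X ^ 2 := by
  classical
  have : Finite (IsLocalRing.ResidueField (v.adicCompletionIntegers K)) := finite_residueField v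
  let _ : Fintype (IsLocalRing.ResidueField (v.adicCompletionIntegers K)) := Fintype.ofFinite _
  have hcard : Fintype.card (IsLocalRing.ResidueField (v.adicCompletionIntegers K)) = p := by
    rw [← Nat.card_eq_fintype_card, ← hq]
    exact resCard_eq_placeNorm v
  let e : ZMod p ≃+* IsLocalRing.ResidueField (v.adicCompletionIntegers K) :=
    ZMod.ringEquivOfPrime _ (Fact.out : p.Prime) hcard
  have hv : (2 : 𝓞 K) ∉ v.asIdeal := by
    intro h
    rw [← ker_residueMap v, RingHom.mem_ker, map_ofNat] at h
    apply hp2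
    apply e.injective
    rw [map_ofNat, map_zero]
    exact h
  rw [ellipticLocalPoly_gauss v hv, hq, sum_quadraticChar_gauss_congr e]

theorem localPoly_fact_prime_five : Fact (Nat.Prime 5) := ⟨by norm_num⟩

attribute [local instance] localPoly_fact_prime_five

/-- `q_v = 3`: supersingular, `P_v = 1 + 3 X²`. -/
theorem ellipticLocalPoly_gauss_of_placeNorm_three (v : HeightOneSpectrum (𝓞 K)) (hq : placeNorm v = 3) :
    ellipticLocalPoly (⟨0, 0, 0, -1, 0⟩ : WeierstrassCurve K) v = 1 + C 3 * X ^ 2 := by
  rw [ellipticLocalPoly_gauss_of_placeNorm_prime v 3 (by decide) hq]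
  have : ∑ x : ZMod 3, quadraticChar (ZMod 3) (x ^ 3 - x) = 0 := by decide
  rw [this]
  simp

/-- `q_v = 5`: `#E(𝔽₅) = 8`, `P_v = 1 + 2 X + 5 X²`. -/
theorem ellipticLocalPoly_gauss_of_placeNorm_five (v : HeightOneSpectrum (𝓞 K)) (hq : placeNorm v = 5) :
    ellipticLocalPoly (⟨0, 0, 0, -1, 0⟩ : WeierstrassCurve K) v = 1 + C 2 * X + C 5 * X ^ 2 := by
  rw [ellipticLocalPoly_gauss_of_placeNorm_prime v 5 (by decide) hq]
  have : ∑ x : ZMod 5, quadraticChar (ZMod 5) (x ^ 3 - x) = 2 := by decide
  rw [this]
  simp

end Gauss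

end Claimed.Open.R030
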