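import Claimed.Open.R030.Statement

/-!
# Result 030: checked examples for the local and adelic normalisations of `Statement.lean`

* the residue field of `K_v` is `𝒪_K / v`; hence the two versions of `q_v` used in `Statement.lean` agree
  (`resCard_eq_placeNorm`), and the normalised absolute value `absF` of `K_v` is Mathlib's norm (`absF_eq_norm`);
* the product formula `ideleNorm x = 1` for principal ideles; the idele norm of a uniformiser idele is `q_v⁻¹`;
* **non-vacuity of the universally quantified side conditions**: uniformisers and sets of representatives of the residue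
  field exist (`IsSphericalWithEigenvalues`), every element of `GL₂(K_v)` lifts to `GL₂(𝔸_K^f)` (`IsLocalComponent`), uniformiser ideles exist
  (`IsAutomorphicInduction`), non-trivial continuous additive characters of `K_v` exist (`IsRec`);
* **normalisation of the Hecke eigenvalues**: `χ ∘ det` is spherical with `T_v = (q_v + 1) χ(ϖ)`, `S_v = χ(ϖ)²`;
* the side conditions of `HasArchimedeanParameter` hold for `(z/|z|, z̄/|z|)`.
-/

set_option autoImplicit false

namespace Claimed.Open.R030

open scoped Classical WithZero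
open IsDedekindDomain NumberField Polynomial MeasureTheory

noncomputable section

section Residue

variable {K : Type} [Field K] [NumberField K] (v : HeightOneSpectrum (𝓞 K))

/-- Every element of `𝒪_v` is congruent modulo the maximal ideal to an element of `𝒪_K`. -/
theorem exists_int_sub_lt_one (y : v.adicCompletion K) (hy : Valued.v y ≤ 1) :
    ∃ a : 𝓞 K, Valued.v (y - ((algebraMap (𝓞 K) K a : K) : v.adicCompletion K)) < 1 := by
  -- approximate `y` by an element `x` of `K`
  have hopen : IsOpen {z : v.adicCompletion K | Valued.v (y - z) < 1} := by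
    have h1 : {z : v.adicCompletion K | Valued.v (y - z) < 1} =
        (fun z => y - z) ⁻¹' {z | Valued.v z < 1} := rfl
    rw [h1]
    have hc : Continuous fun z : v.adicCompletion K => y - z := continuous_const.sub continuous_id
    have := (Valued.isOpen_ball (v.adicCompletion K) 1).preimage hc
    simpa only [Valuation.restrict_lt_one_iff] using this
  obtain ⟨x, hx⟩ := (HeightOneSpectrum.denseRange_algebraMap (K := K) v).exists_mem_open hopen
    ⟨y, by simp⟩
  have hx' : Valued.v (y - (x : v.adicCompletion K)) < 1 := hx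
  have hx1 : v.valuation K x ≤ 1 := by
    rw [← HeightOneSpectrum.valuedAdicCompletion_eq_valuation']
    have : (x : v.adicCompletion K) = y - (y - x) := by ring
    rw [this]
    exact (Valuation.map_sub _ _ _).trans (max_le hy hx'.le)
  obtain ⟨a, ha⟩ := v.exists_valuation_sub_lt_of_integer hx1 1
  refine ⟨a, ?_⟩
  have h2 : y - ((algebraMap (𝓞 K) K a : K) : v.adicCompletion K) =
      (y - x) - (((algebraMap (𝓞 K) K a - x : K)) : v.adicCompletion K) := by
    have h3 : (((algebraMap (𝓞 K) K a - x : K)) : v.adicCompletion K) =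
        ((algebraMap (𝓞 K) K a : K) : v.adicCompletion K) - (x : v.adicCompletion K) :=
      map_sub (algebraMap K (v.adicCompletion K)) _ _
    rw [h3]
    ring
  rw [h2]
  refine lt_of_le_of_lt (Valuation.map_sub _ _ _) (max_lt hx' ?_)
  rw [HeightOneSpectrum.valuedAdicCompletion_eq_valuation']
  simpa using ha

/-- The reduction map `𝒪_K → 𝒪_v / 𝔪_v`. -/
def residueMap : 𝓞 K →+* IsLocalRing.ResidueField (v.adicCompletionIntegers K) :=
  (IsLocalRing.residue _).comp (algebraMap (𝓞 K) (v.adicCompletionIntegers K))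

theorem mem_maximalIdeal_iff (y : v.adicCompletionIntegers K) :
    y ∈ IsLocalRing.maximalIdeal (v.adicCompletionIntegers K) ↔
      Valued.v (y : v.adicCompletion K) < 1 := by
  rw [IsLocalRing.mem_maximalIdeal, mem_nonunits_iff,
    HeightOneSpectrum.adicCompletionIntegers.isUnit_iff_valued_eq_one]
  have := (HeightOneSpectrum.mem_adicCompletionIntegers (𝓞 K) K v).mp y.2
  exact ⟨fun h => lt_of_le_of_ne this h, fun h => h.ne⟩

theorem residueMap_surjective : Function.Surjective (residueMap v) := by
  intro z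
  obtain ⟨y, rfl⟩ := IsLocalRing.residue_surjective z
  obtain ⟨a, ha⟩ := exists_int_sub_lt_one v y
    ((HeightOneSpectrum.mem_adicCompletionIntegers (𝓞 K) K v).mp y.2)
  refine ⟨a, ?_⟩
  symm
  rw [residueMap, RingHom.comp_apply, ← sub_eq_zero, ← map_sub, IsLocalRing.residue_eq_zero_iff,
    mem_maximalIdeal_iff]
  exact ha

theorem ker_residueMap : RingHom.ker (residueMap v) = v.asIdeal := by
  ext a
  rw [RingHom.mem_ker, residueMap, RingHom.comp_apply, IsLocalRing.residue_eq_zero_iff,
    mem_maximalIdeal_iff, ← HeightOneSpectrum.valuation_lt_one_iff_mem (K := K),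
    ← HeightOneSpectrum.valuedAdicCompletion_eq_valuation']
  rfl

/-- The residue field of `K_v` is `𝒪_K / v`. -/
def residueFieldEquiv :
    (𝓞 K ⧸ v.asIdeal) ≃+* IsLocalRing.ResidueField (v.adicCompletionIntegers K) :=
  (Ideal.quotEquivOfEq (ker_residueMap v).symm).trans
    (RingHom.quotientKerEquivOfSurjective (residueMap_surjective v))

/-- The two notions of `q_v` used in `Statement.lean` agree: the cardinality of the residue field of `K_v` is the
absolute norm of `v`. -/
theorem resCard_eq_placeNorm : resCard (v.adicCompletion K) = placeNorm v := by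
  rw [placeNorm, Ideal.absNorm_apply, Submodule.cardQuot_apply]
  exact (Nat.card_congr (residueFieldEquiv v).toEquiv).symm

theorem finite_residueField : Finite (IsLocalRing.ResidueField (v.adicCompletionIntegers K)) := by
  have : Finite (𝓞 K ⧸ v.asIdeal) := v.asIdeal.finiteQuotientOfFreeOfNeBot v.ne_bot
  exact Finite.of_equiv _ (residueFieldEquiv v).toEquiv

theorem one_lt_placeNorm : 1 < placeNorm v := NumberField.HeightOneSpectrum.one_lt_absNorm v

end Residue

section Norms

variable {K : Type} [Field K] [NumberField K] (v : HeightOneSpectrum (𝓞 K))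

/-- The normalised absolute value `absF` of `K_v` is Mathlib's norm on `K_v`. -/
theorem absF_eq_norm (x : v.adicCompletion K) : absF x = ‖x‖ := by
  rw [NumberField.FinitePlace.norm_def, absF, resCard_eq_placeNorm, placeNorm]
  by_cases hx : x = 0
  · simp [hx]
  · have hv : (Valued.v x : ℤᵐ⁰) ≠ 0 := (Valuation.ne_zero_iff _).mpr hx
    rw [if_neg hx, WithZeroMulInt.toNNReal_neg_apply _ hv]
    push_cast
    rw [WithZero.toAdd_unzero_eq_log]

/-- The product formula: the idele norm is trivial on principal ideles. -/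
theorem ideleNorm_principal (x : Kˣ) :
    ideleNorm (Units.map (algebraMap K (AdeleRing (𝓞 K) K)).toMonoidHom x) = 1 := by
  have h := NumberField.prod_abs_eq_one (K := K) x.ne_zero
  rw [← finprod_comp_equiv FinitePlace.equivHeightOneSpectrum.symm] at h
  simp only [FinitePlace.equivHeightOneSpectrum_symm_apply] at h
  rw [ideleNorm]
  convert h using 2
  · rw [InfiniteAdeleRing.norm_def]
    refine Finset.prod_congr rfl fun w _ => ?_
    congr 1
    exact InfinitePlace.Completion.norm_coe w ((WithAbs.equiv w.1).symm (x : K))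
  · rfl

end Norms

section Spherical

variable {K : Type} [Field K] [NumberField K] (v : HeightOneSpectrum (𝓞 K))

/-- `K_v` has a uniformiser. -/
theorem exists_uniformizer :
    ∃ ϖ : (v.adicCompletion K)ˣ, Valued.v (ϖ : v.adicCompletion K) = WithZero.exp (-1 : ℤ) := by
  obtain ⟨π, hπ⟩ := v.valuation_exists_uniformizer K
  have h : Valued.v ((π : K) : v.adicCompletion K) = WithZero.exp (-1 : ℤ) := by
    rw [HeightOneSpectrum.valuedAdicCompletion_eq_valuation', hπ]
  have h0 : ((π : K) : v.adicCompletion K) ≠ 0 := by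
    intro h0
    rw [h0, map_zero] at h
    exact WithZero.exp_ne_zero.symm h
  exact ⟨Units.mk0 _ h0, h⟩

/-- `R` is a set of representatives of `𝒪_v / ϖ 𝒪_v` (the condition in `IsSphericalWithEigenvalues`). -/
def IsResidueReps (R : Finset (v.adicCompletion K)) : Prop :=
  (∀ b ∈ R, b ∈ v.adicCompletionIntegers K) ∧
    ∀ y ∈ v.adicCompletionIntegers K, ∃! b, b ∈ R ∧ Valued.v (y - b) < 1

theorem residue_eq_iff (y z : v.adicCompletionIntegers K) :
    IsLocalRing.residue _ y = IsLocalRing.residue _ z ↔
      Valued.v ((y : v.adicCompletion K) - z) < 1 := by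
  rw [← sub_eq_zero, ← map_sub, IsLocalRing.residue_eq_zero_iff, mem_maximalIdeal_iff]
  rfl

/-- Sets of representatives exist: the quantifier over `(ϖ, R)` in `IsSphericalWithEigenvalues` is not vacuous. -/
theorem exists_isResidueReps : ∃ R : Finset (v.adicCompletion K), IsResidueReps v R := by
  have := finite_residueField v
  have := Fintype.ofFinite (IsLocalRing.ResidueField (v.adicCompletionIntegers K))
  let s : IsLocalRing.ResidueField (v.adicCompletionIntegers K) → v.adicCompletionIntegers K :=
    fun z => (IsLocalRing.residue_surjective z).choose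
  have hs : ∀ z, IsLocalRing.residue _ (s z) = z :=
    fun z => (IsLocalRing.residue_surjective z).choose_spec
  refine ⟨Finset.univ.image fun z => (s z : v.adicCompletion K), ?_, ?_⟩
  · intro b hb
    obtain ⟨z, -, rfl⟩ := Finset.mem_image.mp hb
    exact (s z).2
  · intro y hy
    refine ⟨s (IsLocalRing.residue _ ⟨y, hy⟩), ⟨Finset.mem_image.mpr ⟨_, Finset.mem_univ _, rfl⟩, ?_⟩,
      ?_⟩
    · exact (residue_eq_iff v ⟨y, hy⟩ _).mp (hs _).symm
    · rintro b ⟨hb, hyb⟩
      obtain ⟨z, -, rfl⟩ := Finset.mem_image.mp hb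
      have := (residue_eq_iff v ⟨y, hy⟩ (s z)).mpr hyb
      rw [hs] at this
      rw [this]

/-- A set of representatives has `q_v` elements. -/
theorem IsResidueReps.card_eq {R : Finset (v.adicCompletion K)} (hR : IsResidueReps v R) :
    R.card = placeNorm v := by
  rw [← resCard_eq_placeNorm, resCard, ← Nat.card_eq_finsetCard R]
  refine Nat.card_congr (Equiv.ofBijective
    (fun b : R => IsLocalRing.residue (v.adicCompletionIntegers K) ⟨b.1, hR.1 b.1 b.2⟩) ⟨?_, ?_⟩)
  · intro b b' h
    have h1 := (residue_eq_iff v ⟨b.1, hR.1 b.1 b.2⟩ ⟨b'.1, hR.1 b'.1 b'.2⟩).mp h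
    obtain ⟨c, -, hc⟩ := hR.2 b.1 (hR.1 b.1 b.2)
    have e1 := hc b.1 ⟨b.2, by simp⟩
    have e2 := hc b'.1 ⟨b'.2, h1⟩
    exact Subtype.ext (e1.trans e2.symm)
  · intro z
    obtain ⟨y, rfl⟩ := IsLocalRing.residue_surjective z
    obtain ⟨b, ⟨hb, hyb⟩, -⟩ := hR.2 y.1 y.2
    exact ⟨⟨b, hb⟩, ((residue_eq_iff v y ⟨b, hR.1 b hb⟩).mpr hyb).symm⟩

variable {v}

/-- The one-dimensional representation `χ ∘ det` of `GL₂(K_v)`. -/
def detRep (χ : (v.adicCompletion K)ˣ →* ℂˣ) :
    Representation ℂ (GL (Fin 2) (v.adicCompletion K)) ℂ :=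
  twistRep (Representation.trivial ℂ _ ℂ) χ

theorem detRep_apply (χ : (v.adicCompletion K)ˣ →* ℂˣ) (g : GL (Fin 2) (v.adicCompletion K))
    (x : ℂ) : detRep χ g x = (χ (Matrix.GeneralLinearGroup.det g) : ℂ) * x := by
  simp [detRep, twistRep]

theorem det_diagElt {R : Type*} [CommRing R] (a d : Rˣ) :
    Matrix.GeneralLinearGroup.det (diagElt a d) = a * d := by
  ext
  simp [diagElt, Matrix.det_fin_two]

theorem det_unipElt {R : Type*} [CommRing R] (x : R) :
    Matrix.GeneralLinearGroup.det (unipElt x) = 1 := by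
  ext
  simp [unipElt, Matrix.det_fin_two]

theorem valued_det_eq_one (k : GL (Fin 2) (v.adicCompletion K))
    (hk : ∀ i j, k i j ∈ v.adicCompletionIntegers K ∧
      (k⁻¹ : GL _ _) i j ∈ v.adicCompletionIntegers K) :
    Valued.v ((Matrix.GeneralLinearGroup.det k : (v.adicCompletion K)ˣ) : v.adicCompletion K) = 1 := by
  have h1 : ∀ g : GL (Fin 2) (v.adicCompletion K), (∀ i j, g i j ∈ v.adicCompletionIntegers K) →
      Valued.v ((Matrix.GeneralLinearGroup.det g : (v.adicCompletion K)ˣ) : v.adicCompletion K)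
        ≤ 1 := by
    intro g hg
    have : ((Matrix.GeneralLinearGroup.det g : (v.adicCompletion K)ˣ) : v.adicCompletion K) ∈
        v.adicCompletionIntegers K := by
      rw [Matrix.GeneralLinearGroup.val_det_apply, Matrix.det_fin_two]
      exact sub_mem (mul_mem (hg _ _) (hg _ _)) (mul_mem (hg _ _) (hg _ _))
    exact (HeightOneSpectrum.mem_adicCompletionIntegers (𝓞 K) K v).mp this
  have ha := h1 k fun i j => (hk i j).1
  have hb := h1 k⁻¹ fun i j => (hk i j).2
  rw [map_inv, Units.val_inv_eq_inv_val, map_inv₀] at hb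
  have h0 : Valued.v ((Matrix.GeneralLinearGroup.det k : (v.adicCompletion K)ˣ) :
      v.adicCompletion K) ≠ 0 := (Valuation.ne_zero_iff _).mpr (Units.ne_zero _)
  refine le_antisymm ha ?_
  rwa [inv_le_one₀ (zero_lt_iff.mpr h0)] at hb

/-- **Check of the normalisation of `IsSphericalWithEigenvalues`.**  For an unramified character `χ` of `K_v^×` the representation
`χ ∘ det` is spherical, with `T_v = (q_v + 1) χ(ϖ)` and `S_v = χ(ϖ)²`.  Its Satake parameters (unitary normalisation) are
`α = q_v^{1/2} χ(ϖ)`, `β = q_v^{-1/2} χ(ϖ)`, and indeed `q_v^{1/2} (α + β) = (q_v + 1) χ(ϖ)`, `α β = χ(ϖ)²`. -/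
theorem isSpherical_detRep (χ : (v.adicCompletion K)ˣ →* ℂˣ)
    (hχ : ∀ u : (v.adicCompletion K)ˣ, Valued.v (u : v.adicCompletion K) = 1 → χ u = 1)
    (ϖ₀ : (v.adicCompletion K)ˣ)
    (hϖ₀ : Valued.v (ϖ₀ : v.adicCompletion K) = WithZero.exp (-1 : ℤ)) :
    IsSphericalWithEigenvalues (detRep χ) (((placeNorm v : ℂ) + 1) * χ ϖ₀) ((χ ϖ₀ : ℂ) ^ 2) := by
  refine ⟨1, one_ne_zero, ?_, ?_⟩
  · intro k hk
    rw [detRep_apply, hχ _ (valued_det_eq_one k hk)]
    simp
  · intro ϖ R hϖ hR1 hR2
    have hcard : R.card = placeNorm v := IsResidueReps.card_eq v ⟨hR1, hR2⟩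
    have hϖχ : χ ϖ = χ ϖ₀ := by
      have : χ (ϖ * ϖ₀⁻¹) = 1 := by
        apply hχ
        rw [Units.val_mul, map_mul, Units.val_inv_eq_inv_val, map_inv₀, hϖ, hϖ₀]
        exact mul_inv_cancel₀ WithZero.exp_ne_zero
      rw [map_mul, map_inv, mul_inv_eq_one] at this
      exact this
    constructor
    · have h1 : ∀ b : v.adicCompletion K, detRep χ (unipElt b * diagElt ϖ 1) 1 = (χ ϖ₀ : ℂ) := by
        intro b
        rw [detRep_apply, map_mul, det_unipElt, det_diagElt, one_mul, mul_one, mul_one, hϖχ]
      have h2 : detRep χ (diagElt 1 ϖ) 1 = (χ ϖ₀ : ℂ) := by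
        rw [detRep_apply, det_diagElt, one_mul, mul_one, hϖχ]
      simp only [h1, h2, Finset.sum_const, hcard, smul_eq_mul, nsmul_eq_mul]
      ring
    · simp only [detRep_apply, det_diagElt, map_mul, hϖχ, smul_eq_mul, Units.val_mul]
      ring

end Spherical

section LocalToFin

variable {K : Type} [Field K] [NumberField K] (v : HeightOneSpectrum (𝓞 K))

/-- The finite adele with component `a` at `v` and component `d ∈ ℤ` at all other places. -/
def adeleAt (a : v.adicCompletion K) (d : ℤ) : FinAdele K :=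
  ⟨fun v' => if h : v' = v then h ▸ a else (d : v'.adicCompletion K), by
    have : {v' : HeightOneSpectrum (𝓞 K) | v' ≠ v} ∈ Filter.cofinite := by
      rw [Filter.mem_cofinite]
      simp
    filter_upwards [this] with v' hv'
    rw [dif_neg hv']
    exact intCast_mem _ d⟩

theorem adeleAt_same (a : v.adicCompletion K) (d : ℤ) : adeleAt v a d v = a := by
  show (if h : v = v then h ▸ a else (d : v.adicCompletion K)) = a
  simp

theorem adeleAt_ne (a : v.adicCompletion K) (d : ℤ) {v' : HeightOneSpectrum (𝓞 K)} (h : v' ≠ v) :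
    adeleAt v a d v' = d := by
  show (if h : v' = v then h ▸ a else (d : v'.adicCompletion K)) = d
  simp [h]

/-- The matrix over `𝔸_K^f` with component `m` at `v` and `1` at all other places. -/
def locMat (m : Matrix (Fin 2) (Fin 2) (v.adicCompletion K)) : Matrix (Fin 2) (Fin 2) (FinAdele K) :=
  Matrix.of fun i j => adeleAt v (m i j) (if i = j then 1 else 0)

theorem locMat_apply_same (m : Matrix (Fin 2) (Fin 2) (v.adicCompletion K)) (i j : Fin 2) :
    locMat v m i j v = m i j := adeleAt_same v _ _

theorem locMat_apply_ne (m : Matrix (Fin 2) (Fin 2) (v.adicCompletion K)) (i j : Fin 2)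
    {v' : HeightOneSpectrum (𝓞 K)} (h : v' ≠ v) :
    locMat v m i j v' = (1 : Matrix (Fin 2) (Fin 2) (v'.adicCompletion K)) i j := by
  rw [locMat, Matrix.of_apply, adeleAt_ne v _ _ h, Matrix.one_apply]
  split_ifs <;> simp

theorem finAdele_mul_apply (a b : FinAdele K) (v' : HeightOneSpectrum (𝓞 K)) :
    (a * b) v' = a v' * b v' := rfl

theorem finAdele_add_apply (a b : FinAdele K) (v' : HeightOneSpectrum (𝓞 K)) :
    (a + b) v' = a v' + b v' := rfl

theorem finAdele_one_apply (v' : HeightOneSpectrum (𝓞 K)) : (1 : FinAdele K) v' = 1 := rfl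

theorem finAdele_zero_apply (v' : HeightOneSpectrum (𝓞 K)) : (0 : FinAdele K) v' = 0 := rfl

theorem locMat_one : locMat v 1 = 1 := by
  ext i j v'
  by_cases h : v' = v
  · subst h
    rw [locMat_apply_same, Matrix.one_apply, Matrix.one_apply]
    split_ifs <;> rfl
  · rw [locMat_apply_ne v _ _ _ h, Matrix.one_apply, Matrix.one_apply]
    split_ifs <;> rfl

theorem locMat_mul (m n : Matrix (Fin 2) (Fin 2) (v.adicCompletion K)) :
    locMat v (m * n) = locMat v m * locMat v n := by
  ext i j v'
  rw [Matrix.mul_apply, Fin.sum_univ_two, finAdele_add_apply, finAdele_mul_apply,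
    finAdele_mul_apply]
  by_cases h : v' = v
  · subst h
    simp only [locMat_apply_same, Matrix.mul_apply, Fin.sum_univ_two]
  · simp only [locMat_apply_ne v _ _ _ h]
    rw [← Fin.sum_univ_two (fun k => (1 : Matrix (Fin 2) (Fin 2) (v'.adicCompletion K)) i k *
      (1 : Matrix (Fin 2) (Fin 2) (v'.adicCompletion K)) k j), ← Matrix.mul_apply, one_mul]

/-- The embedding `GL₂(K_v) → GL₂(𝔸_K^f)`. -/
def localToFin : GL (Fin 2) (v.adicCompletion K) →* GFin K :=
  Units.map
    { toFun := locMat v
      map_one' := locMat_one v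
      map_mul' := locMat_mul v }

theorem finProj_localToFin_same (g : GL (Fin 2) (v.adicCompletion K)) :
    finProj v (localToFin v g) = g := by
  refine Units.ext (Matrix.ext fun i j => ?_)
  exact locMat_apply_same v _ i j

theorem finProj_localToFin_ne (g : GL (Fin 2) (v.adicCompletion K))
    {v' : HeightOneSpectrum (𝓞 K)} (h : v' ≠ v) : finProj v' (localToFin v g) = 1 := by
  refine Units.ext (Matrix.ext fun i j => ?_)
  exact locMat_apply_ne v _ i j h

/-- The equivariance condition in `IsLocalComponent` is not vacuous: every `g ∈ GL₂(K_v)` is the `v`-component of an element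
of `GL₂(𝔸_K^f)` whose other components are `1`. -/
theorem exists_finAdelic_lift (g : GL (Fin 2) (v.adicCompletion K)) :
    ∃ x : GFin K, finProj v x = g ∧ ∀ v', v' ≠ v → finProj v' x = 1 :=
  ⟨localToFin v g, finProj_localToFin_same v g, fun _ h => finProj_localToFin_ne v g h⟩

end LocalToFin

section AddChar

/-- The injective homomorphism `ℚ/ℤ → ℂ^×`, `t ↦ exp(2πi t)`, as a map to the multiplicative monoid `ℂ`. -/
def ratCircleExp : Multiplicative (AddCircle (1 : ℚ)) →* ℂ :=
  AddMonoidHom.toMultiplicativeLeft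
    (QuotientAddGroup.lift (AddSubgroup.zmultiples (1 : ℚ))
      { toFun := fun q => Additive.ofMul (Complex.exp (2 * Real.pi * Complex.I * (q : ℂ)))
        map_zero' := by simp
        map_add' := fun a b => by
          rw [← ofMul_mul, ← Complex.exp_add]
          push_cast
          ring_nf }
      (by
        intro x hx
        obtain ⟨n, rfl⟩ := AddSubgroup.mem_zmultiples_iff.mp hx
        show Additive.ofMul (Complex.exp _) = 0
        rw [← ofMul_one]
        congr 1
        rw [Complex.exp_eq_one_iff]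
        exact ⟨n, by simp only [zsmul_eq_mul, mul_one, Rat.cast_intCast]; ring⟩))

theorem ratCircleExp_eq_one_iff (t : AddCircle (1 : ℚ)) :
    ratCircleExp (Multiplicative.ofAdd t) = 1 ↔ t = 0 := by
  obtain ⟨q, rfl⟩ := QuotientAddGroup.mk_surjective t
  show Complex.exp (2 * Real.pi * Complex.I * (q : ℂ)) = 1 ↔ _
  rw [Complex.exp_eq_one_iff, QuotientAddGroup.eq_zero_iff, AddSubgroup.mem_zmultiples_iff]
  constructor
  · rintro ⟨n, hn⟩
    refine ⟨n, ?_⟩
    have h2 : (2 * Real.pi * Complex.I : ℂ) ≠ 0 := by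
      simp [Real.pi_ne_zero, Complex.I_ne_zero]
    have : (q : ℂ) = n := by
      apply mul_left_cancel₀ h2
      rw [hn]; ring
    have : (q : ℂ) = ((n : ℚ) : ℂ) := by rw [this]; simp
    have := Rat.cast_injective this
    simp [this]
  · rintro ⟨n, hn⟩
    refine ⟨n, ?_⟩
    rw [← hn]
    simp only [zsmul_eq_mul, mul_one, Rat.cast_intCast]
    ring

variable {K : Type} [Field K] [NumberField K] (v : HeightOneSpectrum (𝓞 K))

/-- `K_v` has a non-trivial continuous additive character: the quantifier over `ψ` in `IsRec` is not vacuous. -/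
theorem exists_continuous_addChar :
    ∃ ψ : AddChar (v.adicCompletion K) ℂ, Continuous ψ ∧ ψ ≠ 1 := by
  set O : AddSubgroup (v.adicCompletion K) := (v.adicCompletionIntegers K).toSubring.toAddSubgroup
    with hO
  obtain ⟨ϖ, hϖ⟩ := exists_uniformizer v
  have hx : (QuotientAddGroup.mk ((ϖ⁻¹ : (v.adicCompletion K)ˣ) : v.adicCompletion K) :
      v.adicCompletion K ⧸ O) ≠ 0 := by
    rw [Ne, QuotientAddGroup.eq_zero_iff]
    intro h
    have h1 : Valued.v ((ϖ⁻¹ : (v.adicCompletion K)ˣ) : v.adicCompletion K) ≤ 1 :=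
      (HeightOneSpectrum.mem_adicCompletionIntegers (𝓞 K) K v).mp h
    rw [Units.val_inv_eq_inv_val, map_inv₀, hϖ, ← WithZero.exp_neg, neg_neg, ← WithZero.exp_zero,
      WithZero.exp_le_exp] at h1
    omega
  obtain ⟨c, hc⟩ := CharacterModule.exists_character_apply_ne_zero_of_ne_zero hx
  let c' : (v.adicCompletion K ⧸ O) →+ AddCircle (1 : ℚ) := c
  let ψ : AddChar (v.adicCompletion K) ℂ :=
    { toFun := fun x => ratCircleExp (Multiplicative.ofAdd (c' (QuotientAddGroup.mk x)))
      map_zero_eq_one' := by simp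
      map_add_eq_mul' := fun a b => by
        rw [QuotientAddGroup.mk_add, map_add, ofAdd_add, map_mul] }
  refine ⟨ψ, ?_, ?_⟩
  · apply IsLocallyConstant.continuous
    rw [IsLocallyConstant.iff_exists_open]
    intro x
    refine ⟨(fun y => y - x) ⁻¹' (v.adicCompletionIntegers K : Set (v.adicCompletion K)),
      (Valued.isOpen_valuationSubring _).preimage (continuous_id.sub continuous_const), ?_, ?_⟩
    · simp
    · intro y hy
      show ratCircleExp _ = ratCircleExp _
      congr 3
      rw [QuotientAddGroup.eq]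
      have : -y + x = -(y - x) := by ring
      rw [this]
      exact neg_mem hy
  · intro h
    have h1 : ψ ((ϖ⁻¹ : (v.adicCompletion K)ˣ) : v.adicCompletion K) = 1 := by rw [h]; rfl
    exact hc ((ratCircleExp_eq_one_iff _).mp h1)

end AddChar

section Ideles

variable {K : Type} [Field K] [NumberField K] (v : HeightOneSpectrum (𝓞 K))

theorem adeleAt_mul_adeleAt (a b : v.adicCompletion K) :
    adeleAt v a 1 * adeleAt v b 1 = adeleAt v (a * b) 1 := by
  ext v'
  rw [finAdele_mul_apply]
  by_cases h : v' = v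
  · subst h; simp only [adeleAt_same]
  · simp only [adeleAt_ne v _ _ h]; simp

theorem adeleAt_one : adeleAt v 1 1 = 1 := by
  ext v'
  rw [finAdele_one_apply]
  by_cases h : v' = v
  · subst h; simp only [adeleAt_same]
  · simp only [adeleAt_ne v _ _ h]; simp

/-- The idele with component `a` at the finite place `v` and `1` at all other places. -/
def ideleAt (a : (v.adicCompletion K)ˣ) : (AdeleRing (𝓞 K) K)ˣ where
  val := (1, adeleAt v a 1)
  inv := (1, adeleAt v ((a⁻¹ : (v.adicCompletion K)ˣ) : v.adicCompletion K) 1)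
  val_inv := by
    refine Prod.ext (one_mul 1) ?_
    show adeleAt v _ 1 * adeleAt v _ 1 = 1
    rw [adeleAt_mul_adeleAt, Units.mul_inv, adeleAt_one]
  inv_val := by
    refine Prod.ext (one_mul 1) ?_
    show adeleAt v _ 1 * adeleAt v _ 1 = 1
    rw [adeleAt_mul_adeleAt, Units.inv_mul, adeleAt_one]

/-- Uniformiser ideles exist: the corresponding quantifier in `IsAutomorphicInduction` is not vacuous. -/
theorem exists_isUniformizerIdele : ∃ x : (AdeleRing (𝓞 K) K)ˣ, IsUniformizerIdele v x := by
  obtain ⟨ϖ, hϖ⟩ := exists_uniformizer v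
  refine ⟨ideleAt v ϖ, rfl, ?_, ?_⟩
  · show Valued.v (adeleAt v (ϖ : v.adicCompletion K) 1 v) = _
    rw [adeleAt_same, hϖ]
  · intro u' hu'
    show adeleAt v (ϖ : v.adicCompletion K) 1 u' = 1
    rw [adeleAt_ne v _ _ hu']
    simp

/-- The idele norm of a uniformiser idele at `v` is `q_v⁻¹`. -/
theorem ideleNorm_of_isUniformizerIdele (x : (AdeleRing (𝓞 K) K)ˣ) (hx : IsUniformizerIdele v x) :
    ideleNorm x = (placeNorm v : ℝ)⁻¹ := by
  obtain ⟨h1, h2, h3⟩ := hx
  rw [ideleNorm, h1]
  have e1 : ‖(1 : InfiniteAdeleRing K)‖ = 1 := by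
    rw [InfiniteAdeleRing.norm_def]
    refine Finset.prod_eq_one fun w _ => ?_
    have : (1 : InfiniteAdeleRing K) w = 1 := rfl
    rw [this, norm_one, one_pow]
  rw [e1, one_mul, finprod_eq_single _ v]
  · rw [NumberField.FinitePlace.norm_def, h2,
      WithZeroMulInt.toNNReal_neg_apply _ WithZero.exp_ne_zero, WithZero.toAdd_unzero_eq_log,
      WithZero.log_exp]
    simp [placeNorm]
  · intro u' hu'
    rw [h3 u' hu', norm_one]

variable (K) in
/-- The trivial Hecke character. -/
def trivialHeckeCharacter : HeckeCharacter K where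
  toMonoidHom := 1
  continuous_toMonoidHom := continuous_const
  map_principal _ := rfl

end Ideles

section Arch

theorem norm_unitaryCharOne (z : ℂˣ) : ‖(unitaryCharOne z : ℂ)‖ = 1 := by
  have : ‖(z : ℂ)‖ ≠ 0 := by simp
  simp [unitaryCharOne, this]

theorem norm_unitaryCharOneConj (z : ℂˣ) : ‖(unitaryCharOneConj z : ℂ)‖ = 1 := by
  have : ‖(z : ℂ)‖ ≠ 0 := by simp
  simp [unitaryCharOneConj, this]

theorem continuous_unitaryCharOne : Continuous unitaryCharOne := by
  rw [Units.continuous_iff]
  constructor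
  · show Continuous fun z : ℂˣ => (z : ℂ) / (‖(z : ℂ)‖ : ℂ)
    refine Continuous.div Units.continuous_val
      (Complex.continuous_ofReal.comp (continuous_norm.comp Units.continuous_val)) ?_
    intro z; simp
  · show Continuous fun z : ℂˣ => (((unitaryCharOne z)⁻¹ : ℂˣ) : ℂ)
    have : (fun z : ℂˣ => (((unitaryCharOne z)⁻¹ : ℂˣ) : ℂ)) =
        fun z : ℂˣ => ((z : ℂ) / (‖(z : ℂ)‖ : ℂ))⁻¹ := by
      funext z; rw [Units.val_inv_eq_inv_val]; rfl
    rw [this]
    refine Continuous.inv₀ (Continuous.div Units.continuous_val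
      (Complex.continuous_ofReal.comp (continuous_norm.comp Units.continuous_val)) ?_) ?_
    · intro z; simp
    · intro z; simp

theorem continuous_unitaryCharOneConj : Continuous unitaryCharOneConj := by
  rw [Units.continuous_iff]
  constructor
  · show Continuous fun z : ℂˣ => (starRingEnd ℂ (z : ℂ)) / (‖(z : ℂ)‖ : ℂ)
    refine Continuous.div (Complex.continuous_conj.comp Units.continuous_val)
      (Complex.continuous_ofReal.comp (continuous_norm.comp Units.continuous_val)) ?_
    intro z; simp
  · show Continuous fun z : ℂˣ => (((unitaryCharOneConj z)⁻¹ : ℂˣ) : ℂ)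
    have : (fun z : ℂˣ => (((unitaryCharOneConj z)⁻¹ : ℂˣ) : ℂ)) =
        fun z : ℂˣ => ((starRingEnd ℂ (z : ℂ)) / (‖(z : ℂ)‖ : ℂ))⁻¹ := by
      funext z; rw [Units.val_inv_eq_inv_val]; rfl
    rw [this]
    refine Continuous.inv₀ (Continuous.div (Complex.continuous_conj.comp Units.continuous_val)
      (Complex.continuous_ofReal.comp (continuous_norm.comp Units.continuous_val)) ?_) ?_
    · intro z; simp
    · intro z; simp

/-- The side conditions of `HasArchimedeanParameter` hold for the pair `(z/|z|, z̄/|z|)`. -/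
theorem archimedean_side_conditions :
    Continuous unitaryCharOne ∧ Continuous unitaryCharOneConj ∧
      ∀ z : ℂˣ, 1 ≤ ‖(z : ℂ)‖ → ‖(unitaryCharOneConj z : ℂ)‖ ≤ ‖(unitaryCharOne z : ℂ)‖ :=
  ⟨continuous_unitaryCharOne, continuous_unitaryCharOneConj, fun z _ => by
    rw [norm_unitaryCharOne, norm_unitaryCharOneConj]⟩

end Arch

end

end Claimed.Open.R030
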