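import Claimed.Open.R030.SanityAutomorphic
import Claimed.Open.R030.SanityPlaces
import Claimed.Open.R030.SanityLocalField
import Claimed.Open.R030.SanityGalois
import Claimed.Open.R030.SanityLocal

/-!
# Result 030: further checked examples and non-examples (third audit)

Examples and non-examples of those definitions of `Statement.lean` that had none so far.

* `IsAutomorphicForm`: **non-example** `coordFun` (a smooth function that is not left `GL₂(K)`-invariant);
* `IsLocalComponent`: the trivial representation of `GL₂(K_v)` is the local component at `v` of the trivial automorphic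
  representation; it is smooth, irreducible and spherical with `T_v = q_v + 1`, `S_v = 1`; **non-example**: `χ ∘ det` with `χ ≠ 1` is not its
  local component;
* `IsSphericalWithEigenvalues`: **non-example**: `χ ∘ det` is not spherical if `χ` is ramified;
* `IsIsobaric`: cuspidal representations are isobaric;
* `IsLocalArtinMap`: the normalisation (units go to inertia, uniformisers to *geometric* Frobenius lifts, never to arithmetic ones);
  **non-example**: the constant map `1`;
* `IsFrobSemisimple`, `IsFrobSemisimplification`: a Frobenius-semisimple representation is its own Frobenius semisimplification, and the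
  result of the operation is semisimple at the chosen Frobenius lift; the unramified representation `w ↦ [[1, n(w)], [0, 1]]` is **not**
  Frobenius-semisimple, and its Frobenius semisimplification is the trivial representation;
* `IsLPoly`: the `L`-factor of the unramified character with `Frob_geom ↦ a` is `(1 - a q^{-s})⁻¹`;
* `tateModule`, `H1et`: `P_n ∈ E[l^n]`; elements of `H1et` are `ℤ`-linear; **non-example**: a non-zero constant map is not in `H1et`;
* `IsUnramifiedAt`, `IsContinuousRep`: the trivial representation.
-/

set_option autoImplicit false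

namespace Claimed.Open.R030

open scoped Classical WithZero
open scoped Matrix.Norms.Operator ContDiff
open IsDedekindDomain NumberField Polynomial MeasureTheory

noncomputable section

attribute [local instance 100] LieRing.ofAssociativeRing

/-! ## A smooth function that is not an automorphic form -/

section NonForm

variable {K : Type} [Field K] [NumberField K]

variable (K) in
/-- The function `(g, x) ↦ g₀₀` on `GL₂(𝔸_K)`; it is smooth. -/
def coordFun : SmoothAdelic K := ⟨fun p => (p.1 : M2C) 0 0, by
  intro x
  have h1 : ContDiff ℝ ∞ (fun m : M2C => m 0 0) :=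
    (LinearMap.toContinuousLinearMap (Matrix.entryLinearMap ℝ ℂ (0 : Fin 2) (0 : Fin 2))).contDiff
  refine h1.contDiffOn.congr ?_
  intro m hm
  rw [extendByZero_of_isUnit _ hm]
  rfl⟩

/-- **Non-example**: `(g, x) ↦ g₀₀` is not an automorphic form (it is not left invariant under `diag(2, 1) ∈ GL₂(K)`). -/
theorem not_isAutomorphicForm_coordFun (w : InfinitePlace K) : ¬ IsAutomorphicForm w (coordFun K) := by
  intro h
  have h2 : (2 : K) ≠ 0 := two_ne_zero
  have := h.left_invariant (diagElt (Units.mk0 2 h2) 1) 1
  simp only [coordFun, rationalPoints, diagElt, mul_one] at this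
  simp only [MonoidHom.prod_apply, Matrix.GeneralLinearGroup.map_apply, Units.val_mk0,
    Matrix.of_apply, Matrix.cons_val_zero, Prod.fst_one, Units.val_one, Matrix.one_apply_eq] at this
  rw [map_ofNat] at this
  norm_num at this

end NonForm

/-! ## Local components of the trivial automorphic representation -/

section LocalComponent

variable {K : Type} [Field K] [NumberField K] (w : InfinitePlace K)

/-- The class of the constant function `c` in the space of the trivial automorphic representation. -/
def trivialClass (c : ℂ) : (trivialAutomorphicRepresentation w).Space :=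
  Submodule.Quotient.mk ⟨c • constOne (GFin K), ⟨c, rfl⟩⟩

theorem exists_eq_trivialClass (z : (trivialAutomorphicRepresentation w).Space) :
    ∃ c, z = trivialClass w c := by
  obtain ⟨⟨_, c, rfl⟩, rfl⟩ := Submodule.Quotient.mk_surjective _ z
  exact ⟨c, rfl⟩

theorem heckeAlg_smul_trivialClass (a : HeckeAlg K) (c : ℂ) :
    a • trivialClass w c = trivialClass w (trivialHeckeChar K a * c) := by
  rw [trivialClass, trivialClass, ← Submodule.Quotient.mk_smul]
  congr 1
  apply Subtype.ext
  show a • (c • constOne (GFin K)) = (trivialHeckeChar K a * c) • constOne (GFin K)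
  rw [heckeAlg_smul_smul_comm, heckeAlg_smul_constOne, smul_smul, mul_comm]

theorem trivialClass_add (c d : ℂ) :
    trivialClass w (c + d) = trivialClass w c + trivialClass w d := by
  rw [trivialClass, trivialClass, trivialClass, ← Submodule.Quotient.mk_add]
  congr 1
  apply Subtype.ext
  show (c + d) • constOne (GFin K) = c • constOne (GFin K) + d • constOne (GFin K)
  rw [add_smul]

theorem trivialClass_eq_zero_iff (c : ℂ) : trivialClass w c = 0 ↔ c = 0 := by
  constructor
  · intro h
    have h1 : (⟨c • constOne (GFin K), ⟨c, rfl⟩⟩ : (trivialAutomorphicRepresentation w).U) ∈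
        (trivialAutomorphicRepresentation w).W.submoduleOf (trivialAutomorphicRepresentation w).U :=
      (Submodule.Quotient.mk_eq_zero _).mp h
    have h2 : c • constOne (GFin K) = 0 := h1
    exact (smul_eq_zero.mp h2).resolve_right constOne_ne_zero
  · rintro rfl
    rw [trivialClass, Submodule.Quotient.mk_eq_zero]
    show (0 : ℂ) • constOne (GFin K) = 0
    rw [zero_smul]

theorem trivialHeckeChar_fin (x : GFin K) :
    trivialHeckeChar K (FreeAlgebra.ι ℂ (HeckeOp.fin x)) = 1 := by
  rw [trivialHeckeChar, FreeAlgebra.lift_ι_apply]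

variable (v : HeightOneSpectrum (𝓞 K))

/-- **Example**: the trivial representation of `GL₂(K_v)` is the local component at `v` of the trivial automorphic representation. -/
theorem trivial_isLocalComponent :
    (trivialAutomorphicRepresentation w).IsLocalComponent v (detRep (v := v) 1) := by
  refine ⟨⟨⟨trivialClass w, (trivialClass_eq_zero_iff w 0).mpr rfl⟩, trivialClass_add w⟩, ?_, ?_, ?_⟩
  · intro h
    have h1 : trivialClass w 1 = 0 := DFunLike.congr_fun h (1 : ℂ)
    exact one_ne_zero ((trivialClass_eq_zero_iff w 1).mp h1)
  · intro c y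
    show trivialClass w (c • y) = _ • trivialClass w y
    rw [heckeAlg_smul_trivialClass, AlgHom.commutes]
    rfl
  · intro x _ y
    show trivialClass w (detRep (v := v) 1 (finProj v x) y) = _ • trivialClass w y
    rw [heckeAlg_smul_trivialClass, trivialHeckeChar_fin, detRep_apply]
    simp

/-- **Non-example**: for `χ ≠ 1` the representation `χ ∘ det` of `GL₂(K_v)` is not the local component at `v` of the trivial automorphic
representation. -/
theorem not_isLocalComponent_detRep (χ : (v.adicCompletion K)ˣ →* ℂˣ) (a : (v.adicCompletion K)ˣ)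
    (ha : χ a ≠ 1) : ¬ (trivialAutomorphicRepresentation w).IsLocalComponent v (detRep χ) := by
  rintro ⟨T, hT, hlin, heq⟩
  apply hT
  ext y
  obtain ⟨d, hd⟩ := exists_eq_trivialClass w (T y)
  have h1 := heq (localToFin v (diagElt a 1)) (fun v' h => finProj_localToFin_ne v _ h) y
  rw [finProj_localToFin_same, detRep_apply, det_diagElt, mul_one, ← smul_eq_mul, hlin, hd,
    heckeAlg_smul_trivialClass, heckeAlg_smul_trivialClass, trivialHeckeChar_fin, AlgHom.commutes,
    one_mul] at h1
  have h2 : trivialClass w (((χ a : ℂ) - 1) * d) = 0 := by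
    have h3 : ((χ a : ℂ) - 1) * d + d = algebraMap ℂ ℂ (χ a : ℂ) * d := by
      simp only [Algebra.algebraMap_self, RingHom.id_apply]; ring
    have h4 := trivialClass_add w (((χ a : ℂ) - 1) * d) d
    rw [h3, h1] at h4
    exact add_eq_right.mp h4.symm
  rw [trivialClass_eq_zero_iff] at h2
  have h5 : (χ a : ℂ) - 1 ≠ 0 := by
    intro h
    apply ha
    ext
    simpa using sub_eq_zero.mp h
  rw [hd, (mul_eq_zero.mp h2).resolve_left h5]
  exact (trivialClass_eq_zero_iff w 0).mpr rfl

/-- The trivial representation of `GL₂(K_v)` is smooth. -/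
theorem isSmoothRep_detRep_one : IsSmoothRep (detRep (v := v) 1) :=
  fun x => ⟨⊤, isOpen_univ, fun u _ => by rw [detRep_apply]; simp⟩

/-- **Non-example**: if `χ` is ramified, `χ ∘ det` is not spherical. -/
theorem not_isSpherical_detRep (χ : (v.adicCompletion K)ˣ →* ℂˣ) (u : (v.adicCompletion K)ˣ)
    (hu : Valued.v (u : v.adicCompletion K) = 1) (hχ : χ u ≠ 1) (t s : ℂ) :
    ¬ IsSphericalWithEigenvalues (detRep χ) t s := by
  rintro ⟨x, hx, hfix, -⟩
  have hu' : Valued.v ((u⁻¹ : (v.adicCompletion K)ˣ) : v.adicCompletion K) = 1 := by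
    rw [Units.val_inv_eq_inv_val, map_inv₀, hu, inv_one]
  have hmem : ∀ y : v.adicCompletion K, Valued.v y ≤ 1 → y ∈ v.adicCompletionIntegers K :=
    fun y hy => (HeightOneSpectrum.mem_adicCompletionIntegers (𝓞 K) K v).mpr hy
  have h1 := hfix (diagElt u 1) (by
    intro i j
    constructor
    · fin_cases i <;> fin_cases j <;> simp [diagElt]
      exact hmem _ hu.le
    · have : ((diagElt u 1 : GL (Fin 2) (v.adicCompletion K))⁻¹ : GL _ _) = diagElt u⁻¹ 1 := by
        rw [inv_eq_iff_mul_eq_one]
        ext i j
        fin_cases i <;> fin_cases j <;> simp [diagElt, Matrix.mul_apply, Fin.sum_univ_two]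
      rw [this]
      fin_cases i <;> fin_cases j <;> simp [diagElt]
      exact hmem _ (by simpa using hu'.le))
  rw [detRep_apply, det_diagElt, mul_one] at h1
  apply hχ
  ext
  exact mul_right_cancel₀ hx (by rw [h1, Units.val_one, one_mul])

end LocalComponent

section Isobaric

variable {K : Type} [Field K] [NumberField K] {w : InfinitePlace K}

/-- Cuspidal representations are isobaric. -/
theorem AutomorphicRepresentation.IsCuspidal.isIsobaric {π : AutomorphicRepresentation w}
    (h : π.IsCuspidal) : π.IsIsobaric := Or.inl h

end Isobaric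


/-! ## All the local conditions of `IsAttachedGaloisRep` can be met together -/

section LocalConditions

variable {K : Type} [Field K] [NumberField K] (w : InfinitePlace K) (v : HeightOneSpectrum (𝓞 K))

/-- A one-dimensional representation is irreducible. -/
theorem isIrreducible_detRep (χ : (v.adicCompletion K)ˣ →* ℂˣ) : (detRep χ).IsIrreducible where
  exists_pair_ne := ⟨⊥, ⊤, fun h => by
    have h1 : (⊥ : Submodule ℂ ℂ) = ⊤ := congrArg Subrepresentation.toSubmodule h
    exact bot_ne_top h1⟩
  eq_bot_or_eq_top σ := by
    rcases eq_bot_or_eq_top σ.toSubmodule with h | h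
    · exact Or.inl (Subrepresentation.toSubmodule_injective h)
    · exact Or.inr (Subrepresentation.toSubmodule_injective h)

/-- **Example**: the conditions on `π_v` in `IsAttachedGaloisRep`, `IsLocalLPoly`, `IsAutomorphicInduction` (smooth, irreducible, local component of `π`, spherical)
hold together for the trivial automorphic representation, with `T_v = q_v + 1` and `S_v = 1`. -/
theorem trivial_local_conditions :
    ∃ (X : Type) (_ : AddCommGroup X) (_ : Module ℂ X)
      (πv : Representation ℂ (GL (Fin 2) (v.adicCompletion K)) X),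
      IsSmoothRep πv ∧ πv.IsIrreducible ∧ (trivialAutomorphicRepresentation w).IsLocalComponent v πv ∧
      IsSphericalWithEigenvalues πv ((placeNorm v : ℂ) + 1) 1 := by
  obtain ⟨ϖ, hϖ⟩ := exists_uniformizer v
  refine ⟨ℂ, inferInstance, inferInstance, detRep (v := v) 1, isSmoothRep_detRep_one v,
    isIrreducible_detRep v 1, trivial_isLocalComponent w v, ?_⟩
  simpa using isSpherical_detRep (v := v) 1 (fun _ _ => rfl) ϖ hϖ

end LocalConditions

/-! ## The normalisation of the local Artin map -/

section Artin

variable {F : Type} [Field F] [Valued F ℤᵐ⁰]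

theorem absF_of_valued_eq_exp {x : F} {n : ℤ} (h : Valued.v x = WithZero.exp n) :
    absF x = (resCard F : ℝ) ^ n := by
  have hx : x ≠ 0 := by
    rintro rfl
    rw [map_zero] at h
    exact WithZero.exp_ne_zero h.symm
  rw [absF, if_neg hx, h, WithZero.log_exp]

/-- A local Artin map (in the normalisation of `Statement.lean`) sends uniformisers to lifts of the *geometric* Frobenius. -/
theorem IsLocalArtinMap.isGeomFrob {art : Fˣ → weilGroup F} (h : IsLocalArtinMap F F art) (ϖ : Fˣ)
    (hϖ : Valued.v (ϖ : F) = WithZero.exp (-1 : ℤ)) : IsGeomFrob (art ϖ : GalAbs F) :=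
  h.frobenius ϖ (-1) (by rw [Algebra.norm_self, MonoidHom.id_apply]; exact absF_of_valued_eq_exp hϖ)

/-- A local Artin map sends units to the inertia group. -/
theorem IsLocalArtinMap.isInertia {art : Fˣ → weilGroup F} (h : IsLocalArtinMap F F art) (u : Fˣ)
    (hu : Valued.v (u : F) = 1) : IsInertia (art u : GalAbs F) :=
  h.frobenius u 0 (by
    rw [Algebra.norm_self, MonoidHom.id_apply]
    exact absF_of_valued_eq_exp (by rw [hu, WithZero.exp_zero]))

variable {K : Type} [Field K] [NumberField K] (v : HeightOneSpectrum (𝓞 K))

/-- It does *not* send uniformisers to lifts of the arithmetic Frobenius. -/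
theorem IsLocalArtinMap.not_isArithFrob {art : (v.adicCompletion K)ˣ → weilGroup (v.adicCompletion K)}
    (h : IsLocalArtinMap (v.adicCompletion K) (v.adicCompletion K) art) (ϖ : (v.adicCompletion K)ˣ)
    (hϖ : Valued.v (ϖ : v.adicCompletion K) = WithZero.exp (-1 : ℤ)) :
    ¬ IsArithFrob (art ϖ : GalAbs (v.adicCompletion K)) := fun h' => by
  have := sanity_actsAsFrobZPow_unique (h.isGeomFrob ϖ hϖ) h'
  omega

/-- **Non-example**: the constant map `1` is not a local Artin map. -/
theorem not_isLocalArtinMap_one :
    ¬ IsLocalArtinMap (v.adicCompletion K) (v.adicCompletion K) (fun _ => 1) := fun h => by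
  obtain ⟨ϖ, hϖ⟩ := exists_uniformizer v
  have h1 : ActsAsFrobZPow (1 : GalAbs (v.adicCompletion K)) (-1) := h.isGeomFrob ϖ hϖ
  have := sanity_actsAsFrobZPow_unique h1 sanity_isInertia_one
  omega

end Artin

/-! ## Frobenius semisimplification -/

section FrobSS

variable {F : Type} [Field F] [Valued F ℤᵐ⁰] {C : Type} [Field C] {V : Type} [AddCommGroup V]
  [Module C V]

/-- **Example**: a Frobenius-semisimple Weil–Deligne representation is its own Frobenius semisimplification. -/
theorem WDRep.IsFrobSemisimple.isFrobSemisimplification_self {A : WDRep F C V}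
    (hA : A.IsFrobSemisimple) (Φ : weilGroup F) (hΦ : IsGeomFrob (Φ : GalAbs F)) :
    A.IsFrobSemisimplification A :=
  ⟨rfl, Φ, 1, hΦ, by simp, Commute.one_left _, by simpa using hA Φ hΦ, fun w n _ => by simp⟩

/-- The Frobenius semisimplification is semisimple at (at least) one lift of the geometric Frobenius, and it has the same monodromy
operator. -/
theorem WDRep.IsFrobSemisimplification.exists_isSemisimple {A B : WDRep F C V}
    (h : A.IsFrobSemisimplification B) :
    B.N = A.N ∧ ∃ Φ : weilGroup F, IsGeomFrob (Φ : GalAbs F) ∧ Module.End.IsSemisimple (B.r Φ) := by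
  obtain ⟨hN, Φ, u, hΦ, -, -, hss, hr⟩ := h
  refine ⟨hN, Φ, hΦ, ?_⟩
  rw [hr Φ 1 hΦ, zpow_neg, zpow_one]
  exact hss

end FrobSS

/-! ### An unramified representation with unipotent Frobenius: not Frobenius-semisimple; its Frobenius semisimplification is trivial -/

section Unipotent

variable {K : Type} [Field K] [NumberField K] (v : HeightOneSpectrum (𝓞 K))

/-- The nilpotent endomorphism `(x, y) ↦ (y, 0)` of `ℂ²`. -/
def nilTwo : Module.End ℂ (ℂ × ℂ) := (LinearMap.inl ℂ ℂ ℂ).comp (LinearMap.snd ℂ ℂ ℂ)

theorem nilTwo_mul_self : nilTwo * nilTwo = 0 := by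
  ext <;> simp [nilTwo]

theorem nilTwo_ne_zero : nilTwo ≠ 0 := fun h => by
  have := congrArg (fun f : Module.End ℂ (ℂ × ℂ) => (f (0, 1)).1) h
  simp [nilTwo] at this

/-- The unramified Weil–Deligne representation `w ↦ [[1, n(w)], [0, 1]]`, `N = 0`, where `w` induces the `n(w)`-th power of Frobenius. -/
def unipotentWDRep : WDRep (v.adicCompletion K) ℂ (ℂ × ℂ) where
  r :=
    { toFun := fun w => 1 + (weilExponent w : ℂ) • nilTwo
      map_one' := by
        have h := sanity_weilExponent_mul (1 : weilGroup (v.adicCompletion K)) 1
        rw [mul_one] at h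
        have h0 : weilExponent (1 : weilGroup (v.adicCompletion K)) = 0 := by omega
        simp [h0]
      map_mul' := fun a b => by
        rw [sanity_weilExponent_mul, add_mul, mul_add, mul_add, smul_mul_smul_comm, nilTwo_mul_self]
        push_cast
        simp only [one_mul, mul_one, smul_zero, add_zero, add_smul]
        abel }
  N := 0
  smooth := ⟨⊥, inferInstance, fun w hw _ => by
    show 1 + (weilExponent w : ℂ) • nilTwo = 1
    rw [sanity_weilExponent_eq hw]
    simp⟩
  nilpotent := IsNilpotent.zero
  rel := by intro w n _; simp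

theorem unipotentWDRep_r_apply (w : weilGroup (v.adicCompletion K)) {n : ℤ}
    (h : ActsAsFrobZPow (w : GalAbs (v.adicCompletion K)) n) :
    (unipotentWDRep v).r w = 1 + (n : ℂ) • nilTwo := by
  show 1 + (weilExponent w : ℂ) • nilTwo = _
  rw [sanity_weilExponent_eq h]

/-- There are lifts of the geometric Frobenius in the Weil group. -/
theorem exists_geomFrob_weilGroup :
    ∃ Φ : weilGroup (v.adicCompletion K), IsGeomFrob (Φ : GalAbs (v.adicCompletion K)) := by
  obtain ⟨σ, hσ⟩ := sanity_exists_geomFrob_adicCompletion v
  exact ⟨⟨σ, sanity_geomFrob_mem_weilGroup hσ⟩, hσ⟩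

/-- **Non-example**: `unipotentWDRep` is not Frobenius-semisimple. -/
theorem not_isFrobSemisimple_unipotentWDRep : ¬ (unipotentWDRep v).IsFrobSemisimple := by
  intro h
  obtain ⟨Φ, hΦ⟩ := exists_geomFrob_weilGroup v
  have h1 := h Φ hΦ
  rw [unipotentWDRep_r_apply v Φ hΦ] at h1
  have h2 : Module.End.IsSemisimple (((-1 : ℤ) : ℂ) • nilTwo) := by
    have := (Module.End.isSemisimple_sub_algebraMap_iff (μ := (1 : ℂ))).mpr h1
    simpa using this
  have h3 : IsNilpotent (((-1 : ℤ) : ℂ) • nilTwo) :=
    ⟨2, by rw [pow_two, smul_mul_smul_comm, nilTwo_mul_self, smul_zero]⟩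
  have h4 := Module.End.eq_zero_of_isNilpotent_isSemisimple h3 h2
  rcases smul_eq_zero.mp h4 with h5 | h5
  · norm_num at h5
  · exact nilTwo_ne_zero h5

/-- **Example**: the Frobenius semisimplification of `unipotentWDRep` is the trivial Weil–Deligne representation. -/
theorem isFrobSemisimplification_unipotentWDRep :
    (unipotentWDRep v).IsFrobSemisimplification (trivialWDRep (v.adicCompletion K) ℂ (ℂ × ℂ)) := by
  obtain ⟨Φ, hΦ⟩ := exists_geomFrob_weilGroup v
  have hu : ∀ k : ℤ, (((unipotentWDRep v).r.toHomUnits Φ ^ k : (Module.End ℂ (ℂ × ℂ))ˣ) :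
      Module.End ℂ (ℂ × ℂ)) = (unipotentWDRep v).r (Φ ^ k) := by
    intro k
    rw [← map_zpow, MonoidHom.coe_toHomUnits]
  refine ⟨rfl, Φ, (unipotentWDRep v).r.toHomUnits Φ, hΦ, ?_, ?_, ?_, ?_⟩
  · rw [MonoidHom.coe_toHomUnits, unipotentWDRep_r_apply v Φ hΦ, add_sub_cancel_left]
    exact ⟨2, by rw [pow_two, smul_mul_smul_comm, nilTwo_mul_self, smul_zero]⟩
  · rw [MonoidHom.coe_toHomUnits]
  · have := hu (-1)
    rw [zpow_neg, zpow_one] at this
    rw [this, ← map_mul, zpow_neg, zpow_one, mul_inv_cancel, map_one]
    exact Module.End.isSemisimple_id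
  · intro w n hw
    rw [hu, ← map_mul]
    have h1 : ActsAsFrobZPow ((w * Φ ^ (-n) : weilGroup (v.adicCompletion K)) :
        GalAbs (v.adicCompletion K)) 0 := by
      have h2 : weilExponent (Φ ^ (-n)) = n := by
        have h3 : ∀ m : ℕ, weilExponent (Φ ^ m) = -(m : ℤ) := by
          intro m
          induction m with
          | zero =>
            have h := sanity_weilExponent_mul (1 : weilGroup (v.adicCompletion K)) 1
            rw [mul_one] at h
            rw [pow_zero]; push_cast; omega
          | succ m ih =>
            rw [pow_succ, sanity_weilExponent_mul, ih, sanity_weilExponent_eq hΦ]; push_cast; ring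
        have h4 : ∀ x : weilGroup (v.adicCompletion K), weilExponent x⁻¹ = -weilExponent x := by
          intro x
          have h := sanity_weilExponent_mul x x⁻¹
          have h' := sanity_weilExponent_mul (1 : weilGroup (v.adicCompletion K)) 1
          rw [mul_one] at h'
          rw [mul_inv_cancel] at h
          omega
        rcases Int.eq_nat_or_neg n with ⟨m, rfl | rfl⟩
        · rw [zpow_neg, zpow_natCast, h4, h3]; ring
        · rw [neg_neg, zpow_natCast, h3]
      have h5 := sanity_weilExponent_spec (w * Φ ^ (-n))
      rw [sanity_weilExponent_mul, sanity_weilExponent_eq hw, h2, neg_add_cancel] at h5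
      exact h5
    rw [unipotentWDRep_r_apply v _ h1]
    simp [trivialWDRep]

end Unipotent

/-! ### The `L`-factor of an unramified character -/

section UnramifiedChar

variable {K : Type} [Field K] [NumberField K] (v : HeightOneSpectrum (𝓞 K))

/-- The unramified character of `W_{K_v}` sending the lifts of the *geometric* Frobenius to `a`, as a Weil–Deligne representation on `ℂ`. -/
def unramifiedWDChar (a : ℂˣ) : WDRep (v.adicCompletion K) ℂ ℂ where
  r :=
    { toFun := fun w => ((a : ℂ) ^ (-weilExponent w)) • 1
      map_one' := by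
        have h := sanity_weilExponent_mul (1 : weilGroup (v.adicCompletion K)) 1
        rw [mul_one] at h
        have h0 : weilExponent (1 : weilGroup (v.adicCompletion K)) = 0 := by omega
        simp [h0]
      map_mul' := fun x y => by
        rw [sanity_weilExponent_mul, neg_add, zpow_add₀ a.ne_zero, smul_mul_smul_comm, mul_one] }
  N := 0
  smooth := ⟨⊥, inferInstance, fun w hw _ => by
    show ((a : ℂ) ^ (-weilExponent w)) • (1 : Module.End ℂ ℂ) = 1
    rw [sanity_weilExponent_eq hw]
    simp⟩
  nilpotent := IsNilpotent.zero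
  rel := by intro w n _; simp

theorem unramifiedWDChar_r_apply (a : ℂˣ) (w : weilGroup (v.adicCompletion K)) {n : ℤ}
    (h : ActsAsFrobZPow (w : GalAbs (v.adicCompletion K)) n) :
    (unramifiedWDChar v a).r w = ((a : ℂ) ^ (-n)) • 1 := by
  show ((a : ℂ) ^ (-weilExponent w)) • (1 : Module.End ℂ ℂ) = _
  rw [sanity_weilExponent_eq h]

/-- **Example** (normalisation of `IsLPoly`): the `L`-factor of the unramified character with `Frob_geom ↦ a` is `(1 - a q^{-s})⁻¹`. -/
theorem isLPoly_unramifiedWDChar (a : ℂˣ) : (unramifiedWDChar v a).IsLPoly (1 - C (a : ℂ) * X) := by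
  obtain ⟨Φ, hΦ⟩ := exists_geomFrob_weilGroup v
  refine ⟨Φ, hΦ, ?_⟩
  have h1 : (unramifiedWDChar v a).inertiaInvariants = ⊤ := by
    rw [WDRep.inertiaInvariants, eq_top_iff]
    refine le_iInf fun w => le_iInf fun hw => ?_
    rw [unramifiedWDChar_r_apply v a w hw]
    simp
  have h2 : LinearMap.ker (unramifiedWDChar v a).N = ⊤ := LinearMap.ker_zero
  rw [h1, h2, inf_top_eq, unramifiedWDChar_r_apply v a Φ hΦ, neg_neg, zpow_one,
    revCharpolyOn_of_finrank_one (a : ℂ) ⊤ (by rw [finrank_top]; exact Module.finrank_self ℂ)]

end UnramifiedChar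

/-! ## The Tate module and `H¹_ét` -/

section Tate

variable {k : Type} [Field k] (E : WeierstrassCurve k) (l : ℕ)

/-- The `n`-th component of an element of `T_l E` is an `l^n`-torsion point. -/
theorem tateModule_torsion (P : tateModule E l) (n : ℕ) : (l ^ n) • P.1 n = 0 := by
  induction n with
  | zero => rw [pow_zero, one_smul]; exact P.2.1
  | succ n ih => rw [pow_succ, mul_smul, P.2.2 n, ih]

variable [Fact l.Prime]

/-- The elements of `H¹_ét = Hom_cont(T_l E, Q̄_l)` are `ℕ`-linear. -/
theorem H1et_nsmul (φ : H1et E l) (m : ℕ) (P : tateModule E l) : φ.1 (m • P) = m * φ.1 P := by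
  have h0 : φ.1 0 = 0 := by
    have := φ.2.1 0 0
    rw [add_zero] at this
    exact left_eq_add.mp this
  induction m with
  | zero => simp [h0]
  | succ m ih => rw [succ_nsmul, φ.2.1, ih]; push_cast; ring

/-- **Non-example**: a non-zero constant map `T_l E → Q̄_l` is not in `H¹_ét`. -/
theorem const_notMem_H1et (c : PadicAlgCl l) (hc : c ≠ 0) : (fun _ => c) ∉ H1et E l := by
  rintro ⟨h, -⟩
  exact hc (left_eq_add.mp (h 0 0))

end Tate

/-! ## The trivial Galois representation -/

section TrivialGalois

variable {K : Type} [Field K] [NumberField K] {l : ℕ} [Fact l.Prime]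
  (V : Type) [AddCommGroup V] [Module (PadicAlgCl l) V]

/-- **Example**: the trivial representation of `G_K` is unramified at all finite places. -/
theorem isUnramifiedAt_trivial (v : HeightOneSpectrum (𝓞 K)) :
    IsUnramifiedAt (Representation.trivial (PadicAlgCl l) (Gal(AlgebraicClosure K/K)) V) v :=
  fun _ _ _ => rfl

omit [NumberField K] in
/-- **Example**: the trivial representation of `G_K` is continuous. -/
theorem isContinuousRep_trivial :
    IsContinuousRep (Representation.trivial (PadicAlgCl l) (Gal(AlgebraicClosure K/K)) V) :=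
  fun x lam => by
    have : (fun g : Gal(AlgebraicClosure K/K) =>
        lam (Representation.trivial (PadicAlgCl l) (Gal(AlgebraicClosure K/K)) V g x)) =
        fun _ => lam x := by
      funext g
      simp
    rw [this]
    exact continuous_const

end TrivialGalois

end

end Claimed.Open.R030
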