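import Claimed.Open.R030.SanityClauses

/-!
# Result 030: the premise of the last clause of `Statement` can be met

`SanityClauses.lean` shows that `E₃ : y² = x³ + 1` over `K = ℚ(i)` has complex multiplication (`HasCMOver cubeCurve ⊤`), and reduces
`¬ HasCMOver cubeCurve ⊥` to `End(E₃) = ℤ[ω]`.  This file proves

* `sanity_cubeCurve_not_hasCMOver_bot : ¬ HasCMOver cubeCurve ⊥`, without any hypothesis, and so
* `sanity_cubeCurve_last_clause_premise : HasCMOver cubeCurve ⊤ ∧ ¬ HasCMOver cubeCurve ⊥`: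

the pair of premises of the last clause of `Statement` (complex multiplication, CM field not contained in `K`) has a witness.  (So the remark "what is **not** proved"
in the header of `SanityClauses.lean` is out of date.)  Mathlib has no isogenies, no dual isogeny, no degree and no invariant differential; the proof below is elementary
and does not determine `End(E₃)`.

## The proof

Write `k = K̄`, `w = x³ + 1 ∈ k(x)`.

1. (D) A non-zero algebraic endomorphism `f` has, outside finitely many points, the form `f (x, y) = (R(x), y S(x))` with `R, S ∈ k(x)` (`Rep f R S`; use `f (-P) = - f P`).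
   `R`, `S` are unique, they determine `f`, `w S² = R³ + 1`, and `R` is not constant (parity of the degree at infinity).
2. (G) `R' / S` is a constant `α` — "`f^* (dx / y) = α dx / y`" (`HasA f α`): `f ∘ [2] = [2] ∘ f` and the chain rule give `φ ∘ D = φ` for `φ = R' / S`, `D = x(2P)`; a rational
   function with this invariance takes one value on the abscissae of a sequence of successive halves of `(-1, 0)`, which are pairwise different.
3. (E, F, K) `f ↦ α` is additive (the chord formula and an identity in the differential field `k(x)`), multiplicative (chain rule) and injective (`R' = 0` only for constants);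
   `1 ↦ 1`, `[ω] ↦ ω`.
4. (H) If `f` commutes with `Gal(k / K)`, then `R`, `S` have coefficients fixed by the Galois group, so `α ∈ K`.
5. (I) If `f ∘ g = 1` then `α⁶ = 1`: `R` is injective outside a finite set, so it is a Möbius map `(a x + b) / (c x + d)`; `c = 0` by the parity of the degree at infinity and the
   coefficient of `x⁸` in `R ∘ D = D ∘ R`; then `w S² = R³ + 1` gives `b = 0`, `a = α⁻²`, `α⁶ = 1`.
6. (J) Let `f` be defined over `K = ℚ(i)`, so `q α = p + r i` with integers `p, r, q ≠ 0`.  If `r ≠ 0`, the endomorphism `(q f - p) ∘ (2 [ω] + 1)` has the scalar `γ = r i √-3`, `γ² = 3 r²`,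
   and a non-trivial solution of Pell's equation `X² - 3 r² Y² = 1` gives an automorphism `X + Y γ` which is not a root of unity: contradiction with 5.  So `α = p / q`; for coprime
   `p, q` Bézout gives an endomorphism with scalar `1 / q`, so `q⁶ = 1` by 5.  So `α = n ∈ ℤ` and `f = [n]` by 3.

The proof was cut into typed contracts by helper33 and written by the seats named at the sections.
-/

set_option autoImplicit false

namespace Claimed.Open.R030.CubeEnd

/-! ## Definitions  (written by helper33) -/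

section ModDefs

open scoped Classical
open WeierstrassCurve Polynomial

noncomputable section

section Generic

variable {k : Type} [Field k]

/-- The rational function `F` is defined at `x`, with value `c`. -/
def EvalsTo (F : RatFunc k) (x c : k) : Prop :=
  ∃ N M : k[X], M.eval x ≠ 0 ∧
    F * algebraMap k[X] (RatFunc k) M = algebraMap k[X] (RatFunc k) N ∧ N.eval x = c * M.eval x

/-- The derivative `F'` of a rational function. -/
def ratDeriv (F : RatFunc k) : RatFunc k :=
  (algebraMap k[X] (RatFunc k) (derivative F.num) * algebraMap k[X] (RatFunc k) F.denom -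
    algebraMap k[X] (RatFunc k) F.num * algebraMap k[X] (RatFunc k) (derivative F.denom)) /
    (algebraMap k[X] (RatFunc k) F.denom) ^ 2

/-- The composition `F ∘ G` of rational functions (meaningful for non-constant `G`). -/
def ratComp (F G : RatFunc k) : RatFunc k := RatFunc.eval RatFunc.C G F

/-- `G` is not a constant. -/
def NonConst (G : RatFunc k) : Prop := ∀ c : k, G ≠ RatFunc.C c

/-- a field homomorphism applied to the coefficients of a rational function -/
def ratMap (σ : k →+* k) (F : RatFunc k) : RatFunc k :=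
  algebraMap k[X] (RatFunc k) (F.num.map σ) / algebraMap k[X] (RatFunc k) (F.denom.map σ)

end Generic

/-- the affine curve `y² = x³ + 1` over `K̄` -/
abbrev EC : WeierstrassCurve.Affine Cm3Bar := (cubeCurve⁄Cm3Bar).toAffine

/-- endomorphisms of the abstract group `E₃(K̄)` -/
abbrev EndE : Type := PtsBar cubeCurve →+ PtsBar cubeCurve

/-- `w = x³ + 1` -/
def wF : RatFunc Cm3Bar := RatFunc.X ^ 3 + 1

/-- Outside finitely many points, `f (x, y) = (R(x), y S(x))`. -/
def Rep (f : EndE) (R S : RatFunc Cm3Bar) : Prop :=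
  ∃ B : Set Cm3Bar, B.Finite ∧ ∀ (x y : Cm3Bar) (h : EC.Nonsingular x y), x ∉ B →
    ∃ (r s : Cm3Bar) (h' : EC.Nonsingular r (y * s)),
      EvalsTo R x r ∧ EvalsTo S x s ∧ f (.some x y h) = .some r (y * s) h'

/-- `f` acts on the invariant differential `dx / y` by the scalar `α`:  `f^*(dx/y) = R'(x) dx / (y S(x)) = α dx / y`. -/
def HasA (f : EndE) (α : Cm3Bar) : Prop :=
  (f = 0 ∧ α = 0) ∨ ∃ R S : RatFunc Cm3Bar, Rep f R S ∧ ratDeriv R = RatFunc.C α * S

/-- `x(2P) = (x⁴ - 8x) / (4 (x³ + 1))` -/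
def dblR : RatFunc Cm3Bar :=
  (RatFunc.X ^ 4 - 8 * RatFunc.X) / (4 * (RatFunc.X ^ 3 + 1))

/-- `y(2P) = y (x⁶ + 20 x³ - 8) / (8 (x³ + 1)²)` -/
def dblS : RatFunc Cm3Bar :=
  (RatFunc.X ^ 6 + 20 * RatFunc.X ^ 3 - 8) / (8 * (RatFunc.X ^ 3 + 1) ^ 2)

end

end ModDefs

/-! ## A. Values of rational functions at points  (written by helper265) -/

section ModA

open scoped Classical
open Polynomial

variable {k : Type} [Field k] {F G : RatFunc k} {x c d : k}

private theorem aM_inj {p q : k[X]}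
    (h : algebraMap k[X] (RatFunc k) p = algebraMap k[X] (RatFunc k) q) : p = q :=
  RatFunc.algebraMap_injective k h

private theorem mul_denom (F : RatFunc k) :
    F * algebraMap k[X] (RatFunc k) F.denom = algebraMap k[X] (RatFunc k) F.num := by
  have h0 : algebraMap k[X] (RatFunc k) F.denom ≠ 0 := RatFunc.algebraMap_ne_zero F.denom_ne_zero
  have h1 := RatFunc.num_div_denom F
  rw [div_eq_iff h0] at h1
  exact h1.symm

theorem EvalsTo.unique {c' : k} (h : EvalsTo F x c) (h' : EvalsTo F x c') : c = c' := by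
  obtain ⟨N, M, hM, hF, hN⟩ := h
  obtain ⟨N', M', hM', hF', hN'⟩ := h'
  have e : N * M' = N' * M := by
    apply aM_inj
    rw [map_mul, map_mul, ← hF, ← hF']
    ring
  have e2 := congrArg (Polynomial.eval x) e
  rw [eval_mul, eval_mul, hN, hN'] at e2
  have e3 : (c - c') * (M.eval x * M'.eval x) = 0 := by linear_combination e2
  rcases mul_eq_zero.mp e3 with h0 | h0
  · exact sub_eq_zero.mp h0
  · exact absurd h0 (mul_ne_zero hM hM')

theorem EvalsTo.add (h : EvalsTo F x c) (h' : EvalsTo G x d) : EvalsTo (F + G) x (c + d) := by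
  obtain ⟨N, M, hM, hF, hN⟩ := h
  obtain ⟨N', M', hM', hF', hN'⟩ := h'
  refine ⟨N * M' + N' * M, M * M', ?_, ?_, ?_⟩
  · rw [eval_mul]; exact mul_ne_zero hM hM'
  · rw [map_add, map_mul, map_mul, map_mul, ← hF, ← hF']; ring
  · rw [eval_add, eval_mul, eval_mul, eval_mul, hN, hN']; ring

theorem EvalsTo.mul (h : EvalsTo F x c) (h' : EvalsTo G x d) : EvalsTo (F * G) x (c * d) := by
  obtain ⟨N, M, hM, hF, hN⟩ := h
  obtain ⟨N', M', hM', hF', hN'⟩ := h'
  refine ⟨N * N', M * M', ?_, ?_, ?_⟩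
  · rw [eval_mul]; exact mul_ne_zero hM hM'
  · rw [map_mul, map_mul, ← hF, ← hF']; ring
  · rw [eval_mul, eval_mul, hN, hN']; ring

theorem EvalsTo.neg (h : EvalsTo F x c) : EvalsTo (-F) x (-c) := by
  obtain ⟨N, M, hM, hF, hN⟩ := h
  refine ⟨-N, M, hM, ?_, ?_⟩
  · rw [map_neg, ← hF]; ring
  · rw [eval_neg, hN]; ring

theorem EvalsTo.sub (h : EvalsTo F x c) (h' : EvalsTo G x d) : EvalsTo (F - G) x (c - d) := by
  rw [sub_eq_add_neg, sub_eq_add_neg]
  exact h.add h'.neg

theorem evalsTo_algebraMap (p : k[X]) (x : k) :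
    EvalsTo (algebraMap k[X] (RatFunc k) p) x (p.eval x) :=
  ⟨p, 1, by simp, by simp, by simp⟩

theorem evalsTo_one (x : k) : EvalsTo (1 : RatFunc k) x 1 := by
  simpa using evalsTo_algebraMap (1 : k[X]) x

theorem EvalsTo.pow (h : EvalsTo F x c) (n : ℕ) : EvalsTo (F ^ n) x (c ^ n) := by
  induction n with
  | zero => simpa using evalsTo_one x
  | succ n ih => rw [pow_succ, pow_succ]; exact ih.mul h

theorem EvalsTo.inv (h : EvalsTo F x c) (hc : c ≠ 0) : EvalsTo F⁻¹ x c⁻¹ := by
  obtain ⟨N, M, hM, hF, hN⟩ := h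
  have hNx : N.eval x ≠ 0 := by rw [hN]; exact mul_ne_zero hc hM
  have hF0 : F ≠ 0 := by
    rintro rfl
    rw [zero_mul] at hF
    have : N = 0 := aM_inj (by rw [← hF, map_zero])
    exact hNx (by rw [this, eval_zero])
  refine ⟨M, N, hNx, ?_, ?_⟩
  · rw [← hF, ← mul_assoc, inv_mul_cancel₀ hF0, one_mul]
  · rw [hN, ← mul_assoc, inv_mul_cancel₀ hc, one_mul]

theorem EvalsTo.div (h : EvalsTo F x c) (h' : EvalsTo G x d) (hd : d ≠ 0) :
    EvalsTo (F / G) x (c / d) := by
  rw [div_eq_mul_inv, div_eq_mul_inv]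
  exact h.mul (h'.inv hd)

theorem evalsTo_C (a x : k) : EvalsTo (RatFunc.C a) x a := by
  simpa using evalsTo_algebraMap (Polynomial.C a) x

theorem evalsTo_X (x : k) : EvalsTo RatFunc.X x x := by
  simpa using evalsTo_algebraMap (Polynomial.X : k[X]) x

theorem evalsTo_zero (x : k) : EvalsTo (0 : RatFunc k) x 0 := by
  simpa using evalsTo_algebraMap (0 : k[X]) x

theorem evalsTo_natCast (n : ℕ) (x : k) : EvalsTo (n : RatFunc k) x n := by
  simpa using evalsTo_algebraMap (n : k[X]) x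

theorem evalsTo_ofNat (n : ℕ) [n.AtLeastTwo] (x : k) :
    EvalsTo (OfNat.ofNat n : RatFunc k) x (OfNat.ofNat n) := by
  have := evalsTo_natCast n x
  rwa [← Nat.cast_ofNat (R := RatFunc k), ← Nat.cast_ofNat (R := k)]

theorem evalsTo_intCast (n : ℤ) (x : k) : EvalsTo (n : RatFunc k) x n := by
  simpa using evalsTo_algebraMap (n : k[X]) x

theorem evalsTo_div_algebraMap (p q : k[X]) (x : k) (hq : q.eval x ≠ 0) :
    EvalsTo (algebraMap k[X] (RatFunc k) p / algebraMap k[X] (RatFunc k) q) x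
      (p.eval x / q.eval x) :=
  (evalsTo_algebraMap p x).div (evalsTo_algebraMap q x) hq

private theorem evalsTo_of_denom (F : RatFunc k) (x : k) (h : F.denom.eval x ≠ 0) :
    EvalsTo F x (F.num.eval x / F.denom.eval x) :=
  ⟨F.num, F.denom, h, mul_denom F, by rw [div_mul_cancel₀ _ h]⟩

/-- a rational function is defined outside a finite set -/
theorem finite_not_evalsTo (F : RatFunc k) : {x : k | ¬ ∃ c, EvalsTo F x c}.Finite := by
  refine (Polynomial.finite_setOfPred_isRoot F.denom_ne_zero).subset ?_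
  intro x hx
  by_contra h
  exact hx ⟨_, evalsTo_of_denom F x h⟩

/-- a non-zero rational function has finitely many zeros -/
theorem finite_evalsTo_zero (hF : F ≠ 0) : {x : k | EvalsTo F x 0}.Finite := by
  refine (Polynomial.finite_setOfPred_isRoot (RatFunc.num_ne_zero hF)).subset ?_
  rintro x ⟨N, M, hM, hFM, hN⟩
  have e : F.num * M = N * F.denom := by
    apply aM_inj
    rw [map_mul, map_mul, ← hFM, ← mul_denom F]
    ring
  have e2 := congrArg (Polynomial.eval x) e
  rw [eval_mul, eval_mul, hN, zero_mul, zero_mul] at e2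
  rcases mul_eq_zero.mp e2 with h0 | h0
  · exact h0
  · exact absurd h0 hM

theorem eq_zero_of_infinite (h : {x : k | EvalsTo F x 0}.Infinite) : F = 0 := by
  by_contra hF
  exact h (finite_evalsTo_zero hF)

theorem eq_of_infinite (h : {x : k | ∃ c, EvalsTo F x c ∧ EvalsTo G x c}.Infinite) : F = G := by
  rw [← sub_eq_zero]
  apply eq_zero_of_infinite
  refine h.mono ?_
  rintro x ⟨c, h1, h2⟩
  have := h1.sub h2
  rwa [sub_self] at this

/-- a non-constant rational function takes each value finitely often -/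
theorem finite_evalsTo_of_nonConst (hF : NonConst F) (c : k) : {x : k | EvalsTo F x c}.Finite := by
  have h0 : F - RatFunc.C c ≠ 0 := sub_ne_zero.mpr (hF c)
  refine (finite_evalsTo_zero h0).subset ?_
  intro x hx
  have := EvalsTo.sub hx (evalsTo_C c x)
  rwa [sub_self] at this

theorem finite_evalsTo_mem_of_nonConst (hF : NonConst F) {B : Set k} (hB : B.Finite) :
    {x : k | ∃ c ∈ B, EvalsTo F x c}.Finite := by
  have : {x : k | ∃ c ∈ B, EvalsTo F x c} = ⋃ c ∈ B, {x : k | EvalsTo F x c} := by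
    ext x; simp
  rw [this]
  exact hB.biUnion fun c _ => finite_evalsTo_of_nonConst hF c

/-- at each point, `F` has a value or `1 / F` vanishes -/
theorem evalsTo_or_inv (F : RatFunc k) (x : k) : (∃ c, EvalsTo F x c) ∨ EvalsTo F⁻¹ x 0 := by
  by_cases h : F.denom.eval x = 0
  · right
    have hn : F.num.eval x ≠ 0 := by
      intro hn
      obtain ⟨a, b, hab⟩ := RatFunc.isCoprime_num_denom F
      have := congrArg (Polynomial.eval x) hab
      rw [eval_add, eval_mul, eval_mul, hn, h, mul_zero, mul_zero, add_zero, eval_one] at this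
      exact zero_ne_one this
    have hF0 : F ≠ 0 := by
      rintro rfl
      simp at hn
    refine ⟨F.denom, F.num, hn, ?_, by rw [h, zero_mul]⟩
    rw [← mul_denom F, ← mul_assoc, inv_mul_cancel₀ hF0, one_mul]
  · exact Or.inl ⟨_, evalsTo_of_denom F x h⟩

end ModA

/-! ## B. The derivative of a rational function  (written by helper285) -/

section ModB

open scoped Classical
open Polynomial

variable {k : Type} [Field k] (F G : RatFunc k)

private theorem am_ne_zero {M : k[X]} (hM : M ≠ 0) : algebraMap k[X] (RatFunc k) M ≠ 0 :=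
  RatFunc.algebraMap_ne_zero hM

/-- key lemma: the quotient rule for an arbitrary representation `N / M` -/
theorem ratDeriv_div_algebraMap (N M : k[X]) (hM : M ≠ 0) :
    ratDeriv (algebraMap k[X] (RatFunc k) N / algebraMap k[X] (RatFunc k) M) =
      (algebraMap k[X] (RatFunc k) (derivative N) * algebraMap k[X] (RatFunc k) M -
        algebraMap k[X] (RatFunc k) N * algebraMap k[X] (RatFunc k) (derivative M)) /
        (algebraMap k[X] (RatFunc k) M) ^ 2 := by
  set F : RatFunc k := algebraMap k[X] (RatFunc k) N / algebraMap k[X] (RatFunc k) M with hF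
  have hd : F.denom ≠ 0 := F.denom_ne_zero
  have hM' := am_ne_zero hM
  have hd' := am_ne_zero hd
  have h0 : algebraMap k[X] (RatFunc k) F.num / algebraMap k[X] (RatFunc k) F.denom =
      algebraMap k[X] (RatFunc k) N / algebraMap k[X] (RatFunc k) M := F.num_div_denom
  have h1 : algebraMap k[X] (RatFunc k) (N * F.denom) = algebraMap k[X] (RatFunc k) (F.num * M) := by
    rw [div_eq_div_iff hd' hM'] at h0
    rw [map_mul, map_mul, h0]
  have h : N * F.denom = F.num * M := RatFunc.algebraMap_injective k h1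
  have h' : derivative N * F.denom + N * derivative F.denom =
      derivative F.num * M + F.num * derivative M := by
    have := congrArg derivative h
    simpa [derivative_mul] using this
  have key : (derivative F.num * F.denom - F.num * derivative F.denom) * M ^ 2 =
      (derivative N * M - N * derivative M) * F.denom ^ 2 := by
    linear_combination (derivative F.denom * M + derivative M * F.denom) * h - (M * F.denom) * h'
  have key' := congrArg (algebraMap k[X] (RatFunc k)) key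
  simp only [map_mul, map_sub, map_pow] at key'
  unfold ratDeriv
  rw [div_eq_div_iff (pow_ne_zero 2 hd') (pow_ne_zero 2 hM')]
  exact key'

theorem ratDeriv_algebraMap (p : k[X]) :
    ratDeriv (algebraMap k[X] (RatFunc k) p) = algebraMap k[X] (RatFunc k) (derivative p) := by
  have := ratDeriv_div_algebraMap p 1 one_ne_zero
  simpa using this

theorem ratDeriv_add : ratDeriv (F + G) = ratDeriv F + ratDeriv G := by
  induction F using RatFunc.induction_on with
  | f N₁ M₁ h₁ =>
  induction G using RatFunc.induction_on with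
  | f N₂ M₂ h₂ =>
  have a₁ := am_ne_zero h₁
  have a₂ := am_ne_zero h₂
  have e : algebraMap k[X] (RatFunc k) N₁ / algebraMap k[X] (RatFunc k) M₁ +
      algebraMap k[X] (RatFunc k) N₂ / algebraMap k[X] (RatFunc k) M₂ =
      algebraMap k[X] (RatFunc k) (N₁ * M₂ + M₁ * N₂) / algebraMap k[X] (RatFunc k) (M₁ * M₂) := by
    rw [div_add_div _ _ a₁ a₂]; simp only [map_mul, map_add]
  rw [e, ratDeriv_div_algebraMap _ _ (mul_ne_zero h₁ h₂), ratDeriv_div_algebraMap _ _ h₁,
    ratDeriv_div_algebraMap _ _ h₂]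
  simp only [derivative_mul, map_mul, map_add]
  field_simp
  ring

theorem ratDeriv_mul : ratDeriv (F * G) = ratDeriv F * G + F * ratDeriv G := by
  induction F using RatFunc.induction_on with
  | f N₁ M₁ h₁ =>
  induction G using RatFunc.induction_on with
  | f N₂ M₂ h₂ =>
  have a₁ := am_ne_zero h₁
  have a₂ := am_ne_zero h₂
  have e : algebraMap k[X] (RatFunc k) N₁ / algebraMap k[X] (RatFunc k) M₁ *
      (algebraMap k[X] (RatFunc k) N₂ / algebraMap k[X] (RatFunc k) M₂) =
      algebraMap k[X] (RatFunc k) (N₁ * N₂) / algebraMap k[X] (RatFunc k) (M₁ * M₂) := by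
    rw [div_mul_div_comm]; simp only [map_mul]
  rw [e, ratDeriv_div_algebraMap _ _ (mul_ne_zero h₁ h₂), ratDeriv_div_algebraMap _ _ h₁,
    ratDeriv_div_algebraMap _ _ h₂]
  simp only [derivative_mul, map_mul, map_add]
  field_simp
  ring

theorem ratDeriv_zero : ratDeriv (0 : RatFunc k) = 0 := by
  have := ratDeriv_algebraMap (0 : k[X])
  simpa using this

theorem ratDeriv_neg : ratDeriv (-F) = -ratDeriv F := by
  have h := ratDeriv_add F (-F)
  rw [add_neg_cancel, ratDeriv_zero] at h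
  exact (neg_eq_of_add_eq_zero_right h.symm).symm

theorem ratDeriv_sub : ratDeriv (F - G) = ratDeriv F - ratDeriv G := by
  rw [sub_eq_add_neg, ratDeriv_add, ratDeriv_neg, sub_eq_add_neg]

theorem ratDeriv_C (a : k) : ratDeriv (RatFunc.C a) = 0 := by
  have := ratDeriv_algebraMap (Polynomial.C a)
  simpa using this

theorem ratDeriv_X : ratDeriv (RatFunc.X : RatFunc k) = 1 := by
  have := ratDeriv_algebraMap (Polynomial.X : k[X])
  simpa using this

theorem ratDeriv_one : ratDeriv (1 : RatFunc k) = 0 := by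
  have := ratDeriv_algebraMap (1 : k[X])
  simpa using this

theorem ratDeriv_natCast (n : ℕ) : ratDeriv (n : RatFunc k) = 0 := by
  have := ratDeriv_algebraMap (n : k[X])
  simpa using this

theorem ratDeriv_ofNat (n : ℕ) [n.AtLeastTwo] : ratDeriv (OfNat.ofNat n : RatFunc k) = 0 := by
  have := ratDeriv_natCast (k := k) n
  have e : ((n : ℕ) : RatFunc k) = OfNat.ofNat n := Nat.cast_ofNat
  rwa [e] at this

theorem ratDeriv_pow (n : ℕ) : ratDeriv (F ^ n) = n * F ^ (n - 1) * ratDeriv F := by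
  induction n with
  | zero => simp [ratDeriv_one]
  | succ n ih =>
    rw [pow_succ, ratDeriv_mul, ih]
    cases n with
    | zero => simp
    | succ m =>
      simp only [Nat.add_sub_cancel]
      push_cast
      ring

theorem ratDeriv_inv : ratDeriv F⁻¹ = -ratDeriv F / F ^ 2 := by
  by_cases hF : F = 0
  · subst hF; simp [ratDeriv_zero]
  · have h := ratDeriv_mul F F⁻¹
    rw [mul_inv_cancel₀ hF, ratDeriv_one] at h
    field_simp
    field_simp at h
    linear_combination -h

theorem ratDeriv_div : ratDeriv (F / G) = (ratDeriv F * G - F * ratDeriv G) / G ^ 2 := by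
  by_cases hG : G = 0
  · subst hG; simp [ratDeriv_zero]
  · rw [div_eq_mul_inv, ratDeriv_mul, ratDeriv_inv]
    field_simp
    ring

theorem ratDeriv_C_mul (a : k) : ratDeriv (RatFunc.C a * F) = RatFunc.C a * ratDeriv F := by
  rw [ratDeriv_mul, ratDeriv_C, zero_mul, zero_add]

/-- in characteristic zero, `F' = 0` only for constants -/
theorem ratDeriv_eq_zero_iff [CharZero k] : ratDeriv F = 0 ↔ ∃ c, F = RatFunc.C c := by
  constructor
  · intro h
    have hd : F.denom ≠ 0 := F.denom_ne_zero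
    have hd' := am_ne_zero hd
    unfold ratDeriv at h
    rw [div_eq_zero_iff] at h
    have h1 : algebraMap k[X] (RatFunc k) (derivative F.num * F.denom - F.num * derivative F.denom)
        = algebraMap k[X] (RatFunc k) 0 := by
      rcases h with h | h
      · simpa [map_sub, map_mul] using h
      · exact absurd h (pow_ne_zero 2 hd')
    have h2 : derivative F.num * F.denom - F.num * derivative F.denom = 0 :=
      RatFunc.algebraMap_injective k h1
    have hcop : IsCoprime F.denom F.num := (F.isCoprime_num_denom).symm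
    have hdvd : F.denom ∣ derivative F.denom := by
      apply hcop.dvd_of_dvd_mul_left
      exact ⟨derivative F.num, by linear_combination -h2⟩
    have hd0 : derivative F.denom = 0 :=
      Polynomial.eq_zero_of_dvd_of_degree_lt hdvd (Polynomial.degree_derivative_lt hd)
    have hdeg : F.denom.natDegree = 0 := Polynomial.derivative_eq_zero.1 hd0
    have hone : F.denom = 1 := by
      have hm : F.denom.Monic := F.monic_denom
      exact hm.natDegree_eq_zero.1 hdeg
    have hn0 : derivative F.num = 0 := by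
      rw [hd0, hone] at h2
      simpa using h2
    have hndeg : F.num.natDegree = 0 := Polynomial.derivative_eq_zero.1 hn0
    obtain ⟨c, hc⟩ : ∃ c, F.num = Polynomial.C c := ⟨_, Polynomial.eq_C_of_natDegree_eq_zero hndeg⟩
    refine ⟨c, ?_⟩
    have := F.num_div_denom
    rw [hone, hc] at this
    simpa using this.symm
  · rintro ⟨c, rfl⟩
    exact ratDeriv_C c

theorem ratDeriv_ne_zero_of_nonConst [CharZero k] {F : RatFunc k} (hF : NonConst F) :
    ratDeriv F ≠ 0 := by
  intro h
  obtain ⟨c, hc⟩ := (ratDeriv_eq_zero_iff F).1 h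
  exact hF c hc

end ModB

/-! ## C. Composition of rational functions  (written by helper185) -/

section ModC

open scoped Classical
open Polynomial

variable {k : Type} [Field k] {F F₁ F₂ G : RatFunc k}

/-- Mathlib: `RatFunc.transcendental_of_ne_C` -/
theorem aeval_ne_zero_of_nonConst (hG : NonConst G) {p : k[X]} (hp : p ≠ 0) :
    Polynomial.eval₂ RatFunc.C G p ≠ 0 := by
  have htr : Transcendental k G := RatFunc.transcendental_of_ne_C G (by
    rintro ⟨c, hc⟩
    exact hG c hc)
  intro h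
  refine hp ((transcendental_iff.1 htr) p ?_)
  rw [Polynomial.aeval_def]
  exact h

/-- substitution of a non-constant `G`, as a ring homomorphism -/
private noncomputable def compHom (hG : NonConst G) : RatFunc k →+* RatFunc k :=
  RatFunc.liftRingHom (Polynomial.eval₂RingHom RatFunc.C G) (by
    intro p hp
    rw [Submonoid.mem_comap, mem_nonZeroDivisors_iff_ne_zero]
    exact aeval_ne_zero_of_nonConst hG (mem_nonZeroDivisors_iff_ne_zero.1 hp))

private theorem ratComp_eq_compHom (hG : NonConst G) (F : RatFunc k) :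
    ratComp F G = compHom hG F := by
  rw [compHom, RatFunc.liftRingHom_apply]
  rfl

theorem ratComp_algebraMap (G : RatFunc k) (p : k[X]) :
    ratComp (algebraMap k[X] (RatFunc k) p) G = Polynomial.eval₂ RatFunc.C G p := by
  simp [ratComp]

theorem ratComp_C (G : RatFunc k) (a : k) : ratComp (RatFunc.C a) G = RatFunc.C a := by
  simp [ratComp]

theorem ratComp_X (G : RatFunc k) : ratComp RatFunc.X G = G := by
  simp [ratComp]

private theorem eval₂_C_X_eq (p : k[X]) :
    Polynomial.eval₂ RatFunc.C (RatFunc.X : RatFunc k) p = algebraMap k[X] (RatFunc k) p := by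
  induction p using Polynomial.induction_on' with
  | add p q hp hq => rw [Polynomial.eval₂_add, hp, hq, map_add]
  | monomial n a =>
    rw [Polynomial.eval₂_monomial, ← Polynomial.C_mul_X_pow_eq_monomial, map_mul, map_pow,
      RatFunc.algebraMap_C, RatFunc.algebraMap_X]

theorem ratComp_X_right (F : RatFunc k) : ratComp F RatFunc.X = F := by
  rw [ratComp, RatFunc.eval, eval₂_C_X_eq, eval₂_C_X_eq, RatFunc.num_div_denom]

theorem ratComp_zero (G : RatFunc k) : ratComp 0 G = 0 := by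
  simp [ratComp]

theorem ratComp_one (G : RatFunc k) : ratComp 1 G = 1 := by
  simp [ratComp]

theorem ratComp_ofNat (G : RatFunc k) (n : ℕ) [n.AtLeastTwo] :
    ratComp (OfNat.ofNat n) G = OfNat.ofNat n := by
  have h : (OfNat.ofNat n : RatFunc k) = RatFunc.C (OfNat.ofNat n) := (map_ofNat RatFunc.C n).symm
  rw [h, ratComp_C]

theorem ratComp_add (hG : NonConst G) : ratComp (F₁ + F₂) G = ratComp F₁ G + ratComp F₂ G := by
  simp only [ratComp_eq_compHom hG, map_add]

theorem ratComp_mul (hG : NonConst G) : ratComp (F₁ * F₂) G = ratComp F₁ G * ratComp F₂ G := by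
  simp only [ratComp_eq_compHom hG, map_mul]

theorem ratComp_neg (hG : NonConst G) : ratComp (-F) G = -ratComp F G := by
  simp only [ratComp_eq_compHom hG, map_neg]

theorem ratComp_sub (hG : NonConst G) : ratComp (F₁ - F₂) G = ratComp F₁ G - ratComp F₂ G := by
  simp only [ratComp_eq_compHom hG, map_sub]

theorem ratComp_pow (hG : NonConst G) (n : ℕ) : ratComp (F ^ n) G = ratComp F G ^ n := by
  simp only [ratComp_eq_compHom hG, map_pow]

theorem ratComp_inv (hG : NonConst G) : ratComp F⁻¹ G = (ratComp F G)⁻¹ := by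
  simp only [ratComp_eq_compHom hG, map_inv₀]

theorem ratComp_div (hG : NonConst G) : ratComp (F₁ / F₂) G = ratComp F₁ G / ratComp F₂ G := by
  simp only [ratComp_eq_compHom hG, map_div₀]

theorem ratComp_eq_zero_iff (hG : NonConst G) : ratComp F G = 0 ↔ F = 0 := by
  rw [ratComp_eq_compHom hG, map_eq_zero]

theorem ratComp_injective (hG : NonConst G) (h : ratComp F₁ G = ratComp F₂ G) : F₁ = F₂ := by
  rw [ratComp_eq_compHom hG, ratComp_eq_compHom hG] at h
  exact (compHom hG).injective h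

theorem NonConst.ratComp (hF : NonConst F) (hG : NonConst G) :
    NonConst (Claimed.Open.R030.CubeEnd.ratComp F G) := by
  intro c hc
  rw [← ratComp_C G c] at hc
  exact hF c (ratComp_injective hG hc)

private theorem evalsTo_eval₂ {x r : k} (h : EvalsTo G x r) (p : k[X]) :
    EvalsTo (Polynomial.eval₂ RatFunc.C G p) x (p.eval r) := by
  induction p using Polynomial.induction_on' with
  | add p q hp hq =>
    rw [Polynomial.eval₂_add, Polynomial.eval_add]
    exact hp.add hq
  | monomial n a =>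
    rw [Polynomial.eval₂_monomial, Polynomial.eval_monomial]
    exact (evalsTo_C a x).mul (h.pow n)

/-- values of a composition -/
theorem EvalsTo.comp (hG : NonConst G) {x r c : k} (h : EvalsTo G x r) (h' : EvalsTo F r c) :
    EvalsTo (ratComp F G) x c := by
  obtain ⟨N, M, hM, hF, hN⟩ := h'
  have hM0 : M ≠ 0 := by
    rintro rfl
    simp at hM
  have hM1 : algebraMap k[X] (RatFunc k) M ≠ 0 := RatFunc.algebraMap_ne_zero hM0
  have hF' : F = algebraMap k[X] (RatFunc k) N / algebraMap k[X] (RatFunc k) M := by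
    rw [eq_div_iff hM1, hF]
  have hc : c = N.eval r / M.eval r := by
    rw [hN, mul_div_cancel_right₀ _ hM]
  rw [hF', ratComp_div hG, ratComp_algebraMap, ratComp_algebraMap, hc]
  exact (evalsTo_eval₂ h N).div (evalsTo_eval₂ h M) hM

private theorem ratDeriv_eval₂ (G : RatFunc k) (p : k[X]) :
    ratDeriv (Polynomial.eval₂ RatFunc.C G p) =
      Polynomial.eval₂ RatFunc.C G (derivative p) * ratDeriv G := by
  induction p using Polynomial.induction_on' with
  | add p q hp hq =>
    rw [Polynomial.eval₂_add, ratDeriv_add, hp, hq, derivative_add, Polynomial.eval₂_add, add_mul]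
  | monomial n a =>
    rw [Polynomial.eval₂_monomial, ratDeriv_C_mul, ratDeriv_pow, derivative_monomial,
      Polynomial.eval₂_monomial, map_mul, map_natCast]
    ring

/-- the chain rule -/
theorem ratDeriv_ratComp (hG : NonConst G) :
    ratDeriv (ratComp F G) = ratComp (ratDeriv F) G * ratDeriv G := by
  have h1 : ratComp F G =
      Polynomial.eval₂ RatFunc.C G F.num / Polynomial.eval₂ RatFunc.C G F.denom := rfl
  have hd : Polynomial.eval₂ RatFunc.C G F.denom ≠ 0 :=
    aeval_ne_zero_of_nonConst hG F.denom_ne_zero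
  rw [h1, ratDeriv_div, ratDeriv_eval₂, ratDeriv_eval₂]
  unfold ratDeriv
  rw [ratComp_div hG, ratComp_sub hG, ratComp_mul hG, ratComp_mul hG, ratComp_pow hG]
  simp only [ratComp_algebraMap]
  field_simp

theorem nonConst_X : NonConst (RatFunc.X : RatFunc k) := by
  intro c hc
  rw [← RatFunc.algebraMap_X, ← RatFunc.algebraMap_C] at hc
  exact Polynomial.X_ne_C c (RatFunc.algebraMap_injective k hc)

end ModC

/-! ## D1. The points of `y² = x³ + 1`  (written by helper95) -/

section ModD1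

open scoped Classical
open WeierstrassCurve Polynomial

theorem nonsingular_iff {x y : Cm3Bar} : EC.Nonsingular x y ↔ y ^ 2 = x ^ 3 + 1 := by
  rw [WeierstrassCurve.Affine.nonsingular_iff, WeierstrassCurve.Affine.equation_iff]
  simp only [cubeCurve_a₁, cubeCurve_a₂, cubeCurve_a₃, cubeCurve_a₄, cubeCurve_a₆]
  constructor
  · rintro ⟨h, -⟩
    linear_combination h
  · intro h
    refine ⟨by linear_combination h, ?_⟩
    by_cases hy : y = 0
    · left
      intro h'
      have hx2 : x ^ 2 = 0 := by linear_combination (-1 / 3 : Cm3Bar) * h'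
      have hx : x = 0 := by simpa using hx2
      rw [hy, hx] at h
      norm_num at h
    · right
      intro h'
      apply hy
      linear_combination h' / 2

theorem exists_y (x : Cm3Bar) : ∃ y : Cm3Bar, y ^ 2 = x ^ 3 + 1 :=
  IsAlgClosed.exists_pow_nat_eq (x ^ 3 + 1) (n := 2) (by norm_num)

private theorem negY_eq (x y : Cm3Bar) : EC.negY x y = -y := by
  rw [WeierstrassCurve.Affine.negY, cubeCurve_a₁, cubeCurve_a₃]
  ring

theorem neg_some {x y : Cm3Bar} (h : EC.Nonsingular x y) :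
    ∃ h' : EC.Nonsingular x (-y), -(Affine.Point.some x y h : PtsBar cubeCurve) = .some x (-y) h' := by
  have h' : EC.Nonsingular x (-y) := by
    rw [nonsingular_iff] at h ⊢
    linear_combination h
  refine ⟨h', ?_⟩
  rw [WeierstrassCurve.Affine.Point.neg_some, WeierstrassCurve.Affine.Point.some.injEq]
  exact ⟨rfl, negY_eq x y⟩

/-- the chord formula -/
theorem add_some_of_ne {x₁ y₁ x₂ y₂ : Cm3Bar} (h₁ : EC.Nonsingular x₁ y₁) (h₂ : EC.Nonsingular x₂ y₂)
    (hx : x₁ ≠ x₂) :
    ∃ h₃, (Affine.Point.some x₁ y₁ h₁ + Affine.Point.some x₂ y₂ h₂ : PtsBar cubeCurve) =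
      .some (((y₁ - y₂) / (x₁ - x₂)) ^ 2 - x₁ - x₂)
        (-((y₁ - y₂) / (x₁ - x₂)) * ((((y₁ - y₂) / (x₁ - x₂)) ^ 2 - x₁ - x₂) - x₁) - y₁) h₃ := by
  have hxy : ¬ (x₁ = x₂ ∧ y₁ = EC.negY x₂ y₂) := fun h => hx h.1
  have hns := WeierstrassCurve.Affine.nonsingular_add h₁ h₂ hxy
  have hsl : EC.slope x₁ x₂ y₁ y₂ = (y₁ - y₂) / (x₁ - x₂) :=
    WeierstrassCurve.Affine.slope_of_X_ne hx
  have eX : EC.addX x₁ x₂ (EC.slope x₁ x₂ y₁ y₂) = ((y₁ - y₂) / (x₁ - x₂)) ^ 2 - x₁ - x₂ := by
    rw [hsl]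
    simp only [WeierstrassCurve.Affine.addX, cubeCurve_a₁, cubeCurve_a₂]
    ring
  have eY : EC.addY x₁ x₂ y₁ (EC.slope x₁ x₂ y₁ y₂) =
      -((y₁ - y₂) / (x₁ - x₂)) * ((((y₁ - y₂) / (x₁ - x₂)) ^ 2 - x₁ - x₂) - x₁) - y₁ := by
    rw [WeierstrassCurve.Affine.addY, negY_eq, WeierstrassCurve.Affine.negAddY, eX, hsl]
    ring
  rw [eX, eY] at hns
  refine ⟨hns, ?_⟩
  rw [WeierstrassCurve.Affine.Point.add_some hxy, WeierstrassCurve.Affine.Point.some.injEq]
  exact ⟨eX, eY⟩

/-- the duplication formula (see the proof of `sanity_isAlgebraicEndomorphism_two_cubeCurve`) -/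
theorem two_some {x y : Cm3Bar} (h : EC.Nonsingular x y) (hy : y ≠ 0) :
    ∃ h', (Affine.Point.some x y h + Affine.Point.some x y h : PtsBar cubeCurve) =
      .some ((x ^ 4 - 8 * x) / (4 * (x ^ 3 + 1)))
        (y * ((x ^ 6 + 20 * x ^ 3 - 8) / (8 * (x ^ 3 + 1) ^ 2))) h' := by
  have heq : y ^ 2 = x ^ 3 + 1 := nonsingular_iff.mp h
  have hx : x ^ 3 + 1 ≠ 0 := by
    rw [← heq]
    exact pow_ne_zero 2 hy
  have hYne : y ≠ EC.negY x y := by
    rw [negY_eq]
    intro h'
    apply hy
    linear_combination h' / 2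
  have hxy : ¬ (x = x ∧ y = EC.negY x y) := fun h => hYne h.2
  have hns := WeierstrassCurve.Affine.nonsingular_add h h hxy
  have hsl : EC.slope x x y y = 3 * x ^ 2 / (2 * y) := by
    rw [WeierstrassCurve.Affine.slope_of_Y_ne rfl hYne, negY_eq]
    simp only [cubeCurve_a₁, cubeCurve_a₂, cubeCurve_a₄]
    congr 1 <;> ring
  have eX : EC.addX x x (EC.slope x x y y) = (x ^ 4 - 8 * x) / (4 * (x ^ 3 + 1)) := by
    rw [hsl]
    simp only [WeierstrassCurve.Affine.addX, cubeCurve_a₁, cubeCurve_a₂]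
    rw [← heq]
    field_simp
    linear_combination (-32 * x) * heq
  have eY : EC.addY x x y (EC.slope x x y y) =
      y * ((x ^ 6 + 20 * x ^ 3 - 8) / (8 * (x ^ 3 + 1) ^ 2)) := by
    rw [WeierstrassCurve.Affine.addY, negY_eq, WeierstrassCurve.Affine.negAddY, eX, hsl]
    rw [← heq]
    field_simp
    linear_combination (-8 * (8 * y ^ 2 - 4 * x ^ 3 + 8)) * heq
  rw [eX, eY] at hns
  refine ⟨hns, ?_⟩
  rw [WeierstrassCurve.Affine.Point.add_some hxy, WeierstrassCurve.Affine.Point.some.injEq]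
  exact ⟨eX, eY⟩

theorem add_self_eq_zero_of_y_eq_zero {x : Cm3Bar} (h : EC.Nonsingular x 0) :
    (Affine.Point.some x 0 h + Affine.Point.some x 0 h : PtsBar cubeCurve) = 0 := by
  apply WeierstrassCurve.Affine.Point.add_of_Y_eq rfl
  rw [negY_eq, neg_zero]

theorem some_eq_or_eq_neg {x y y' : Cm3Bar} (h : EC.Nonsingular x y) (h' : EC.Nonsingular x y') :
    (Affine.Point.some x y h : PtsBar cubeCurve) = .some x y' h' ∨
      (Affine.Point.some x y h : PtsBar cubeCurve) = -.some x y' h' := by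
  have e : y ^ 2 = y' ^ 2 := by rw [nonsingular_iff.mp h, nonsingular_iff.mp h']
  rcases sq_eq_sq_iff_eq_or_eq_neg.mp e with rfl | rfl
  · exact Or.inl rfl
  · right
    rw [WeierstrassCurve.Affine.Point.neg_some, WeierstrassCurve.Affine.Point.some.injEq]
    exact ⟨rfl, (negY_eq x y').symm⟩

theorem finite_points_of_finite {B : Set Cm3Bar} (hB : B.Finite) :
    {P : PtsBar cubeCurve | P = 0 ∨ ∃ x y h, x ∈ B ∧ P = .some x y h}.Finite := by
  -- for each `x` choose a point `Q x` above `x`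
  choose Y hY using exists_y
  let Q : Cm3Bar → PtsBar cubeCurve := fun x => .some x (Y x) (nonsingular_iff.mpr (hY x))
  have hfin : ({0} ∪ Q '' B ∪ (fun x => -Q x) '' B : Set (PtsBar cubeCurve)).Finite :=
    ((Set.finite_singleton _).union (hB.image _)).union (hB.image _)
  refine hfin.subset ?_
  rintro P (rfl | ⟨x, y, h, hx, rfl⟩)
  · exact Or.inl (Or.inl rfl)
  · rcases some_eq_or_eq_neg h (nonsingular_iff.mpr (hY x)) with e | e
    · exact Or.inl (Or.inr ⟨x, hx, e.symm⟩)
    · exact Or.inr ⟨x, hx, e.symm⟩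

theorem infinite_Cm3Bar : Infinite Cm3Bar := inferInstance

theorem infinite_points : Infinite (PtsBar cubeCurve) := by
  choose Y hY using exists_y
  let Q : Cm3Bar → PtsBar cubeCurve := fun x => .some x (Y x) (nonsingular_iff.mpr (hY x))
  have hQ : Function.Injective Q := by
    intro a b hab
    simp only [Q, WeierstrassCurve.Affine.Point.some.injEq] at hab
    exact hab.1
  have := infinite_Cm3Bar
  exact Infinite.of_injective Q hQ

/-- two endomorphisms of the group that agree outside finitely many points are equal -/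
theorem hom_ext_cofinite {f g : EndE} {B : Set Cm3Bar} (hB : B.Finite)
    (h : ∀ (x y : Cm3Bar) (hxy : EC.Nonsingular x y), x ∉ B → f (.some x y hxy) = g (.some x y hxy)) :
    f = g := by
  set T : Set (PtsBar cubeCurve) := {P | P = 0 ∨ ∃ x y h, x ∈ B ∧ P = .some x y h} with hT
  have hTfin : T.Finite := finite_points_of_finite hB
  have hgood : ∀ P : PtsBar cubeCurve, P ∉ T → f P = g P := by
    rintro (_ | ⟨x, y, hxy⟩) hP
    · exact absurd (Or.inl rfl) hP
    · apply h
      intro hx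
      exact hP (Or.inr ⟨x, y, hxy, hx, rfl⟩)
  ext P
  -- choose `Q` with `Q ∉ T` and `P + Q ∉ T`
  have := infinite_points
  have hfin2 : (T ∪ (fun R => R - P) '' T).Finite := hTfin.union (hTfin.image _)
  obtain ⟨Q, hQ⟩ := hfin2.exists_notMem
  have hQ1 : Q ∉ T := fun hq => hQ (Or.inl hq)
  have hQ2 : P + Q ∉ T := fun hq => hQ (Or.inr ⟨P + Q, hq, by simp⟩)
  have e1 := hgood _ hQ1
  have e2 := hgood _ hQ2
  rw [map_add, map_add, e1] at e2
  exact add_right_cancel e2

end ModD1

/-! ## D2. First properties of `Rep`  (written by helper205) -/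

section ModD2

open scoped Classical
open WeierstrassCurve Polynomial

variable {f g : EndE} {R S R' S' : RatFunc Cm3Bar}

theorem evalsTo_wF (x : Cm3Bar) : EvalsTo wF x (x ^ 3 + 1) :=
  ((evalsTo_X x).pow 3).add (evalsTo_one x)

theorem wF_ne_zero : wF ≠ 0 := by
  intro h0
  have h1 := evalsTo_wF 0
  rw [h0] at h1
  have := h1.unique (evalsTo_zero 0)
  norm_num at this

private theorem zw_finite : {x : Cm3Bar | x ^ 3 + 1 = 0}.Finite :=
  (finite_evalsTo_zero wF_ne_zero).subset (fun x hx => by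
    have h := evalsTo_wF x
    rw [Set.mem_ofPred_eq] at hx
    rw [hx] at h
    exact h)

private theorem compl_infinite {B : Set Cm3Bar} (hB : B.Finite) : (Bᶜ).Infinite := by
  have := infinite_Cm3Bar
  exact hB.infinite_compl

private theorem some_congr {x y x' y' : Cm3Bar} (h : EC.Nonsingular x y) (hx : x = x')
    (hy : y = y') :
    ∃ h' : EC.Nonsingular x' y', (Affine.Point.some x y h : PtsBar cubeCurve) = .some x' y' h' := by
  subst hx; subst hy; exact ⟨h, rfl⟩

private theorem y_ne_zero {x y : Cm3Bar} (h : EC.Nonsingular x y) (hx : x ^ 3 + 1 ≠ 0) : y ≠ 0 := by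
  rintro rfl
  apply hx
  rw [← nonsingular_iff.mp h]
  ring

/-- use `f (-P) = - f P`: off the zeros of `c₁ c₂ (x³ + 1)` one has `b₁(x) = 0`, `a₂(x) = 0`; `R = a₁ / c₁`, `S = b₂ / c₂` -/
theorem rep_of_isAlgebraic (hf : IsAlgebraicEndomorphism cubeCurve f) :
    f = 0 ∨ ∃ R S, Rep f R S := by
  rcases hf with hf | ⟨a₁, b₁, c₁, a₂, b₂, c₂, hc₁, hc₂, H⟩
  · exact Or.inl hf
  right
  refine ⟨algebraMap Cm3Bar[X] (RatFunc Cm3Bar) a₁ / algebraMap Cm3Bar[X] (RatFunc Cm3Bar) c₁,
    algebraMap Cm3Bar[X] (RatFunc Cm3Bar) b₂ / algebraMap Cm3Bar[X] (RatFunc Cm3Bar) c₂,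
    {x | c₁.IsRoot x} ∪ {x | c₂.IsRoot x} ∪ {x | x ^ 3 + 1 = 0}, ?_, ?_⟩
  · exact ((Polynomial.finite_setOfPred_isRoot hc₁).union (Polynomial.finite_setOfPred_isRoot hc₂)).union
      zw_finite
  · intro x y h hx
    simp only [Set.mem_union, Set.mem_ofPred_eq, not_or, Polynomial.IsRoot.def] at hx
    obtain ⟨⟨h1, h2⟩, h3⟩ := hx
    have hy : y ≠ 0 := y_ne_zero h h3
    obtain ⟨hA, eA⟩ := H x y h h1 h2
    obtain ⟨hn, en⟩ := neg_some h
    obtain ⟨hB, eB⟩ := H x (-y) hn h1 h2
    obtain ⟨hn', en'⟩ := neg_some hA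
    have key : (Affine.Point.some _ _ hB : PtsBar cubeCurve) = .some _ _ hn' := by
      rw [← eB, ← en, map_neg, eA, en']
    rw [Affine.Point.some.injEq] at key
    obtain ⟨k1, k2⟩ := key
    have hb1 : b₁.eval x = 0 := by
      have e : (a₁.eval x + b₁.eval x * -y) = (a₁.eval x + b₁.eval x * y) := by
        have := congrArg (· * c₁.eval x) k1
        simpa [div_mul_cancel₀ _ h1] using this
      have e2 : 2 * y * b₁.eval x = 0 := by linear_combination -e
      rcases mul_eq_zero.mp e2 with e3 | e3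
      · exact absurd e3 (mul_ne_zero two_ne_zero hy)
      · exact e3
    have ha2 : a₂.eval x = 0 := by
      have e : (a₂.eval x + b₂.eval x * -y) = -(a₂.eval x + b₂.eval x * y) := by
        have := congrArg (· * c₂.eval x) k2
        simpa [div_mul_cancel₀ _ h2, neg_mul] using this
      have e2 : 2 * a₂.eval x = 0 := by linear_combination e
      rcases mul_eq_zero.mp e2 with e3 | e3
      · exact absurd e3 two_ne_zero
      · exact e3
    obtain ⟨h', e'⟩ := some_congr hA (x' := a₁.eval x / c₁.eval x)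
      (y' := y * (b₂.eval x / c₂.eval x)) (by rw [hb1]; ring) (by rw [ha2]; ring)
    exact ⟨_, _, h', evalsTo_div_algebraMap _ _ _ h1, evalsTo_div_algebraMap _ _ _ h2,
      eA.trans e'⟩

theorem Rep.ne_zero (h : Rep f R S) : f ≠ 0 := by
  obtain ⟨B, hB, H⟩ := h
  obtain ⟨x, hx⟩ := (compl_infinite hB).nonempty
  obtain ⟨y, hy⟩ := exists_y x
  obtain ⟨r, s, h', -, -, e⟩ := H x y (nonsingular_iff.mpr hy) hx
  intro h0
  rw [h0, AddMonoidHom.zero_apply] at e
  exact Affine.Point.some_ne_zero _ e.symm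

/-- the image point lies on the curve -/
theorem Rep.curve (h : Rep f R S) : wF * S ^ 2 = R ^ 3 + 1 := by
  obtain ⟨B, hB, H⟩ := h
  apply eq_of_infinite
  refine (compl_infinite hB).mono (fun x hx => ?_)
  obtain ⟨y, hy⟩ := exists_y x
  obtain ⟨r, s, h', hr, hs, -⟩ := H x y (nonsingular_iff.mpr hy) hx
  refine ⟨r ^ 3 + 1, ?_, (hr.pow 3).add (evalsTo_one x)⟩
  have e : (x ^ 3 + 1) * s ^ 2 = r ^ 3 + 1 := by
    rw [← nonsingular_iff.mp h', ← hy]; ring
  rw [← e]
  exact (evalsTo_wF x).mul (hs.pow 2)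

theorem Rep.unique (h : Rep f R S) (h' : Rep f R' S') : R = R' ∧ S = S' := by
  obtain ⟨B, hB, H⟩ := h
  obtain ⟨B', hB', H'⟩ := h'
  have hfin : (B ∪ B' ∪ {x : Cm3Bar | x ^ 3 + 1 = 0}).Finite := (hB.union hB').union zw_finite
  have key : ∀ x ∈ (B ∪ B' ∪ {x : Cm3Bar | x ^ 3 + 1 = 0})ᶜ,
      (∃ c, EvalsTo R x c ∧ EvalsTo R' x c) ∧ (∃ c, EvalsTo S x c ∧ EvalsTo S' x c) := by
    intro x hx
    simp only [Set.mem_compl_iff, Set.mem_union, Set.mem_ofPred_eq, not_or] at hx
    obtain ⟨⟨h1, h2⟩, h3⟩ := hx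
    obtain ⟨y, hy⟩ := exists_y x
    have hns := nonsingular_iff.mpr hy
    have hy0 : y ≠ 0 := y_ne_zero hns h3
    obtain ⟨r, s, hh, hr, hs, e⟩ := H x y hns h1
    obtain ⟨r', s', hh', hr', hs', e'⟩ := H' x y hns h2
    rw [e, Affine.Point.some.injEq] at e'
    obtain ⟨e1, e2⟩ := e'
    have e3 : s = s' := mul_left_cancel₀ hy0 e2
    subst e1; subst e3
    exact ⟨⟨_, hr, hr'⟩, ⟨_, hs, hs'⟩⟩
  exact ⟨eq_of_infinite ((compl_infinite hfin).mono (fun x hx => (key x hx).1)),
    eq_of_infinite ((compl_infinite hfin).mono (fun x hx => (key x hx).2))⟩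

theorem Rep.ext (h : Rep f R S) (h' : Rep g R S) : f = g := by
  obtain ⟨B, hB, H⟩ := h
  obtain ⟨B', hB', H'⟩ := h'
  refine hom_ext_cofinite (hB.union hB') (fun x y hxy hx => ?_)
  simp only [Set.mem_union, not_or] at hx
  obtain ⟨r, s, hh, hr, hs, e⟩ := H x y hxy hx.1
  obtain ⟨r', s', hh', hr', hs', e'⟩ := H' x y hxy hx.2
  have e1 := hr.unique hr'
  have e2 := hs.unique hs'
  subst e1; subst e2
  rw [e, e']

/-- If `R = c` is constant then `w S² = c³ + 1`; for `c³ + 1 ≠ 0` this contradicts the parity of `RatFunc.intDegree`; for `c³ + 1 = 0`,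
`S = 0` and `f P = (c, 0) = T` for all `P` outside a finite set, so `T = f (P + P') = T + T = 0`. -/
theorem Rep.nonConst (h : Rep f R S) : NonConst R := by
  intro c hc
  have hcurve := h.curve
  subst hc
  by_cases h0 : c ^ 3 + 1 = 0
  · -- `S = 0`
    have hS : S = 0 := by
      have e : wF * S ^ 2 = 0 := by
        rw [hcurve, ← map_pow, ← map_one (RatFunc.C (K := Cm3Bar)), ← map_add, h0, map_zero]
      rcases mul_eq_zero.mp e with e | e
      · exact absurd e wF_ne_zero
      · exact pow_eq_zero_iff (two_ne_zero) |>.mp e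
    subst hS
    obtain ⟨B, hB, H⟩ := h
    have hc0 : EC.Nonsingular c 0 := nonsingular_iff.mpr (by rw [h0]; ring)
    set T : PtsBar cubeCurve := .some c 0 hc0 with hT
    set Bad : Set (PtsBar cubeCurve) := {P | P = 0 ∨ ∃ x y h, x ∈ B ∧ P = .some x y h} with hBad
    have hBadfin : Bad.Finite := finite_points_of_finite hB
    have key : ∀ Q, Q ∉ Bad → f Q = T := by
      intro Q hQ
      rcases Q with _ | ⟨x, y, hxy⟩
      · exact absurd (Or.inl rfl) hQ
      · have hx : x ∉ B := fun hx => hQ (Or.inr ⟨x, y, hxy, hx, rfl⟩)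
        obtain ⟨r, s, hh, hr, hs, e⟩ := H x y hxy hx
        have e1 := hr.unique (evalsTo_C c x)
        have e2 := hs.unique (evalsTo_zero x)
        subst e1; subst e2
        rw [e, hT, Affine.Point.some.injEq]
        exact ⟨rfl, mul_zero y⟩
    have := infinite_points
    obtain ⟨P, hP⟩ := hBadfin.infinite_compl.nonempty
    have hfin2 : (Bad ∪ (fun Q => Q - P) '' Bad).Finite := hBadfin.union (hBadfin.image _)
    obtain ⟨P', hP'⟩ := hfin2.infinite_compl.nonempty
    simp only [Set.mem_compl_iff, Set.mem_union, Set.mem_image, not_or, not_exists, not_and] at hP'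
    have h1 : f P = T := key P hP
    have h2 : f P' = T := key P' hP'.1
    have h3 : f (P' + P) = T := key _ (fun hmem => hP'.2 _ hmem (by abel))
    rw [map_add, h1, h2] at h3
    have h4 : T = 0 := by
      have := add_self_eq_zero_of_y_eq_zero hc0
      rw [← hT] at this
      rw [← h3, this]
    exact Affine.Point.some_ne_zero _ h4
  · -- parity of the degree
    have hS : S ≠ 0 := by
      rintro rfl
      apply h0
      have e : RatFunc.C (c ^ 3 + 1) = (0 : RatFunc Cm3Bar) := by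
        rw [map_add, map_pow, map_one, ← hcurve]; ring
      exact (map_eq_zero (RatFunc.C (K := Cm3Bar))).mp e
    have e : wF * S ^ 2 = RatFunc.C (c ^ 3 + 1) := by
      rw [hcurve, map_add, map_pow, map_one]
    have hd := congrArg RatFunc.intDegree e
    have hw : RatFunc.intDegree wF = 3 := by
      have : wF = algebraMap Cm3Bar[X] (RatFunc Cm3Bar) (X ^ 3 + 1) := by
        rw [wF, map_add, map_pow, map_one, RatFunc.algebraMap_X]
      rw [this, RatFunc.intDegree_polynomial]
      have : (X ^ 3 + 1 : Cm3Bar[X]).natDegree = 3 := by compute_degree!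
      rw [this]; rfl
    rw [RatFunc.intDegree_mul wF_ne_zero (pow_ne_zero 2 hS), pow_two,
      RatFunc.intDegree_mul hS hS, RatFunc.intDegree_C, hw] at hd
    omega

theorem Rep.S_ne_zero (h : Rep f R S) : S ≠ 0 := by
  rintro rfl
  have hnc := h.nonConst
  obtain ⟨B, hB, H⟩ := h
  have hfin := finite_evalsTo_mem_of_nonConst hnc zw_finite
  refine (compl_infinite hB) (hfin.subset (fun x hx => ?_))
  obtain ⟨y, hy⟩ := exists_y x
  obtain ⟨r, s, h', hr, hs, -⟩ := H x y (nonsingular_iff.mpr hy) hx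
  have e2 := hs.unique (evalsTo_zero x)
  subst e2
  refine ⟨r, ?_, hr⟩
  rw [Set.mem_ofPred_eq, ← nonsingular_iff.mp h']
  ring

theorem Rep.neg (h : Rep f R S) : Rep (-f) R (-S) := by
  obtain ⟨B, hB, H⟩ := h
  refine ⟨B, hB, fun x y hxy hx => ?_⟩
  obtain ⟨r, s, h', hr, hs, e⟩ := H x y hxy hx
  obtain ⟨hn, en⟩ := neg_some h'
  obtain ⟨h'', e''⟩ := some_congr hn (x' := r) (y' := y * -s) rfl (by ring)
  exact ⟨r, -s, h'', hr, hs.neg, by rw [AddMonoidHom.neg_apply, e, en, e'']⟩

end ModD2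

/-! ## D3. The examples `1`, `[ω]`, `[2]`  (written by helper245) -/

section ModD3

open scoped Classical
open WeierstrassCurve Polynomial

theorem rep_id : Rep (AddMonoidHom.id _) RatFunc.X 1 := by
  refine ⟨∅, Set.finite_empty, fun x y h _ => ⟨x, 1, by rwa [mul_one], evalsTo_X x, evalsTo_one x, ?_⟩⟩
  simp

theorem rep_omega : Rep cubeCurveEndo (RatFunc.C omegaBar * RatFunc.X) 1 := by
  refine ⟨∅, Set.finite_empty, fun x y h _ => ⟨omegaBar * x, 1, ?_,
    (evalsTo_C omegaBar x).mul (evalsTo_X x), evalsTo_one x, ?_⟩⟩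
  · rw [mul_one]
    exact cm3Ex_nonsingular _ omegaBar cubeCurve_a₁ cubeCurve_a₂ cubeCurve_a₃ cubeCurve_a₄
      omegaBar_cube h
  · rw [cubeCurveEndo_some h]
    simp

theorem evalsTo_dblR {x : Cm3Bar} (hx : x ^ 3 + 1 ≠ 0) :
    EvalsTo dblR x ((x ^ 4 - 8 * x) / (4 * (x ^ 3 + 1))) := by
  unfold dblR
  refine EvalsTo.div ?_ ?_ (mul_ne_zero (by norm_num) hx)
  · exact ((evalsTo_X x).pow 4).sub ((evalsTo_ofNat 8 x).mul (evalsTo_X x))
  · exact (evalsTo_ofNat 4 x).mul (((evalsTo_X x).pow 3).add (evalsTo_one x))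

theorem evalsTo_dblS {x : Cm3Bar} (hx : x ^ 3 + 1 ≠ 0) :
    EvalsTo dblS x ((x ^ 6 + 20 * x ^ 3 - 8) / (8 * (x ^ 3 + 1) ^ 2)) := by
  unfold dblS
  refine EvalsTo.div ?_ ?_ (mul_ne_zero (by norm_num) (pow_ne_zero 2 hx))
  · exact (((evalsTo_X x).pow 6).add ((evalsTo_ofNat 20 x).mul ((evalsTo_X x).pow 3))).sub
      (evalsTo_ofNat 8 x)
  · exact (evalsTo_ofNat 8 x).mul ((((evalsTo_X x).pow 3).add (evalsTo_one x)).pow 2)

theorem rep_two : Rep (2 • AddMonoidHom.id _) dblR dblS := by
  have hfin : {x : Cm3Bar | x ^ 3 + 1 = 0}.Finite := by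
    have hp : (X ^ 3 + 1 : Cm3Bar[X]) ≠ 0 := by
      intro h0
      have := congrArg (Polynomial.eval 0) h0
      simp at this
    refine ((X ^ 3 + 1 : Cm3Bar[X]).roots.toFinset.finite_toSet).subset fun x hx => ?_
    simp only [Finset.mem_coe, Multiset.mem_toFinset, mem_roots hp, IsRoot.def]
    simpa using hx
  refine ⟨_, hfin, fun x y h hx => ?_⟩
  have hx' : x ^ 3 + 1 ≠ 0 := hx
  have hy : y ≠ 0 := by
    rintro rfl
    have := nonsingular_iff.1 h
    exact hx' (by rw [← this]; ring)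
  obtain ⟨h', e⟩ := two_some h hy
  refine ⟨_, _, h', evalsTo_dblR hx', evalsTo_dblS hx', ?_⟩
  rw [← e]
  simp [two_smul]

private theorem wX_ne_zero : (RatFunc.X ^ 3 + 1 : RatFunc Cm3Bar) ≠ 0 := by
  intro h0
  have h1 : EvalsTo (RatFunc.X ^ 3 + 1 : RatFunc Cm3Bar) 0 (0 ^ 3 + 1) :=
    ((evalsTo_X 0).pow 3).add (evalsTo_one 0)
  rw [h0] at h1
  have := h1.unique (evalsTo_zero 0)
  simp at this

theorem ratDeriv_dblR : ratDeriv dblR = RatFunc.C 2 * dblS := by
  have hw := wX_ne_zero
  have h2 : (RatFunc.C (2 : Cm3Bar)) = 2 := by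
    rw [show (2 : Cm3Bar) = ((2 : ℕ) : Cm3Bar) by norm_num, map_natCast]; norm_num
  unfold dblR dblS
  rw [ratDeriv_div, ratDeriv_sub, ratDeriv_mul, ratDeriv_mul, ratDeriv_add, ratDeriv_pow,
    ratDeriv_pow, ratDeriv_X, ratDeriv_one, ratDeriv_ofNat, ratDeriv_ofNat, h2]
  have h4 : (4 : RatFunc Cm3Bar) ≠ 0 := by norm_num
  have h8 : (8 : RatFunc Cm3Bar) ≠ 0 := by norm_num
  field_simp
  push_cast
  ring

theorem dblS_ne_zero : dblS ≠ 0 := by
  intro h0
  have h1 := evalsTo_dblS (x := 0) (by norm_num)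
  rw [h0] at h1
  have := h1.unique (evalsTo_zero 0)
  norm_num at this

theorem nonConst_dblR : NonConst dblR := by
  intro c hc
  have h1 := ratDeriv_dblR
  rw [hc, ratDeriv_C] at h1
  have h2 : RatFunc.C (2 : Cm3Bar) ≠ 0 := by
    rw [Ne, map_eq_zero]; norm_num
  exact (mul_ne_zero h2 dblS_ne_zero) h1.symm

theorem hasA_id : HasA (AddMonoidHom.id _) 1 :=
  Or.inr ⟨_, _, rep_id, by rw [ratDeriv_X]; simp⟩

theorem hasA_omega : HasA cubeCurveEndo omegaBar :=
  Or.inr ⟨_, _, rep_omega, by rw [ratDeriv_C_mul, ratDeriv_X]⟩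

theorem hasA_two : HasA (2 • AddMonoidHom.id _) 2 :=
  Or.inr ⟨_, _, rep_two, ratDeriv_dblR⟩

end ModD3

/-! ## E1. The sum of two endomorphisms, generic case  (written by helper205) -/

section ModE1

open scoped Classical
open WeierstrassCurve Polynomial

variable {f g : EndE} {R₁ S₁ R₂ S₂ : RatFunc Cm3Bar}

/-- the chord formula for `f + g`, with `λ = (S₁ - S₂) / (R₁ - R₂)` (the slope is `y λ`, and `y² = w`) -/
theorem Rep.add_of_ne (hf : Rep f R₁ S₁) (hg : Rep g R₂ S₂) (hne : R₁ ≠ R₂) :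
    Rep (f + g) (wF * ((S₁ - S₂) / (R₁ - R₂)) ^ 2 - R₁ - R₂)
      (-((S₁ - S₂) / (R₁ - R₂)) * ((wF * ((S₁ - S₂) / (R₁ - R₂)) ^ 2 - R₁ - R₂) - R₁) - S₁) := by
  obtain ⟨B₁, hB₁, H₁⟩ := hf
  obtain ⟨B₂, hB₂, H₂⟩ := hg
  refine ⟨B₁ ∪ B₂ ∪ {x | EvalsTo (R₁ - R₂) x 0},
    (hB₁.union hB₂).union (finite_evalsTo_zero (sub_ne_zero.mpr hne)), fun x y hxy hx => ?_⟩
  simp only [Set.mem_union, Set.mem_ofPred_eq, not_or] at hx
  obtain ⟨⟨h1, h2⟩, h3⟩ := hx
  obtain ⟨r₁, s₁, hh₁, hr₁, hs₁, e₁⟩ := H₁ x y hxy h1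
  obtain ⟨r₂, s₂, hh₂, hr₂, hs₂, e₂⟩ := H₂ x y hxy h2
  have hr : r₁ ≠ r₂ := by
    intro h
    apply h3
    have := hr₁.sub hr₂
    rwa [h, sub_self] at this
  have hr' : r₁ - r₂ ≠ 0 := sub_ne_zero.mpr hr
  have hy : y ^ 2 = x ^ 3 + 1 := nonsingular_iff.mp hxy
  obtain ⟨h₃, e₃⟩ := add_some_of_ne hh₁ hh₂ hr
  have hL : EvalsTo ((S₁ - S₂) / (R₁ - R₂)) x ((s₁ - s₂) / (r₁ - r₂)) :=
    (hs₁.sub hs₂).div (hr₁.sub hr₂) hr'
  have hR₃ : EvalsTo (wF * ((S₁ - S₂) / (R₁ - R₂)) ^ 2 - R₁ - R₂) x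
      ((x ^ 3 + 1) * ((s₁ - s₂) / (r₁ - r₂)) ^ 2 - r₁ - r₂) :=
    (((evalsTo_wF x).mul (hL.pow 2)).sub hr₁).sub hr₂
  have hS₃ : EvalsTo
      (-((S₁ - S₂) / (R₁ - R₂)) * ((wF * ((S₁ - S₂) / (R₁ - R₂)) ^ 2 - R₁ - R₂) - R₁) - S₁) x
      (-((s₁ - s₂) / (r₁ - r₂)) * (((x ^ 3 + 1) * ((s₁ - s₂) / (r₁ - r₂)) ^ 2 - r₁ - r₂) - r₁) - s₁) :=
    ((hL.neg).mul (hR₃.sub hr₁)).sub hs₁
  have eL : (y * s₁ - y * s₂) / (r₁ - r₂) = y * ((s₁ - s₂) / (r₁ - r₂)) := by ring
  have ex : ((y * s₁ - y * s₂) / (r₁ - r₂)) ^ 2 - r₁ - r₂ =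
      (x ^ 3 + 1) * ((s₁ - s₂) / (r₁ - r₂)) ^ 2 - r₁ - r₂ := by
    rw [eL, mul_pow, hy]
  have ey : -((y * s₁ - y * s₂) / (r₁ - r₂)) *
        ((((y * s₁ - y * s₂) / (r₁ - r₂)) ^ 2 - r₁ - r₂) - r₁) - y * s₁ =
      y * (-((s₁ - s₂) / (r₁ - r₂)) *
        (((x ^ 3 + 1) * ((s₁ - s₂) / (r₁ - r₂)) ^ 2 - r₁ - r₂) - r₁) - s₁) := by
    rw [ex, eL]; ring
  have h₃' : EC.Nonsingular ((x ^ 3 + 1) * ((s₁ - s₂) / (r₁ - r₂)) ^ 2 - r₁ - r₂)
      (y * (-((s₁ - s₂) / (r₁ - r₂)) *
        (((x ^ 3 + 1) * ((s₁ - s₂) / (r₁ - r₂)) ^ 2 - r₁ - r₂) - r₁) - s₁)) := by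
    rw [← ey, ← ex]; exact h₃
  refine ⟨_, _, h₃', hR₃, hS₃, ?_⟩
  rw [AddMonoidHom.add_apply, e₁, e₂, e₃, Affine.Point.some.injEq]
  exact ⟨ex, ey⟩

end ModE1

/-! ## E2. The invariant differential is additive  (written by helper295) -/

section ModE2

open scoped Classical
open WeierstrassCurve Polynomial

variable {k : Type} [Field k] [CharZero k]

/-- `D S = (3 α R² - w' S) / (2 w)`, from `w S² = R³ + 1` and `D R = α S` -/
theorem ratDeriv_S_of_curve {w R S A : RatFunc k} (hw : w ≠ 0) (hS : S ≠ 0)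
    (hc : w * S ^ 2 = R ^ 3 + 1) (hA : ratDeriv R = A * S) :
    ratDeriv S = (3 * A * R ^ 2 - ratDeriv w * S) / (2 * w) := by
  have h := congrArg ratDeriv hc
  rw [ratDeriv_mul, ratDeriv_pow, ratDeriv_add, ratDeriv_pow, ratDeriv_one, hA] at h
  have h2 : (2 : RatFunc k) ≠ 0 := two_ne_zero
  rw [eq_div_iff (mul_ne_zero h2 hw)]
  apply mul_right_cancel₀ hS
  push_cast at h
  simp only [pow_one] at h
  linear_combination h

/-- With `ρ = R₁ - R₂`, `σ = S₁ - S₂`, `e_i = w S_i² - R_i³ - 1`:  `D R₃ - (A₁ + A₂) S₃ = (σ / ρ³) (e₁ - e₂) (A₂ - A₁)`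
(the terms with `w'` cancel). -/
theorem chord_identity {w R₁ S₁ R₂ S₂ A₁ A₂ : RatFunc k} (hw : w ≠ 0) (hS₁ : S₁ ≠ 0) (hS₂ : S₂ ≠ 0)
    (hne : R₁ ≠ R₂) (hc₁ : w * S₁ ^ 2 = R₁ ^ 3 + 1) (hc₂ : w * S₂ ^ 2 = R₂ ^ 3 + 1)
    (hA₁ : ratDeriv R₁ = A₁ * S₁) (hA₂ : ratDeriv R₂ = A₂ * S₂) :
    ratDeriv (w * ((S₁ - S₂) / (R₁ - R₂)) ^ 2 - R₁ - R₂) =
      (A₁ + A₂) *
        (-((S₁ - S₂) / (R₁ - R₂)) * ((w * ((S₁ - S₂) / (R₁ - R₂)) ^ 2 - R₁ - R₂) - R₁) - S₁) := by
  have hρ : R₁ - R₂ ≠ 0 := sub_ne_zero.mpr hne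
  have h2 : (2 : RatFunc k) ≠ 0 := two_ne_zero
  rw [ratDeriv_sub, ratDeriv_sub, ratDeriv_mul, ratDeriv_pow, ratDeriv_div, ratDeriv_sub,
    ratDeriv_sub, hA₁, hA₂, ratDeriv_S_of_curve hw hS₁ hc₁ hA₁, ratDeriv_S_of_curve hw hS₂ hc₂ hA₂]
  generalize ratDeriv w = dw
  generalize hρd : R₁ - R₂ = ρ at hρ ⊢
  push_cast
  simp only [pow_one]
  field_simp
  subst hρd
  linear_combination (S₁ - S₂) * (A₂ - A₁) * (hc₁ - hc₂)

end ModE2

/-! ## F. The composition of two endomorphisms  (written by helper10) -/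

section ModF

open scoped Classical
open WeierstrassCurve Polynomial

variable {f g : EndE} {R S R₁ S₁ R₂ S₂ : RatFunc Cm3Bar}

theorem Rep.comp (hf : Rep f R₁ S₁) (hg : Rep g R₂ S₂) :
    Rep (f.comp g) (ratComp R₁ R₂) (S₂ * ratComp S₁ R₂) := by
  have hnc : NonConst R₂ := hg.nonConst
  obtain ⟨B₁, hB₁, H₁⟩ := hf
  obtain ⟨B₂, hB₂, H₂⟩ := hg
  refine ⟨B₂ ∪ {x : Cm3Bar | ∃ c ∈ B₁, EvalsTo R₂ x c},
    hB₂.union (finite_evalsTo_mem_of_nonConst hnc hB₁), fun x y h hx => ?_⟩
  have hx₂ : x ∉ B₂ := fun hx' => hx (Or.inl hx')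
  obtain ⟨r, s, h', hr, hs, eg⟩ := H₂ x y h hx₂
  have hr₁ : r ∉ B₁ := fun hr' => hx (Or.inr ⟨r, hr', hr⟩)
  obtain ⟨r', s', h'', hr', hs', ef⟩ := H₁ r (y * s) h' hr₁
  refine ⟨r', s * s', by rw [← mul_assoc]; exact h'', EvalsTo.comp hnc hr hr',
    hs.mul (EvalsTo.comp hnc hr hs'), ?_⟩
  rw [AddMonoidHom.comp_apply, eg, ef, Affine.Point.some.injEq]
  exact ⟨rfl, mul_assoc _ _ _⟩

/-- `f ∘ [2] = [2] ∘ f` -/
theorem Rep.comm_two (h : Rep f R S) :
    ratComp R dblR = ratComp dblR R ∧ dblS * ratComp S dblR = S * ratComp dblS R := by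
  have e : f.comp (2 • AddMonoidHom.id (PtsBar cubeCurve)) =
      (2 • AddMonoidHom.id (PtsBar cubeCurve)).comp f := by
    ext P
    simp only [AddMonoidHom.comp_apply, AddMonoidHom.nsmul_apply, AddMonoidHom.id_apply, map_nsmul]
  have h₁ := h.comp rep_two
  have h₂ := rep_two.comp h
  rw [e] at h₁
  exact h₁.unique h₂

end ModF

/-! ## G3. Successive halves of the point `(-1, 0)`  (written by helper239) -/

section ModG3

open scoped Classical
open WeierstrassCurve Polynomial

/-- `P₀ = (-1, 0)`, `2 P_{n+1} = P_n`. -/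
private noncomputable def halfSeq : ℕ → PtsBar cubeCurve
  | 0 => .some (-1) 0 cubeCurve_nonsingular_neg_one
  | n + 1 => Classical.choose (cubeCurve_exists_half (halfSeq n))

private theorem halfSeq_succ (n : ℕ) : halfSeq (n + 1) + halfSeq (n + 1) = halfSeq n :=
  Classical.choose_spec (cubeCurve_exists_half (halfSeq n))

private theorem halfSeq_zero_ne : halfSeq 0 ≠ 0 := by
  intro h
  exact Affine.Point.some_ne_zero _ h

private theorem halfSeq_zero_add : halfSeq 0 + halfSeq 0 = 0 :=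
  add_self_eq_zero_of_y_eq_zero cubeCurve_nonsingular_neg_one

private theorem halfSeq_pow (n : ℕ) : (2 ^ n) • halfSeq n = halfSeq 0 := by
  induction n with
  | zero => simp
  | succ n ih =>
    rw [pow_succ, mul_smul, two_smul, halfSeq_succ, ih]

private theorem halfSeq_ne (n : ℕ) : halfSeq n ≠ 0 := by
  intro h
  have := halfSeq_pow n
  rw [h, nsmul_zero] at this
  exact halfSeq_zero_ne this.symm

private theorem halfSeq_pow_succ (n : ℕ) : (2 ^ (n + 1)) • halfSeq n = 0 := by
  rw [pow_succ', mul_smul, halfSeq_pow, two_smul, halfSeq_zero_add]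

private theorem halfSeq_some (n : ℕ) : ∃ x y h, halfSeq n = .some x y h := by
  rcases hP : halfSeq n with _ | ⟨x, y, h⟩
  · exact absurd hP (halfSeq_ne n)
  · exact ⟨x, y, h, rfl⟩

/-- `P₀ = (-1, 0)`, `2 P_{n+1} = P_n` (`cubeCurve_exists_half`), `x n = x(P_n)`.  `P_n` has exact order `2^(n+1)`, so that `P_n ≠ ± P_m` for `n ≠ m`. -/
theorem exists_halving_seq : ∃ x : ℕ → Cm3Bar, Function.Injective x ∧ x 0 = -1 ∧
    ∀ n, EvalsTo dblR (x (n + 1)) (x n) := by
  choose x y h hP using halfSeq_some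
  have key : ∀ n m, n < m → x n ≠ x m := by
    intro n m hnm hx
    have h' : EC.Nonsingular (x n) (y m) := by rw [hx]; exact h m
    have hPm : halfSeq m = .some (x n) (y m) h' := by
      rw [hP m]
      congr 1; simp [hx]
    have h0 : (2 ^ (n + 1)) • halfSeq m = 0 := by
      rcases some_eq_or_eq_neg (h n) h' with e | e
      · rw [hPm, ← e, ← hP n, halfSeq_pow_succ]
      · have : halfSeq m = - halfSeq n := by rw [hPm, hP n, e, neg_neg]
        rw [this, neg_nsmul, halfSeq_pow_succ, neg_zero]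
    obtain ⟨k, rfl⟩ := Nat.exists_eq_add_of_le (Nat.succ_le_of_lt hnm)
    have := halfSeq_pow (n.succ + k)
    rw [pow_add, mul_comm, mul_smul, h0, nsmul_zero] at this
    exact halfSeq_zero_ne this.symm
  refine ⟨x, ?_, ?_, ?_⟩
  · intro n m hx
    by_contra hne
    rcases lt_or_gt_of_ne hne with hlt | hlt
    · exact key n m hlt hx
    · exact key m n hlt hx.symm
  · have h0 := hP 0
    have : halfSeq 0 = .some (-1) 0 cubeCurve_nonsingular_neg_one := rfl
    rw [this] at h0
    injection h0 with e1 e2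
    exact e1.symm
  · intro n
    have hy : y (n + 1) ≠ 0 := by
      intro hy0
      have h' : EC.Nonsingular (x (n + 1)) 0 := by rw [← hy0]; exact h (n + 1)
      have e : halfSeq (n + 1) = .some (x (n + 1)) 0 h' := by
        rw [hP (n + 1)]
        congr 1
      have := halfSeq_succ n
      rw [e, add_self_eq_zero_of_y_eq_zero h'] at this
      exact halfSeq_ne n this.symm
    obtain ⟨h', e⟩ := two_some (h (n + 1)) hy
    have e2 := halfSeq_succ n
    rw [hP (n + 1), e, hP n] at e2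
    injection e2 with e3 e4
    have hw : x (n + 1) ^ 3 + 1 ≠ 0 := by
      rw [← nonsingular_iff.1 (h (n + 1))]
      exact pow_ne_zero 2 hy
    rw [← e3]
    exact evalsTo_dblR hw

end ModG3

/-! ## G2. A rational function invariant under `x ↦ x(2P)` is constant  (written by helper25) -/

section ModG2

open scoped Classical
open WeierstrassCurve Polynomial

/-- an invariant function that has the value `c` at `-1` has the value `c` along the whole halving sequence, so it is the constant `c` -/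
private theorem const_of_comp_dblR_of_evalsTo {ψ : RatFunc Cm3Bar} (h : ratComp ψ dblR = ψ)
    {c : Cm3Bar} (hc : EvalsTo ψ (-1) c) : ψ = RatFunc.C c := by
  obtain ⟨x, hinj, hx0, hstep⟩ := exists_halving_seq
  have hall : ∀ n, EvalsTo ψ (x n) c := by
    intro n
    induction n with
    | zero => rw [hx0]; exact hc
    | succ n ih =>
      have h1 : EvalsTo (ratComp ψ dblR) (x (n + 1)) c := EvalsTo.comp nonConst_dblR (hstep n) ih
      rwa [h] at h1
  apply eq_of_infinite
  have hsub : Set.range x ⊆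
      {y : Cm3Bar | ∃ c', EvalsTo ψ y c' ∧ EvalsTo (RatFunc.C c) y c'} := by
    rintro _ ⟨n, rfl⟩
    exact ⟨c, hall n, evalsTo_C c (x n)⟩
  exact (Set.infinite_range_of_injective hinj).mono hsub

/-- By `evalsTo_or_inv φ (-1)`: if `φ(-1) = c` then `φ(x n) = c` for all `n` (`EvalsTo.comp`), so `φ = c`; else `1/φ`, which is invariant too,
vanishes at all `x n`, so `1/φ = 0`. -/
theorem const_of_comp_dblR {φ : RatFunc Cm3Bar} (h : ratComp φ dblR = φ) :
    ∃ α : Cm3Bar, φ = RatFunc.C α := by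
  rcases evalsTo_or_inv φ (-1) with ⟨c, hc⟩ | h0
  · exact ⟨c, const_of_comp_dblR_of_evalsTo h hc⟩
  · have hinv : ratComp φ⁻¹ dblR = φ⁻¹ := by rw [ratComp_inv nonConst_dblR, h]
    have h1 : φ⁻¹ = RatFunc.C 0 := const_of_comp_dblR_of_evalsTo hinv h0
    refine ⟨0, ?_⟩
    rw [map_zero] at h1 ⊢
    exact inv_eq_zero.mp h1

end ModG2

/-! ## G1. An endomorphism multiplies the invariant differential by a constant  (written by helper125) -/

section ModG1

open scoped Classical
open WeierstrassCurve Polynomial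

/-- `φ = R' / S` satisfies `φ ∘ dblR = φ`: differentiate the first equation of `Rep.comm_two` (chain rule, `ratDeriv_dblR`) and divide by the second. -/
theorem Rep.exists_const {f : EndE} {R S : RatFunc Cm3Bar} (h : Rep f R S) :
    ∃ α : Cm3Bar, ratDeriv R = RatFunc.C α * S := by
  obtain ⟨h1, h2⟩ := h.comm_two
  have hR : NonConst R := h.nonConst
  have hS : S ≠ 0 := h.S_ne_zero
  have hD : NonConst dblR := nonConst_dblR
  have hdS : dblS ≠ 0 := dblS_ne_zero
  have hdSR : ratComp dblS R ≠ 0 := fun h0 => hdS ((ratComp_eq_zero_iff hR).1 h0)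
  have hSD : ratComp S dblR ≠ 0 := fun h0 => hS ((ratComp_eq_zero_iff hD).1 h0)
  have h2' : (RatFunc.C (2 : Cm3Bar)) ≠ 0 := by
    rw [Ne, map_eq_zero]
    exact two_ne_zero
  -- differentiate `R ∘ dblR = dblR ∘ R`
  have h3 : ratComp (ratDeriv R) dblR * (RatFunc.C 2 * dblS) =
      RatFunc.C 2 * ratComp dblS R * ratDeriv R := by
    have e := congrArg ratDeriv h1
    rw [ratDeriv_ratComp hD, ratDeriv_ratComp hR, ratDeriv_dblR, ratComp_mul hR, ratComp_C] at e
    exact e
  have h4 : ratComp (ratDeriv R) dblR * dblS = ratComp dblS R * ratDeriv R := by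
    apply mul_left_cancel₀ h2'
    linear_combination h3
  -- `φ = R' / S` is invariant
  have h5 : ratComp (ratDeriv R / S) dblR = ratDeriv R / S := by
    rw [ratComp_div hD, div_eq_div_iff hSD hS]
    apply mul_left_cancel₀ hdS
    apply mul_left_cancel₀ hdSR
    linear_combination (ratComp dblS R * S) * h4 - (ratComp dblS R * ratDeriv R) * h2
  obtain ⟨α, hα⟩ := const_of_comp_dblR h5
  exact ⟨α, by rw [← hα, div_mul_cancel₀ _ hS]⟩

end ModG1

/-! ## H. The Galois action  (written by helper75) -/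

section ModH

open scoped Classical
open WeierstrassCurve Polynomial

section Generic
variable {k : Type} [Field k] (σ : k →+* k)

theorem ratMapAux_le :
    nonZeroDivisors k[X] ≤ (nonZeroDivisors k[X]).comap (Polynomial.mapRingHom σ) := by
  intro p hp
  rw [Submonoid.mem_comap, mem_nonZeroDivisors_iff_ne_zero, Polynomial.coe_mapRingHom]
  exact Polynomial.map_ne_zero (mem_nonZeroDivisors_iff_ne_zero.1 hp)

/-- `ratMap σ` as a ring homomorphism -/
noncomputable def ratMapHom : RatFunc k →+* RatFunc k :=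
  RatFunc.mapRingHom (Polynomial.mapRingHom σ) (ratMapAux_le σ)

theorem ratMap_eq_hom (F : RatFunc k) : ratMap σ F = ratMapHom σ F := by
  unfold ratMap ratMapHom
  rw [RatFunc.coe_mapRingHom_eq_coe_map, RatFunc.map_apply]
  rfl

theorem ratMapHom_algebraMap (p : k[X]) :
    ratMapHom σ (algebraMap k[X] (RatFunc k) p) = algebraMap k[X] (RatFunc k) (p.map σ) := by
  have h := RatFunc.map_apply_div (Polynomial.mapRingHom σ) (ratMapAux_le σ) p 1
  simp only [map_one, div_one, Polynomial.coe_mapRingHom] at h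
  exact h

set_option linter.unusedVariables false in
theorem ratMap_div_algebraMap (N M : k[X]) (hM : M ≠ 0) :
    ratMap σ (algebraMap k[X] (RatFunc k) N / algebraMap k[X] (RatFunc k) M) =
      algebraMap k[X] (RatFunc k) (N.map σ) / algebraMap k[X] (RatFunc k) (M.map σ) := by
  rw [ratMap_eq_hom, map_div₀, ratMapHom_algebraMap, ratMapHom_algebraMap]
theorem ratMap_mul (F G : RatFunc k) : ratMap σ (F * G) = ratMap σ F * ratMap σ G := by
  simp only [ratMap_eq_hom, map_mul]
theorem ratMap_C (a : k) : ratMap σ (RatFunc.C a) = RatFunc.C (σ a) := by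
  rw [ratMap_eq_hom, ← RatFunc.algebraMap_C, ratMapHom_algebraMap, Polynomial.map_C,
    RatFunc.algebraMap_C]
theorem EvalsTo.ratMap {F : RatFunc k} {x c : k} (h : EvalsTo F x c) :
    EvalsTo (ratMap σ F) (σ x) (σ c) := by
  obtain ⟨N, M, hM, hF, hN⟩ := h
  refine ⟨N.map σ, M.map σ, ?_, ?_, ?_⟩
  · rw [Polynomial.eval_map, Polynomial.eval₂_at_apply]
    exact (map_ne_zero σ).2 hM
  · rw [ratMap_eq_hom, ← ratMapHom_algebraMap, ← map_mul, hF, ratMapHom_algebraMap]
  · rw [Polynomial.eval_map, Polynomial.eval₂_at_apply, Polynomial.eval_map,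
      Polynomial.eval₂_at_apply, hN, map_mul]
theorem ratDeriv_ratMap (F : RatFunc k) : ratDeriv (ratMap σ F) = ratMap σ (ratDeriv F) := by
  have hd : F.denom.map σ ≠ 0 := Polynomial.map_ne_zero F.denom_ne_zero
  conv_lhs => rw [CubeEnd.ratMap, ratDeriv_div_algebraMap _ _ hd]
  rw [ratMap_eq_hom, ratDeriv]
  simp only [map_div₀, map_sub, map_mul, map_pow, ratMapHom_algebraMap, Polynomial.derivative_map]
end Generic

/-- `f (σ x, σ y) = σ (f (x, y))` -/
theorem Rep.ratMap_of_comm {f : EndE} {R S : RatFunc Cm3Bar} (h : Rep f R S)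
    (σ : Gal(Cm3Bar/Cm3Field))
    (hσ : ∀ P, f (galPts cubeCurve σ P) = galPts cubeCurve σ (f P)) :
    Rep f (ratMap (σ : Cm3Bar →+* Cm3Bar) R) (ratMap (σ : Cm3Bar →+* Cm3Bar) S) := by
  obtain ⟨B, hB, hrep⟩ := h
  refine ⟨σ '' B, hB.image _, ?_⟩
  intro x y hxy hx
  obtain ⟨x0, rfl⟩ := σ.surjective x
  obtain ⟨y0, rfl⟩ := σ.surjective y
  have h0 : EC.Nonsingular x0 y0 := by
    rw [nonsingular_iff] at hxy ⊢
    apply σ.injective
    rw [map_pow, hxy, map_add, map_pow, map_one]
  have hx0 : x0 ∉ B := fun hmem => hx ⟨x0, hmem, rfl⟩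
  obtain ⟨r, s, h', hR, hS, hf⟩ := hrep x0 y0 h0 hx0
  have e1 : (Affine.Point.some (σ x0) (σ y0) hxy : PtsBar cubeCurve) =
      galPts cubeCurve σ (Affine.Point.some x0 y0 h0) := rfl
  have h'' : EC.Nonsingular (σ r) (σ y0 * σ s) := by
    rw [nonsingular_iff] at h' ⊢
    rw [← map_mul, ← map_pow, h', map_add, map_pow, map_one]
  refine ⟨σ r, σ s, h'', hR.ratMap (σ : Cm3Bar →+* Cm3Bar), hS.ratMap (σ : Cm3Bar →+* Cm3Bar), ?_⟩
  rw [e1, hσ, hf]
  have e2 : galPts cubeCurve σ (Affine.Point.some r (y0 * s) h') =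
      (Affine.Point.some (σ r) (σ (y0 * s)) (by rw [map_mul]; exact h'') : PtsBar cubeCurve) := rfl
  rw [e2]
  congr 1
  exact map_mul σ y0 s

/-- An endomorphism defined over `K` acts on the invariant differential by an element of `K`
(`Rep.unique`, `InfiniteGalois.mem_range_algebraMap_iff_fixed`). -/
theorem HasA.mem_range_of_comm {f : EndE} {α : Cm3Bar} (h : HasA f α)
    (hf : ∀ (σ : Gal(Cm3Bar/Cm3Field)) (P : PtsBar cubeCurve),
      f (galPts cubeCurve σ P) = galPts cubeCurve σ (f P)) :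
    α ∈ (algebraMap Cm3Field Cm3Bar).range := by
  rcases h with ⟨-, rfl⟩ | ⟨R, S, hrep, hder⟩
  · exact ⟨0, map_zero _⟩
  · have hfix : ∀ σ : Gal(Cm3Bar/Cm3Field), σ α = α := by
      intro σ
      obtain ⟨hR, hS⟩ := (hrep.ratMap_of_comm σ (hf σ)).unique hrep
      have h1 := congrArg (ratMap (σ : Cm3Bar →+* Cm3Bar)) hder
      rw [← ratDeriv_ratMap, ratMap_mul, ratMap_C, hR, hS, hder] at h1
      have h2 := mul_right_cancel₀ hrep.S_ne_zero h1
      exact (RatFunc.C_injective h2).symm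
    have := (InfiniteGalois.mem_range_algebraMap_iff_fixed (k := Cm3Field) (K := Cm3Bar) α).mpr hfix
    simpa using this

end ModH

/-! ## K. `f ↦ α` is an injective ring homomorphism  (written by helper95) -/

section ModK

open scoped Classical
open WeierstrassCurve Polynomial

variable {f g : EndE} {α β : Cm3Bar}

theorem hasA_zero : HasA 0 0 := Or.inl ⟨rfl, rfl⟩

private theorem HasA.congr {f' : EndE} {α' : Cm3Bar} (h : HasA f α) (hf : f = f') (hα : α = α') :
    HasA f' α' := by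
  subst hf hα
  exact h

theorem exists_hasA (hf : IsAlgebraicEndomorphism cubeCurve f) : ∃ α, HasA f α := by
  rcases rep_of_isAlgebraic hf with rfl | ⟨R, S, h⟩
  · exact ⟨0, hasA_zero⟩
  · obtain ⟨α, hα⟩ := h.exists_const
    exact ⟨α, Or.inr ⟨R, S, h, hα⟩⟩

theorem HasA.unique (h : HasA f α) (h' : HasA f β) : α = β := by
  rcases h with ⟨h0, rfl⟩ | ⟨R, S, hR, hα⟩
  · rcases h' with ⟨-, rfl⟩ | ⟨R', S', hR', -⟩
    · rfl
    · exact absurd h0 hR'.ne_zero
  · rcases h' with ⟨h0, rfl⟩ | ⟨R', S', hR', hβ⟩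
    · exact absurd h0 hR.ne_zero
    · obtain ⟨rfl, rfl⟩ := hR.unique hR'
      rw [hα] at hβ
      exact RatFunc.C_injective (mul_right_cancel₀ hR.S_ne_zero hβ)

theorem HasA.neg (h : HasA f α) : HasA (-f) (-α) := by
  rcases h with ⟨rfl, rfl⟩ | ⟨R, S, hR, hα⟩
  · exact hasA_zero.congr (neg_zero (G := EndE)).symm neg_zero.symm
  · refine Or.inr ⟨R, -S, hR.neg, ?_⟩
    rw [hα, map_neg]
    ring

theorem HasA.comp (hf : HasA f α) (hg : HasA g β) : HasA (f.comp g) (α * β) := by
  rcases hf with ⟨rfl, rfl⟩ | ⟨R₁, S₁, hR₁, hα⟩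
  · simpa using hasA_zero
  rcases hg with ⟨rfl, rfl⟩ | ⟨R₂, S₂, hR₂, hβ⟩
  · simpa using hasA_zero
  refine Or.inr ⟨_, _, hR₁.comp hR₂, ?_⟩
  rw [ratDeriv_ratComp hR₂.nonConst, hα, hβ, ratComp_mul hR₂.nonConst, ratComp_C, map_mul]
  ring

private theorem two_comp (f : EndE) : (2 • AddMonoidHom.id (PtsBar cubeCurve)).comp f = f + f := by
  ext P
  simp [two_nsmul]

/-- `R₁ ≠ R₂`: `Rep.add_of_ne`, `chord_identity`.  `R₁ = R₂`: `S₂ = ± S₁` by `Rep.curve`, so `g = ± f` by `Rep.ext`; `f + f = [2] ∘ f`. -/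
theorem HasA.add (hf : HasA f α) (hg : HasA g β) : HasA (f + g) (α + β) := by
  have hf0 := hf
  have hg0 := hg
  rcases hf with ⟨rfl, rfl⟩ | ⟨R₁, S₁, hR₁, hα⟩
  · exact hg.congr (zero_add g).symm (zero_add β).symm
  rcases hg with ⟨rfl, rfl⟩ | ⟨R₂, S₂, hR₂, hβ⟩
  · exact hf0.congr (add_zero f).symm (add_zero α).symm
  by_cases hne : R₁ = R₂
  · subst hne
    have hsq : S₁ ^ 2 = S₂ ^ 2 := by
      have h1 := hR₁.curve
      have h2 := hR₂.curve
      exact mul_left_cancel₀ wF_ne_zero (h1.trans h2.symm)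
    rcases sq_eq_sq_iff_eq_or_eq_neg.mp hsq with rfl | hS
    · obtain rfl : f = g := hR₁.ext hR₂
      obtain rfl : α = β := hf0.unique hg0
      have := HasA.comp hasA_two hf0
      rw [two_comp] at this
      rwa [← two_mul]
    · have hng : Rep (-g) R₁ S₁ := by
        rw [hS]
        exact hR₂.neg
      obtain rfl : f = -g := hR₁.ext hng
      obtain rfl : α = -β := hf0.unique hg0.neg
      exact hasA_zero.congr (neg_add_cancel g).symm (neg_add_cancel β).symm
  · refine Or.inr ⟨_, _, hR₁.add_of_ne hR₂ hne, ?_⟩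
    rw [map_add]
    exact chord_identity wF_ne_zero hR₁.S_ne_zero hR₂.S_ne_zero hne hR₁.curve hR₂.curve hα hβ

theorem HasA.sub (hf : HasA f α) (hg : HasA g β) : HasA (f - g) (α - β) := by
  exact (hf.add hg.neg).congr (sub_eq_add_neg f g).symm (sub_eq_add_neg α β).symm

theorem HasA.zsmul (hf : HasA f α) (n : ℤ) : HasA (n • f) (n * α) := by
  induction n using Int.induction_on with
  | zero => exact hasA_zero.congr (zero_zsmul f).symm (by simp)
  | succ n ih =>
    refine (ih.add hf).congr ?_ (by push_cast; ring)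
    exact ((add_zsmul f (n : ℤ) 1).trans (congrArg _ (one_zsmul f))).symm
  | pred n ih =>
    refine (ih.sub hf).congr ?_ (by push_cast; ring)
    exact ((sub_zsmul f (-(n : ℤ)) 1).trans (congrArg (fun t => -(n : ℤ) • f - t) (one_zsmul f))).symm

/-- `R' = 0` is impossible for a non-constant `R` -/
theorem HasA.eq_zero (h : HasA f 0) : f = 0 := by
  rcases h with ⟨h0, -⟩ | ⟨R, S, hR, hα⟩
  · exact h0
  · exfalso
    apply ratDeriv_ne_zero_of_nonConst hR.nonConst
    rw [hα, map_zero, zero_mul]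

theorem HasA.ext (hf : HasA f α) (hg : HasA g α) : f = g := by
  have := hf.sub hg
  rw [sub_self] at this
  exact sub_eq_zero.mp this.eq_zero

theorem hasA_zsmul_id (n : ℤ) : HasA (n • AddMonoidHom.id _) n := by
  have := hasA_id.zsmul n
  rwa [mul_one] at this

end ModK

/-! ## I1. A rational function that is injective outside a finite set has degree one  (written by helper165) -/

section ModI1

open scoped Classical
open WeierstrassCurve Polynomial

/-- the Wronskian `N' M - N M'` of a non-constant rational function `N / M` is not zero -/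
private theorem wronskian_ne_zero {k : Type} [Field k] [CharZero k] {R : RatFunc k}
    (hR : NonConst R) : derivative R.num * R.denom - R.num * derivative R.denom ≠ 0 := by
  intro h0
  apply ratDeriv_ne_zero_of_nonConst hR
  unfold ratDeriv
  rw [← map_mul, ← map_mul, ← map_sub, h0, map_zero, zero_div]

/-- the value of `R` at a point where the denominator does not vanish -/
private theorem evalsTo_num_denom {k : Type} [Field k] (R : RatFunc k) (x : k)
    (hx : R.denom.eval x ≠ 0) : EvalsTo R x (R.num.eval x / R.denom.eval x) := by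
  have h := evalsTo_div_algebraMap R.num R.denom x hx
  rwa [RatFunc.num_div_denom] at h

/-- numerator and denominator have no common zero -/
private theorem denom_eval_ne_zero {k : Type} [Field k] (R : RatFunc k) (x : k)
    (hx : R.num.eval x = 0) : R.denom.eval x ≠ 0 := by
  intro h
  obtain ⟨a, b, hab⟩ := RatFunc.isCoprime_num_denom R
  have := congrArg (Polynomial.eval x) hab
  simp [hx, h] at this

/-- the heart of the matter: both degrees are at most one -/
private theorem natDegree_le_one_of_injOn {k : Type} [Field k] [IsAlgClosed k] [CharZero k]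
    {R : RatFunc k} (hR : NonConst R) {B : Set k} (hB : B.Finite)
    (hinj : ∀ x₁ x₂ c, x₁ ∉ B → x₂ ∉ B → EvalsTo R x₁ c → EvalsTo R x₂ c → x₁ = x₂) :
    max R.num.natDegree R.denom.natDegree ≤ 1 := by
  by_contra hn
  rw [not_le] at hn
  set N := R.num with hN
  set M := R.denom with hM
  set n := max N.natDegree M.natDegree with hn'
  set W := derivative N * M - N * derivative M with hW
  have hW0 : W ≠ 0 := wronskian_ne_zero hR
  have hM0 : M ≠ 0 := RatFunc.denom_ne_zero R
  -- the bad values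
  set Cbad : Set k := {c | ∃ x ∈ B, EvalsTo R x c} ∪ {N.coeff n / M.coeff n} with hCbad
  have hCfin : Cbad.Finite := by
    refine Set.Finite.union ?_ (Set.finite_singleton _)
    have : {c | ∃ x ∈ B, EvalsTo R x c} = ⋃ x ∈ B, {c | EvalsTo R x c} := by
      ext c; simp
    rw [this]
    refine hB.biUnion (fun x _ => Set.Subsingleton.finite ?_)
    intro c hc c' hc'
    exact EvalsTo.unique hc hc'
  -- the bad points
  have hbad : (B ∪ {x | IsRoot M x} ∪ {x | IsRoot W x} ∪ {x | ∃ c ∈ Cbad, EvalsTo R x c}).Finite :=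
    ((hB.union (Polynomial.finite_setOfPred_isRoot hM0)).union
      (Polynomial.finite_setOfPred_isRoot hW0)).union (finite_evalsTo_mem_of_nonConst hR hCfin)
  obtain ⟨x₀, hx₀⟩ := hbad.infinite_compl.nonempty
  simp only [Set.mem_compl_iff, Set.mem_union, Set.mem_ofPred_eq, not_or] at hx₀
  obtain ⟨⟨⟨hxB, hxM⟩, hxW⟩, hxC⟩ := hx₀
  have hMx : M.eval x₀ ≠ 0 := hxM
  have hWx : W.eval x₀ ≠ 0 := hxW
  set c := N.eval x₀ / M.eval x₀ with hc
  have hev₀ : EvalsTo R x₀ c := evalsTo_num_denom R x₀ hMx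
  have hcbad : c ∉ Cbad := fun h => hxC ⟨c, h, hev₀⟩
  have hc1 : ∀ x ∈ B, ¬ EvalsTo R x c := fun x hx h => hcbad (Or.inl ⟨x, hx, h⟩)
  have hc2 : c ≠ N.coeff n / M.coeff n := fun h => hcbad (Or.inr h)
  -- the polynomial `P = N - c M`
  set P := N - C c * M with hP
  have hPn : P.coeff n ≠ 0 := by
    rw [hP, coeff_sub, coeff_C_mul]
    by_cases hMn : M.coeff n = 0
    · rw [hMn, mul_zero, sub_zero]
      intro hNn
      -- both coefficients vanish at `n = max`: impossible
      rcases le_total N.natDegree M.natDegree with h | h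
      · have : n = M.natDegree := max_eq_right h
        rw [this] at hMn
        exact hM0 (leadingCoeff_eq_zero.1 hMn)
      · have e : n = N.natDegree := max_eq_left h
        rw [e] at hNn
        have hN0 : N = 0 := leadingCoeff_eq_zero.1 hNn
        rw [e, hN0] at hn
        simp at hn
    · intro h
      apply hc2
      rw [eq_div_iff hMn]
      exact (sub_eq_zero.1 h).symm
  have hPdeg : 2 ≤ P.natDegree := le_trans hn (le_natDegree_of_ne_zero hPn)
  have hPx : P.IsRoot x₀ := by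
    rw [IsRoot.def, hP, eval_sub, eval_mul, eval_C, hc, div_mul_cancel₀ _ hMx, sub_self]
  have hP'x : (derivative P).eval x₀ ≠ 0 := by
    intro h
    apply hWx
    rw [hP, derivative_sub, derivative_C_mul, eval_sub, eval_mul, eval_C, sub_eq_zero] at h
    rw [hW, eval_sub, eval_mul, eval_mul, h, hc]
    field_simp
    ring
  obtain ⟨Q, hQ⟩ := dvd_iff_isRoot.2 hPx
  have hQx : Q.eval x₀ ≠ 0 := by
    intro h
    apply hP'x
    rw [hQ, derivative_mul, eval_add, eval_mul, eval_mul, h]
    simp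
  have hQ0 : Q ≠ 0 := fun h => hQx (by rw [h, eval_zero])
  have hQdeg : 1 ≤ Q.natDegree := by
    have : P.natDegree = 1 + Q.natDegree := by
      rw [hQ, natDegree_mul (X_sub_C_ne_zero x₀) hQ0, natDegree_X_sub_C]
    omega
  obtain ⟨x₁, hx₁⟩ := IsAlgClosed.exists_root Q (by
    intro h
    rw [degree_eq_natDegree hQ0] at h
    have : Q.natDegree = 0 := by exact_mod_cast h
    omega)
  have hne : x₀ ≠ x₁ := fun h => hQx (by rw [h]; exact hx₁)
  have hPx₁ : N.eval x₁ = c * M.eval x₁ := by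
    have : P.eval x₁ = 0 := by rw [hQ, eval_mul, hx₁, mul_zero]
    rw [hP, eval_sub, eval_mul, eval_C, sub_eq_zero] at this
    exact this
  have hMx₁ : M.eval x₁ ≠ 0 := by
    intro h
    exact denom_eval_ne_zero R x₁ (by rw [← hN, hPx₁, h, mul_zero]) h
  have hev₁ : EvalsTo R x₁ c := by
    have := evalsTo_num_denom R x₁ hMx₁
    rwa [← hN, ← hM, hPx₁, mul_div_cancel_right₀ _ hMx₁] at this
  have hx₁B : x₁ ∉ B := fun h => hc1 x₁ h hev₁
  exact hne (hinj x₀ x₁ c hxB hx₁B hev₀ hev₁)

/-- `R = N / M` in lowest terms, `n = max (deg N) (deg M)`.  If `n ≥ 2`, take `x₀` outside `B`, the zeros of `M`, `N` and of `N' M - N M' ≠ 0`, such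
that `c = R(x₀)` is not the quotient of the leading coefficients and not a value of `R` on `B`.  Then `N - c M` has degree `n ≥ 2` and the simple root
`x₀`, hence a root `x₁ ≠ x₀`; `M(x₁) ≠ 0` by coprimality, `x₁ ∉ B`, `R(x₁) = c`: contradiction. -/
theorem mobius_of_injOn {k : Type} [Field k] [IsAlgClosed k] [CharZero k] {R : RatFunc k}
    (hR : NonConst R) {B : Set k} (hB : B.Finite)
    (hinj : ∀ x₁ x₂ c, x₁ ∉ B → x₂ ∉ B → EvalsTo R x₁ c → EvalsTo R x₂ c → x₁ = x₂) :
    ∃ a b c d : k, a * d - b * c ≠ 0 ∧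
      R = (RatFunc.C a * RatFunc.X + RatFunc.C b) / (RatFunc.C c * RatFunc.X + RatFunc.C d) := by
  have hdeg := natDegree_le_one_of_injOn hR hB hinj
  have hW := wronskian_ne_zero hR
  obtain ⟨a, b, hN⟩ : ∃ a b : k, R.num = C a * X + C b :=
    ⟨_, _, eq_X_add_C_of_natDegree_le_one ((le_max_left _ _).trans hdeg)⟩
  obtain ⟨c, d, hM⟩ : ∃ c d : k, R.denom = C c * X + C d :=
    ⟨_, _, eq_X_add_C_of_natDegree_le_one ((le_max_right _ _).trans hdeg)⟩
  refine ⟨a, b, c, d, ?_, ?_⟩
  · intro h0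
    apply hW
    rw [hN, hM]
    simp only [derivative_add, derivative_mul, derivative_C, derivative_X, zero_mul, mul_one,
      zero_add, add_zero]
    have : C a * (C c * X + C d) - (C a * X + C b) * C c = C (a * d - b * c) := by
      simp only [C_sub, C_mul]; ring
    rw [this, h0, C_0]
  · conv_lhs => rw [← RatFunc.num_div_denom R, hN, hM]
    simp only [map_add, map_mul, RatFunc.algebraMap_C, RatFunc.algebraMap_X]

end ModI1

/-! ## I2a. Parity of the degree at infinity  (written by helper175) -/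

section ModI2a

open scoped Classical
open WeierstrassCurve Polynomial

/-- the generic form of `mobius_parity`, over any field -/
theorem mobius_parity_aux {k : Type} [Field k] {a b c d : k} {S : RatFunc k} (hc : c ≠ 0)
    (hcurve : (RatFunc.X ^ 3 + 1) * S ^ 2 =
      ((RatFunc.C a * RatFunc.X + RatFunc.C b) / (RatFunc.C c * RatFunc.X + RatFunc.C d)) ^ 3 + 1) :
    a ^ 3 + c ^ 3 = 0 := by
  by_contra hne
  -- the polynomials
  obtain ⟨P, hP⟩ : ∃ P : k[X], P = C a * X + C b := ⟨_, rfl⟩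
  obtain ⟨Q, hQ⟩ : ∃ Q : k[X], Q = C c * X + C d := ⟨_, rfl⟩
  obtain ⟨W, hW⟩ : ∃ W : k[X], W = X ^ 3 + C 1 := ⟨_, rfl⟩
  have hQdeg : Q.natDegree = 1 := by rw [hQ]; exact natDegree_linear hc
  have hQ0 : Q ≠ 0 := fun h => by rw [h] at hQdeg; simp at hQdeg
  have hWdeg : W.natDegree = 3 := by rw [hW]; exact natDegree_X_pow_add_C
  have hW0 : W ≠ 0 := fun h => by rw [h] at hWdeg; simp at hWdeg
  have hN : P ^ 3 + Q ^ 3 =
      C (a ^ 3 + c ^ 3) * X ^ 3 + C (3 * a ^ 2 * b + 3 * c ^ 2 * d) * X ^ 2 +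
        C (3 * a * b ^ 2 + 3 * c * d ^ 2) * X + C (b ^ 3 + d ^ 3) := by
    simp only [hP, hQ, map_add, map_mul, map_pow, map_ofNat]
    ring
  have hNdeg : (P ^ 3 + Q ^ 3).natDegree = 3 := by rw [hN]; exact natDegree_cubic hne
  have hN0 : P ^ 3 + Q ^ 3 ≠ 0 := fun h => by rw [h] at hNdeg; simp at hNdeg
  -- their images in the field of rational functions
  have inj := RatFunc.algebraMap_injective k
  have eP : algebraMap k[X] (RatFunc k) P = RatFunc.C a * RatFunc.X + RatFunc.C b := by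
    simp [hP, RatFunc.algebraMap_C, RatFunc.algebraMap_X]
  have eQ : algebraMap k[X] (RatFunc k) Q = RatFunc.C c * RatFunc.X + RatFunc.C d := by
    simp [hQ, RatFunc.algebraMap_C, RatFunc.algebraMap_X]
  have eW : algebraMap k[X] (RatFunc k) W = RatFunc.X ^ 3 + 1 := by
    simp [hW, RatFunc.algebraMap_X]
  have hQ' : algebraMap k[X] (RatFunc k) Q ≠ 0 := fun h => hQ0 (inj (by rw [h, map_zero]))
  have hW' : algebraMap k[X] (RatFunc k) W ≠ 0 := fun h => hW0 (inj (by rw [h, map_zero]))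
  have hN' : algebraMap k[X] (RatFunc k) (P ^ 3 + Q ^ 3) ≠ 0 :=
    fun h => hN0 (inj (by rw [h, map_zero]))
  rw [← eP, ← eQ, ← eW] at hcurve
  -- clear the denominator
  have key : algebraMap k[X] (RatFunc k) W * S ^ 2 * algebraMap k[X] (RatFunc k) (Q ^ 3) =
      algebraMap k[X] (RatFunc k) (P ^ 3 + Q ^ 3) := by
    rw [hcurve, map_add, map_pow, map_pow]
    field_simp
  have hS : S ≠ 0 := by
    intro h
    rw [h] at key
    apply hN'
    rw [← key]
    simp
  have hQ3' : algebraMap k[X] (RatFunc k) (Q ^ 3) ≠ 0 := by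
    rw [map_pow]; exact pow_ne_zero _ hQ'
  have hdeg := congrArg RatFunc.intDegree key
  rw [RatFunc.intDegree_mul (mul_ne_zero hW' (pow_ne_zero _ hS)) hQ3',
    RatFunc.intDegree_mul hW' (pow_ne_zero _ hS), pow_two, RatFunc.intDegree_mul hS hS,
    RatFunc.intDegree_polynomial, RatFunc.intDegree_polynomial, RatFunc.intDegree_polynomial,
    hWdeg, hNdeg, natDegree_pow, hQdeg] at hdeg
  push_cast at hdeg
  omega

/-- If `a³ + c³ ≠ 0` then `R³ + 1 = ((a x + b)³ + (c x + d)³) / (c x + d)³` has `RatFunc.intDegree` `0`, but `w S²` has odd `intDegree`. -/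
theorem mobius_parity {a b c d : Cm3Bar} {S : RatFunc Cm3Bar} (hc : c ≠ 0)
    (hcurve : wF * S ^ 2 =
      ((RatFunc.C a * RatFunc.X + RatFunc.C b) / (RatFunc.C c * RatFunc.X + RatFunc.C d)) ^ 3 + 1) :
    a ^ 3 + c ^ 3 = 0 :=
  mobius_parity_aux hc hcurve

end ModI2a

/-! ## I2b. A Möbius map commuting with `x ↦ x(2P)`  (written by helper135) -/

section ModI2b

open scoped Classical
open WeierstrassCurve Polynomial

/-- a linear polynomial `c x + d ≠ 0` as a rational function -/
theorem linear_ne_zero {c d : Cm3Bar} (h : c ≠ 0 ∨ d ≠ 0) :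
    RatFunc.C c * RatFunc.X + RatFunc.C d ≠ (0 : RatFunc Cm3Bar) := by
  intro h0
  have h1 : algebraMap Cm3Bar[X] (RatFunc Cm3Bar) (Polynomial.C c * Polynomial.X + Polynomial.C d) = 0 := by
    simpa [RatFunc.algebraMap_C, RatFunc.algebraMap_X] using h0
  have h2 : (Polynomial.C c * Polynomial.X + Polynomial.C d : Cm3Bar[X]) = 0 :=
    (map_eq_zero_iff _ (RatFunc.algebraMap_injective Cm3Bar)).1 h1
  have hc : c = 0 := by simpa using congrArg (fun p => Polynomial.coeff p 1) h2
  have hd : d = 0 := by simpa using congrArg (fun p => Polynomial.coeff p 0) h2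
  rcases h with h | h
  · exact h hc
  · exact h hd

/-- a Möbius map is not constant -/
theorem nonConst_mobius {a b c d : Cm3Bar} (hdet : a * d - b * c ≠ 0) :
    NonConst ((RatFunc.C a * RatFunc.X + RatFunc.C b) / (RatFunc.C c * RatFunc.X + RatFunc.C d) :
      RatFunc Cm3Bar) := by
  intro e he
  have hD : RatFunc.C c * RatFunc.X + RatFunc.C d ≠ (0 : RatFunc Cm3Bar) := by
    apply linear_ne_zero
    by_contra hcon
    push Not at hcon
    apply hdet
    rw [hcon.1, hcon.2]; ring
  rw [div_eq_iff hD] at he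
  have h1 : algebraMap Cm3Bar[X] (RatFunc Cm3Bar) (Polynomial.C a * Polynomial.X + Polynomial.C b) =
      algebraMap Cm3Bar[X] (RatFunc Cm3Bar)
        (Polynomial.C e * (Polynomial.C c * Polynomial.X + Polynomial.C d)) := by
    simpa [RatFunc.algebraMap_C, RatFunc.algebraMap_X] using he
  have h2 := RatFunc.algebraMap_injective Cm3Bar h1
  have ha : a = e * c := by simpa using congrArg (fun p => Polynomial.coeff p 1) h2
  have hb : b = e * d := by simpa using congrArg (fun p => Polynomial.coeff p 0) h2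
  apply hdet
  rw [ha, hb]; ring

/-- Cross-multiplied, `R ∘ dblR = dblR ∘ R` says
`(a (x⁴ - 8x) + 4 b (x³ + 1)) · 4 (c x + d) ((a x + b)³ + (c x + d)³) = (c (x⁴ - 8x) + 4 d (x³ + 1)) · ((a x + b)⁴ - 8 (a x + b) (c x + d)³)`;
the coefficient of `x⁸` is `4 a c (a³ + c³) = c (a⁴ - 8 a c³)`. -/
theorem mobius_comm_coeff {a b c d : Cm3Bar} (hdet : a * d - b * c ≠ 0)
    (hcomm : ratComp
        ((RatFunc.C a * RatFunc.X + RatFunc.C b) / (RatFunc.C c * RatFunc.X + RatFunc.C d)) dblR =
      ratComp dblR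
        ((RatFunc.C a * RatFunc.X + RatFunc.C b) / (RatFunc.C c * RatFunc.X + RatFunc.C d))) :
    a * c * (a ^ 3 + 4 * c ^ 3) = 0 := by
  by_cases hc : c = 0
  · simp [hc]
  have hM := nonConst_mobius hdet
  have hD : RatFunc.C c * RatFunc.X + RatFunc.C d ≠ (0 : RatFunc Cm3Bar) := linear_ne_zero (Or.inl hc)
  set N : RatFunc Cm3Bar := RatFunc.C a * RatFunc.X + RatFunc.C b with hN
  set D : RatFunc Cm3Bar := RatFunc.C c * RatFunc.X + RatFunc.C d with hDdef
  have h1 : ratComp (N / D) dblR = (RatFunc.C a * dblR + RatFunc.C b) / (RatFunc.C c * dblR + RatFunc.C d) := by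
    rw [hN, hDdef]
    simp only [ratComp_div nonConst_dblR, ratComp_add nonConst_dblR, ratComp_mul nonConst_dblR,
      ratComp_C, ratComp_X]
  have h2 : ratComp dblR (N / D) = ((N / D) ^ 4 - 8 * (N / D)) / (4 * ((N / D) ^ 3 + 1)) := by
    have e8 : ratComp (8 : RatFunc Cm3Bar) (N / D) = 8 := ratComp_ofNat _ 8
    have e4 : ratComp (4 : RatFunc Cm3Bar) (N / D) = 4 := ratComp_ofNat _ 4
    unfold dblR
    simp only [ratComp_div hM, ratComp_add hM, ratComp_sub hM, ratComp_mul hM, ratComp_pow hM,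
      e8, e4, ratComp_one, ratComp_X]
  rw [h1, h2] at hcomm
  -- the denominators do not vanish
  have hW : (RatFunc.X ^ 3 + 1 : RatFunc Cm3Bar) ≠ 0 := by
    have := aeval_ne_zero_of_nonConst (nonConst_X (k := Cm3Bar))
      (p := (Polynomial.X ^ 3 + 1 : Cm3Bar[X])) (by
        intro h0
        have := congrArg (fun p => Polynomial.coeff p 0) h0
        simp at this)
    simpa using this
  have hM3 : (N / D) ^ 3 + 1 ≠ 0 := by
    have := aeval_ne_zero_of_nonConst hM
      (p := (Polynomial.X ^ 3 + 1 : Cm3Bar[X])) (by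
        intro h0
        have := congrArg (fun p => Polynomial.coeff p 0) h0
        simp at this)
    simpa using this
  have hE : RatFunc.C c * dblR + RatFunc.C d ≠ 0 := by
    have := aeval_ne_zero_of_nonConst nonConst_dblR
      (p := (Polynomial.C c * Polynomial.X + Polynomial.C d : Cm3Bar[X])) (by
        intro h0
        have := congrArg (fun p => Polynomial.coeff p 1) h0
        simp at this
        exact hc this)
    simpa using this
  have h4 : (4 : RatFunc Cm3Bar) ≠ 0 := by norm_num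
  rw [div_eq_div_iff hE (mul_ne_zero h4 hM3)] at hcomm
  unfold dblR at hcomm hE
  field_simp at hcomm
  -- back to polynomials
  have hpoly : (4 * (Polynomial.C a * Polynomial.X * (Polynomial.X ^ 3 - 8) +
        4 * (Polynomial.X ^ 3 + 1) * Polynomial.C b) * (Polynomial.C c * Polynomial.X + Polynomial.C d) *
        ((Polynomial.C a * Polynomial.X + Polynomial.C b) ^ 3 +
          (Polynomial.C c * Polynomial.X + Polynomial.C d) ^ 3) : Cm3Bar[X]) =
      (Polynomial.C a * Polynomial.X + Polynomial.C b) *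
        ((Polynomial.C a * Polynomial.X + Polynomial.C b) ^ 3 -
          8 * (Polynomial.C c * Polynomial.X + Polynomial.C d) ^ 3) *
        (Polynomial.X * (Polynomial.X ^ 3 - 8) * Polynomial.C c +
          4 * (Polynomial.X ^ 3 + 1) * Polynomial.C d) := by
    apply RatFunc.algebraMap_injective Cm3Bar
    have e4 : algebraMap Cm3Bar[X] (RatFunc Cm3Bar) 4 = 4 := map_ofNat _ 4
    have e8 : algebraMap Cm3Bar[X] (RatFunc Cm3Bar) 8 = 8 := map_ofNat _ 8
    simpa [RatFunc.algebraMap_C, RatFunc.algebraMap_X, hN, hDdef, e4, e8] using hcomm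
  have h : ∀ x : Cm3Bar, 4 * (a * x * (x ^ 3 - 8) + 4 * (x ^ 3 + 1) * b) * (c * x + d) *
        ((a * x + b) ^ 3 + (c * x + d) ^ 3) =
      (a * x + b) * ((a * x + b) ^ 3 - 8 * (c * x + d) ^ 3) *
        (x * (x ^ 3 - 8) * c + 4 * (x ^ 3 + 1) * d) := by
    intro x
    simpa using congrArg (Polynomial.eval x) hpoly
  -- the eighth finite difference isolates the coefficient of `x⁸`
  linear_combination (1 / 120960 : Cm3Bar) * (h 8 - 8 * h 7 + 28 * h 6 - 56 * h 5 + 70 * h 4 -
    56 * h 3 + 28 * h 2 - 8 * h 1 + h 0)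

end ModI2b

/-! ## I3. The automorphisms of `y² = x³ + 1`  (written by helper30) -/

section ModI3

open scoped Classical
open WeierstrassCurve Polynomial

/-- `R = a x + b`, `R' = α S`, `w S² = R³ + 1` force `b = 0`, `a = α⁻²`, `α⁶ = 1` -/
theorem pow_six_of_affine {a b α : Cm3Bar} {S : RatFunc Cm3Bar} (ha : a ≠ 0) (hα : α ≠ 0)
    (hcurve : wF * S ^ 2 = (RatFunc.C a * RatFunc.X + RatFunc.C b) ^ 3 + 1)
    (hA : ratDeriv (RatFunc.C a * RatFunc.X + RatFunc.C b) = RatFunc.C α * S) : α ^ 6 = 1 := by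
  -- `S` is the constant `a / α`
  have hD : ratDeriv (RatFunc.C a * RatFunc.X + RatFunc.C b) = RatFunc.C a := by
    rw [ratDeriv_add, ratDeriv_C_mul, ratDeriv_X, ratDeriv_C, mul_one, add_zero]
  have hS : S = RatFunc.C (a / α) := by
    have hCα : (RatFunc.C α : RatFunc Cm3Bar) ≠ 0 := by
      rw [Ne, ← RatFunc.C.map_zero]
      exact fun h => hα (RatFunc.C_injective h)
    have h1 : RatFunc.C α * S = RatFunc.C α * RatFunc.C (a / α) := by
      rw [← hA, hD, ← RatFunc.C.map_mul]
      congr 1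
      field_simp
    exact mul_left_cancel₀ hCα h1
  -- values at a point
  have key : ∀ x : Cm3Bar, (x ^ 3 + 1) * (a / α) ^ 2 = (a * x + b) ^ 3 + 1 := by
    intro x
    have e1 : EvalsTo (wF * S ^ 2) x ((x ^ 3 + 1) * (a / α) ^ 2) := by
      rw [hS]
      exact (evalsTo_wF x).mul ((evalsTo_C _ x).pow 2)
    have e2 : EvalsTo ((RatFunc.C a * RatFunc.X + RatFunc.C b) ^ 3 + 1) x ((a * x + b) ^ 3 + 1) :=
      ((((evalsTo_C a x).mul (evalsTo_X x)).add (evalsTo_C b x)).pow 3).add (evalsTo_one x)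
    rw [hcurve] at e1
    exact e1.unique e2
  have k0 := key 0
  have k1 := key 1
  have km := key (-1)
  set s := a / α with hs
  have hb : b = 0 := by
    have h3 : 6 * (a ^ 2 * b) = 0 := by linear_combination -(k1 + km - 2 * k0)
    have h4 : a ^ 2 * b = 0 := by
      rcases mul_eq_zero.1 h3 with h | h
      · norm_num at h
      · exact h
    rcases mul_eq_zero.1 h4 with h | h
    · exact absurd ((pow_eq_zero_iff two_ne_zero).1 h) ha
    · exact h
  subst hb
  have hs2 : s ^ 2 = 1 := by linear_combination k0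
  have ha3 : a ^ 3 = 1 := by linear_combination km
  have haα : a ^ 2 = α ^ 2 := by
    have : a = s * α := by rw [hs]; field_simp
    calc a ^ 2 = (s * α) ^ 2 := by rw [← this]
      _ = s ^ 2 * α ^ 2 := by ring
      _ = α ^ 2 := by rw [hs2, one_mul]
  calc α ^ 6 = (α ^ 2) ^ 3 := by ring
    _ = (a ^ 2) ^ 3 := by rw [haα]
    _ = (a ^ 3) ^ 2 := by ring
    _ = 1 := by rw [ha3, one_pow]

/-- `g ∘ f = 1` too (`HasA.ext`), so `f` is injective, `R` is injective outside a finite set (`some_eq_or_eq_neg`), `R` is a Möbius map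
(`mobius_of_injOn`) with `c = 0` (`mobius_parity`, `mobius_comm_coeff`, `Rep.comm_two`). -/
theorem HasA.pow_six_of_comp_eq_id {f g : EndE} {α β : Cm3Bar} (hf : HasA f α) (hg : HasA g β)
    (h : f.comp g = AddMonoidHom.id _) : α ^ 6 = 1 := by
  -- `α β = 1`
  have hαβ : α * β = 1 := by
    have h1 := HasA.comp hf hg
    rw [h] at h1
    exact h1.unique hasA_id
  have hα : α ≠ 0 := left_ne_zero_of_mul_eq_one hαβ
  -- `g ∘ f = 1`
  have hgf : g.comp f = AddMonoidHom.id _ := by
    have h1 := HasA.comp hg hf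
    rw [mul_comm, hαβ] at h1
    exact h1.ext hasA_id
  have hinjf : Function.Injective f := by
    intro P Q hPQ
    have hP : g (f P) = P := DFunLike.congr_fun hgf P
    have hQ : g (f Q) = Q := DFunLike.congr_fun hgf Q
    rw [← hP, ← hQ, hPQ]
  -- the representation
  obtain ⟨R, S, hRep, hA⟩ : ∃ R S : RatFunc Cm3Bar, Rep f R S ∧ ratDeriv R = RatFunc.C α * S := by
    rcases hf with ⟨-, h0⟩ | h'
    · exact absurd h0 hα
    · exact h'
  have hRep' := hRep
  obtain ⟨B, hB, hBf⟩ := hRep'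
  have hinj : ∀ x₁ x₂ c, x₁ ∉ B → x₂ ∉ B → EvalsTo R x₁ c → EvalsTo R x₂ c → x₁ = x₂ := by
    intro x₁ x₂ c h₁ h₂ e₁ e₂
    obtain ⟨y₁, hy₁⟩ := exists_y x₁
    obtain ⟨y₂, hy₂⟩ := exists_y x₂
    have n₁ : EC.Nonsingular x₁ y₁ := nonsingular_iff.2 hy₁
    have n₂ : EC.Nonsingular x₂ y₂ := nonsingular_iff.2 hy₂
    obtain ⟨r₁, s₁, m₁, er₁, -, hf₁⟩ := hBf x₁ y₁ n₁ h₁
    obtain ⟨r₂, s₂, m₂, er₂, -, hf₂⟩ := hBf x₂ y₂ n₂ h₂
    obtain rfl : r₁ = c := er₁.unique e₁
    obtain rfl : r₂ = r₁ := er₂.unique e₂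
    rcases some_eq_or_eq_neg m₁ m₂ with hh | hh
    · rw [← hf₁, ← hf₂] at hh
      have := hinjf hh
      simp only [Affine.Point.some.injEq] at this
      exact this.1
    · rw [← hf₁, ← hf₂, ← map_neg] at hh
      have := hinjf hh
      obtain ⟨n₂', hn⟩ := neg_some n₂
      rw [hn] at this
      simp only [Affine.Point.some.injEq] at this
      exact this.1
  obtain ⟨a, b, c, d, hdet, hR⟩ := mobius_of_injOn hRep.nonConst hB hinj
  have hcurve := hRep.curve
  have hcomm := hRep.comm_two.1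
  -- `c = 0`
  have hc : c = 0 := by
    by_contra hc
    have p1 : a ^ 3 + c ^ 3 = 0 := by
      rw [hR] at hcurve
      exact mobius_parity hc hcurve
    have p2 : a * c * (a ^ 3 + 4 * c ^ 3) = 0 := by
      rw [hR] at hcomm
      exact mobius_comm_coeff hdet hcomm
    have p3 : 3 * (a * c ^ 4) = 0 := by linear_combination p2 - a * c * p1
    have p4 : a * c ^ 4 = 0 := by
      rcases mul_eq_zero.1 p3 with h' | h'
      · norm_num at h'
      · exact h'
    have ha0 : a = 0 := by
      rcases mul_eq_zero.1 p4 with h' | h'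
      · exact h'
      · exact absurd ((pow_eq_zero_iff (by norm_num)).1 h') hc
    rw [ha0] at p1
    have : c ^ 3 = 0 := by linear_combination p1
    exact hc ((pow_eq_zero_iff (by norm_num)).1 this)
  subst hc
  have had : a * d ≠ 0 := by simpa using hdet
  have ha : a ≠ 0 := left_ne_zero_of_mul had
  have hd : d ≠ 0 := right_ne_zero_of_mul had
  have hR' : R = RatFunc.C (a / d) * RatFunc.X + RatFunc.C (b / d) := by
    have hCd : (RatFunc.C d : RatFunc Cm3Bar) ≠ 0 := by
      rw [Ne, ← RatFunc.C.map_zero]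
      exact fun h => hd (RatFunc.C_injective h)
    rw [hR, RatFunc.C.map_zero, zero_mul, zero_add, div_eq_iff hCd, add_mul, mul_right_comm,
      ← RatFunc.C.map_mul, ← RatFunc.C.map_mul, div_mul_cancel₀ _ hd, div_mul_cancel₀ _ hd]
  rw [hR'] at hcurve hA
  exact pow_six_of_affine (div_ne_zero ha hd) hα hcurve hA

end ModI3

/-! ## J1. The elements of `ℚ(i)`; a Pell unit is not a root of unity  (written by helper255) -/

section ModJ1

open scoped Classical
open WeierstrassCurve Polynomial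

set_option backward.isDefEq.respectTransparency false in
theorem exists_int_repr (z : Cm3Field) : ∃ (p r q : ℤ) (I : Cm3Field), q ≠ 0 ∧ I ^ 2 = -1 ∧
    (q : Cm3Field) * z = p + r * I := by
  have hi : IsPrimitiveRoot (IsCyclotomicExtension.zeta 4 ℚ Cm3Field) 4 :=
    IsCyclotomicExtension.zeta_spec 4 ℚ Cm3Field
  set I := IsCyclotomicExtension.zeta 4 ℚ Cm3Field with hI
  have hI2 : I ^ 2 = -1 := by
    have h4 : I ^ 4 = 1 := hi.pow_eq_one
    have hne : I ^ 2 ≠ 1 := hi.pow_ne_one_of_pos_of_lt (by norm_num) (by norm_num)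
    have : (I ^ 2 - 1) * (I ^ 2 + 1) = 0 := by linear_combination h4
    rcases mul_eq_zero.mp this with h | h
    · exact absurd (sub_eq_zero.mp h) hne
    · linear_combination h
  obtain ⟨f, hf⟩ := (hi.powerBasis ℚ).exists_eq_aeval' z
  have hgen : (hi.powerBasis ℚ).gen = I := hi.powerBasis_gen ℚ
  rw [hgen] at hf
  have hm : (X ^ 2 + 1 : ℚ[X]).Monic := by monicity!
  have hd : (X ^ 2 + 1 : ℚ[X]).natDegree = 2 := by compute_degree!
  have hroot : aeval I (X ^ 2 + 1 : ℚ[X]) = 0 := by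
    simp [hI2]
  have hf2 : z = aeval I (f %ₘ (X ^ 2 + 1)) := by
    rw [hf]
    conv_lhs => rw [← Polynomial.modByMonic_add_div f (X ^ 2 + 1 : ℚ[X])]
    simp [hroot]
  have hdeg : (f %ₘ (X ^ 2 + 1 : ℚ[X])).natDegree ≤ 1 := by
    have hne : (X ^ 2 + 1 : ℚ[X]) ≠ 1 := by
      intro h
      rw [h] at hd
      simp at hd
    have := Polynomial.natDegree_modByMonic_lt f hm hne
    omega
  obtain ⟨b, a, hab⟩ := Polynomial.exists_eq_X_add_C_of_natDegree_le_one hdeg
  rw [hab] at hf2
  have hz : z = (b : Cm3Field) * I + (a : Cm3Field) := by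
    rw [hf2]; simp
  refine ⟨a.num * b.den, b.num * a.den, a.den * b.den, I, ?_, hI2, ?_⟩
  · have h1 : (a.den : ℤ) ≠ 0 := by exact_mod_cast a.den_ne_zero
    have h2 : (b.den : ℤ) ≠ 0 := by exact_mod_cast b.den_ne_zero
    exact mul_ne_zero h1 h2
  · have ha : (a : Cm3Field) * (a.den : Cm3Field) = (a.num : Cm3Field) := by
      have := Rat.mul_den_eq_num a
      exact_mod_cast congrArg (fun t : ℚ => (t : Cm3Field)) this
    have hb : (b : Cm3Field) * (b.den : Cm3Field) = (b.num : Cm3Field) := by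
      have := Rat.mul_den_eq_num b
      exact_mod_cast congrArg (fun t : ℚ => (t : Cm3Field)) this
    rw [hz]
    push_cast
    linear_combination (b.den : Cm3Field) * ha + (a.den : Cm3Field) * I * hb

theorem not_isSquare_three_mul_sq {r : ℤ} (hr : r ≠ 0) : ¬ IsSquare (3 * r ^ 2) := by
  rintro ⟨s, hs⟩
  have hdvd : r ^ 2 ∣ s ^ 2 := ⟨3, by rw [pow_two s, ← hs]; ring⟩
  have hrs : r ∣ s := (Int.pow_dvd_pow_iff (by norm_num)).mp hdvd
  obtain ⟨t, rfl⟩ := hrs
  have ht : t ^ 2 = 3 := by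
    have h2 : r ^ 2 ≠ 0 := pow_ne_zero 2 hr
    apply mul_left_cancel₀ h2
    linear_combination -hs
  have h1 : t < 2 := by nlinarith
  have h2 : -2 < t := by nlinarith
  interval_cases t <;> simp at ht

/-- `u = x + y γ`, `u⁻¹ = x - y γ`; `u⁶ = 1` gives `u + u⁻¹ = 2 x ∈ {2, -2, 1, -1}`, so `x = ± 1` and `D y² = 0`. -/
theorem pell_unit_not_root_of_unity {k : Type} [Field k] [CharZero k] {γ : k} {D x y : ℤ}
    (hD : 0 < D) (hγ : γ ^ 2 = D) (hxy : x ^ 2 - D * y ^ 2 = 1) (hy : y ≠ 0)
    (h6 : ((x : k) + y * γ) ^ 6 = 1) : False := by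
  set u : k := (x : k) + y * γ with hu
  set v : k := (x : k) - y * γ with hv
  have huv : u * v = 1 := by
    have : ((x ^ 2 - D * y ^ 2 : ℤ) : k) = 1 := by rw [hxy]; simp
    push_cast at this
    rw [hu, hv]
    linear_combination this - (y : k) ^ 2 * hγ
  have hs : u + v = 2 * (x : k) := by rw [hu, hv]; ring
  have hx1 : x ^ 2 = 1 := by
    have h33 : (u ^ 3 - 1) * (u ^ 3 + 1) = 0 := by linear_combination h6
    rcases mul_eq_zero.mp h33 with h | h
    · have hu3 : u ^ 3 = 1 := sub_eq_zero.mp h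
      have hv3 : v ^ 3 = 1 := by
        have : (u * v) ^ 3 = 1 := by rw [huv]; ring
        rw [mul_pow, hu3, one_mul] at this
        exact this
      have hk : (2 * (x : k)) ^ 3 - 3 * (2 * (x : k)) = 2 := by
        rw [← hs]
        linear_combination hu3 + hv3 + 3 * (u + v) * huv
      have hz : (2 * x) ^ 3 - 3 * (2 * x) = 2 := by exact_mod_cast hk
      have h2 : 2 * ((x - 1) * (2 * x + 1) ^ 2) = 0 := by linear_combination hz
      have : (x - 1) * (2 * x + 1) ^ 2 = 0 := (mul_eq_zero.mp h2).resolve_left two_ne_zero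
      rcases mul_eq_zero.mp this with h1 | h1
      · have : x = 1 := by linarith
        rw [this]; norm_num
      · have := pow_eq_zero_iff (two_ne_zero) |>.mp h1
        omega
    · have hu3 : u ^ 3 = -1 := by linear_combination h
      have hv3 : v ^ 3 = -1 := by
        have : (u * v) ^ 3 = 1 := by rw [huv]; ring
        rw [mul_pow, hu3] at this
        linear_combination -this
      have hk : (2 * (x : k)) ^ 3 - 3 * (2 * (x : k)) = -2 := by
        rw [← hs]
        linear_combination hu3 + hv3 + 3 * (u + v) * huv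
      have hz : (2 * x) ^ 3 - 3 * (2 * x) = -2 := by exact_mod_cast hk
      have h2 : 2 * ((x + 1) * (2 * x - 1) ^ 2) = 0 := by linear_combination hz
      have : (x + 1) * (2 * x - 1) ^ 2 = 0 := (mul_eq_zero.mp h2).resolve_left two_ne_zero
      rcases mul_eq_zero.mp this with h1 | h1
      · have : x = -1 := by linarith
        rw [this]; norm_num
      · have := pow_eq_zero_iff (two_ne_zero) |>.mp h1
        omega
  have hDy : D * y ^ 2 = 0 := by linarith
  have hy2 : 0 < y ^ 2 := by positivity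
  have : 0 < D * y ^ 2 := mul_pos hD hy2
  omega

end ModJ1

/-! ## J2. No complex multiplication over `ℚ(i)`  (written by helper177) -/

section ModJ2

open scoped Classical
open WeierstrassCurve Polynomial

/-- no endomorphism acts on the differential by `r i`, `r ≠ 0`: else `γ = r i (2 ω + 1)`, `γ² = 3 r²`, and a solution of Pell's equation
(`Pell.exists_of_not_isSquare`) gives an automorphism `x + y γ` of infinite order -/
theorem not_hasA_int_mul_I {g : EndE} {r : ℤ} {I : Cm3Bar} (hr : r ≠ 0) (hI : I ^ 2 = -1)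
    (hg : HasA g (r * I)) : False := by
  have he : HasA (AddMonoidHom.id _ + (2 : ℤ) • cubeCurveEndo) (1 + ((2 : ℤ) : Cm3Bar) * omegaBar) :=
    hasA_id.add (hasA_omega.zsmul 2)
  have hγ := hg.comp he
  set γ : Cm3Bar := (r : Cm3Bar) * I * (1 + ((2 : ℤ) : Cm3Bar) * omegaBar) with hγdef
  set G : EndE := g.comp (AddMonoidHom.id _ + (2 : ℤ) • cubeCurveEndo) with hG
  have hγ2 : γ ^ 2 = ((3 * r ^ 2 : ℤ) : Cm3Bar) := by
    rw [hγdef]
    push_cast
    linear_combination ((r : Cm3Bar) ^ 2 * (1 + 2 * omegaBar) ^ 2) * hI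
      - (4 * (r : Cm3Bar) ^ 2) * omegaBar_spec
  have hD : (0 : ℤ) < 3 * r ^ 2 := by positivity
  obtain ⟨x, y, hxy, hy⟩ := Pell.exists_of_not_isSquare hD (not_isSquare_three_mul_sq hr)
  have hu : HasA (x • AddMonoidHom.id _ + y • G) ((x : Cm3Bar) + y * γ) :=
    (hasA_zsmul_id x).add (hγ.zsmul y)
  have hu' : HasA (x • AddMonoidHom.id _ - y • G) ((x : Cm3Bar) - y * γ) :=
    (hasA_zsmul_id x).sub (hγ.zsmul y)
  have hone : ((x : Cm3Bar) + y * γ) * ((x : Cm3Bar) - y * γ) = 1 := by
    have h1 : ((x ^ 2 - 3 * r ^ 2 * y ^ 2 : ℤ) : Cm3Bar) = 1 := by rw [hxy]; simp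
    push_cast at h1 hγ2
    linear_combination h1 - (y : Cm3Bar) ^ 2 * hγ2
  have hcomp := hu.comp hu'
  rw [hone] at hcomp
  have hid := hcomp.ext hasA_id
  exact pell_unit_not_root_of_unity hD hγ2 hxy hy (hu.pow_six_of_comp_eq_id hu' hid)

/-- `q α = p` with `q ≠ 0` forces `α ∈ ℤ`: for coprime `p, q`, `1 / q = u α + v` is the scalar of an endomorphism, so `q⁶ = 1` -/
theorem hasA_int_of_mul_eq {f : EndE} {α : Cm3Bar} {p q : ℤ} (hq : q ≠ 0) (hf : HasA f α)
    (h : (q : Cm3Bar) * α = p) : ∃ n : ℤ, α = n := by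
  have hpos : 0 < Int.gcd p q := Int.gcd_pos_of_ne_zero_right p hq
  obtain ⟨p', q', hcop, hp, hq'⟩ := Int.exists_gcd_one hpos
  set d : ℤ := (Int.gcd p q : ℤ) with hd
  have hd0 : d ≠ 0 := by
    rw [hd]; exact_mod_cast hpos.ne'
  have hd0' : (d : Cm3Bar) ≠ 0 := by exact_mod_cast hd0
  have h' : (q' : Cm3Bar) * α = p' := by
    apply mul_left_cancel₀ hd0'
    have e1 : (q : Cm3Bar) = q' * d := by exact_mod_cast hq'
    have e2 : (p : Cm3Bar) = p' * d := by exact_mod_cast hp
    rw [e1, e2] at h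
    linear_combination h
  obtain ⟨u, v, huv⟩ : IsCoprime p' q' := Int.isCoprime_iff_gcd_eq_one.mpr hcop
  have hh : HasA (u • f + v • AddMonoidHom.id _) ((u : Cm3Bar) * α + v) :=
    (hf.zsmul u).add (hasA_zsmul_id v)
  have hone : (q' : Cm3Bar) * ((u : Cm3Bar) * α + v) = 1 := by
    have h1 : ((u * p' + v * q' : ℤ) : Cm3Bar) = 1 := by rw [huv]; simp
    push_cast at h1
    linear_combination h1 + (u : Cm3Bar) * h'
  have hcomp := (hasA_zsmul_id q').comp hh
  rw [hone] at hcomp
  have hid := hcomp.ext hasA_id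
  have h6 : (q' : Cm3Bar) ^ 6 = 1 := (hasA_zsmul_id q').pow_six_of_comp_eq_id hh hid
  have h6' : q' ^ 6 = 1 := by exact_mod_cast h6
  have hunit : IsUnit q' := IsUnit.of_pow_eq_one h6' (by norm_num)
  rcases Int.isUnit_iff.mp hunit with h1 | h1
  · refine ⟨p', ?_⟩
    rw [h1] at h'
    simpa using h'
  · refine ⟨-p', ?_⟩
    rw [h1] at h'
    push_cast at h' ⊢
    linear_combination -h'

/-- **The premise of the last clause of `Statement` can be met**: `E₃ : y² = x³ + 1` over `K = ℚ(i)` has complex multiplication,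
but no complex multiplication defined over `K`. -/
theorem sanity_cubeCurve_not_hasCMOver_bot : ¬ HasCMOver cubeCurve ⊥ := by
  rintro ⟨f, hf, hns, hcomm⟩
  obtain ⟨α, hα⟩ := exists_hasA hf
  obtain ⟨z, rfl⟩ := hα.mem_range_of_comm (fun σ P =>
    hcomm σ (by rw [IntermediateField.fixingSubgroup_bot]; exact Subgroup.mem_top σ) P)
  obtain ⟨p, r, q, I, hq, hI, hz⟩ := exists_int_repr z
  set ι := algebraMap Cm3Field Cm3Bar with hι
  have hI' : (ι I) ^ 2 = -1 := by
    rw [← map_pow, hI, map_neg, map_one]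
  have hz' : (q : Cm3Bar) * ι z = p + r * ι I := by
    have := congrArg ι hz
    simpa using this
  by_cases hr : r = 0
  · subst hr
    obtain ⟨n, hn⟩ := hasA_int_of_mul_eq hq hα (p := p) (by rw [hz']; simp)
    rw [hn] at hα
    have hfn := hα.ext (hasA_zsmul_id n)
    obtain ⟨P, hP⟩ := hns n
    exact hP (by rw [hfn]; simp)
  · have hg : HasA (q • f - p • AddMonoidHom.id _) ((q : Cm3Bar) * ι z - p) :=
      (hα.zsmul q).sub (hasA_zsmul_id p)
    have e : (q : Cm3Bar) * ι z - p = r * ι I := by rw [hz']; ring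
    rw [e] at hg
    exact not_hasA_int_mul_I hr hI' hg

theorem sanity_cubeCurve_last_clause_premise :
    HasCMOver cubeCurve ⊤ ∧ ¬ HasCMOver cubeCurve ⊥ :=
  ⟨sanity_cubeCurve_hasCMOver_top, sanity_cubeCurve_not_hasCMOver_bot⟩

end ModJ2

end Claimed.Open.R030.CubeEnd
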