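import Claimed.Open.R030.SanityPlaces

/-!
# Sanity for R030: a non-trivial Hecke character

`HeckeCharacter` (continuous homomorphisms `𝔸_K^× / K^× → ℂ^×`) had only the trivial example.  Here the idele norm is shown to be
multiplicative, positive and **continuous** on the idele group (units topology of Mathlib's adele ring), so that, with the product
formula `ideleNorm_principal`, `a ↦ |a|^s` is a `HeckeCharacter` for every `s : ℂ` (`normHeckeCharacter`); its value at a
uniformiser idele at `v` is `q_v^{-s}`, so it is not the trivial character for `s = 1`.  **Non-example**: the local norm `a ↦ |a_v|_v` at one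
finite place is a continuous homomorphism on the ideles that is not trivial on `K^×` (`localNormHom_not_map_principal`).
-/

set_option autoImplicit false

namespace Claimed.Open.R030

open scoped Classical WithZero
open IsDedekindDomain NumberField Topology

variable {K : Type} [Field K] [NumberField K]

theorem nc_norm_le_one_iff (v : HeightOneSpectrum (𝓞 K)) (x : v.adicCompletion K) :
    ‖x‖ ≤ 1 ↔ x ∈ v.adicCompletionIntegers K := by
  rw [HeightOneSpectrum.mem_adicCompletionIntegers]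
  exact Valued.toNormedField.norm_le_one_iff

theorem nc_comp_mul_inv (a : (AdeleRing (𝓞 K) K)ˣ) (v : HeightOneSpectrum (𝓞 K)) :
    (a : AdeleRing (𝓞 K) K).2 v * ((a⁻¹ : (AdeleRing (𝓞 K) K)ˣ) : AdeleRing (𝓞 K) K).2 v = 1 := by
  have h : (a : AdeleRing (𝓞 K) K) * ((a⁻¹ : (AdeleRing (𝓞 K) K)ˣ) : AdeleRing (𝓞 K) K) = 1 :=
    a.mul_inv
  have h2 := congrArg (fun x : AdeleRing (𝓞 K) K => x.2 v) h
  exact h2

theorem nc_norm_eq_one_of_mem (a : (AdeleRing (𝓞 K) K)ˣ) (v : HeightOneSpectrum (𝓞 K))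
    (h1 : (a : AdeleRing (𝓞 K) K).2 v ∈ v.adicCompletionIntegers K)
    (h2 : ((a⁻¹ : (AdeleRing (𝓞 K) K)ˣ) : AdeleRing (𝓞 K) K).2 v ∈ v.adicCompletionIntegers K) :
    ‖(a : AdeleRing (𝓞 K) K).2 v‖ = 1 := by
  have h := nc_comp_mul_inv a v
  have n1 := (nc_norm_le_one_iff v _).2 h1
  have n2 := (nc_norm_le_one_iff v _).2 h2
  have hn : ‖(a : AdeleRing (𝓞 K) K).2 v‖ *
      ‖((a⁻¹ : (AdeleRing (𝓞 K) K)ˣ) : AdeleRing (𝓞 K) K).2 v‖ = 1 := by
    rw [← norm_mul, h, norm_one]
  have p1 := norm_nonneg ((a : AdeleRing (𝓞 K) K).2 v)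
  have p2 := norm_nonneg (((a⁻¹ : (AdeleRing (𝓞 K) K)ˣ) : AdeleRing (𝓞 K) K).2 v)
  nlinarith

/-- Almost all components of an idele have norm `1`. -/
theorem nc_finite_mulSupport (a : (AdeleRing (𝓞 K) K)ˣ) :
    (Function.mulSupport fun v : HeightOneSpectrum (𝓞 K) => ‖(a : AdeleRing (𝓞 K) K).2 v‖).Finite := by
  have h : ∀ᶠ v in Filter.cofinite, ‖(a : AdeleRing (𝓞 K) K).2 v‖ = 1 := by
    filter_upwards [(a : AdeleRing (𝓞 K) K).2.eventually,
      (((a⁻¹ : (AdeleRing (𝓞 K) K)ˣ) : AdeleRing (𝓞 K) K).2).eventually] with v h1 h2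
    exact nc_norm_eq_one_of_mem a v h1 h2
  exact h

theorem nc_infNorm_mul (x y : InfiniteAdeleRing K) : ‖x * y‖ = ‖x‖ * ‖y‖ := by
  have h : ∀ v, (x * y) v = x v * y v := fun _ => rfl
  simp only [InfiniteAdeleRing.norm_def, h, norm_mul, mul_pow, Finset.prod_mul_distrib]

/-- The idele norm is multiplicative. -/
theorem ideleNorm_mul (a b : (AdeleRing (𝓞 K) K)ˣ) :
    ideleNorm (a * b) = ideleNorm a * ideleNorm b := by
  unfold ideleNorm
  have h1 : ((a * b : (AdeleRing (𝓞 K) K)ˣ) : AdeleRing (𝓞 K) K).1 =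
      (a : AdeleRing (𝓞 K) K).1 * (b : AdeleRing (𝓞 K) K).1 := rfl
  have h2 : ∀ v, ‖((a * b : (AdeleRing (𝓞 K) K)ˣ) : AdeleRing (𝓞 K) K).2 v‖ =
      ‖(a : AdeleRing (𝓞 K) K).2 v‖ * ‖(b : AdeleRing (𝓞 K) K).2 v‖ := fun v => by
    rw [← norm_mul]; rfl
  rw [h1, nc_infNorm_mul, finprod_congr h2,
    finprod_mul_distrib (nc_finite_mulSupport a) (nc_finite_mulSupport b)]
  ring

theorem ideleNorm_one : ideleNorm (1 : (AdeleRing (𝓞 K) K)ˣ) = 1 := by
  have h := ideleNorm_principal (K := K) 1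
  simpa using h

theorem ideleNorm_nonneg (a : (AdeleRing (𝓞 K) K)ˣ) : 0 ≤ ideleNorm a := by
  unfold ideleNorm
  refine mul_nonneg ?_ (finprod_nonneg fun v => norm_nonneg _)
  rw [InfiniteAdeleRing.norm_def]
  exact Finset.prod_nonneg fun w _ => pow_nonneg (norm_nonneg _) _

/-- The idele norm is positive. -/
theorem ideleNorm_pos (a : (AdeleRing (𝓞 K) K)ˣ) : 0 < ideleNorm a := by
  have h : ideleNorm a * ideleNorm a⁻¹ = 1 := by
    rw [← ideleNorm_mul, mul_inv_cancel, ideleNorm_one]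
  rcases (ideleNorm_nonneg a).lt_or_eq with h0 | h0
  · exact h0
  · rw [← h0, zero_mul] at h
    exact absurd h zero_ne_one

theorem nc_continuous_infNorm :
    Continuous fun a : (AdeleRing (𝓞 K) K)ˣ => ‖(a : AdeleRing (𝓞 K) K).1‖ := by
  simp only [InfiniteAdeleRing.norm_def]
  refine continuous_finsetProd _ fun w _ => Continuous.pow ?_ _
  exact continuous_norm.comp ((continuous_apply w).comp (continuous_fst.comp Units.continuous_val))

theorem nc_isOpen_integral :
    IsOpen {x : FiniteAdeleRing (𝓞 K) K | ∀ v, x.1 v ∈ v.adicCompletionIntegers K} :=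
  RestrictedProduct.isOpen_forall_mem fun _ => Valued.isOpen_valuationSubring _

theorem nc_continuousAt_one : ContinuousAt (ideleNorm (L := K)) 1 := by
  have hU : {a : (AdeleRing (𝓞 K) K)ˣ | (∀ v, (a : AdeleRing (𝓞 K) K).2.1 v ∈ v.adicCompletionIntegers K) ∧
      ∀ v, (((a⁻¹ : (AdeleRing (𝓞 K) K)ˣ) : AdeleRing (𝓞 K) K).2).1 v ∈ v.adicCompletionIntegers K} ∈
      𝓝 (1 : (AdeleRing (𝓞 K) K)ˣ) := by
    refine IsOpen.mem_nhds ?_ ?_
    · have c1 : Continuous fun a : (AdeleRing (𝓞 K) K)ˣ => (a : AdeleRing (𝓞 K) K).2 :=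
        continuous_snd.comp Units.continuous_val
      have c2 : Continuous fun a : (AdeleRing (𝓞 K) K)ˣ =>
          ((a⁻¹ : (AdeleRing (𝓞 K) K)ˣ) : AdeleRing (𝓞 K) K).2 :=
        continuous_snd.comp Units.continuous_coe_inv
      exact (nc_isOpen_integral.preimage c1).inter (nc_isOpen_integral.preimage c2)
    · refine ⟨fun v => ?_, fun v => ?_⟩
      · exact one_mem _
      · rw [inv_one]; exact one_mem _
  have he : (ideleNorm (L := K)) =ᶠ[𝓝 1] fun a => ‖(a : AdeleRing (𝓞 K) K).1‖ := by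
    filter_upwards [hU] with a ha
    unfold ideleNorm
    rw [finprod_congr (fun v => nc_norm_eq_one_of_mem a v (ha.1 v) (ha.2 v)), finprod_one, mul_one]
  exact (nc_continuous_infNorm.continuousAt).congr he.symm

/-- **The idele norm is continuous** on the idele group. -/
theorem continuous_ideleNorm : Continuous (ideleNorm (L := K)) := by
  rw [continuous_iff_continuousAt]
  intro a₀
  have he : (ideleNorm (L := K)) = fun a => ideleNorm a₀ * ideleNorm (a₀⁻¹ * a) := by
    funext a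
    rw [← ideleNorm_mul, mul_inv_cancel_left]
  rw [he]
  refine continuousAt_const.mul ?_
  have h1 : ContinuousAt (fun a : (AdeleRing (𝓞 K) K)ˣ => a₀⁻¹ * a) a₀ :=
    (continuous_const_mul a₀⁻¹).continuousAt
  refine ContinuousAt.comp (g := ideleNorm (L := K)) ?_ h1
  rw [inv_mul_cancel]
  exact nc_continuousAt_one

variable (K) in
/-- The homomorphism `a ↦ |a|^s`. -/
noncomputable def normCharHom (s : ℂ) : (AdeleRing (𝓞 K) K)ˣ →* ℂˣ where
  toFun a := Units.mk0 (((ideleNorm a : ℝ) : ℂ) ^ s) (by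
    rw [Ne, Complex.cpow_eq_zero_iff]
    intro h
    exact (ideleNorm_pos a).ne' (by exact_mod_cast h.1))
  map_one' := by
    ext
    simp [ideleNorm_one]
  map_mul' a b := by
    ext
    simp only [Units.val_mk0, Units.val_mul]
    rw [ideleNorm_mul, Complex.ofReal_mul,
      Complex.mul_cpow_ofReal_nonneg (ideleNorm_nonneg a) (ideleNorm_nonneg b)]

theorem nc_continuous_val (s : ℂ) :
    Continuous fun a : (AdeleRing (𝓞 K) K)ˣ => ((normCharHom K s a : ℂˣ) : ℂ) := by
  show Continuous fun a : (AdeleRing (𝓞 K) K)ˣ => ((ideleNorm a : ℝ) : ℂ) ^ s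
  refine Continuous.cpow (Complex.continuous_ofReal.comp continuous_ideleNorm) continuous_const ?_
  intro a
  exact Complex.ofReal_mem_slitPlane.2 (ideleNorm_pos a)

variable (K) in
/-- **Example**: `|·|^s` is a Hecke character, for every `s : ℂ`. -/
noncomputable def normHeckeCharacter (s : ℂ) : HeckeCharacter K where
  toMonoidHom := normCharHom K s
  continuous_toMonoidHom := by
    rw [Units.continuous_iff]
    refine ⟨nc_continuous_val s, ?_⟩
    have h : (fun a : (AdeleRing (𝓞 K) K)ˣ => (((normCharHom K s a)⁻¹ : ℂˣ) : ℂ)) =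
        fun a => ((normCharHom K s a⁻¹ : ℂˣ) : ℂ) := by
      funext a
      rw [map_inv]
    show Continuous fun a : (AdeleRing (𝓞 K) K)ˣ => (((normCharHom K s a)⁻¹ : ℂˣ) : ℂ)
    rw [h]
    exact (nc_continuous_val s).comp continuous_inv
  map_principal x := by
    ext
    show ((ideleNorm _ : ℝ) : ℂ) ^ s = 1
    rw [ideleNorm_principal]
    simp

/-- The value at a uniformiser idele at `v` is `q_v^{-s}`. -/
theorem normHeckeCharacter_uniformizer (s : ℂ) (v : HeightOneSpectrum (𝓞 K))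
    (x : (AdeleRing (𝓞 K) K)ˣ) (hx : IsUniformizerIdele v x) :
    (((normHeckeCharacter K s).toMonoidHom x : ℂˣ) : ℂ) = (((placeNorm v : ℝ)⁻¹ : ℝ) : ℂ) ^ s := by
  show ((ideleNorm x : ℝ) : ℂ) ^ s = _
  rw [ideleNorm_of_isUniformizerIdele v x hx]

/-- `|·|` is not the trivial Hecke character: at a uniformiser idele at `v` its value is `q_v⁻¹ ≠ 1`. -/
theorem normHeckeCharacter_one_ne_trivial (v : HeightOneSpectrum (𝓞 K)) :
    (normHeckeCharacter K 1).toMonoidHom ≠ (trivialHeckeCharacter K).toMonoidHom := by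
  intro h
  obtain ⟨x, hx⟩ := exists_isUniformizerIdele v
  have h1 := normHeckeCharacter_uniformizer 1 v x hx
  rw [h, Complex.cpow_one] at h1
  have h2 : ((1 : ℝ) : ℂ) = (((placeNorm v : ℝ)⁻¹ : ℝ) : ℂ) := by
    rw [← h1]
    simp [trivialHeckeCharacter]
  have h3 : (1 : ℝ) = (placeNorm v : ℝ)⁻¹ := Complex.ofReal_injective h2
  have h4 : (1 : ℝ) < placeNorm v := by exact_mod_cast one_lt_placeNorm v
  have h5 : (placeNorm v : ℝ)⁻¹ < 1 := inv_lt_one_of_one_lt₀ h4
  linarith

/-- The local norm `a ↦ |a_v|_v` at one finite place, as a homomorphism on the ideles. -/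
noncomputable def localNormHom (v : HeightOneSpectrum (𝓞 K)) : (AdeleRing (𝓞 K) K)ˣ →* ℂˣ where
  toFun a := Units.mk0 ((‖(a : AdeleRing (𝓞 K) K).2 v‖ : ℝ) : ℂ) (by
    intro h
    have h0 : (a : AdeleRing (𝓞 K) K).2 v = 0 := by
      have : ‖(a : AdeleRing (𝓞 K) K).2 v‖ = 0 := by exact_mod_cast h
      exact norm_eq_zero.1 this
    have h1 := nc_comp_mul_inv a v
    rw [h0, zero_mul] at h1
    exact zero_ne_one h1)
  map_one' := by
    ext
    show ((‖(1 : v.adicCompletion K)‖ : ℝ) : ℂ) = 1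
    simp
  map_mul' a b := by
    ext
    show ((‖(a : AdeleRing (𝓞 K) K).2 v * (b : AdeleRing (𝓞 K) K).2 v‖ : ℝ) : ℂ) = _
    rw [norm_mul]
    simp

theorem nc_continuous_localNorm_val (v : HeightOneSpectrum (𝓞 K)) :
    Continuous fun a : (AdeleRing (𝓞 K) K)ˣ => ((localNormHom v a : ℂˣ) : ℂ) := by
  show Continuous fun a : (AdeleRing (𝓞 K) K)ˣ => ((‖(a : AdeleRing (𝓞 K) K).2 v‖ : ℝ) : ℂ)
  have c1 : Continuous fun a : (AdeleRing (𝓞 K) K)ˣ => (a : AdeleRing (𝓞 K) K).2 :=
    continuous_snd.comp Units.continuous_val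
  exact Complex.continuous_ofReal.comp
    (continuous_norm.comp ((RestrictedProduct.continuous_eval v).comp c1))

theorem continuous_localNormHom (v : HeightOneSpectrum (𝓞 K)) : Continuous (localNormHom v) := by
  rw [Units.continuous_iff]
  refine ⟨nc_continuous_localNorm_val v, ?_⟩
  have h : (fun a : (AdeleRing (𝓞 K) K)ˣ => (((localNormHom v a)⁻¹ : ℂˣ) : ℂ)) =
      fun a => ((localNormHom v a⁻¹ : ℂˣ) : ℂ) := by
    funext a
    rw [map_inv]
  show Continuous fun a : (AdeleRing (𝓞 K) K)ˣ => (((localNormHom v a)⁻¹ : ℂˣ) : ℂ)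
  rw [h]
  exact (nc_continuous_localNorm_val v).comp continuous_inv

/-- **Non-example**: the local norm at one place is a continuous homomorphism `𝔸_K^× → ℂ^×` which is *not* trivial on the
principal ideles; so the field `map_principal` of `HeckeCharacter` is a genuine condition. -/
theorem localNormHom_not_map_principal (v : HeightOneSpectrum (𝓞 K)) :
    ¬ ∀ x : Kˣ, localNormHom v (Units.map (algebraMap K (AdeleRing (𝓞 K) K)).toMonoidHom x) = 1 := by
  intro h
  obtain ⟨π, hπ⟩ := v.valuation_exists_uniformizer K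
  have hv : Valued.v ((π : K) : v.adicCompletion K) = WithZero.exp (-1 : ℤ) := by
    rw [HeightOneSpectrum.valuedAdicCompletion_eq_valuation', hπ]
  have h0 : π ≠ 0 := by
    rintro rfl
    rw [map_zero] at hπ
    exact WithZero.exp_ne_zero.symm hπ
  have h1 := congrArg (fun u : ℂˣ => (u : ℂ)) (h (Units.mk0 π h0))
  have h2 : ((‖((π : K) : v.adicCompletion K)‖ : ℝ) : ℂ) = 1 := h1
  have h3 : ‖((π : K) : v.adicCompletion K)‖ = 1 := by exact_mod_cast h2
  have h4 : Valued.v ((π : K) : v.adicCompletion K) < 1 := by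
    rw [hv, ← WithZero.exp_zero]
    exact WithZero.exp_lt_exp.2 (by norm_num)
  have h5 : ‖((π : K) : v.adicCompletion K)‖ < 1 := Valued.toNormedField.norm_lt_one_iff.2 h4
  linarith

end Claimed.Open.R030
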