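import Claimed.Open.R030.SanityLocalPoly

/-!
# Result 030 — sanity: `ℚ(i)` has a place `v` with `q_v = 5`, and there `P_v = 1 + 2 X + 5 X²` for `y² = x³ - x`

`SanityLocalPoly.lean` evaluates `ellipticLocalPoly` for `y² = x³ - x` at every place with `q_v = 5` of every number field, and leaves open that `ℚ(i)` has such a place.  It has: the kernel of the ring homomorphism
`ℤ[i] → ℤ/5`, `i ↦ 3` (`pfToZMod`; `𝓞 = ℤ[i]` is Mathlib's `IsPrimitiveRoot.integralPowerBasis`).  So `sanity_ellipticLocalPoly_gauss_five` is the first value of `P_v` at an actual place of the field of `hypotheses_can_be_met`: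
`a_v = -2`, as it must be for `v = (2 + i)` (`#E(𝔽_5) = 8`).  (written by helper275)
-/

set_option autoImplicit false

namespace Claimed.Open.R030

open NumberField IsDedekindDomain Polynomial

set_option backward.isDefEq.respectTransparency false in
theorem pf_isCyclotomicExtension : IsCyclotomicExtension {4} ℚ (CyclotomicField 4 ℚ) := inferInstance

theorem pf_exists_zeta : ∃ ζ : CyclotomicField 4 ℚ, IsPrimitiveRoot ζ 4 :=
  have := pf_isCyclotomicExtension
  ⟨_, IsCyclotomicExtension.zeta_spec 4 ℚ (CyclotomicField 4 ℚ)⟩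

/-- `i ∈ ℚ(i)` -/
noncomputable def pfZeta : CyclotomicField 4 ℚ := pf_exists_zeta.choose

theorem pfZeta_spec : IsPrimitiveRoot pfZeta 4 := pf_exists_zeta.choose_spec

theorem pf_cyclotomic_four : (cyclotomic 4 ℤ) = X ^ 2 + 1 := by
  have := cyclotomic_prime_pow_eq_geom_sum (R := ℤ) (p := 2) (n := 1) Nat.prime_two
  norm_num [Finset.sum_range_succ] at this
  rw [this]; ring

set_option backward.isDefEq.respectTransparency false in
/-- `ℤ[i] → ℤ/5`, `i ↦ 3` -/
noncomputable def pfToZMod : 𝓞 (CyclotomicField 4 ℚ) →ₐ[ℤ] ZMod 5 :=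
  have := pf_isCyclotomicExtension
  (pfZeta_spec.integralPowerBasis).lift (3 : ZMod 5) (by
    rw [IsPrimitiveRoot.integralPowerBasis_gen]
    rw [← NumberField.RingOfIntegers.minpoly_coe]
    show (aeval (3 : ZMod 5)) (minpoly ℤ pfZeta) = 0
    rw [← Polynomial.cyclotomic_eq_minpoly pfZeta_spec (by norm_num), pf_cyclotomic_four]
    simp
    decide)

theorem pf_five_eq_zero : (5 : ZMod 5) = 0 := by decide

/-- **`ℚ(i)` has a finite place with residue field of `5` elements.** -/
theorem sanity_exists_placeNorm_five :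
    ∃ v : HeightOneSpectrum (𝓞 (CyclotomicField 4 ℚ)), placeNorm v = 5 := by
  have : Fact (Nat.Prime 5) := ⟨by norm_num⟩
  have hs : Function.Surjective pfToZMod := by
    intro y
    obtain ⟨n, rfl⟩ := ZMod.intCast_surjective y
    exact ⟨(n : 𝓞 (CyclotomicField 4 ℚ)), by simp⟩
  have hp : (RingHom.ker pfToZMod.toRingHom).IsPrime := RingHom.ker_isPrime _
  have hne : RingHom.ker pfToZMod.toRingHom ≠ ⊥ := by
    intro h
    have h5 : (5 : 𝓞 (CyclotomicField 4 ℚ)) ∈ RingHom.ker pfToZMod.toRingHom := by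
      rw [RingHom.mem_ker]
      have : pfToZMod (5 : 𝓞 (CyclotomicField 4 ℚ)) = (5 : ZMod 5) := map_ofNat pfToZMod 5
      exact this.trans pf_five_eq_zero
    rw [h, Ideal.mem_bot] at h5
    norm_num at h5
  refine ⟨⟨_, hp, hne⟩, ?_⟩
  show Ideal.absNorm (RingHom.ker pfToZMod.toRingHom) = 5
  rw [Ideal.absNorm_apply, Submodule.cardQuot_apply]
  rw [Nat.card_congr (RingHom.quotientKerEquivOfSurjective (f := pfToZMod.toRingHom) hs).toEquiv]
  simp

/-- **The polynomial `P_v` of `y² = x³ - x` over `ℚ(i)` at an actual place:** there is `v` with `q_v = 5` and `P_v = 1 + 2 X + 5 X²`. -/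
theorem sanity_ellipticLocalPoly_gauss_five :
    ∃ v : HeightOneSpectrum (𝓞 (CyclotomicField 4 ℚ)), placeNorm v = 5 ∧
      ellipticLocalPoly (⟨0, 0, 0, -1, 0⟩ : WeierstrassCurve (CyclotomicField 4 ℚ)) v = 1 + C 2 * X + C 5 * X ^ 2 := by
  obtain ⟨v, hv⟩ := sanity_exists_placeNorm_five
  exact ⟨v, hv, ellipticLocalPoly_gauss_of_placeNorm_five v hv⟩

end Claimed.Open.R030
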