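import Claimed.Open.R030.SanityDecomp

/-!
# R030, sanity checks for `resDecomp` (the map `G_{K_v} → G_K` of Statement.lean §3), second part: `WDFssIso`

`resDecomp v j` carries `IsUnramifiedAt`, `WDFssIso` and so `IsLocalGlobalCompatibleAt`; all three quantify over ALL embeddings `j : K̄ → K̄_v`.
The basic facts (`resDecomp_spec`, `resDecomp_unique`, `nonempty_embedding`, `exists_comp_eq`, `resDecomp_comp`, `isUnramifiedAt_iff`) are taken from `SanityDecomp.lean` (namespace `DecompEval`); the author of this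
file had proved them independently, with the same statements, and his copies were cut by the steward.  Here:
* `range_resDecomp_comp` : the images (decomposition groups at `v`) for `j` and `j ∘ τ` are conjugate subgroups;
* `isUnramifiedAt_iff_exists` : `IsUnramifiedAt ρ v` holds iff its condition holds for SOME embedding;
* `transport`, `nilExp_conj`, `isSemisimple_conj`, `isWDOf_transport`, `isFrobSemisimplification_transport`, `isoAlong_transport` : `IsWDOf`, `IsFrobSemisimplification`, `IsoAlong`
  are stable under transport of structure along a linear equivalence;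
* `wdFssIso_iff` : `WDFssIso ρ v ι W` holds iff its condition holds for ONE embedding.
NOT checked here: that `resDecomp v j` is injective or continuous; no example of `IsWDOf`.
-/

set_option autoImplicit false

namespace Claimed.Open.R030

open scoped Classical
open scoped WithZero
open IsDedekindDomain NumberField

namespace ResDecomp

open DecompEval

variable {K : Type} [Field K] [NumberField K]

/-- The decomposition groups at `v` defined by two embeddings are conjugate. -/
theorem range_resDecomp_comp (v : HeightOneSpectrum (𝓞 K))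
    (j : AlgebraicClosure K →ₐ[K] AlgebraicClosure (v.adicCompletion K)) (τ : Gal(AlgebraicClosure K/K)) :
    (resDecomp v (j.comp (τ : AlgebraicClosure K →ₐ[K] AlgebraicClosure K))).range =
      (resDecomp v j).range.map (MulAut.conj τ⁻¹).toMonoidHom := by
  ext g
  constructor
  · rintro ⟨σ, rfl⟩
    exact ⟨resDecomp v j σ, ⟨σ, rfl⟩, by simp [resDecomp_comp]⟩
  · rintro ⟨_, ⟨σ, rfl⟩, rfl⟩
    exact ⟨σ, by simp [resDecomp_comp]⟩

variable {l : ℕ} [Fact l.Prime] {V : Type} [AddCommGroup V] [Module (PadicAlgCl l) V]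

/-- `IsUnramifiedAt` is also equivalent to the condition for SOME embedding. -/
theorem isUnramifiedAt_iff_exists (ρ : Representation (PadicAlgCl l) (Gal(AlgebraicClosure K/K)) V)
    (v : HeightOneSpectrum (𝓞 K)) :
    IsUnramifiedAt ρ v ↔ ∃ j : AlgebraicClosure K →ₐ[K] AlgebraicClosure (v.adicCompletion K),
      ∀ σ : GalAbs (v.adicCompletion K), IsInertia σ → ρ (resDecomp v j σ) = 1 :=
  ⟨fun h => (nonempty_embedding v).elim fun j => ⟨j, h j⟩, fun ⟨j, h⟩ => (isUnramifiedAt_iff ρ v j).2 h⟩

/-! ### `WDFssIso` does not depend on the embedding either -/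

section Transport

variable {F : Type} [Field F] [Valued F ℤᵐ⁰] {C : Type} [Field C]
variable {U U' : Type} [AddCommGroup U] [Module C U] [AddCommGroup U'] [Module C U']

/-- Transport of a Weil–Deligne representation along a linear equivalence. -/
noncomputable def transport (A : WDRep F C U) (e : U ≃ₗ[C] U') : WDRep F C U' where
  r := ((e.conjAlgEquiv C : Module.End C U ≃ₐ[C] Module.End C U') : Module.End C U →* Module.End C U').comp A.r
  N := e.conjAlgEquiv C A.N
  smooth := by
    obtain ⟨L, hL, h⟩ := A.smooth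
    refine ⟨L, hL, fun w hw hx => ?_⟩
    show e.conjAlgEquiv C (A.r w) = 1
    rw [h w hw hx, map_one]
  nilpotent := A.nilpotent.map (e.conjAlgEquiv C)
  rel := fun w n hn => by
    show e.conjAlgEquiv C (A.r w) * e.conjAlgEquiv C A.N = _ • (e.conjAlgEquiv C A.N * e.conjAlgEquiv C (A.r w))
    rw [← map_mul, ← map_mul, ← map_smul, A.rel w n hn]

theorem nilExp_conj (e : U ≃ₗ[C] U') (N : Module.End C U) :
    nilExp (e.conjAlgEquiv C N) = e.conjAlgEquiv C (nilExp N) := by
  have hc : nilpotencyClass (e.conjAlgEquiv C N) = nilpotencyClass N := by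
    unfold nilpotencyClass
    congr 1
    ext k
    simp only [Set.mem_ofPred_eq, ← map_pow]
    exact EmbeddingLike.map_eq_zero_iff
  unfold nilExp
  rw [hc, map_sum]
  refine Finset.sum_congr rfl fun i _ => ?_
  rw [map_smul, map_pow]

theorem isSemisimple_conj (e : U ≃ₗ[C] U') {f : Module.End C U} (hf : f.IsSemisimple) :
    (e.conjAlgEquiv C f).IsSemisimple := by
  rw [Module.End.isSemisimple_iff] at hf ⊢
  intro p hp
  have hp' : p.comap e.toLinearMap ∈ f.invtSubmodule := by
    rw [Module.End.mem_invtSubmodule] at hp ⊢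
    intro x hx
    have := hp hx
    simpa [LinearEquiv.conjAlgEquiv_apply] using this
  obtain ⟨q, hq, hpq⟩ := hf _ hp'
  refine ⟨q.map e.toLinearMap, ?_, ?_⟩
  · rw [Module.End.mem_invtSubmodule] at hq ⊢
    rintro _ ⟨x, hx, rfl⟩
    exact ⟨f x, hq hx, by simp [LinearEquiv.conjAlgEquiv_apply]⟩
  · have h := (Submodule.orderIsoMapComap e).isCompl hpq
    have e1 : (Submodule.orderIsoMapComap e) (p.comap e.toLinearMap) = p :=
      Submodule.map_comap_eq_of_surjective e.surjective p
    rw [e1] at h
    exact h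

theorem isFrobSemisimplification_transport {A B : WDRep F C U} (e : U ≃ₗ[C] U')
    (h : A.IsFrobSemisimplification B) : (transport A e).IsFrobSemisimplification (transport B e) := by
  obtain ⟨hN, Φ, u, h1, h2, h3, h4, h5⟩ := h
  refine ⟨?_, Φ, Units.map ((e.conjAlgEquiv C : Module.End C U ≃ₐ[C] Module.End C U') : Module.End C U →* Module.End C U') u,
    h1, ?_, ?_, ?_, ?_⟩
  · show e.conjAlgEquiv C B.N = e.conjAlgEquiv C A.N
    rw [hN]
  · have := h2.map (e.conjAlgEquiv C)
    rwa [map_sub, map_one] at this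
  · exact h3.map (e.conjAlgEquiv C)
  · have := isSemisimple_conj e h4
    rw [map_mul] at this
    rw [← map_inv]
    exact this
  · intro w n hn
    show e.conjAlgEquiv C (B.r w) = e.conjAlgEquiv C (A.r w) * _
    rw [h5 w n hn, map_mul, ← map_zpow]
    rfl

theorem isoAlong_transport {C' : Type} [Field C'] {W' : Type} [AddCommGroup W'] [Module C' W'] {B : WDRep F C U} (e : U ≃ₗ[C] U')
    {ι : C ≃+* C'} {W : WDRep F C' W'} (h : B.IsoAlong ι W) : (transport B e).IsoAlong ι W := by
  obtain ⟨ε, h1, h2, h3⟩ := h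
  refine ⟨e.symm.toAddEquiv.trans ε, fun c x => ?_, fun w x => ?_, fun x => ?_⟩
  · show ε (e.symm (c • x)) = ι c • ε (e.symm x)
    rw [map_smul, h1]
  · show ε (e.symm (e (B.r w (e.symm x)))) = W.r w (ε (e.symm x))
    rw [e.symm_apply_apply, h2]
  · show ε (e.symm (e (B.N (e.symm x)))) = W.N (ε (e.symm x))
    rw [e.symm_apply_apply, h3]

theorem isWDOf_transport {l : ℕ} [Fact l.Prime] {X X' : Type} [AddCommGroup X] [Module (PadicAlgCl l) X] [AddCommGroup X'] [Module (PadicAlgCl l) X']
    (ρ : Representation (PadicAlgCl l) (GalAbs F) X) (ρ' : Representation (PadicAlgCl l) (GalAbs F) X') (e : X ≃ₗ[PadicAlgCl l] X')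
    (h : ∀ g, ρ' g = e.conjAlgEquiv (PadicAlgCl l) (ρ g)) {A : WDRep F (PadicAlgCl l) X} (hA : IsWDOf ρ A) : IsWDOf ρ' (transport A e) := by
  obtain ⟨Φ, t, h1, h2, h3, h4, h5⟩ := hA
  refine ⟨Φ, t, h1, h2, h3, h4, fun w n σ hσ hw => ?_⟩
  rw [h, h5 w n σ hσ hw, map_mul]
  show _ = e.conjAlgEquiv (PadicAlgCl l) (A.r w) * nilExp (t σ • e.conjAlgEquiv (PadicAlgCl l) A.N)
  rw [← map_smul, nilExp_conj]

end Transport

/-- **The quantifier over the embeddings in `WDFssIso` is harmless**: `ι WD(ρ|_{G_{K_v}})^{F-ss} ≃ W` for one embedding gives it for all. -/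
theorem wdFssIso_iff (ρ : Representation (PadicAlgCl l) (Gal(AlgebraicClosure K/K)) V)
    (v : HeightOneSpectrum (𝓞 K)) (ι : PadicAlgCl l ≃+* ℂ)
    {V' : Type} [AddCommGroup V'] [Module ℂ V'] (W : WDRep (v.adicCompletion K) ℂ V')
    (j : AlgebraicClosure K →ₐ[K] AlgebraicClosure (v.adicCompletion K)) :
    WDFssIso ρ v ι W ↔ ∃ A B : WDRep (v.adicCompletion K) (PadicAlgCl l) V,
      IsWDOf (ρ.comp (resDecomp v j)) A ∧ A.IsFrobSemisimplification B ∧ B.IsoAlong ι W := by
  refine ⟨fun h => h j, fun ⟨A, B, h1, h2, h3⟩ j' => ?_⟩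
  obtain ⟨τ, rfl⟩ := exists_comp_eq v j j'
  let e : V ≃ₗ[PadicAlgCl l] V := LinearEquiv.ofLinearMap (ρ τ⁻¹) (ρ τ)
    (by rw [← Module.End.mul_eq_comp, ← map_mul, inv_mul_cancel, map_one]; rfl)
    (by rw [← Module.End.mul_eq_comp, ← map_mul, mul_inv_cancel, map_one]; rfl)
  refine ⟨transport A e, transport B e, isWDOf_transport _ _ e (fun g => ?_) h1, isFrobSemisimplification_transport e h2,
    isoAlong_transport e h3⟩
  show ρ (resDecomp v _ g) = _
  rw [resDecomp_comp, map_mul, map_mul]
  rfl

end ResDecomp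

end Claimed.Open.R030
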