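import Claimed.Open.R030.SanityTateGalois
import Claimed.Open.R030.SanityGalois

/-!
# Result 030: the clauses of `IsAttachedGaloisRep` on the Galois side, for the curve of `hypotheses_can_be_met`

`Statement` asserts `IsAttachedGaloisRep π ι (H1etRep E l)`.  Its clauses that do not mention `π` are: `H1et E l` has dimension `2`, the representation `H1etRep E l` of `Gal(K̄/K)` is continuous, and it is
semisimple.  This file proves all three, without any hypothesis, for `l = 2` and the curve `E : y² = x³ - x` over `K = ℚ(i)` that witnesses the hypotheses of `Statement` in `Sanity.lean`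
(`gCurve` below unfolds to `gaussCurve`; `Sanity.lean` imports this file, so the definitions are repeated here):

* `sanity_H1etRep_gCurve : Module.finrank (PadicAlgCl 2) (H1et gCurve 2) = 2 ∧ IsContinuousRep (H1etRep gCurve 2) ∧ (H1etRep gCurve 2).IsSemisimpleRepresentation`.

## The proof

1. (G1, G2)  `E(K̄)` is `2`-divisible and `E[2] = {0, (0,0), (1,0), (-1,0)}`; so `T_2 E` has a frame (`TateRk.Frame`, `SanityTateRank.lean`), which gives the dimension `2` and the continuity.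
2. (G0, G3)  `[i] : (x, y) ↦ (-x, i y)` commutes with `Gal(K̄/K)` (because `i ∈ K`) and `[i]² = [-1]`.  So `J = [i]^*` on `H1et E 2` commutes with the representation and `J² = -1`.
3. (H2)  `J` is not one of the scalars `± I`, `I² = -1` in `Q̄_2`: the first element `φ₁` of the dual basis of a frame has values in `ℤ_2`, so `J φ₁ = c φ₁` gives `c = φ₁ ([i] x₁) ∈ ℤ_2`, and `-1` is not a square
   in `ℤ_2` (not even mod `4`).
4. (L2, L1)  So both eigenspaces of `J` are lines, each is stable under `Gal(K̄/K)`, and in a plane with two different stable lines every stable subspace has a stable complement.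
   (For `y² = x³ + 1` the endomorphism `1 + 2[ω]` anticommutes with half of the Galois group and another argument applies; here `[i]` commutes with everything.)
-/

set_option autoImplicit false

namespace Claimed.Open.R030.TateRep

/-! ## G0. Definitions: the curve `y² = x³ - x`, `[i]`  (written by helper275, after `Sanity.lean`) -/

section TqG0

open scoped Classical
open WeierstrassCurve Polynomial

/-- `y² = x³ - x` over `ℚ(i)`: the curve `gaussCurve` of `Sanity.lean` (`hypotheses_can_be_met`) -/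
noncomputable def gCurve : WeierstrassCurve Cm3Field := ⟨0, 0, 0, -1, 0⟩

theorem gCurve_a₁ : (gCurve⁄Cm3Bar).toAffine.a₁ = 0 := by simp [gCurve]
theorem gCurve_a₂ : (gCurve⁄Cm3Bar).toAffine.a₂ = 0 := by simp [gCurve]
theorem gCurve_a₃ : (gCurve⁄Cm3Bar).toAffine.a₃ = 0 := by simp [gCurve]
theorem gCurve_a₄ : (gCurve⁄Cm3Bar).toAffine.a₄ = -1 := by simp [gCurve]
theorem gCurve_a₆ : (gCurve⁄Cm3Bar).toAffine.a₆ = 0 := by simp [gCurve]

set_option backward.isDefEq.respectTransparency false in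
/-- `i ∈ ℚ(i)` -/
noncomputable def gi : Cm3Field := IsCyclotomicExtension.zeta 4 ℚ Cm3Field

set_option backward.isDefEq.respectTransparency false in
theorem gi_sq : gi ^ 2 = -1 := by
  have h : IsPrimitiveRoot gi 4 := IsCyclotomicExtension.zeta_spec 4 ℚ Cm3Field
  have h4 : gi ^ 4 = 1 := h.pow_eq_one
  have h2 : gi ^ 2 ≠ 1 := h.pow_ne_one_of_pos_of_lt (by norm_num) (by norm_num)
  have : (gi ^ 2 - 1) * (gi ^ 2 + 1) = 0 := by linear_combination h4
  rcases mul_eq_zero.mp this with h0 | h0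
  · exact absurd (sub_eq_zero.mp h0) h2
  · linear_combination h0

/-- `i ∈ K̄` -/
noncomputable def giBar : Cm3Bar := algebraMap Cm3Field Cm3Bar gi

theorem giBar_sq : giBar ^ 2 = -1 := by
  rw [giBar, ← map_pow, gi_sq, map_neg, map_one]

/-- the endomorphism `[i] : (x, y) ↦ (-x, i y)` of `y² = x³ - x` -/
noncomputable def gEndo : PtsBar gCurve →+ PtsBar gCurve :=
  cmExHom (gCurve⁄Cm3Bar).toAffine giBar gCurve_a₁ gCurve_a₂ gCurve_a₃ gCurve_a₆ giBar_sq

theorem gEndo_some {x y : Cm3Bar} (h : (gCurve⁄Cm3Bar).toAffine.Nonsingular x y) :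
    gEndo (.some x y h) = .some (-x) (giBar * y)
      (cmEx_nonsingular _ giBar gCurve_a₁ gCurve_a₂ gCurve_a₃ gCurve_a₆ giBar_sq h) := rfl

theorem gCurve_galPts_some (σ : Gal(Cm3Bar/Cm3Field)) {x y : Cm3Bar}
    (h : (gCurve⁄Cm3Bar).toAffine.Nonsingular x y) :
    ∃ h' : (gCurve⁄Cm3Bar).toAffine.Nonsingular (σ x) (σ y),
      galPts gCurve σ (.some x y h) = .some (σ x) (σ y) h' :=
  ⟨_, rfl⟩

/-- `[i]` commutes with the whole Galois group `Gal(K̄/K)`, `K = ℚ(i)`. -/
theorem gEndo_galPts (σ : Gal(Cm3Bar/Cm3Field)) (P : PtsBar gCurve) :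
    gEndo (galPts gCurve σ P) = galPts gCurve σ (gEndo P) := by
  rcases P with _ | ⟨x, y, h⟩
  · rfl
  · obtain ⟨h', e⟩ := gCurve_galPts_some σ h
    rw [e, gEndo_some, gEndo_some]
    obtain ⟨h'', e'⟩ := gCurve_galPts_some σ
      (cmEx_nonsingular _ giBar gCurve_a₁ gCurve_a₂ gCurve_a₃ gCurve_a₆ giBar_sq h)
    rw [e', WeierstrassCurve.Affine.Point.some.injEq]
    refine ⟨(map_neg σ x).symm, ?_⟩
    rw [map_mul, giBar, AlgEquiv.commutes]

end TqG0

/-! ## G1. `2`-divisibility  (written by helper239) -/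

section TqG1

open scoped Classical
open WeierstrassCurve Polynomial

/-- port of `TrEnd.nonsingular_iff` (`SanityNoCM2.lean`, section ModD1) -/
theorem gCurve_nonsingular_iff {x y : Cm3Bar} :
    (gCurve⁄Cm3Bar).toAffine.Nonsingular x y ↔ y ^ 2 = x ^ 3 - x := by
  rw [WeierstrassCurve.Affine.nonsingular_iff, WeierstrassCurve.Affine.equation_iff]
  simp only [gCurve_a₁, gCurve_a₂, gCurve_a₃, gCurve_a₄, gCurve_a₆]
  constructor
  · rintro ⟨h, -⟩
    linear_combination h
  · intro h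
    refine ⟨by linear_combination h, ?_⟩
    by_cases hy : y = 0
    · left
      intro h'
      have hx2 : 3 * x ^ 2 = 1 := by linear_combination -h'
      rw [hy] at h
      have hx : x = 0 := by linear_combination (3 / 2 : Cm3Bar) * h + (1 / 2 : Cm3Bar) * x * hx2
      rw [hx] at hx2
      norm_num at hx2
    · right
      intro h'
      apply hy
      linear_combination h' / 2

theorem g1_exists_y (x : Cm3Bar) : ∃ y : Cm3Bar, y ^ 2 = x ^ 3 - x :=
  IsAlgClosed.exists_pow_nat_eq (x ^ 3 - x) (n := 2) (by norm_num)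

theorem g1_negY_eq (x y : Cm3Bar) : (gCurve⁄Cm3Bar).toAffine.negY x y = -y := by
  rw [WeierstrassCurve.Affine.negY, gCurve_a₁, gCurve_a₃]
  ring

/-- the duplication formula (first coordinate) -/
theorem g1_two_some {x y : Cm3Bar} (h : (gCurve⁄Cm3Bar).toAffine.Nonsingular x y) (hy : y ≠ 0) :
    ∃ y' h', (Affine.Point.some x y h + Affine.Point.some x y h : PtsBar gCurve) =
      .some ((x ^ 2 + 1) ^ 2 / (4 * (x ^ 3 - x))) y' h' := by
  have heq : y ^ 2 = x ^ 3 - x := gCurve_nonsingular_iff.mp h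
  have hYne : y ≠ (gCurve⁄Cm3Bar).toAffine.negY x y := by
    rw [g1_negY_eq]
    intro h'
    apply hy
    linear_combination h' / 2
  have hxy : ¬ (x = x ∧ y = (gCurve⁄Cm3Bar).toAffine.negY x y) := fun h => hYne h.2
  have hns := WeierstrassCurve.Affine.nonsingular_add h h hxy
  have hsl : (gCurve⁄Cm3Bar).toAffine.slope x x y y = (3 * x ^ 2 - 1) / (2 * y) := by
    rw [WeierstrassCurve.Affine.slope_of_Y_ne rfl hYne, g1_negY_eq]
    simp only [gCurve_a₁, gCurve_a₂, gCurve_a₄]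
    congr 1 <;> ring
  have eX : (gCurve⁄Cm3Bar).toAffine.addX x x ((gCurve⁄Cm3Bar).toAffine.slope x x y y) =
      (x ^ 2 + 1) ^ 2 / (4 * (x ^ 3 - x)) := by
    rw [hsl]
    simp only [WeierstrassCurve.Affine.addX, gCurve_a₁, gCurve_a₂]
    rw [← heq]
    field_simp
    linear_combination (-32 * x) * heq
  rw [eX] at hns
  refine ⟨_, hns, ?_⟩
  rw [WeierstrassCurve.Affine.Point.add_some hxy, WeierstrassCurve.Affine.Point.some.injEq]
  exact ⟨eX, rfl⟩

theorem g1_some_eq_or_eq_neg {x y y' : Cm3Bar} (h : (gCurve⁄Cm3Bar).toAffine.Nonsingular x y)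
    (h' : (gCurve⁄Cm3Bar).toAffine.Nonsingular x y') :
    (Affine.Point.some x y h : PtsBar gCurve) = .some x y' h' ∨
      (Affine.Point.some x y h : PtsBar gCurve) = -.some x y' h' := by
  have e : y ^ 2 = y' ^ 2 := by rw [gCurve_nonsingular_iff.mp h, gCurve_nonsingular_iff.mp h']
  rcases sq_eq_sq_iff_eq_or_eq_neg.mp e with rfl | rfl
  · exact Or.inl rfl
  · right
    rw [WeierstrassCurve.Affine.Point.neg_some, WeierstrassCurve.Affine.Point.some.injEq]
    exact ⟨rfl, (g1_negY_eq x y').symm⟩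

/-- port of `cubeCurve_exists_half` (`SanityClauses.lean`) / `TrEnd.exists_half`: `x(2Q) = (x² + 1)² / (4 (x³ - x))`; a root `x₁` of `(X² + 1)² - 4 x₀ (X³ - X)` has `x₁³ - x₁ ≠ 0` -/
theorem gCurve_exists_half (P : PtsBar gCurve) : ∃ Q : PtsBar gCurve, Q + Q = P := by
  rcases P with _ | ⟨x₀, y₀, h₀⟩
  · exact ⟨0, add_zero 0⟩
  · let p : Cm3Bar[X] := X ^ 4 - C (4 * x₀) * X ^ 3 + C 2 * X ^ 2 + C (4 * x₀) * X + C 1
    have hdeg : p.degree ≠ 0 := by
      have h2 : p.natDegree = 4 := by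
        simp only [p]
        compute_degree!
      intro h0
      have h3 : p.natDegree = 0 := natDegree_eq_zero_iff_degree_le_zero.mpr h0.le
      omega
    obtain ⟨x₁, hx₁⟩ := IsAlgClosed.exists_root p hdeg
    have hx₁' : x₁ ^ 4 - 4 * x₀ * x₁ ^ 3 + 2 * x₁ ^ 2 + 4 * x₀ * x₁ + 1 = 0 := by
      simpa [p, IsRoot] using hx₁
    have hne : x₁ ^ 3 - x₁ ≠ 0 := by
      intro h
      have h2 : (x₁ ^ 2 + 1) ^ 2 = 0 := by linear_combination hx₁' + 4 * x₀ * h
      have h3 : x₁ ^ 2 + 1 = 0 := by simpa using h2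
      have h0 : x₁ = 0 := by
        linear_combination (1 / 2 : Cm3Bar) * x₁ * h3 - (1 / 2 : Cm3Bar) * h
      rw [h0] at h3
      norm_num at h3
    obtain ⟨y₁, hy₁⟩ := g1_exists_y x₁
    have hy₁0 : y₁ ≠ 0 := by
      rintro rfl
      exact hne (by rw [← hy₁]; ring)
    have hQ : (gCurve⁄Cm3Bar).toAffine.Nonsingular x₁ y₁ := gCurve_nonsingular_iff.mpr hy₁
    obtain ⟨y', hns, hadd⟩ := g1_two_some hQ hy₁0
    have hX : (x₁ ^ 2 + 1) ^ 2 / (4 * (x₁ ^ 3 - x₁)) = x₀ := by
      rw [div_eq_iff (mul_ne_zero (by norm_num) hne)]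
      linear_combination hx₁'
    have h₀' : (gCurve⁄Cm3Bar).toAffine.Nonsingular ((x₁ ^ 2 + 1) ^ 2 / (4 * (x₁ ^ 3 - x₁))) y₀ := by
      rw [hX]; exact h₀
    have e₀ : (Affine.Point.some x₀ y₀ h₀ : PtsBar gCurve) = .some _ y₀ h₀' := by
      rw [Affine.Point.some.injEq]
      exact ⟨hX.symm, rfl⟩
    rcases g1_some_eq_or_eq_neg hns h₀' with e | e
    · exact ⟨.some x₁ y₁ hQ, by rw [hadd, e, e₀]⟩
    · exact ⟨-.some x₁ y₁ hQ, by rw [← neg_add, hadd, e, neg_neg, e₀]⟩

end TqG1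

/-! ## G2. The points of order `2`; a frame of `T_2`  (written by helper275) -/

section TqG2

open scoped Classical
open WeierstrassCurve Polynomial
open Claimed.Open.R030.TateRk

/-- the frame that is hidden in `finrank_H1et_eq_two` (copy its proof, `SanityTateRank.lean`, section TkC4) -/
theorem exists_frame {k : Type} [Field k] {E : WeierstrassCurve k} {l : ℕ}
    (hdiv : ∀ Q : PtsBar E, ∃ P : PtsBar E, l • P = Q) (e₁ e₂ : PtsBar E)
    (he₁ : l • e₁ = 0) (he₂ : l • e₂ = 0)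
    (span : ∀ Q : PtsBar E, l • Q = 0 → ∃ a b : ℤ, Q = a • e₁ + b • e₂)
    (indep : ∀ a b : ℤ, a • e₁ + b • e₂ = 0 → (l : ℤ) ∣ a ∧ (l : ℤ) ∣ b) :
    ∃ x₁ x₂ : tateModule E l, Frame l x₁.1 x₂.1 := by
  obtain ⟨x₁, hx₁, h1⟩ := exists_isSeq hdiv e₁ he₁
  obtain ⟨x₂, hx₂, h2⟩ := exists_isSeq hdiv e₂ he₂
  refine ⟨⟨x₁, hx₁⟩, ⟨x₂, hx₂⟩, ⟨hx₁, hx₂, ?_, ?_⟩⟩
  · intro Q hQ
    show ∃ a b : ℤ, Q = a • x₁ 1 + b • x₂ 1
    rw [h1, h2]
    exact span Q hQ
  · intro a b hab
    have hab' : a • x₁ 1 + b • x₂ 1 = 0 := hab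
    rw [h1, h2] at hab'
    exact indep a b hab'

/-- the point `(x, 0)`, `x ∈ {0, 1, -1}`, of order `2` (and `0` for the other `x`) -/
noncomputable def gt (x : Cm3Bar) : PtsBar gCurve :=
  if hx : x ^ 3 - x = 0 then .some x 0 (gCurve_nonsingular_iff.mpr (by rw [hx]; ring)) else 0

theorem g2_gt_eq_some {x : Cm3Bar} (hx : x ^ 3 - x = 0) : ∃ h, gt x = .some x 0 h := by
  unfold gt
  rw [dif_pos hx]
  exact ⟨_, rfl⟩

theorem g2_add_self_of_y_eq_zero {x : Cm3Bar} (h : (gCurve⁄Cm3Bar).toAffine.Nonsingular x 0) :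
    (Affine.Point.some x 0 h + Affine.Point.some x 0 h : PtsBar gCurve) = 0 :=
  Affine.Point.add_self_of_Y_eq (by rw [Affine.negY, gCurve_a₁, gCurve_a₃]; ring)

/-- compare `TrEnd.tt_add_self`, `tt_ne_zero`, `tt_inj`, `two_torsion_cases` (`SanityNoCM2.lean`, section ModT1) -/
theorem gt_add_self (x : Cm3Bar) : gt x + gt x = 0 := by
  by_cases hx : x ^ 3 - x = 0
  · obtain ⟨h, e⟩ := g2_gt_eq_some hx
    rw [e]
    exact g2_add_self_of_y_eq_zero h
  · have e : gt x = 0 := by
      unfold gt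
      rw [dif_neg hx]
    rw [e, add_zero]

theorem gt_ne_zero {x : Cm3Bar} (hx : x ^ 3 - x = 0) : gt x ≠ 0 := by
  obtain ⟨h, e⟩ := g2_gt_eq_some hx
  rw [e]
  exact Affine.Point.some_ne_zero h

theorem gt_zero_ne_gt_one : gt 0 ≠ gt 1 := by
  obtain ⟨h1, e1⟩ := g2_gt_eq_some (x := 0) (by ring)
  obtain ⟨h2, e2⟩ := g2_gt_eq_some (x := 1) (by ring)
  rw [e1, e2]
  intro h
  exact zero_ne_one (Affine.Point.some.inj h).1

theorem gCurve_two_torsion_cases {T : PtsBar gCurve} (hT : T + T = 0) :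
    T = 0 ∨ T = gt 0 ∨ T = gt 1 ∨ T = gt (-1) := by
  rcases T with _ | ⟨x, y, h⟩
  · exact Or.inl rfl
  · right
    by_cases hy : y = 0
    · subst hy
      have hx : x ^ 3 - x = 0 := by
        have := gCurve_nonsingular_iff.mp h
        linear_combination -this
      have hx' : x * ((x - 1) * (x + 1)) = 0 := by linear_combination hx
      rcases mul_eq_zero.mp hx' with h0 | h0
      · subst h0
        obtain ⟨h', e⟩ := g2_gt_eq_some (x := 0) (by ring)
        exact Or.inl (by rw [e])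
      · rcases mul_eq_zero.mp h0 with h1 | h1
        · obtain rfl : x = 1 := by linear_combination h1
          obtain ⟨h', e⟩ := g2_gt_eq_some (x := 1) (by ring)
          exact Or.inr (Or.inl (by rw [e]))
        · obtain rfl : x = -1 := by linear_combination h1
          obtain ⟨h', e⟩ := g2_gt_eq_some (x := -1) (by ring)
          exact Or.inr (Or.inr (by rw [e]))
    · exfalso
      have hYne : y ≠ (gCurve⁄Cm3Bar).toAffine.negY x y := by
        rw [Affine.negY, gCurve_a₁, gCurve_a₃]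
        intro h'
        apply hy
        linear_combination h' / 2
      rw [Affine.Point.add_self_of_Y_ne hYne] at hT
      exact Affine.Point.some_ne_zero _ hT

/-- `gt 0 + gt 1` is killed by `2` and is none of `0`, `gt 0`, `gt 1` -/
theorem gt_zero_add_gt_one : gt 0 + gt 1 = gt (-1) := by
  have h0 : gt 0 + gt 0 = 0 := gt_add_self 0
  have h1 : gt 1 + gt 1 = 0 := gt_add_self 1
  have hS : (gt 0 + gt 1) + (gt 0 + gt 1) = 0 := by
    rw [add_add_add_comm, h0, h1, add_zero]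
  rcases gCurve_two_torsion_cases hS with h | h | h | h
  · exfalso
    apply gt_zero_ne_gt_one
    have : gt 0 = -gt 1 := eq_neg_of_add_eq_zero_left h
    rw [this]
    exact neg_eq_of_add_eq_zero_left h1
  · exfalso
    exact gt_ne_zero (x := 1) (by ring) (by simpa using h)
  · exfalso
    exact gt_ne_zero (x := 0) (by ring) (by simpa using h)
  · exact h

/-- `exists_frame`, `klein_span_indep` with `e₁ = gt 0`, `e₂ = gt 1`, `gCurve_exists_half` (as in `sanity_finrank_H1et_trCurve`) -/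
theorem exists_frame_gCurve : ∃ x₁ x₂ : tateModule gCurve 2, Frame 2 x₁.1 x₂.1 := by
  obtain ⟨hs, hi⟩ := klein_span_indep (gt 0) (gt 1) (gt_add_self _) (gt_add_self _)
    (gt_ne_zero (by ring)) (gt_ne_zero (by ring)) gt_zero_ne_gt_one
    (fun Q hQ => by
      rcases gCurve_two_torsion_cases hQ with h | h | h | h
      · exact Or.inl h
      · exact Or.inr (Or.inl h)
      · exact Or.inr (Or.inr (Or.inl h))
      · exact Or.inr (Or.inr (Or.inr (by rw [h, gt_zero_add_gt_one]))))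
  refine exists_frame (fun Q => ?_) _ _ ?_ ?_ hs hi
  · obtain ⟨P, hP⟩ := gCurve_exists_half Q
    exact ⟨P, by rw [two_smul]; exact hP⟩
  · rw [two_smul]; exact gt_add_self _
  · rw [two_smul]; exact gt_add_self _

end TqG2

/-! ## G3. `[i]² = [-1]`  (written by helper275) -/

section TqG3

open scoped Classical
open WeierstrassCurve Polynomial

/-- `(x, y) ↦ (-x, i y) ↦ (x, -y)` (`gEndo_some` twice, `giBar_sq`, `Affine.Point.neg_some`, `Affine.negY`, `gCurve_a₁`, `gCurve_a₃`) -/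
theorem gEndo_gEndo (P : PtsBar gCurve) : gEndo (gEndo P) = -P := by
  rcases P with _ | ⟨x, y, h⟩
  · rfl
  · rw [gEndo_some, gEndo_some, Affine.Point.neg_some, Affine.Point.some.injEq]
    refine ⟨neg_neg x, ?_⟩
    rw [Affine.negY, gCurve_a₁, gCurve_a₃]
    linear_combination y * giBar_sq

end TqG3

/-! ## L1. Linear algebra: two stable lines  (written by helper172) -/

section TqL1

variable {F G V : Type} [Field F] [Monoid G] [AddCommGroup V] [Module F V]

/-- In dimension `2` a line through a vector outside a nonzero subspace `W` is a complement of `W`. -/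
theorem l1_isCompl_span (h2 : Module.finrank F V = 2) (W : Submodule F V) (hW0 : W ≠ ⊥) (v : V)
    (hv : v ∉ W) : IsCompl W (Submodule.span F {v}) := by
  have : FiniteDimensional F V := Module.finite_of_finrank_pos (by omega)
  have hv0 : v ≠ 0 := by
    rintro rfl
    exact hv W.zero_mem
  have hd : Disjoint W (Submodule.span F {v}) :=
    Submodule.disjoint_span_singleton.2 (fun h => absurd h hv)
  refine ⟨hd, ?_⟩
  rw [codisjoint_iff]
  apply Submodule.eq_top_of_finrank_eq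
  have h1 := Submodule.finrank_sup_add_finrank_inf_eq W (Submodule.span F {v})
  rw [disjoint_iff.1 hd, finrank_bot, finrank_span_singleton hv0] at h1
  have h3 : 1 ≤ Module.finrank F W := Submodule.one_le_finrank_iff.2 hW0
  have h4 := Submodule.finrank_le (W ⊔ Submodule.span F {v})
  omega

/-- The line spanned by a common eigenvector is stable. -/
theorem l1_stable_span (ρ : Representation F G V) (v : V) (h : ∀ g, ∃ c : F, ρ g v = c • v)
    (g : G) (w : V) (hw : w ∈ Submodule.span F {v}) : ρ g w ∈ Submodule.span F {v} := by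
  obtain ⟨a, rfl⟩ := Submodule.mem_span_singleton.1 hw
  obtain ⟨c, hc⟩ := h g
  rw [map_smul, hc]
  exact Submodule.smul_mem _ _ (Submodule.smul_mem _ _ (Submodule.mem_span_singleton_self v))

/-- Let `L₁ = F v₁`, `L₂ = F v₂` (stable lines).  For a stable subspace `W`: `finrank W = 0`: `W = ⊥`, complement `⊤`; `finrank W = 2`: `W = ⊤`, complement `⊥`;
`finrank W = 1`: if `v₁ ∉ W` then `L₁` is a complement (`W ⊓ L₁ = ⊥`, and `finrank (W ⊔ L₁) = 2`), otherwise `W = L₁` and `L₂` is a complement.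
(`isCompl_iff`, `disjoint_iff`, `codisjoint_iff`; `Submodule.finrank_sup_add_finrank_inf_eq`, `Submodule.eq_top_of_finrank_eq`, `finrank_span_singleton`; `Module.finite_of_finrank_pos`) -/
theorem exists_isCompl_of_two_eigenvectors (ρ : Representation F G V)
    (h2 : Module.finrank F V = 2) (v₁ v₂ : V) (hli : LinearIndependent F ![v₁, v₂])
    (h₁ : ∀ g, ∃ c : F, ρ g v₁ = c • v₁) (h₂ : ∀ g, ∃ c : F, ρ g v₂ = c • v₂)
    (W : Submodule F V) (_hW : ∀ g v, v ∈ W → ρ g v ∈ W) :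
    ∃ W' : Submodule F V, (∀ g v, v ∈ W' → ρ g v ∈ W') ∧ IsCompl W W' := by
  have : FiniteDimensional F V := Module.finite_of_finrank_pos (by omega)
  by_cases hW0 : W = ⊥
  · exact ⟨⊤, fun _ _ _ => Submodule.mem_top, hW0 ▸ isCompl_bot_top⟩
  by_cases hv₁ : v₁ ∈ W
  · by_cases hv₂ : v₂ ∈ W
    · have htop : W = ⊤ := by
        apply Submodule.eq_top_of_finrank_eq
        have h3 : Submodule.span F (Set.range ![v₁, v₂]) ≤ W := by
          rw [Submodule.span_le]
          rintro _ ⟨i, rfl⟩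
          fin_cases i
          · exact hv₁
          · exact hv₂
        have h4 := Submodule.finrank_mono h3
        rw [finrank_span_eq_card hli, Fintype.card_fin] at h4
        have h5 := Submodule.finrank_le W
        omega
      refine ⟨⊥, fun g v hv => ?_, htop ▸ isCompl_top_bot⟩
      rw [Submodule.mem_bot] at hv ⊢
      rw [hv, map_zero]
    · exact ⟨Submodule.span F {v₂}, l1_stable_span ρ v₂ h₂, l1_isCompl_span h2 W hW0 v₂ hv₂⟩
  · exact ⟨Submodule.span F {v₁}, l1_stable_span ρ v₁ h₁, l1_isCompl_span h2 W hW0 v₁ hv₁⟩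

end TqL1

/-! ## L2. Linear algebra: an operator `J` with `J² = -1` in the commutant  (written by helper153) -/

section TqL2

variable {F G V : Type} [Field F] [Monoid G] [AddCommGroup V] [Module F V]

/-- `v₁ = J u + I u` with `J u ≠ -I u`: `v₁ ≠ 0`, `J v₁ = I v₁`;  `v₂ = J u' - I u'` with `J u' ≠ I u'`: `v₂ ≠ 0`, `J v₂ = -I v₂`.  Independent because `I ≠ -I` (`2 ≠ 0`, `I ≠ 0`); so a basis
(`finrank = 2`: `basisOfLinearIndependentOfCardEqFinrank`, or `LinearIndependent.span_eq_top_of_card_eq_finrank`).  `ρ g v₁ = a v₁ + b v₂`; apply `J`: `I (a v₁ + b v₂) = a I v₁ - b I v₂`, so `2 I b v₂ = 0`, `b = 0`. -/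
theorem exists_two_eigenvectors (ρ : Representation F G V) (h2 : Module.finrank F V = 2)
    (J : V →ₗ[F] V) (hJ : ∀ v, J (J v) = -v) (hcomm : ∀ g v, J (ρ g v) = ρ g (J v))
    (I : F) (hI : I * I = -1) (htwo : (2 : F) ≠ 0) (hp : ∃ v, J v ≠ I • v)
    (hm : ∃ v, J v ≠ -(I • v)) :
    ∃ v₁ v₂ : V, LinearIndependent F ![v₁, v₂] ∧ (∀ g, ∃ c : F, ρ g v₁ = c • v₁) ∧
      ∀ g, ∃ c : F, ρ g v₂ = c • v₂ := by
  obtain ⟨u', hu'⟩ := hp
  obtain ⟨u, hu⟩ := hm
  have hI0 : I ≠ 0 := by
    rintro rfl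
    have h1 : (0 : F) = -1 := by rw [← hI, mul_zero]
    have h3 : (2 : F) = 0 := by
      have : (1 : F) = 0 := by
        have := congrArg (fun x => -x) h1
        simpa using this.symm
      calc (2 : F) = 1 + 1 := by norm_num
        _ = 0 := by rw [this, add_zero]
    exact htwo h3
  have h2I : (2 : F) * I ≠ 0 := mul_ne_zero htwo hI0
  have hII : ∀ w : V, I • I • w = -w := fun w => by rw [smul_smul, hI, neg_one_smul]
  obtain ⟨v₁, hv₁⟩ : ∃ v : V, v = J u + I • u := ⟨_, rfl⟩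
  obtain ⟨v₂, hv₂⟩ : ∃ v : V, v = J u' - I • u' := ⟨_, rfl⟩
  have hv₁0 : v₁ ≠ 0 := fun h => hu (eq_neg_of_add_eq_zero_left (hv₁ ▸ h))
  have hv₂0 : v₂ ≠ 0 := fun h => hu' (sub_eq_zero.1 (hv₂ ▸ h))
  have hJ1 : J v₁ = I • v₁ := by
    rw [hv₁, map_add, map_smul, hJ, smul_add, hII]
    abel
  have hJ2 : J v₂ = -(I • v₂) := by
    rw [hv₂, map_sub, map_smul, hJ, smul_sub, hII]
    abel
  -- the key computation
  have key : ∀ a b : F, J (a • v₁ + b • v₂) = I • (a • v₁ + b • v₂) → b = 0 := by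
    intro a b h
    rw [map_add, map_smul, map_smul, hJ1, hJ2, smul_add] at h
    have h3 : ((2 * I) * b) • v₂ = 0 := by
      have h4 : b • -(I • v₂) = I • b • v₂ := by
        have := h
        rw [smul_comm a I v₁] at this
        exact add_left_cancel this
      have h5 : ((2 * I) * b) • v₂ = I • b • v₂ - b • -(I • v₂) := by
        rw [smul_neg, sub_neg_eq_add, smul_smul, smul_smul, ← add_smul]
        congr 1
        ring
      rw [h5, h4, sub_self]
    rcases smul_eq_zero.1 h3 with h4 | h4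
    · exact (mul_eq_zero.1 h4).resolve_left h2I
    · exact absurd h4 hv₂0
  have key' : ∀ a b : F, J (a • v₁ + b • v₂) = -(I • (a • v₁ + b • v₂)) → a = 0 := by
    intro a b h
    rw [map_add, map_smul, map_smul, hJ1, hJ2, smul_add, neg_add] at h
    have h3 : ((2 * I) * a) • v₁ = 0 := by
      have h4 : a • I • v₁ = -(I • a • v₁) := by
        have := h
        rw [smul_neg, smul_comm b I v₂] at this
        exact add_right_cancel this
      have h5 : ((2 * I) * a) • v₁ = a • I • v₁ - -(I • a • v₁) := by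
        rw [sub_neg_eq_add, smul_smul, smul_smul, ← add_smul]
        congr 1
        ring
      rw [h5, h4, sub_self]
    rcases smul_eq_zero.1 h3 with h4 | h4
    · exact (mul_eq_zero.1 h4).resolve_left h2I
    · exact absurd h4 hv₁0
  have hli : LinearIndependent F ![v₁, v₂] := by
    rw [LinearIndependent.pair_iff]
    intro a b hab
    exact ⟨key' a b (by rw [hab, map_zero, smul_zero, neg_zero]), key a b (by rw [hab, map_zero, smul_zero])⟩
  have hspan : Submodule.span F (Set.range ![v₁, v₂]) = ⊤ :=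
    hli.span_eq_top_of_card_eq_finrank (by rw [h2]; rfl)
  have hrange : Set.range ![v₁, v₂] = {v₁, v₂} := by
    ext w
    simp only [Set.mem_range, Set.mem_insert_iff, Set.mem_singleton_iff]
    constructor
    · rintro ⟨i, rfl⟩
      fin_cases i
      · exact Or.inl rfl
      · exact Or.inr rfl
    · rintro (rfl | rfl)
      · exact ⟨0, rfl⟩
      · exact ⟨1, rfl⟩
  have hmem : ∀ w : V, ∃ a b : F, a • v₁ + b • v₂ = w := by
    intro w
    have : w ∈ Submodule.span F (Set.range ![v₁, v₂]) := by rw [hspan]; exact Submodule.mem_top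
    rw [hrange] at this
    exact Submodule.mem_span_pair.1 this
  refine ⟨v₁, v₂, hli, fun g => ?_, fun g => ?_⟩
  · obtain ⟨a, b, hab⟩ := hmem (ρ g v₁)
    have hb : b = 0 := key a b (by rw [hab, hcomm, hJ1, map_smul])
    exact ⟨a, by rw [← hab, hb, zero_smul, add_zero]⟩
  · obtain ⟨a, b, hab⟩ := hmem (ρ g v₂)
    have ha : a = 0 := key' a b (by rw [hab, hcomm, hJ2, map_neg, map_smul])
    exact ⟨b, by rw [← hab, ha, zero_smul, zero_add]⟩

end TqL2

/-! ## H2. The dual basis has values in `ℤ_l`; `[i]^*` is not a scalar  (written by helper275) -/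

section TqH2

open scoped Classical
open Claimed.Open.R030.TateRk

variable {k : Type} [Field k] {E : WeierstrassCurve k} {l : ℕ} [Fact l.Prime]

/-- the proof of `exists_dual` (`SanityTateRank.lean`, section TkC2) gives this: `φ₁ P` is the image of the coordinate `c₁ P ∈ ℤ_l` -/
theorem exists_dual_int {x₁ x₂ : tateModule E l} (F : Frame l x₁.1 x₂.1) :
    ∃ φ₁ : H1et E l, φ₁.1 x₁ = 1 ∧ φ₁.1 x₂ = 0 ∧
      ∀ P, ∃ z : ℤ_[l], φ₁.1 P = algebraMap ℚ_[l] (PadicAlgCl l) ((z : ℤ_[l]) : ℚ_[l]) := by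
  choose c₁ c₂ hc using fun P : tateModule E l => F.exists_isCoord (isSeq_of_tateModule P)
  have hadd : ∀ P Q : tateModule E l, c₁ (P + Q) = c₁ P + c₁ Q ∧ c₂ (P + Q) = c₂ P + c₂ Q :=
    fun P Q => F.isCoord_unique (hc (P + Q)) ((hc P).add (hc Q))
  have hsmall : ∀ (n : ℕ) (P : tateModule E l), P.1 n = 0 →
      (l : ℤ_[l]) ^ n ∣ c₁ P ∧ (l : ℤ_[l]) ^ n ∣ c₂ P :=
    fun n P hP => F.isCoord_small (hc P) hP
  have h1 : c₁ x₁ = 1 ∧ c₂ x₁ = 0 := F.isCoord_unique (hc x₁) isCoord_left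
  have h2 : c₁ x₂ = 0 ∧ c₂ x₂ = 1 := F.isCoord_unique (hc x₂) isCoord_right
  refine ⟨⟨_, mem_H1et_of_coord c₁ (fun P Q => (hadd P Q).1) (fun n P hP => (hsmall n P hP).1)⟩,
    ?_, ?_, fun P => ⟨c₁ P, rfl⟩⟩
  · show algebraMap ℚ_[l] (PadicAlgCl l) ((c₁ x₁ : ℤ_[l]) : ℚ_[l]) = 1
    rw [h1.1, PadicInt.coe_one, map_one]
  · show algebraMap ℚ_[l] (PadicAlgCl l) ((c₁ x₂ : ℤ_[l]) : ℚ_[l]) = 0
    rw [h2.1, PadicInt.coe_zero, map_zero]

/-- `PadicInt.toZModPow 2 : ℤ_[2] →+* ZMod (2 ^ 2)`, and `∀ a : ZMod 4, a * a ≠ -1` by `decide` -/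
theorem padicInt_two_mul_self_ne (z : ℤ_[2]) : z * z ≠ -1 := by
  intro h
  have h1 := congrArg (PadicInt.toZModPow (p := 2) 2) h
  rw [map_mul, map_neg, map_one] at h1
  have key : ∀ a : ZMod (2 ^ 2), a * a ≠ -1 := by decide
  exact key _ h1

/-- a square root of `-1` in `Q̄_2` is not in the image of `ℤ_2` (the two maps are injective ring homomorphisms: `PadicInt.coe_mul`, `map_mul`, `FaithfulSMul.algebraMap_injective` / `(algebraMap _ _).injective`, `Subtype.coe_injective`) -/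
theorem ne_algebraMap_of_mul_self {I : PadicAlgCl 2} (hI : I * I = -1) (z : ℤ_[2]) :
    I ≠ algebraMap ℚ_[2] (PadicAlgCl 2) ((z : ℤ_[2]) : ℚ_[2]) := by
  intro h
  apply padicInt_two_mul_self_ne z
  have h1 : algebraMap ℚ_[2] (PadicAlgCl 2) (((z * z : ℤ_[2]) : ℤ_[2]) : ℚ_[2]) =
      algebraMap ℚ_[2] (PadicAlgCl 2) (((-1 : ℤ_[2]) : ℤ_[2]) : ℚ_[2]) := by
    rw [PadicInt.coe_mul, map_mul, ← h, hI, PadicInt.coe_neg, PadicInt.coe_one, map_neg, map_one]
  exact Subtype.coe_injective ((algebraMap ℚ_[2] (PadicAlgCl 2)).injective h1)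

/-- if `f^* φ₁ = c φ₁` for the `φ₁` of `exists_dual_int`, evaluate at `x₁`: `c = φ₁ (f x₁)` lies in the image of `ℤ_2` -/
theorem exists_h1Map_ne_smul {x₁ x₂ : tateModule E 2} (F : Frame 2 x₁.1 x₂.1)
    (f : PtsBar E →+ PtsBar E) {I : PadicAlgCl 2} (hI : I * I = -1) :
    ∃ φ : H1et E 2, h1Map f φ ≠ I • φ := by
  obtain ⟨φ₁, h11, -, hint⟩ := exists_dual_int F
  refine ⟨φ₁, fun h => ?_⟩
  obtain ⟨z, hz⟩ := hint (tateMap f x₁)
  apply ne_algebraMap_of_mul_self hI z
  have h2 : (h1Map f φ₁).1 x₁ = (I • φ₁).1 x₁ := by rw [h]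
  have h3 : (h1Map f φ₁).1 x₁ = φ₁.1 (tateMap f x₁) := rfl
  have h4 : (I • φ₁).1 x₁ = I * φ₁.1 x₁ := rfl
  rw [h3, h4, h11, mul_one] at h2
  rw [← h2, hz]

end TqH2

/-! ## W. The three clauses  (written by helper245) -/

section TqW

open scoped Classical
open Claimed.Open.R030.TateRk

/-- `Q̄_2` is algebraically closed (`IsAlgClosed.exists_pow_nat_eq` or `IsAlgClosed.exists_root`) -/
theorem exists_sqrt_neg_one : ∃ I : PadicAlgCl 2, I * I = -1 := by
  obtain ⟨I, hI⟩ := IsAlgClosed.exists_pow_nat_eq (-1 : PadicAlgCl 2) (n := 2) (by norm_num)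
  exact ⟨I, by rw [← hI, sq]⟩

/-- `Q̄_2` has characteristic `0` -/
theorem two_ne_zero_padicAlgCl : (2 : PadicAlgCl 2) ≠ 0 := by
  have h : algebraMap ℚ_[2] (PadicAlgCl 2) 2 ≠ 0 :=
    (map_ne_zero_iff _ (algebraMap ℚ_[2] (PadicAlgCl 2)).injective).2 two_ne_zero
  rwa [map_ofNat] at h

/-- **The third clause of `IsAttachedGaloisRep`**: `H¹_ét(E_{K̄}, Q̄_2)` is a semisimple representation of `Gal(K̄/K)` for `E : y² = x³ - x`, `K = ℚ(i)`: it is the sum of the two eigenlines of `[i]^*`.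
(`exists_frame_gCurve`, `finrank_H1et_of_frame`; `J = h1Map gEndo`; `J (J φ) = -φ`: `h1Map_h1Map`, `gEndo_gEndo`, `h1Map_zsmul_id (-1)` or `h1Map_neg`; `J` commutes with `H1etRep`: `H1etRep_h1Map σ gEndo gEndo` + `gEndo_galPts σ⁻¹`;
`exists_h1Map_ne_smul` for `I` and for `-I`; `exists_two_eigenvectors`, `exists_isCompl_of_two_eigenvectors`, `isSemisimpleRepresentation_of_exists_isCompl`) -/
theorem isSemisimple_H1etRep_gCurve : (H1etRep gCurve 2).IsSemisimpleRepresentation := by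
  obtain ⟨x₁, x₂, F⟩ := exists_frame_gCurve
  have h2 : Module.finrank (PadicAlgCl 2) (H1et gCurve 2) = 2 := finrank_H1et_of_frame F
  obtain ⟨I, hI⟩ := exists_sqrt_neg_one
  have hI' : (-I) * (-I) = -1 := by rw [neg_mul_neg, hI]
  have hcomp : gEndo.comp gEndo = -AddMonoidHom.id (PtsBar gCurve) :=
    AddMonoidHom.ext fun P => gEndo_gEndo P
  have hJ : ∀ φ : H1et gCurve 2, h1Map gEndo (h1Map gEndo φ) = -φ := by
    intro φ
    have hid : h1Map (AddMonoidHom.id (PtsBar gCurve)) φ = φ := Subtype.ext (funext fun _ => rfl)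
    rw [h1Map_h1Map, hcomp, h1Map_neg, hid]
  have hcomm : ∀ (σ : Gal(Cm3Bar/Cm3Field)) (φ : H1et gCurve 2),
      h1Map gEndo (H1etRep gCurve 2 σ φ) = H1etRep gCurve 2 σ (h1Map gEndo φ) := fun σ φ =>
    (H1etRep_h1Map σ gEndo gEndo (fun P => gEndo_galPts σ⁻¹ P) φ).symm
  obtain ⟨φp, hp⟩ := exists_h1Map_ne_smul F gEndo hI
  obtain ⟨φm, hm⟩ := exists_h1Map_ne_smul F gEndo hI'
  obtain ⟨v₁, v₂, hli, h₁, h₂⟩ := exists_two_eigenvectors (H1etRep gCurve 2) h2 (h1Map gEndo) hJ hcomm I hI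
    two_ne_zero_padicAlgCl ⟨φp, hp⟩ ⟨φm, fun h => hm (h.trans (neg_smul I φm).symm)⟩
  exact isSemisimpleRepresentation_of_exists_isCompl _ fun W hW =>
    exists_isCompl_of_two_eigenvectors (H1etRep gCurve 2) h2 v₁ v₂ hli h₁ h₂ W hW

/-- **Every clause of `IsAttachedGaloisRep π ι (H1etRep E 2)` that does not mention `π`** (dimension `2`, continuity, semisimplicity), for the curve `E : y² = x³ - x` over `ℚ(i)` of `hypotheses_can_be_met`. -/
theorem sanity_H1etRep_gCurve :
    Module.finrank (PadicAlgCl 2) (H1et gCurve 2) = 2 ∧ IsContinuousRep (H1etRep gCurve 2) ∧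
      (H1etRep gCurve 2).IsSemisimpleRepresentation := by
  obtain ⟨x₁, x₂, F⟩ := exists_frame_gCurve
  exact ⟨finrank_H1et_of_frame F, isContinuousRep_of_frame F, isSemisimple_H1etRep_gCurve⟩

end TqW

end Claimed.Open.R030.TateRep
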