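import Claimed.Open.R030.SanityTateGalois

/-!
# Result 030: `H¹_ét(E₃, Q̄_2)` is induced from `K(ω)`

`E₃ : y² = x³ + 1` over `K = ℚ(i)` is the witness of the premises of the last clause of `Statement` (complex multiplication by `ℤ[ω]`, not
defined over `K`); the conclusion of that clause says that the automorphic representation is the automorphic induction of a Hecke
character of the quadratic extension `L = K(ω)`.  This file checks the Galois side of that shape for the representation `H1etRep E₃ 2` of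
`Statement.lean`, with `D = (1 + 2 [ω])^*`, `D² = -3` (`SanityTateGalois.lean`):

* `sanity_H1etRep_cubeCurve_induced`: `H¹ = L₁ ⊕ L₂`, two lines (the eigenspaces of `D` for the two square roots of `-3` in `Q̄_2`), each of
  them stable under `Gal(K̄/K(ω))`, and exchanged by every `σ` with `σ ω ≠ ω`: this is the shape `Ind_{K(ω)}^{K} ψ`;
* `sanity_trace_H1etRep_cubeCurve_of_ne`: the trace of `ρ(σ)` is `0` for every `σ` with `σ ω ≠ ω`.  In the fourth condition of
  `IsAttachedGaloisRep` this forces the Hecke eigenvalue `t = 0` at the places that are inert in `K(ω)` (there `E₃` has supersingular reduction):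
  `sanity_isAttachedGaloisRep_cubeCurve_inert`.

Written by helper265.
-/

set_option autoImplicit false

namespace Claimed.Open.R030.TateRk

open scoped Classical

section IndAbs

variable {C V : Type} [Field C] [AddCommGroup V] [Module C V]

/-- if `D² = s²`, `s ≠ 0`, `2 ≠ 0`, then `V` is the direct sum of the eigenspaces of `D` for `s` and `-s` -/
theorem isCompl_eigenspace_of_sq (D : Module.End C V) (s : C) (hs : s ≠ 0) (h2 : (2 : C) ≠ 0)
    (hD : ∀ v, D (D v) = (s * s) • v) :
    IsCompl (Module.End.eigenspace D s) (Module.End.eigenspace D (-s)) := by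
  have h2s : (2 * s) ≠ 0 := mul_ne_zero h2 hs
  constructor
  · rw [Submodule.disjoint_def]
    intro v h1 h2'
    rw [Module.End.mem_eigenspace_iff] at h1 h2'
    have e : (2 * s) • v = 0 := by
      have e1 : s • v = (-s) • v := by rw [← h1, h2']
      rw [two_mul, add_smul]
      nth_rewrite 2 [e1]
      rw [← add_smul, add_neg_cancel, zero_smul]
    exact (smul_eq_zero.1 e).resolve_left h2s
  · rw [codisjoint_iff, Submodule.eq_top_iff']
    intro v
    rw [Submodule.mem_sup]
    refine ⟨(2 * s)⁻¹ • (D v + s • v), ?_, (2 * s)⁻¹ • (s • v - D v), ?_, ?_⟩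
    · rw [Module.End.mem_eigenspace_iff, map_smul, map_add, map_smul, hD]
      module
    · rw [Module.End.mem_eigenspace_iff, map_smul, map_sub, map_smul, hD]
      module
    · rw [← smul_add]
      have : D v + s • v + (s • v - D v) = (2 * s) • v := by
        rw [two_mul, add_smul]; abel
      rw [this, smul_smul, inv_mul_cancel₀ h2s, one_smul]

/-- an endomorphism that anticommutes with `D`, `D² = d ≠ 0`, has trace `0` (`2 ≠ 0`) -/
theorem trace_eq_zero_of_anticomm (D A : Module.End C V) (d : C) (hd : d ≠ 0) (h2 : (2 : C) ≠ 0)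
    (hD : ∀ v, D (D v) = d • v) (hA : ∀ v, A (D v) = - D (A v)) :
    LinearMap.trace C V A = 0 := by
  have e1 : (D * A) * D = (-d) • A := by
    ext v
    rw [Module.End.mul_apply, Module.End.mul_apply, hA, map_neg, hD, LinearMap.smul_apply, neg_smul]
  have e2 : D * (D * A) = d • A := by
    ext v
    rw [Module.End.mul_apply, Module.End.mul_apply, hD, LinearMap.smul_apply]
  have e3 := LinearMap.trace_mul_comm C (D * A) D
  rw [e1, e2, map_smul, map_smul, smul_eq_mul, smul_eq_mul] at e3
  have e4 : (2 * d) * LinearMap.trace C V A = 0 := by linear_combination -e3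
  exact (mul_eq_zero.1 e4).resolve_left (mul_ne_zero h2 hd)

end IndAbs

/-- `D = (1 + 2 [ω])^*` on `H¹_ét(E₃, Q̄_2)` satisfies `D² = -3` -/
theorem h1Map_delta_h1Map_delta (φ : H1et cubeCurve 2) :
    h1Map delta (h1Map delta φ) = (-3 : PadicAlgCl 2) • φ := by
  have e : delta.comp delta = (-3 : ℤ) • AddMonoidHom.id (PtsBar cubeCurve) := by
    ext P
    exact delta_delta P
  rw [h1Map_h1Map, e, h1Map_zsmul_id]
  norm_num

/-- **The trace of `ρ(σ)` on `H¹_ét(E₃, Q̄_2)` is `0` for every `σ ∈ Gal(K̄/K)` that does not fix `ω`.** -/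
theorem sanity_trace_H1etRep_cubeCurve_of_ne (σ : Gal(Cm3Bar/Cm3Field)) (hσ : σ omegaBar ≠ omegaBar) :
    LinearMap.trace (PadicAlgCl 2) (H1et cubeCurve 2) (H1etRep cubeCurve 2 σ) = 0 :=
  trace_eq_zero_of_anticomm (h1Map delta) (H1etRep cubeCurve 2 σ) (-3) (by norm_num) two_ne_zero
    h1Map_delta_h1Map_delta ((H1etRep_h1Map_delta σ).2 hσ)

/-- **`H¹_ét(E₃, Q̄_2)` is the sum of two lines, stable under `Gal(K̄/K(ω))` and exchanged by the other elements of `Gal(K̄/K)`.** -/
theorem sanity_H1etRep_cubeCurve_induced :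
    ∃ L₁ L₂ : Submodule (PadicAlgCl 2) (H1et cubeCurve 2),
      IsCompl L₁ L₂ ∧ Module.finrank (PadicAlgCl 2) L₁ = 1 ∧ Module.finrank (PadicAlgCl 2) L₂ = 1 ∧
      (∀ σ : Gal(Cm3Bar/Cm3Field), σ omegaBar = omegaBar →
        (∀ φ ∈ L₁, H1etRep cubeCurve 2 σ φ ∈ L₁) ∧ (∀ φ ∈ L₂, H1etRep cubeCurve 2 σ φ ∈ L₂)) ∧
      (∀ σ : Gal(Cm3Bar/Cm3Field), σ omegaBar ≠ omegaBar →
        (∀ φ ∈ L₁, H1etRep cubeCurve 2 σ φ ∈ L₂) ∧ (∀ φ ∈ L₂, H1etRep cubeCurve 2 σ φ ∈ L₁)) := by
  obtain ⟨s, hs⟩ := IsAlgClosed.exists_eq_mul_self (-3 : PadicAlgCl 2)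
  have hs0 : s ≠ 0 := by
    rintro rfl
    norm_num at hs
  set D : Module.End (PadicAlgCl 2) (H1et cubeCurve 2) := h1Map delta with hDdef
  have hc : IsCompl (Module.End.eigenspace D s) (Module.End.eigenspace D (-s)) :=
    isCompl_eigenspace_of_sq D s hs0 two_ne_zero (fun v => by rw [← hs]; exact h1Map_delta_h1Map_delta v)
  have hswap : ∀ σ : Gal(Cm3Bar/Cm3Field), σ omegaBar ≠ omegaBar →
      (∀ φ ∈ Module.End.eigenspace D s, H1etRep cubeCurve 2 σ φ ∈ Module.End.eigenspace D (-s)) ∧
      (∀ φ ∈ Module.End.eigenspace D (-s), H1etRep cubeCurve 2 σ φ ∈ Module.End.eigenspace D s) := by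
    intro σ hσ
    have h := (H1etRep_h1Map_delta σ).2 hσ
    constructor
    · intro φ hφ
      rw [Module.End.mem_eigenspace_iff] at hφ ⊢
      have := h φ
      rw [show h1Map delta φ = s • φ from hφ, map_smul] at this
      rw [neg_smul, this, neg_neg]
    · intro φ hφ
      rw [Module.End.mem_eigenspace_iff] at hφ ⊢
      have := h φ
      rw [show h1Map delta φ = (-s) • φ from hφ, map_smul] at this
      have e : D (H1etRep cubeCurve 2 σ φ) = -((-s) • H1etRep cubeCurve 2 σ φ) := by
        rw [this]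
        exact (neg_neg _).symm
      rw [e]
      module
  have hinj : ∀ σ : Gal(Cm3Bar/Cm3Field), Function.Injective (H1etRep cubeCurve 2 σ) := by
    intro σ a b hab
    have := congrArg (H1etRep cubeCurve 2 σ⁻¹) hab
    rwa [← Module.End.mul_apply, ← Module.End.mul_apply, ← map_mul, inv_mul_cancel, map_one,
      Module.End.one_apply, Module.End.one_apply] at this
  obtain ⟨g₀, hg₀⟩ := exists_gal_omegaBar_ne
  have : Module.Finite (PadicAlgCl 2) (H1et cubeCurve 2) :=
    Module.finite_of_finrank_pos (by rw [sanity_finrank_H1et_cubeCurve]; norm_num)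
  have hle1 : Module.finrank (PadicAlgCl 2) (Module.End.eigenspace D s) ≤
      Module.finrank (PadicAlgCl 2) (Module.End.eigenspace D (-s)) :=
    LinearMap.finrank_le_finrank_of_injective
      (f := ((H1etRep cubeCurve 2 g₀).restrict (hswap g₀ hg₀).1))
      (fun a b hab => Subtype.ext (hinj g₀ (congrArg Subtype.val hab)))
  have hle2 : Module.finrank (PadicAlgCl 2) (Module.End.eigenspace D (-s)) ≤
      Module.finrank (PadicAlgCl 2) (Module.End.eigenspace D s) :=
    LinearMap.finrank_le_finrank_of_injective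
      (f := ((H1etRep cubeCurve 2 g₀).restrict (hswap g₀ hg₀).2))
      (fun a b hab => Subtype.ext (hinj g₀ (congrArg Subtype.val hab)))
  have hsum := Submodule.finrank_add_eq_of_isCompl hc
  rw [sanity_finrank_H1et_cubeCurve] at hsum
  refine ⟨_, _, hc, by omega, by omega, ?_, hswap⟩
  intro σ hσ
  have h := (H1etRep_h1Map_delta σ).1 hσ
  constructor
  · intro φ hφ
    rw [Module.End.mem_eigenspace_iff] at hφ ⊢
    have := h φ
    rw [show h1Map delta φ = s • φ from hφ, map_smul] at this
    exact this.symm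
  · intro φ hφ
    rw [Module.End.mem_eigenspace_iff] at hφ ⊢
    have := h φ
    rw [show h1Map delta φ = (-s) • φ from hφ, map_smul] at this
    exact this.symm

open IsDedekindDomain NumberField in
/-- **Consequence for `Statement`**: if `π` is attached to `H1etRep E₃ 2` in the sense of `IsAttachedGaloisRep`, then at almost all places `v` the spherical component `π_v` has Hecke eigenvalue
`t = 0` as soon as a geometric Frobenius at `v` moves `ω` (i.e. `v` is inert in `K(ω)`). -/
theorem sanity_isAttachedGaloisRep_cubeCurve_inert {w : InfinitePlace Cm3Field}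
    (π : AutomorphicRepresentation w) (ι : PadicAlgCl 2 ≃+* ℂ)
    (h : IsAttachedGaloisRep π ι (H1etRep cubeCurve 2)) :
    ∀ᶠ v : HeightOneSpectrum (𝓞 Cm3Field) in Filter.cofinite,
      ∃ (X : Type) (_ : AddCommGroup X) (_ : Module ℂ X)
        (πv : Representation ℂ (GL (Fin 2) (v.adicCompletion Cm3Field)) X) (t s : ℂ),
        IsSmoothRep πv ∧ πv.IsIrreducible ∧ π.IsLocalComponent v πv ∧
        IsSphericalWithEigenvalues πv t s ∧
        ((∃ (j : Cm3Bar →ₐ[Cm3Field] AlgebraicClosure (v.adicCompletion Cm3Field))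
            (Φ : GalAbs (v.adicCompletion Cm3Field)),
            IsGeomFrob Φ ∧ resDecomp v j Φ omegaBar ≠ omegaBar) → t = 0) := by
  filter_upwards [h.2.2.2] with v hv
  obtain ⟨-, X, i1, i2, πv, t, s, h1, h2, h3, h4, h5⟩ := hv
  refine ⟨X, i1, i2, πv, t, s, h1, h2, h3, h4, ?_⟩
  rintro ⟨j, Φ, hΦ, hne⟩
  have := ((h5 j).2 Φ hΦ).1
  rw [sanity_trace_H1etRep_cubeCurve_of_ne _ hne, map_zero] at this
  exact this.symm

end Claimed.Open.R030.TateRk
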