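import Claimed.Open.R030.SanityTateGalois

/-!
# Result 030: an odd prime.  `H¹_ét(E₃, Q̄_3)` has dimension `2`, and the Galois representation on it is continuous and semisimple

`Statement` asserts `IsAttachedGaloisRep π ι (H1etRep E l)` for **every** prime `l`.  The files `SanityTateRank.lean`, `SanityTateGalois.lean`, `SanityTateTwo.lean`, `SanityTateGauss.lean` check the conditions on the Galois representation alone
for `l = 2`.  This file checks them for the odd prime `l = 3` and `E₃ : y² = x³ + 1` over `K = ℚ(i)`: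

* `sanity_H1etRep_cubeCurve_three : Module.finrank (PadicAlgCl 3) (H1et cubeCurve 3) = 2 ∧ IsContinuousRep (H1etRep cubeCurve 3) ∧ (H1etRep cubeCurve 3).IsSemisimpleRepresentation`.

## The proof

By `finrank_H1et_eq_two` and `isContinuousRep_H1etRep` we need that `E₃(K̄)` is `3`-divisible and that `E₃[3]` has a basis of two elements.  Let `λ = 1 - [ω]` (`lam3`).

1. (Q2)  `λ² = -3 [ω]`, and `[ω]` is bijective.
2. (Q3)  `λ P = 0 ↔ [ω] P = P ↔ P ∈ {0, (0, 1), (0, -1)}`: the kernel of `λ` is cyclic of order `3`, generated by `E0 = (0, 1)`.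
3. (Q4, Q5)  `λ (x, y) = (x, y) + (ω x, - y)` has the `x`-coordinate `- ω² (x³ + 4) / (3 x²)`; so `λ` is surjective: solve a cubic equation for `x`, then `y² = x³ + 1`, and adjust the sign.
4. (Q1)  In any abelian group these three facts imply that `[3]` is surjective and that `E0` and any `e₂` with `λ e₂ = E0` form a basis of the kernel of `[3]`.
5. (Q6)  The semisimplicity is proved as for `l = 2` (`SanityTateGalois.lean`, S4): the operator `(1 + 2 [ω])^*` commutes or anticommutes with the Galois group.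

The contracts are due to helper33; the sections were written by the seats named there.
-/

set_option autoImplicit false

namespace Claimed.Open.R030.TateRk

/-! ## Definitions  (written by helper33) -/

section Th0

open scoped Classical
open WeierstrassCurve

/-- `λ = 1 - [ω]` on `E₃ : y² = x³ + 1`  (`λ² = -3 ω`) -/
noncomputable def lam3 : PtsBar cubeCurve →+ PtsBar cubeCurve := AddMonoidHom.id _ - cubeCurveEndo

/-- `- [ω]` -/
noncomputable def u3 : PtsBar cubeCurve →+ PtsBar cubeCurve := - cubeCurveEndo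

/-- the point `(0, 1)` of order `3` -/
noncomputable def E0 : PtsBar cubeCurve := .some 0 1 (CubeEnd.nonsingular_iff.mpr (by norm_num))

end Th0

/-! ## Q1. Abelian groups  (written by helper125) -/

section ThQ1

/-- abstract: `λ` surjective with cyclic kernel of order `l` generated by `e`, and `λ² = u ∘ l` with `u` injective.  Then `A` is `l`-divisible (`λ λ R = u Q` gives `l R = Q`) and `e`, `e₂` (any `e₂` with `λ e₂ = e`) is a basis of `A[l]`:
`l Q = 0 ⇒ λ λ Q = 0 ⇒ λ Q = b e = λ (b e₂) ⇒ Q - b e₂ = a e`;  `a e + b e₂ = 0 ⇒ (apply λ) b e = 0 ⇒ l ∣ b ⇒ b e₂ = 0 ⇒ a e = 0 ⇒ l ∣ a`. -/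
theorem hyps_of_sqrt {A : Type} [AddCommGroup A] (l : ℕ) (lam u : A →+ A) (hu : Function.Injective u)
    (hl : ∀ P, lam (lam P) = u (l • P)) (hsurj : Function.Surjective lam) (e : A)
    (hker : ∀ P, lam P = 0 ↔ ∃ a : ℤ, P = a • e) (hord : ∀ a : ℤ, a • e = 0 → (l : ℤ) ∣ a) :
    (∀ Q : A, ∃ P : A, l • P = Q) ∧ ∃ e₂ : A, l • e = 0 ∧ l • e₂ = 0 ∧
      (∀ Q : A, l • Q = 0 → ∃ a b : ℤ, Q = a • e + b • e₂) ∧
      (∀ a b : ℤ, a • e + b • e₂ = 0 → (l : ℤ) ∣ a ∧ (l : ℤ) ∣ b) := by
  have hlam_e : lam e = 0 := (hker e).2 ⟨1, (one_smul ℤ e).symm⟩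
  have hu0 : ∀ x, u x = 0 → x = 0 := fun x hx => hu (by rw [hx, map_zero])
  have hle : l • e = 0 := hu0 _ (by rw [← hl, hlam_e, map_zero])
  obtain ⟨e₂, he₂⟩ := hsurj e
  have hle₂ : l • e₂ = 0 := hu0 _ (by rw [← hl, he₂, hlam_e])
  refine ⟨fun Q => ?_, e₂, hle, hle₂, fun Q hQ => ?_, fun a b hab => ?_⟩
  · obtain ⟨S, hS⟩ := hsurj (u Q)
    obtain ⟨R, hR⟩ := hsurj S
    exact ⟨R, hu (by rw [← hl, hR, hS])⟩
  · have h1 : lam (lam Q) = 0 := by rw [hl, hQ, map_zero]
    obtain ⟨b, hb⟩ := (hker _).1 h1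
    have h2 : lam (Q - b • e₂) = 0 := by rw [map_sub, map_zsmul, he₂, hb, sub_self]
    obtain ⟨a, ha⟩ := (hker _).1 h2
    exact ⟨a, b, by rw [← ha]; abel⟩
  · have h1 : b • e = 0 := by
      have h0 := congrArg lam hab
      rwa [map_add, map_zsmul, map_zsmul, hlam_e, he₂, smul_zero, zero_add, map_zero] at h0
    obtain ⟨k, rfl⟩ := hord b h1
    have h2 : ((l : ℤ) * k) • e₂ = 0 := by
      rw [mul_comm, mul_smul, natCast_zsmul, hle₂, smul_zero]
    rw [h2, add_zero] at hab
    exact ⟨hord a hab, Dvd.intro k rfl⟩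

end ThQ1

/-! ## Q2. `λ² = -3 [ω]`  (written by helper266) -/

section ThQ2

open scoped Classical

theorem q2_lam3_apply (P : PtsBar cubeCurve) : lam3 P = P - cubeCurveEndo P := rfl

theorem q2_u3_apply (P : PtsBar cubeCurve) : u3 P = - cubeCurveEndo P := rfl

/-- `λ² P = P - 2 [ω] P + [ω]² P = -3 [ω] P`  (`CubeEnd.omega_sq_apply`; `abel` / `module`) -/
theorem lam3_lam3 (P : PtsBar cubeCurve) : lam3 (lam3 P) = u3 (3 • P) := by
  rw [q2_lam3_apply, q2_lam3_apply, q2_u3_apply, map_sub, map_nsmul, CubeEnd.omega_sq_apply]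
  abel

/-- `[ω]³ = 1` -/
theorem q2_omega_cube (P : PtsBar cubeCurve) : cubeCurveEndo (cubeCurveEndo (cubeCurveEndo P)) = P := by
  rw [CubeEnd.omega_sq_apply, CubeEnd.omega_sq_apply]
  abel

/-- `[ω]³ = 1`  (`CubeEnd.omega_sq_apply`) -/
theorem u3_injective : Function.Injective u3 := by
  intro P Q h
  rw [q2_u3_apply, q2_u3_apply, neg_inj] at h
  rw [← q2_omega_cube P, ← q2_omega_cube Q, h]

end ThQ2

/-! ## Q3. The kernel of `λ`  (written by helper105) -/

section ThQ3

open scoped Classical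
open WeierstrassCurve

theorem q3_endo_E0 : cubeCurveEndo E0 = E0 := by
  rw [E0, cubeCurveEndo_some, Affine.Point.some.injEq]
  exact ⟨mul_zero _, rfl⟩

/-- `[ω] (0, 1) = (0, 1)`  (`cubeCurveEndo_some`, `mul_zero`) -/
theorem lam3_E0 : lam3 E0 = 0 := by
  simp only [lam3, AddMonoidHom.sub_apply, AddMonoidHom.id_apply, q3_endo_E0, sub_self]

theorem q3_three_E0 : (3 : ℕ) • E0 = 0 := by
  apply u3_injective
  rw [← lam3_lam3, lam3_E0, map_zero, map_zero]

theorem q3_E0_ne_zero : E0 ≠ 0 := Affine.Point.some_ne_zero _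

/-- `3 E0 = 0` (from `lam3_lam3`, `lam3_E0`, `u3_injective`: no formula needed), `E0 ≠ 0`; so `a E0 = 0 → 3 ∣ a` (`a % 3 ∈ {0, 1, 2}`; `2 E0 = - E0 ≠ 0`) -/
theorem E0_ord (a : ℤ) (h : a • E0 = 0) : ((3 : ℕ) : ℤ) ∣ a := by
  have h3 : (3 : ℤ) • E0 = 0 := by
    have := q3_three_E0
    rwa [← natCast_zsmul] at this
  have hr : (a % 3) • E0 = 0 := by
    have e : a % 3 = a - (a / 3) * 3 := by
      have := Int.emod_add_mul_ediv a 3
      linarith
    rw [e, sub_smul, mul_zsmul, h3, zsmul_zero, h, sub_zero]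
  have h0 : 0 ≤ a % 3 := Int.emod_nonneg a (by norm_num)
  have h1 : a % 3 < 3 := Int.emod_lt_of_pos a (by norm_num)
  have hc : a % 3 = 0 ∨ a % 3 = 1 ∨ a % 3 = 2 := by omega
  rcases hc with hc | hc | hc
  · exact Int.dvd_of_emod_eq_zero hc
  · rw [hc, one_zsmul] at hr
    exact absurd hr q3_E0_ne_zero
  · rw [hc] at hr
    exfalso
    apply q3_E0_ne_zero
    have e : E0 = (3 : ℤ) • E0 - (2 : ℤ) • E0 := by
      rw [← sub_smul]; norm_num
    rw [e, h3, hr, sub_zero]

/-- `λ P = 0 ↔ [ω] P = P ↔ P = 0` or `ω x = x`, i.e. `x = 0` (`omegaBar_ne_one`), `y² = 1`: `P = (0, 1) = E0` or `P = (0, -1) = - E0` (`CubeEnd.neg_some`, `CubeEnd.nonsingular_iff`) -/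
theorem lam3_eq_zero_iff (P : PtsBar cubeCurve) : lam3 P = 0 ↔ ∃ a : ℤ, P = a • E0 := by
  constructor
  · intro h
    have hP : P = cubeCurveEndo P := by
      have : P - cubeCurveEndo P = 0 := by
        simpa only [lam3, AddMonoidHom.sub_apply, AddMonoidHom.id_apply] using h
      exact sub_eq_zero.mp this
    rcases P with _ | ⟨x, y, hxy⟩
    · exact ⟨0, by rw [zero_zsmul]; rfl⟩
    · rw [cubeCurveEndo_some, Affine.Point.some.injEq] at hP
      have hx : x = 0 := by
        have h1 : (1 - omegaBar) * x = 0 := by linear_combination hP.1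
        rcases mul_eq_zero.mp h1 with h2 | h2
        · exact absurd (sub_eq_zero.mp h2).symm omegaBar_ne_one
        · exact h2
      subst hx
      have hy : y ^ 2 = 1 := by
        have := CubeEnd.nonsingular_iff.mp hxy
        linear_combination this
      have hy2 : (y - 1) * (y + 1) = 0 := by linear_combination hy
      rcases mul_eq_zero.mp hy2 with h2 | h2
      · refine ⟨1, ?_⟩
        rw [one_zsmul, E0, Affine.Point.some.injEq]
        exact ⟨rfl, by linear_combination h2⟩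
      · refine ⟨-1, ?_⟩
        rw [neg_one_zsmul, E0]
        obtain ⟨h', e⟩ := CubeEnd.neg_some (x := 0) (y := 1) (CubeEnd.nonsingular_iff.mpr (by norm_num))
        rw [e, Affine.Point.some.injEq]
        exact ⟨rfl, by linear_combination h2⟩
  · rintro ⟨a, rfl⟩
    rw [map_zsmul, lam3_E0, zsmul_zero]

end ThQ3

/-! ## Q4. The `x`-coordinate of `λ P`  (written by helper33) -/

section ThQ4

open scoped Classical
open WeierstrassCurve

/-- `λ (x, y) = (x, y) + (ω x, - y)`: slope `2 y / ((1 - ω) x)`, `(1 - ω)² = -3 ω`, `y² = x³ + 1`: the `x`-coordinate is `- ω² (x³ + 4) / (3 x²)`.  (`cubeCurveEndo_some`, `CubeEnd.neg_some`, `CubeEnd.add_some_of_ne`, `omegaBar_spec`,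
`omegaBar_ne_one`; `field_simp`, `linear_combination`.) -/
theorem lam3_some {x y : Cm3Bar} (h : CubeEnd.EC.Nonsingular x y) (hx : x ≠ 0) :
    ∃ (y' : Cm3Bar) (h' : CubeEnd.EC.Nonsingular (-(omegaBar ^ 2) * (x ^ 3 + 4) / (3 * x ^ 2)) y'),
      lam3 (.some x y h) = .some (-(omegaBar ^ 2) * (x ^ 3 + 4) / (3 * x ^ 2)) y' h' := by
  have hy : y ^ 2 = x ^ 3 + 1 := CubeEnd.nonsingular_iff.mp h
  have hw : (1 - omegaBar) ≠ 0 := sub_ne_zero.mpr (Ne.symm omegaBar_ne_one)
  have hne : x ≠ omegaBar * x := by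
    intro e
    apply hw
    have : (1 - omegaBar) * x = 0 := by linear_combination e
    exact (mul_eq_zero.mp this).resolve_right hx
  have e1 : lam3 (.some x y h) = (Affine.Point.some x y h : PtsBar cubeCurve) +
      -(cubeCurveEndo (.some x y h)) := by
    show (Affine.Point.some x y h : PtsBar cubeCurve) - cubeCurveEndo (.some x y h) = _
    rw [sub_eq_add_neg]
  rw [e1, cubeCurveEndo_some]
  obtain ⟨h2, e2⟩ := CubeEnd.neg_some (x := omegaBar * x) (y := y)
    (cm3Ex_nonsingular _ omegaBar cubeCurve_a₁ cubeCurve_a₂ cubeCurve_a₃ cubeCurve_a₄ omegaBar_cube h)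
  rw [e2]
  obtain ⟨h3, e3⟩ := CubeEnd.add_some_of_ne h h2 hne
  rw [e3]
  have hxx : ((y - -y) / (x - omegaBar * x)) ^ 2 - x - omegaBar * x =
      -(omegaBar ^ 2) * (x ^ 3 + 4) / (3 * x ^ 2) := by
    have h3' : (3 : Cm3Bar) ≠ 0 := by norm_num
    have hd : x - omegaBar * x ≠ 0 := sub_ne_zero.mpr hne
    have hw2 : (1 - omegaBar) ^ 2 = -3 * omegaBar := by linear_combination omegaBar_spec
    have hd2 : (x - omegaBar * x) ^ 2 = -3 * omegaBar * x ^ 2 := by
      linear_combination x ^ 2 * hw2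
    have hom : omegaBar ≠ 0 := by
      intro h0
      have := omegaBar_spec
      rw [h0] at this
      norm_num at this
    rw [div_pow, hd2, sub_neg_eq_add]
    rw [eq_div_iff (mul_ne_zero h3' (pow_ne_zero 2 hx))]
    have : (y + y) ^ 2 / (-3 * omegaBar * x ^ 2) = -4 * omegaBar ^ 2 * (x ^ 3 + 1) / (3 * x ^ 2) := by
      rw [div_eq_div_iff (mul_ne_zero (mul_ne_zero (by norm_num) hom) (pow_ne_zero 2 hx))
        (mul_ne_zero h3' (pow_ne_zero 2 hx))]
      linear_combination 12 * x ^ 2 * hy - 12 * x ^ 2 * (x ^ 3 + 1) * omegaBar_cube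
    rw [this]
    field_simp
    linear_combination (-3 * x ^ 3) * omegaBar_spec
  revert h3
  rw [hxx]
  intro h3 _
  exact ⟨_, h3, rfl⟩

end ThQ4

/-! ## Q5. `λ` is surjective  (written by helper33) -/

section ThQ5

open scoped Classical
open WeierstrassCurve

/-- `Q = 0`: clear.  `Q = (x₀, y₀)`: a root `x` of `X³ + 3 ω x₀ X² + 4` (`IsAlgClosed.exists_root`; `x ≠ 0`), `y` with `y² = x³ + 1` (`IsAlgClosed.exists_pow_nat_eq`); then `- ω² (x³ + 4) / (3 x²) = x₀` (`ω³ = 1`), so
`λ (x, y) = ± Q` (`lam3_some`, `CubeEnd.some_eq_or_eq_neg`), and `λ (- P) = - λ P`. -/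
theorem lam3_surjective : Function.Surjective lam3 := by
  intro Q
  rcases Q with _ | ⟨x₀, y₀, h₀⟩
  · exact ⟨0, map_zero _⟩
  · let p : Polynomial Cm3Bar := Polynomial.X ^ 3 + Polynomial.C (3 * omegaBar * x₀) * Polynomial.X ^ 2 +
      Polynomial.C 4
    have hnd : p.natDegree = 3 := by
      simp only [p]
      compute_degree!
    have hdeg : p.degree ≠ 0 := by
      rw [Polynomial.degree_eq_natDegree (by intro h; rw [h] at hnd; simp at hnd), hnd]
      norm_num
    obtain ⟨x, hx⟩ := IsAlgClosed.exists_root p hdeg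
    have hx' : x ^ 3 + 3 * omegaBar * x₀ * x ^ 2 + 4 = 0 := by
      simpa [p, Polynomial.IsRoot] using hx
    have hx0 : x ≠ 0 := by
      rintro rfl
      norm_num at hx'
    obtain ⟨y, hy⟩ := IsAlgClosed.exists_pow_nat_eq (x ^ 3 + 1) (n := 2) (by norm_num)
    have hns : CubeEnd.EC.Nonsingular x y := CubeEnd.nonsingular_iff.mpr hy
    obtain ⟨y', h', e⟩ := lam3_some hns hx0
    have hxx : -(omegaBar ^ 2) * (x ^ 3 + 4) / (3 * x ^ 2) = x₀ := by
      have h3 : (3 : Cm3Bar) ≠ 0 := by norm_num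
      rw [div_eq_iff (mul_ne_zero h3 (pow_ne_zero 2 hx0))]
      linear_combination (-(omegaBar ^ 2)) * hx' + 3 * x₀ * x ^ 2 * omegaBar_cube
    revert h' e
    rw [hxx]
    intro h' e
    rcases CubeEnd.some_eq_or_eq_neg h' h₀ with e' | e'
    · exact ⟨_, e.trans e'⟩
    · exact ⟨-(Affine.Point.some x y hns), by rw [map_neg, e, e', neg_neg]⟩

end ThQ5

/-! ## Q6. The three conditions for `l = 3`  (written by helper33) -/

section ThQ6

open scoped Classical

/-- `hyps_of_sqrt` with `lam3`, `u3`, `E0`; `finrank_H1et_eq_two` -/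
theorem sanity_finrank_H1et_cubeCurve_three :
    Module.finrank (PadicAlgCl 3) (H1et cubeCurve 3) = 2 := by
  obtain ⟨hdiv, e₂, h₁, h₂, hs, hi⟩ := hyps_of_sqrt 3 lam3 u3 u3_injective lam3_lam3
    lam3_surjective E0 lam3_eq_zero_iff E0_ord
  exact finrank_H1et_eq_two hdiv E0 e₂ h₁ h₂ hs hi

/-- the same with `isContinuousRep_H1etRep` -/
theorem sanity_isContinuousRep_H1etRep_cubeCurve_three : IsContinuousRep (H1etRep cubeCurve 3) := by
  obtain ⟨hdiv, e₂, h₁, h₂, hs, hi⟩ := hyps_of_sqrt 3 lam3 u3 u3_injective lam3_lam3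
    lam3_surjective E0 lam3_eq_zero_iff E0_ord
  exact isContinuousRep_H1etRep hdiv E0 e₂ h₁ h₂ hs hi

/-- `h1Map_delta_injective` for `l = 3` -/
theorem q6_h1Map_delta_injective : Function.Injective (h1Map (l := 3) delta) := by
  have key : ∀ φ : H1et cubeCurve 3, h1Map delta (h1Map delta φ) = ((-3 : ℤ) : PadicAlgCl 3) • φ := by
    intro φ
    have e : delta.comp delta = (-3 : ℤ) • AddMonoidHom.id (PtsBar cubeCurve) := by
      ext P
      exact delta_delta P
    rw [h1Map_h1Map, ← h1Map_zsmul_id, e]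
  rw [injective_iff_map_eq_zero]
  intro φ hφ
  have h := key φ
  rw [hφ, map_zero] at h
  have h3 : ((-3 : ℤ) : PadicAlgCl 3) ≠ 0 := by
    exact_mod_cast (by norm_num : (-3 : ℤ) ≠ 0)
  exact (smul_eq_zero.mp h.symm).resolve_left h3

/-- `H1etRep_h1Map_delta` for `l = 3` -/
theorem q6_H1etRep_h1Map_delta (σ : Gal(Cm3Bar/Cm3Field)) :
    (σ omegaBar = omegaBar → ∀ φ : H1et cubeCurve 3,
      H1etRep cubeCurve 3 σ (h1Map delta φ) = h1Map delta (H1etRep cubeCurve 3 σ φ)) ∧
    (σ omegaBar ≠ omegaBar → ∀ φ : H1et cubeCurve 3,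
      H1etRep cubeCurve 3 σ (h1Map delta φ) = - h1Map delta (H1etRep cubeCurve 3 σ φ)) := by
  have hinv : σ⁻¹ omegaBar = omegaBar ↔ σ omegaBar = omegaBar := by
    constructor
    · intro h
      have := congrArg σ h
      rw [← AlgEquiv.mul_apply, mul_inv_cancel, AlgEquiv.one_apply] at this
      exact this.symm
    · intro h
      have := congrArg (fun t => (σ⁻¹ : Gal(Cm3Bar/Cm3Field)) t) h
      rw [← AlgEquiv.mul_apply, inv_mul_cancel, AlgEquiv.one_apply] at this
      exact this.symm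
  constructor
  · intro hσ φ
    exact H1etRep_h1Map σ delta delta (fun P => delta_galPts_of_eq σ⁻¹ (hinv.mpr hσ) P) φ
  · intro hσ φ
    rw [← h1Map_neg]
    exact H1etRep_h1Map σ delta (-delta)
      (fun P => delta_galPts_of_ne σ⁻¹ (fun h => hσ (hinv.mp h)) P) φ

/-- copy of `h1Map_delta_injective`, `H1etRep_h1Map_delta`, `sanity_isSemisimple_H1etRep_cubeCurve` (section S4 of `SanityTateGalois.lean`) with `3` in the place of `2` -/
theorem sanity_isSemisimple_H1etRep_cubeCurve_three :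
    (H1etRep cubeCurve 3).IsSemisimpleRepresentation := by
  obtain ⟨g₀, hg₀⟩ := exists_gal_omegaBar_ne
  refine isSemisimpleRepresentation_of_exists_isCompl _ fun W hW =>
    exists_isCompl_of_anticomm (H1etRep cubeCurve 3) sanity_finrank_H1et_cubeCurve_three
      two_ne_zero (h1Map delta) q6_h1Map_delta_injective (fun g => ?_) g₀
      ((q6_H1etRep_h1Map_delta g₀).2 hg₀) W hW
  by_cases hg : g omegaBar = omegaBar
  · exact Or.inl ((q6_H1etRep_h1Map_delta g).1 hg)
  · exact Or.inr ((q6_H1etRep_h1Map_delta g).2 hg)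

/-- **the three conditions of `IsAttachedGaloisRep` on the Galois representation alone, for `E₃` and the odd prime `l = 3`** -/
theorem sanity_H1etRep_cubeCurve_three :
    Module.finrank (PadicAlgCl 3) (H1et cubeCurve 3) = 2 ∧ IsContinuousRep (H1etRep cubeCurve 3) ∧
      (H1etRep cubeCurve 3).IsSemisimpleRepresentation :=
  ⟨sanity_finrank_H1et_cubeCurve_three, sanity_isContinuousRep_H1etRep_cubeCurve_three,
    sanity_isSemisimple_H1etRep_cubeCurve_three⟩

end ThQ6

end Claimed.Open.R030.TateRk
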