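import Claimed.Open.R030.SanityTateInd
import Claimed.Open.R030.SanityTateThree

/-!
# Result 030: the induced shape of `H¹_ét(E₃, Q̄_l)` for every prime `l`

`Statement` speaks of `H1etRep E l` for every prime `l`.  `SanityTateInd.lean` treats `l = 2`.  Nothing in the argument depends on `l`: `D = (1 + 2 [ω])^*` acts on `H1et E₃ l` with `D² = -3`, commutes with
`Gal(K̄/K(ω))` and anticommutes with the other elements of `Gal(K̄/K)`, `K = ℚ(i)`, `E₃ : y² = x³ + 1`.  So, for **every** prime `l`: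

* `sanity_trace_H1etRep_cubeCurve_all`: the trace of `ρ_l(σ)` is `0` for every `σ` with `σ ω ≠ ω` (no hypothesis on the dimension);
* `sanity_isAttachedGaloisRep_cubeCurve_inert_all`: `IsAttachedGaloisRep π ι (H1etRep E₃ l)` forces, at almost all places `v`, the Hecke eigenvalue `t = 0` of `π_v` as soon as a geometric Frobenius at `v` moves `ω`;
* `H1etRep_cubeCurve_induced_of_finrank`: if `H1et E₃ l` has dimension `2`, it is the sum of two lines, stable under `Gal(K̄/K(ω))` and exchanged by the other `σ`; the dimension is known for `l = 2`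
  (`SanityTateInd.lean`) and `l = 3`: `sanity_H1etRep_cubeCurve_three_induced`.

Written by helper265.
-/

set_option autoImplicit false

namespace Claimed.Open.R030.TateRk

open scoped Classical

variable {l : ℕ} [Fact l.Prime]

/-- `D = (1 + 2 [ω])^*` on `H¹_ét(E₃, Q̄_l)` satisfies `D² = -3` -/
theorem h1Map_delta_sq (φ : H1et cubeCurve l) :
    h1Map delta (h1Map delta φ) = (-3 : PadicAlgCl l) • φ := by
  have e : delta.comp delta = (-3 : ℤ) • AddMonoidHom.id (PtsBar cubeCurve) := by
    ext P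
    exact delta_delta P
  rw [h1Map_h1Map, e, h1Map_zsmul_id]
  norm_num

/-- `D` commutes with `ρ_l(σ)` if `σ ω = ω` and anticommutes with it if not (the proof of `H1etRep_h1Map_delta`, `SanityTateGalois.lean`, for every `l`) -/
theorem H1etRep_h1Map_delta_all (σ : Gal(Cm3Bar/Cm3Field)) :
    (σ omegaBar = omegaBar → ∀ φ : H1et cubeCurve l,
      H1etRep cubeCurve l σ (h1Map delta φ) = h1Map delta (H1etRep cubeCurve l σ φ)) ∧
    (σ omegaBar ≠ omegaBar → ∀ φ : H1et cubeCurve l,
      H1etRep cubeCurve l σ (h1Map delta φ) = - h1Map delta (H1etRep cubeCurve l σ φ)) := by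
  have hinv : σ⁻¹ omegaBar = omegaBar ↔ σ omegaBar = omegaBar := by
    constructor
    · intro h
      have := congrArg σ h
      rw [← AlgEquiv.mul_apply, mul_inv_cancel, AlgEquiv.one_apply] at this
      exact this.symm
    · intro h
      have := congrArg (fun t => (σ⁻¹ : Gal(Cm3Bar/Cm3Field)) t) h
      rw [← AlgEquiv.mul_apply, inv_mul_cancel, AlgEquiv.one_apply] at this
      exact this.symm
  constructor
  · intro hσ φ
    exact H1etRep_h1Map σ delta delta (fun P => delta_galPts_of_eq σ⁻¹ (hinv.mpr hσ) P) φ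
  · intro hσ φ
    rw [← h1Map_neg]
    exact H1etRep_h1Map σ delta (-delta)
      (fun P => delta_galPts_of_ne σ⁻¹ (fun h => hσ (hinv.mp h)) P) φ

/-- **For every prime `l`, the trace of `ρ_l(σ)` on `H¹_ét(E₃, Q̄_l)` is `0` for every `σ ∈ Gal(K̄/K)` that does not fix `ω`.** -/
theorem sanity_trace_H1etRep_cubeCurve_all (σ : Gal(Cm3Bar/Cm3Field)) (hσ : σ omegaBar ≠ omegaBar) :
    LinearMap.trace (PadicAlgCl l) (H1et cubeCurve l) (H1etRep cubeCurve l σ) = 0 :=
  trace_eq_zero_of_anticomm (h1Map delta) (H1etRep cubeCurve l σ) (-3) (by norm_num) two_ne_zero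
    h1Map_delta_sq ((H1etRep_h1Map_delta_all σ).2 hσ)

open IsDedekindDomain NumberField in
/-- **Consequence for `Statement`, every prime `l` and every `ι`**: if `π` is attached to `H1etRep E₃ l` in the sense of `IsAttachedGaloisRep`, then at almost all places `v` the spherical component `π_v` has Hecke eigenvalue
`t = 0` as soon as a geometric Frobenius at `v` moves `ω` (i.e. `v` is inert in `K(ω)`). -/
theorem sanity_isAttachedGaloisRep_cubeCurve_inert_all {w : InfinitePlace Cm3Field}
    (π : AutomorphicRepresentation w) (ι : PadicAlgCl l ≃+* ℂ)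
    (h : IsAttachedGaloisRep π ι (H1etRep cubeCurve l)) :
    ∀ᶠ v : HeightOneSpectrum (𝓞 Cm3Field) in Filter.cofinite,
      ∃ (X : Type) (_ : AddCommGroup X) (_ : Module ℂ X)
        (πv : Representation ℂ (GL (Fin 2) (v.adicCompletion Cm3Field)) X) (t s : ℂ),
        IsSmoothRep πv ∧ πv.IsIrreducible ∧ π.IsLocalComponent v πv ∧
        IsSphericalWithEigenvalues πv t s ∧
        ((∃ (j : Cm3Bar →ₐ[Cm3Field] AlgebraicClosure (v.adicCompletion Cm3Field))
            (Φ : GalAbs (v.adicCompletion Cm3Field)),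
            IsGeomFrob Φ ∧ resDecomp v j Φ omegaBar ≠ omegaBar) → t = 0) := by
  filter_upwards [h.2.2.2] with v hv
  obtain ⟨-, X, i1, i2, πv, t, s, h1, h2, h3, h4, h5⟩ := hv
  refine ⟨X, i1, i2, πv, t, s, h1, h2, h3, h4, ?_⟩
  rintro ⟨j, Φ, hΦ, hne⟩
  have := ((h5 j).2 Φ hΦ).1
  rw [sanity_trace_H1etRep_cubeCurve_all _ hne, map_zero] at this
  exact this.symm

/-- if `H¹_ét(E₃, Q̄_l)` has dimension `2`, it is the sum of two lines, stable under `Gal(K̄/K(ω))` and exchanged by the other elements of `Gal(K̄/K)` -/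
theorem H1etRep_cubeCurve_induced_of_finrank
    (hfr : Module.finrank (PadicAlgCl l) (H1et cubeCurve l) = 2) :
    ∃ L₁ L₂ : Submodule (PadicAlgCl l) (H1et cubeCurve l),
      IsCompl L₁ L₂ ∧ Module.finrank (PadicAlgCl l) L₁ = 1 ∧ Module.finrank (PadicAlgCl l) L₂ = 1 ∧
      (∀ σ : Gal(Cm3Bar/Cm3Field), σ omegaBar = omegaBar →
        (∀ φ ∈ L₁, H1etRep cubeCurve l σ φ ∈ L₁) ∧ (∀ φ ∈ L₂, H1etRep cubeCurve l σ φ ∈ L₂)) ∧
      (∀ σ : Gal(Cm3Bar/Cm3Field), σ omegaBar ≠ omegaBar →
        (∀ φ ∈ L₁, H1etRep cubeCurve l σ φ ∈ L₂) ∧ (∀ φ ∈ L₂, H1etRep cubeCurve l σ φ ∈ L₁)) := by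
  obtain ⟨s, hs⟩ := IsAlgClosed.exists_eq_mul_self (-3 : PadicAlgCl l)
  have hs0 : s ≠ 0 := by
    rintro rfl
    norm_num at hs
  set D : Module.End (PadicAlgCl l) (H1et cubeCurve l) := h1Map delta with hDdef
  have hc : IsCompl (Module.End.eigenspace D s) (Module.End.eigenspace D (-s)) :=
    isCompl_eigenspace_of_sq D s hs0 two_ne_zero (fun v => by rw [← hs]; exact h1Map_delta_sq v)
  have hswap : ∀ σ : Gal(Cm3Bar/Cm3Field), σ omegaBar ≠ omegaBar →
      (∀ φ ∈ Module.End.eigenspace D s, H1etRep cubeCurve l σ φ ∈ Module.End.eigenspace D (-s)) ∧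
      (∀ φ ∈ Module.End.eigenspace D (-s), H1etRep cubeCurve l σ φ ∈ Module.End.eigenspace D s) := by
    intro σ hσ
    have h := (H1etRep_h1Map_delta_all (l := l) σ).2 hσ
    constructor
    · intro φ hφ
      rw [Module.End.mem_eigenspace_iff] at hφ ⊢
      have := h φ
      rw [show h1Map delta φ = s • φ from hφ, map_smul] at this
      rw [neg_smul, this, neg_neg]
    · intro φ hφ
      rw [Module.End.mem_eigenspace_iff] at hφ ⊢
      have := h φ
      rw [show h1Map delta φ = (-s) • φ from hφ, map_smul] at this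
      have e : D (H1etRep cubeCurve l σ φ) = -((-s) • H1etRep cubeCurve l σ φ) := by
        rw [this]
        exact (neg_neg _).symm
      rw [e]
      module
  have hinj : ∀ σ : Gal(Cm3Bar/Cm3Field), Function.Injective (H1etRep cubeCurve l σ) := by
    intro σ a b hab
    have := congrArg (H1etRep cubeCurve l σ⁻¹) hab
    rwa [← Module.End.mul_apply, ← Module.End.mul_apply, ← map_mul, inv_mul_cancel, map_one,
      Module.End.one_apply, Module.End.one_apply] at this
  obtain ⟨g₀, hg₀⟩ := exists_gal_omegaBar_ne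
  have : Module.Finite (PadicAlgCl l) (H1et cubeCurve l) :=
    Module.finite_of_finrank_pos (by rw [hfr]; norm_num)
  have hle1 : Module.finrank (PadicAlgCl l) (Module.End.eigenspace D s) ≤
      Module.finrank (PadicAlgCl l) (Module.End.eigenspace D (-s)) :=
    LinearMap.finrank_le_finrank_of_injective
      (f := ((H1etRep cubeCurve l g₀).restrict (hswap g₀ hg₀).1))
      (fun a b hab => Subtype.ext (hinj g₀ (congrArg Subtype.val hab)))
  have hle2 : Module.finrank (PadicAlgCl l) (Module.End.eigenspace D (-s)) ≤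
      Module.finrank (PadicAlgCl l) (Module.End.eigenspace D s) :=
    LinearMap.finrank_le_finrank_of_injective
      (f := ((H1etRep cubeCurve l g₀).restrict (hswap g₀ hg₀).2))
      (fun a b hab => Subtype.ext (hinj g₀ (congrArg Subtype.val hab)))
  have hsum := Submodule.finrank_add_eq_of_isCompl hc
  rw [hfr] at hsum
  refine ⟨_, _, hc, by omega, by omega, ?_, hswap⟩
  intro σ hσ
  have h := (H1etRep_h1Map_delta_all (l := l) σ).1 hσ
  constructor
  · intro φ hφ
    rw [Module.End.mem_eigenspace_iff] at hφ ⊢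
    have := h φ
    rw [show h1Map delta φ = s • φ from hφ, map_smul] at this
    exact this.symm
  · intro φ hφ
    rw [Module.End.mem_eigenspace_iff] at hφ ⊢
    have := h φ
    rw [show h1Map delta φ = (-s) • φ from hφ, map_smul] at this
    exact this.symm

/-- **`H¹_ét(E₃, Q̄_3)` is the sum of two lines, stable under `Gal(K̄/K(ω))` and exchanged by the other elements of `Gal(K̄/K)`.** -/
theorem sanity_H1etRep_cubeCurve_three_induced :
    ∃ L₁ L₂ : Submodule (PadicAlgCl 3) (H1et cubeCurve 3),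
      IsCompl L₁ L₂ ∧ Module.finrank (PadicAlgCl 3) L₁ = 1 ∧ Module.finrank (PadicAlgCl 3) L₂ = 1 ∧
      (∀ σ : Gal(Cm3Bar/Cm3Field), σ omegaBar = omegaBar →
        (∀ φ ∈ L₁, H1etRep cubeCurve 3 σ φ ∈ L₁) ∧ (∀ φ ∈ L₂, H1etRep cubeCurve 3 σ φ ∈ L₂)) ∧
      (∀ σ : Gal(Cm3Bar/Cm3Field), σ omegaBar ≠ omegaBar →
        (∀ φ ∈ L₁, H1etRep cubeCurve 3 σ φ ∈ L₂) ∧ (∀ φ ∈ L₂, H1etRep cubeCurve 3 σ φ ∈ L₁)) :=
  H1etRep_cubeCurve_induced_of_finrank sanity_finrank_H1et_cubeCurve_three

end Claimed.Open.R030.TateRk
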