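import Claimed.Open.R030.SanityTateThree

/-!
# Result 030: the representation on `H¹_ét(E₃, Q̄_3)` is irreducible

For `E₃ : y² = x³ + 1` over `K = ℚ(i)` the complex multiplication is not defined over `K`, and the last clause of `Statement` says that `π` is the automorphic induction of a Hecke character of `K(ω)`; such a `π` is cuspidal, and the
Galois representation attached to it is irreducible.  This file checks that on the Galois side, for `l = 3`:

* `sanity_isIrreducible_H1etRep_cubeCurve_three : (H1etRep cubeCurve 3).IsIrreducible`.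

(For `y² = x³ - x`, whose complex multiplication is defined over `K`, the representation is a sum of two characters: `SanityTateGauss.lean`; this matches the clause "isobaric sum".)

## The proof

Let `D = (1 + 2 [ω])^*` on `V = H¹` (`SanityTateGalois.lean`): `ρ(σ)` commutes with `D` if `σ ω = ω` and anticommutes otherwise.  Suppose `W ≠ 0, V` is stable.

1. (R3)  `W = C w`, and `w, D w` is a basis of `V`.  If `σ ω = ω` then `ρ(σ) w = c w` and `ρ(σ) D w = D ρ(σ) w = c D w`: `ρ(σ)` is a scalar.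
2. (R1, R2)  Take a frame `x₁, x₂` of `T_3 E₃` with first terms `E0 = (0, 1)` and `e₂`, a basis of `E₃[3]`.  If `σ` acts on `H¹` as the scalar `c`, the coordinates of `σ x₁`, `σ x₂` are `(γ, 0)`, `(0, γ)` with `γ ∈ ℤ_3` of image `c`.  As `σ E0 = E0`,
   `γ ≡ 1` modulo `3`; so `σ e₂ = e₂`.
3. (R6)  `λ e₂ = ± E0` for `λ = 1 - [ω]`, so the `x`-coordinate of `e₂` satisfies `x³ = -4`.
4. (R5a, R5b)  `x ∉ K(ω)`, because `[ℚ(x) : ℚ] = 3` does not divide `[K(ω) : ℚ] = 4`; so some `σ` fixes `ω` and moves `x`, hence `e₂`: a contradiction.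
5. (R4) translates this to Mathlib's `IsSimpleOrder (Subrepresentation ρ)`.

The contracts are due to helper33; the sections were written by the seats named there.
-/

set_option autoImplicit false

namespace Claimed.Open.R030.TateRk

/-! ## R1. The dual basis and the coordinates  (written by helper70) -/

section TiR1

open scoped Classical

variable {k : Type} [Field k] {E : WeierstrassCurve k} {l : ℕ} [Fact l.Prime]

/-- the dual basis together with the coordinates.  (The proof of `exists_dual` in `SanityTateRank.lean`, section TkC2, gives this: choose `c₁, c₂` by `Frame.exists_isCoord`, additive by `IsCoord.add` + `Frame.isCoord_unique`, small by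
`Frame.isCoord_small`, then `mem_H1et_of_coord`.) -/
theorem exists_dual_coord {x₁ x₂ : tateModule E l} (F : Frame l x₁.1 x₂.1) :
    ∃ (φ₁ φ₂ : H1et E l) (c₁ c₂ : tateModule E l → ℤ_[l]),
      (∀ P, IsCoord l x₁.1 x₂.1 P.1 (c₁ P) (c₂ P)) ∧
      (∀ P, φ₁.1 P = algebraMap ℚ_[l] (PadicAlgCl l) ((c₁ P : ℤ_[l]) : ℚ_[l])) ∧
      (∀ P, φ₂.1 P = algebraMap ℚ_[l] (PadicAlgCl l) ((c₂ P : ℤ_[l]) : ℚ_[l])) := by
  choose c₁ c₂ hc using fun P : tateModule E l => F.exists_isCoord (isSeq_of_tateModule P)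
  have hadd : ∀ P Q : tateModule E l, c₁ (P + Q) = c₁ P + c₁ Q ∧ c₂ (P + Q) = c₂ P + c₂ Q :=
    fun P Q => F.isCoord_unique (hc (P + Q)) ((hc P).add (hc Q))
  have hsmall : ∀ (n : ℕ) (P : tateModule E l), P.1 n = 0 →
      (l : ℤ_[l]) ^ n ∣ c₁ P ∧ (l : ℤ_[l]) ^ n ∣ c₂ P :=
    fun n P hP => F.isCoord_small (hc P) hP
  exact ⟨⟨_, mem_H1et_of_coord c₁ (fun P Q => (hadd P Q).1) (fun n P hP => (hsmall n P hP).1)⟩,
    ⟨_, mem_H1et_of_coord c₂ (fun P Q => (hadd P Q).2) (fun n P hP => (hsmall n P hP).2)⟩,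
    c₁, c₂, hc, fun _ => rfl, fun _ => rfl⟩

/-- divisibility in `ℤ_l` of an integer is divisibility in `ℤ`  (`PadicInt.norm_int_le_pow_iff_dvd` / `b1_dvd_iff_norm`, with `n = 1`) -/
theorem int_dvd_of_padicInt_dvd {a : ℤ} (h : (l : ℤ_[l]) ^ 1 ∣ (a : ℤ_[l])) : (l : ℤ) ∣ a := by
  have h1 := (PadicInt.pow_p_dvd_int_iff (p := l) 1 a).1 h
  simpa using h1

end TiR1

/-! ## R2. A scalar that fixes `x₁ 1` fixes `x₂ 1`  (written by helper177) -/

section TiR2

open scoped Classical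

variable {k : Type} [Field k] {E : WeierstrassCurve k} {l : ℕ} [Fact l.Prime]

/-- the map `ℤ_l → ℚ_l → Q̄_l` is injective -/
theorem r2_inj {a b : ℤ_[l]}
    (h : algebraMap ℚ_[l] (PadicAlgCl l) ((a : ℤ_[l]) : ℚ_[l]) =
      algebraMap ℚ_[l] (PadicAlgCl l) ((b : ℤ_[l]) : ℚ_[l])) : a = b :=
  Subtype.ext ((algebraMap ℚ_[l] (PadicAlgCl l)).injective h)

omit [Fact l.Prime] in
/-- a multiple of `l` kills the first term of a compatible sequence -/
theorem r2_zsmul_eq_zero {A : Type} [AddCommGroup A] {x : ℕ → A} (hx : IsSeq l x) {a : ℤ}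
    (ha : (l : ℤ) ∣ a) : a • x 1 = 0 := by
  obtain ⟨a', rfl⟩ := ha
  have h0 : l • x 1 = 0 := by
    have := hx.2 0
    rwa [zero_add, hx.1] at this
  rw [mul_comm, mul_smul, natCast_zsmul, h0, smul_zero]

/-- **If `τ` acts on `H¹` as a scalar and fixes `x₁ 1`, it fixes `x₂ 1`.**  Take `φ_i, c_i` from `exists_dual_coord`; `c₁ x₁ = 1`, `c₂ x₁ = 0`, `c₁ x₂ = 0`, `c₂ x₂ = 1` (`Frame.isCoord_unique`, `isCoord_left`, `isCoord_right`).  Put `γ = c₁ (τ x₁)`.
From `hc`: the image of `γ` is `c`; `c₁ (τ x₂) = 0` and `c₂ (τ x₂) = γ` (the map `ℤ_l → ℚ_l → Q̄_l` is injective).  `IsCoord` of `τ x₁` at `n = 1`: `(τ x₁) 1 = a x₁ 1 + b x₂ 1`, `l ∣ γ - a`; with `h1` and `Frame.indep`: `l ∣ a - 1`; so `l ∣ γ - 1`.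
`IsCoord` of `τ x₂` at `n = 1`: `(τ x₂) 1 = a' x₁ 1 + b' x₂ 1`, `l ∣ 0 - a'`, `l ∣ γ - b'`; so `l ∣ a'`, `l ∣ b' - 1` in `ℤ` (`int_dvd_of_padicInt_dvd`), and `l • x_i 1 = x_i 0 = 0`. -/
theorem level_one_of_scalar {x₁ x₂ : tateModule E l} (F : Frame l x₁.1 x₂.1)
    (τ : tateModule E l →+ tateModule E l) (c : PadicAlgCl l)
    (hc : ∀ (φ : H1et E l) (P : tateModule E l), φ.1 (τ P) = c * φ.1 P)
    (h1 : (τ x₁).1 1 = x₁.1 1) : (τ x₂).1 1 = x₂.1 1 := by
  obtain ⟨φ₁, φ₂, c₁, c₂, hco, hφ₁, hφ₂⟩ := exists_dual_coord F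
  obtain ⟨u11, u12⟩ := F.isCoord_unique (hco x₁) isCoord_left
  obtain ⟨u21, u22⟩ := F.isCoord_unique (hco x₂) isCoord_right
  -- the scalar
  have e1 : algebraMap ℚ_[l] (PadicAlgCl l) ((c₁ (τ x₁) : ℤ_[l]) : ℚ_[l]) = c := by
    have := hc φ₁ x₁
    rw [hφ₁, hφ₁, u11] at this
    simpa using this
  have e2 : c₁ (τ x₂) = 0 := by
    apply r2_inj
    have := hc φ₁ x₂
    rw [hφ₁, hφ₁, u21] at this
    simpa using this
  have e3 : c₂ (τ x₂) = c₁ (τ x₁) := by
    apply r2_inj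
    have := hc φ₂ x₂
    rw [hφ₂, hφ₂, u22] at this
    rw [e1]
    simpa using this
  -- `γ ≡ 1`
  obtain ⟨a, b, hab, ha, -⟩ := hco (τ x₁) 1
  have hind : (l : ℤ) ∣ a - 1 := by
    refine (F.indep (a - 1) b ?_).1
    rw [h1] at hab
    rw [sub_smul, one_smul]
    have : a • x₁.1 1 - x₁.1 1 + b • x₂.1 1 = (a • x₁.1 1 + b • x₂.1 1) - x₁.1 1 := by abel
    rw [this, ← hab, sub_self]
  have hγ : (l : ℤ_[l]) ^ 1 ∣ c₁ (τ x₁) - 1 := by
    have h2 : (l : ℤ_[l]) ^ 1 ∣ ((a - 1 : ℤ) : ℤ_[l]) := by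
      obtain ⟨q, hq⟩ := hind
      rw [hq, pow_one]
      push_cast
      exact Dvd.intro _ rfl
    have := dvd_add ha h2
    push_cast at this
    simpa using this
  -- the coordinates of `τ x₂`
  obtain ⟨a', b', hab', ha', hb'⟩ := hco (τ x₂) 1
  rw [e2] at ha'
  rw [e3] at hb'
  have ka : (l : ℤ) ∣ a' := by
    apply int_dvd_of_padicInt_dvd (l := l)
    have := (dvd_neg (a := (l : ℤ_[l]) ^ 1)).mpr ha'
    simpa using this
  have kb : (l : ℤ) ∣ b' - 1 := by
    apply int_dvd_of_padicInt_dvd (l := l)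
    have := dvd_sub hγ hb'
    push_cast
    have e : c₁ (τ x₁) - 1 - (c₁ (τ x₁) - (b' : ℤ_[l])) = (b' : ℤ_[l]) - 1 := by ring
    rwa [e] at this
  rw [hab', r2_zsmul_eq_zero F.seq₁ ka, zero_add]
  have : b' • x₂.1 1 = (b' - 1) • x₂.1 1 + x₂.1 1 := by rw [sub_smul, one_smul]; abel
  rw [this, r2_zsmul_eq_zero F.seq₂ kb, zero_add]

end TiR2

/-! ## R3. A stable line makes the commutant of `D` scalar  (written by helper8) -/

section TiR3

variable {C G V : Type} [Field C] [Group G] [AddCommGroup V] [Module C V]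

/-- In the situation of `exists_isCompl_of_anticomm`: if there is a stable subspace `W ≠ ⊥, ⊤`, then every `g` that commutes with `D` acts as a scalar.  (`W = C w`; `D w ∉ W`: otherwise `D w = λ w`, `λ ≠ 0`, `ρ g₀ w = c₀ w`, `c₀ ≠ 0`,
`λ c₀ w = ρ g₀ (D w) = - D (ρ g₀ w) = - c₀ λ w`; see the proof of `exists_isCompl_of_anticomm` in `SanityTateGalois.lean`, section TcS1.  So `w, D w` is a basis of `V` (dimension `2`); `ρ g w = c w` and `ρ g (D w) = D (ρ g w) = c D w`.) -/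
theorem scalar_of_stable_line (ρ : Representation C G V) (h2 : Module.finrank C V = 2)
    (hchar : (2 : C) ≠ 0) (D : V →ₗ[C] V) (hD : Function.Injective D)
    (g₀ : G) (hg₀ : ∀ v, ρ g₀ (D v) = - D (ρ g₀ v))
    (W : Submodule C V) (hW : ∀ g v, v ∈ W → ρ g v ∈ W) (hbot : W ≠ ⊥) (htop : W ≠ ⊤)
    (g : G) (hg : ∀ v, ρ g (D v) = D (ρ g v)) :
    ∃ c : C, ∀ v, ρ g v = c • v := by
  have hfin : FiniteDimensional C V := FiniteDimensional.of_finrank_pos (by rw [h2]; norm_num)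
  obtain ⟨w, hwW, hw0⟩ := Submodule.exists_mem_ne_zero_of_ne_bot hbot
  have hW1 : Module.finrank C W = 1 := by
    have h1 : Module.finrank C W < 2 := h2 ▸ Submodule.finrank_lt htop
    have h3 : 0 < Module.finrank C W := by
      have : Nontrivial W := ⟨⟨⟨w, hwW⟩, 0, fun h => hw0 (congrArg Subtype.val h)⟩⟩
      exact Module.finrank_pos
    omega
  have hline : ∀ u ∈ W, ∃ c : C, u = c • w := by
    intro u hu
    obtain ⟨c, hc⟩ := (finrank_eq_one_iff_of_nonzero' (⟨w, hwW⟩ : W)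
      (fun h => hw0 (congrArg Subtype.val h))).1 hW1 ⟨u, hu⟩
    exact ⟨c, (congrArg Subtype.val hc).symm⟩
  have hDw : D w ∉ W := by
    intro hmem
    obtain ⟨l, hl⟩ := hline _ hmem
    obtain ⟨c₀, hc₀⟩ := hline _ (hW g₀ w hwW)
    have hl0 : l ≠ 0 := by
      rintro rfl
      rw [zero_smul] at hl
      exact hw0 (hD (hl.trans (map_zero D).symm))
    have hc0 : c₀ ≠ 0 := by
      rintro rfl
      rw [zero_smul] at hc₀
      have h5 : ρ g₀⁻¹ (ρ g₀ w) = w := by
        rw [← Module.End.mul_apply, ← map_mul, inv_mul_cancel, map_one, Module.End.one_apply]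
      rw [hc₀, map_zero] at h5
      exact hw0 h5.symm
    have h3 := hg₀ w
    rw [hl, map_smul, hc₀, map_smul, hl, smul_smul, smul_smul] at h3
    have h4 : ((2 : C) * (l * c₀)) • w = 0 := by
      have h6 : (l * c₀) • w + (c₀ * l) • w = 0 := by rw [h3]; exact neg_add_cancel _
      rw [← add_smul] at h6
      rw [← h6]
      congr 1
      ring
    rcases smul_eq_zero.1 h4 with h5 | h5
    · exact (mul_ne_zero hchar (mul_ne_zero hl0 hc0)) h5
    · exact hw0 h5
  obtain ⟨c, hc⟩ := hline _ (hW g w hwW)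
  refine ⟨c, fun v => ?_⟩
  have hli : LinearIndependent C ![w, D w] := by
    rw [LinearIndependent.pair_iff]
    intro s t hst
    have ht : t = 0 := by
      by_contra ht
      apply hDw
      have h7 : D w = (-(t⁻¹ * s)) • w := by
        have h5 : t • D w = -(s • w) := by
          rw [eq_neg_iff_add_eq_zero, add_comm]
          exact hst
        calc D w = t⁻¹ • (t • D w) := by rw [smul_smul, inv_mul_cancel₀ ht, one_smul]
          _ = _ := by rw [h5, smul_neg, smul_smul, neg_smul]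
      rw [h7]
      exact W.smul_mem _ hwW
    subst ht
    rw [zero_smul, add_zero] at hst
    exact ⟨(smul_eq_zero.1 hst).resolve_right hw0, rfl⟩
  have hspan : Submodule.span C (Set.range ![w, D w]) = ⊤ :=
    hli.span_eq_top_of_card_eq_finrank (by rw [h2]; simp)
  have hv : v ∈ Submodule.span C (Set.range ![w, D w]) := by
    rw [hspan]
    trivial
  rw [Matrix.range_cons, Matrix.range_cons, Matrix.range_empty, Set.union_empty, Set.singleton_union] at hv
  obtain ⟨a, b, rfl⟩ := Submodule.mem_span_pair.1 hv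
  rw [map_add, map_smul, map_smul, hg, hc, map_smul, smul_add, smul_comm a c, smul_comm b c]

end TiR3

/-! ## R4. Subrepresentations  (written by helper71) -/

section TiR4

variable {C G V : Type} [Field C] [Group G] [AddCommGroup V] [Module C V]

/-- `IsIrreducible ρ` is `IsSimpleOrder (Subrepresentation ρ)`  (`Subrepresentation.toSubmodule_injective`; `⊥ ≠ ⊤` as `V` is not trivial; pattern: `isSemisimpleRepresentation_of_exists_isCompl`, section TcS1b of `SanityTateGalois.lean`) -/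
theorem isIrreducible_of_forall_stable (ρ : Representation C G V) [Nontrivial V]
    (h : ∀ W : Submodule C V, (∀ g v, v ∈ W → ρ g v ∈ W) → W = ⊥ ∨ W = ⊤) : ρ.IsIrreducible := by
  have hnt : Nontrivial (Subrepresentation ρ) := by
    refine ⟨⊥, ⊤, fun hbt => ?_⟩
    have h1 : (⊥ : Submodule C V) = ⊤ := congrArg Subrepresentation.toSubmodule hbt
    exact bot_ne_top h1
  refine { eq_bot_or_eq_top := fun σ => ?_ }
  rcases h σ.toSubmodule (fun g v hv => σ.apply_mem_toSubmodule g hv) with h1 | h1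
  · exact Or.inl (Subrepresentation.toSubmodule_injective h1)
  · exact Or.inr (Subrepresentation.toSubmodule_injective h1)

end TiR4

/-! ## R5a. `∛(-4) ∉ K(ω)`  (written by helper33) -/

section TiR5a

open scoped Classical
open Polynomial

/-- `x³ + 4` has no rational root -/
theorem r5a_no_rat_root (t : ℚ) : t ^ 3 + 4 ≠ 0 := by
  intro h
  have hroot : Polynomial.aeval t (X ^ 3 + 4 : ℤ[X]) = 0 := by
    simp only [map_add, map_pow, aeval_X, map_ofNat]
    exact h
  have hmonic : (X ^ 3 + 4 : ℤ[X]).Monic := by monicity!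
  have hint : IsIntegral ℤ t := ⟨_, hmonic, by simpa [aeval_def] using hroot⟩
  obtain ⟨n, rfl⟩ := IsIntegrallyClosed.isIntegral_iff.mp hint
  have h' : (n : ℤ) ^ 3 + 4 = 0 := by
    have : ((n ^ 3 + 4 : ℤ) : ℚ) = 0 := by push_cast; simpa using h
    exact_mod_cast this
  have hlt : n < 0 := by
    by_contra hn
    push Not at hn
    have : 0 ≤ n ^ 3 := pow_nonneg hn 3
    omega
  have hgt : -2 < n := by
    by_contra hn
    push Not at hn
    have h1 : n ^ 3 ≤ -8 := by nlinarith [sq_nonneg n, sq_nonneg (n + 2)]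
    omega
  have : n = -1 := by omega
  rw [this] at h'
  norm_num at h'

theorem r5a_irreducible : Irreducible (X ^ 3 + 4 : ℚ[X]) := by
  have hm : (X ^ 3 + 4 : ℚ[X]).Monic := by monicity!
  have hd : (X ^ 3 + 4 : ℚ[X]).natDegree = 3 := by compute_degree!
  rw [hm.irreducible_iff_roots_eq_zero_of_degree_le_three (by omega) (by omega)]
  rw [Multiset.eq_zero_iff_forall_notMem]
  intro t ht
  rw [mem_roots hm.ne_zero] at ht
  apply r5a_no_rat_root t
  simpa [IsRoot] using ht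

set_option backward.isDefEq.respectTransparency false in
/-- `∛(-4) ∉ K(ω) = ℚ(i, ω)`: `X³ + 4` has no rational root, so it is irreducible over `ℚ` and `[ℚ(x) : ℚ] = 3`, which does not divide `[K(ω) : ℚ] = [K(ω) : K] [K : ℚ] = 2 · 2`.  (`sanity_cubeCurve_last_clause` / `finrank_cm3L` in
`SanityClauses.lean` for `[K(ω) : K] = 2`; `Cm3Field` is `ℚ(i)`, `finrank ℚ = 2`; pattern for the cubic: `no_root_Cm3Field`, `root_notMem_range` in `SanityNoCM2.lean`, section T2; `minpoly.natDegree`/`IntermediateField.adjoin.finrank`,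
`Module.finrank_mul_finrank`, `minpoly.degree_dvd` (`(minpoly ℚ x).natDegree ∣ finrank ℚ L` for `x : L`).) -/
theorem cbrt_notMem_cm3L (x : Cm3Bar) (hx : x ^ 3 = -4) : x ∉ cm3L := by
  intro hmem
  have hm : (X ^ 3 + 4 : ℚ[X]).Monic := by monicity!
  have hd : (X ^ 3 + 4 : ℚ[X]).natDegree = 3 := by compute_degree!
  let z : cm3L := ⟨x, hmem⟩
  have hz : z ^ 3 + 4 = 0 := by
    apply Subtype.ext
    show x ^ 3 + 4 = 0
    rw [hx]; ring
  have hroot : aeval z (X ^ 3 + 4 : ℚ[X]) = 0 := by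
    simp only [map_add, map_pow, aeval_X, map_ofNat]
    exact hz
  have h1 : minpoly ℚ z = X ^ 3 + 4 := (minpoly.eq_of_irreducible_of_monic r5a_irreducible hroot hm).symm
  have h4 : Module.finrank ℚ Cm3Field = 2 := by
    rw [IsCyclotomicExtension.Rat.finrank 4 Cm3Field]
    decide
  have h5 : Module.finrank ℚ cm3L = 4 := by
    rw [← Module.finrank_mul_finrank ℚ Cm3Field cm3L, h4, finrank_cm3L]
  have : FiniteDimensional ℚ cm3L := Module.finite_of_finrank_pos (by rw [h5]; norm_num)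
  have h2 : (minpoly ℚ z).natDegree ∣ Module.finrank ℚ cm3L := minpoly.degree_dvd (IsIntegral.of_finite ℚ z)
  rw [h1, hd, h5] at h2
  omega

end TiR5a

/-! ## R5b. Galois theory  (written by helper33) -/

section TiR5b

open scoped Classical

/-- Galois theory: an element outside `K(ω)` is moved by some `σ` that fixes `ω`.  (`InfiniteGalois.fixedField_fixingSubgroup cm3L`, `IntermediateField.mem_fixedField_iff`, as in `CubeEnd.HasA.mem_of_comm` (`SanityCMField.lean`);
`omegaBar_mem_cm3L`, `IntermediateField.mem_fixingSubgroup_iff`.) -/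
theorem exists_gal_of_notMem_cm3L (x : Cm3Bar) (hx : x ∉ cm3L) :
    ∃ σ : Gal(Cm3Bar/Cm3Field), σ omegaBar = omegaBar ∧ σ x ≠ x := by
  by_contra hcon
  push Not at hcon
  apply hx
  rw [← InfiniteGalois.fixedField_fixingSubgroup cm3L, IntermediateField.mem_fixedField_iff]
  intro σ hσ
  exact hcon σ ((IntermediateField.mem_fixingSubgroup_iff cm3L σ).mp hσ _ omegaBar_mem_cm3L)

end TiR5b

/-! ## R6. The points of order `3`  (written by helper150) -/

section TiR6

open scoped Classical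
open WeierstrassCurve

theorem r6_omegaBar_ne_zero : omegaBar ≠ 0 := by
  intro h0
  have := omegaBar_spec
  rw [h0] at this
  norm_num at this

/-- `λ P = ± E0` forces `x(P)³ = -4`.  (`P = 0`: `λ P = 0 ≠ ± E0`.  `P = (x, y)`, `x = 0`: `[ω] P = P`, `λ P = 0`.  `x ≠ 0`: `lam3_some`; the `x`-coordinate `- ω² (x³ + 4) / (3 x²)` is that of `± E0 = (0, ± 1)`, i.e. `0`.) -/
theorem x_cube_of_lam3 (P : PtsBar cubeCurve) (h : lam3 P = E0 ∨ lam3 P = -E0) :
    ∃ (x y : Cm3Bar) (hxy : CubeEnd.EC.Nonsingular x y), P = .some x y hxy ∧ x ^ 3 = -4 := by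
  have hne : lam3 P ≠ 0 := by
    rcases h with h | h
    · rw [h]; exact q3_E0_ne_zero
    · rw [h]; exact neg_ne_zero.mpr q3_E0_ne_zero
  rcases P with _ | ⟨x, y, hxy⟩
  · exact absurd (map_zero lam3) hne
  · by_cases hx : x = 0
    · subst hx
      exfalso
      apply hne
      rw [q2_lam3_apply, cubeCurveEndo_some, sub_eq_zero, Affine.Point.some.injEq]
      exact ⟨(mul_zero _).symm, rfl⟩
    · obtain ⟨y', h', e⟩ := lam3_some hxy hx
      refine ⟨x, y, hxy, rfl, ?_⟩
      have hx0 : -(omegaBar ^ 2) * (x ^ 3 + 4) / (3 * x ^ 2) = 0 := by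
        rcases h with h | h
        · rw [e, E0, Affine.Point.some.injEq] at h
          exact h.1
        · obtain ⟨h'', e2⟩ := CubeEnd.neg_some (x := 0) (y := 1)
            (CubeEnd.nonsingular_iff.mpr (by norm_num))
          rw [e, E0, e2, Affine.Point.some.injEq] at h
          exact h.1
      rw [div_eq_zero_iff] at hx0
      rcases hx0 with h1 | h1
      · rcases mul_eq_zero.mp h1 with h2 | h2
        · exact absurd h2 (neg_ne_zero.mpr (pow_ne_zero 2 r6_omegaBar_ne_zero))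
        · linear_combination h2
      · exact absurd h1 (mul_ne_zero (by norm_num) (pow_ne_zero 2 hx))

/-- a second basis vector `e₂` of `E₃[3]` has `x(e₂)³ = -4`.  (`3 e₂ = 0 ⇒ λ (λ e₂) = 0` (`lam3_lam3`) `⇒ λ e₂ = a E0` (`lam3_eq_zero_iff`), `a % 3 ∈ {0, 1, 2}` and `3 E0 = 0`: `λ e₂ ∈ {0, E0, - E0}`; `λ e₂ = 0 ⇒ e₂ = a' E0`, against `hind`.) -/
theorem x_cube_of_basis (e₂ : PtsBar cubeCurve) (h3 : 3 • e₂ = 0)
    (hind : ∀ a b : ℤ, a • E0 + b • e₂ = 0 → ((3 : ℕ) : ℤ) ∣ a ∧ ((3 : ℕ) : ℤ) ∣ b) :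
    ∃ (x y : Cm3Bar) (hxy : CubeEnd.EC.Nonsingular x y), e₂ = .some x y hxy ∧ x ^ 3 = -4 := by
  have h1 : lam3 (lam3 e₂) = 0 := by rw [lam3_lam3, h3, map_zero]
  obtain ⟨a, ha⟩ := (lam3_eq_zero_iff _).1 h1
  have h3E : (3 : ℤ) • E0 = 0 := by
    have := q3_three_E0
    rwa [← natCast_zsmul] at this
  have hr : lam3 e₂ = (a % 3) • E0 := by
    have e : a % 3 = a - (a / 3) * 3 := by
      have := Int.emod_add_mul_ediv a 3
      linarith
    rw [e, sub_smul, mul_zsmul, h3E, zsmul_zero, sub_zero, ha]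
  have h0 : 0 ≤ a % 3 := Int.emod_nonneg a (by norm_num)
  have h2 : a % 3 < 3 := Int.emod_lt_of_pos a (by norm_num)
  have hc : a % 3 = 0 ∨ a % 3 = 1 ∨ a % 3 = 2 := by omega
  rcases hc with hc | hc | hc
  · exfalso
    rw [hc, zero_zsmul] at hr
    obtain ⟨a', ha'⟩ := (lam3_eq_zero_iff _).1 hr
    have := (hind (-a') 1 (by rw [one_zsmul, ha', neg_zsmul, neg_add_cancel])).2
    norm_num at this
  · rw [hc, one_zsmul] at hr
    exact x_cube_of_lam3 e₂ (Or.inl hr)
  · rw [hc] at hr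
    refine x_cube_of_lam3 e₂ (Or.inr ?_)
    rw [hr, eq_neg_iff_add_eq_zero]
    have : (2 : ℤ) • E0 + E0 = (3 : ℤ) • E0 := by
      rw [show (3 : ℤ) = 2 + 1 by norm_num, add_zsmul, one_zsmul]
    rw [this, h3E]

/-- `σ (0, 1) = (0, 1)` -/
theorem galPts_E0 (σ : Gal(Cm3Bar/Cm3Field)) : galPts cubeCurve σ E0 = E0 := by
  obtain ⟨h', e⟩ := galPts_some_eq cubeCurve σ (x := 0) (y := 1)
    (CubeEnd.nonsingular_iff.mpr (by norm_num))
  rw [E0, e, Affine.Point.some.injEq]
  exact ⟨map_zero _, map_one _⟩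

end TiR6

/-! ## R7. The representation is irreducible  (written by helper33) -/

section TiR7

open scoped Classical

/-- **The representation of `Gal(K̄/K)` on `H¹_ét(E₃, Q̄_3)` is irreducible.** -/
theorem sanity_isIrreducible_H1etRep_cubeCurve_three : (H1etRep cubeCurve 3).IsIrreducible := by
  have : Nontrivial (H1et cubeCurve 3) :=
    Module.nontrivial_of_finrank_pos (R := PadicAlgCl 3)
      (by rw [sanity_finrank_H1et_cubeCurve_three]; norm_num)
  refine isIrreducible_of_forall_stable _ fun W hW => ?_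
  by_contra hcon
  push Not at hcon
  obtain ⟨hbot, htop⟩ := hcon
  -- a frame with first terms `E0`, `e₂`
  obtain ⟨hdiv, e₂, h₁, h₂, hs, hi⟩ := hyps_of_sqrt 3 lam3 u3 u3_injective lam3_lam3
    lam3_surjective E0 lam3_eq_zero_iff E0_ord
  obtain ⟨x₁, hx₁, hx₁1⟩ := exists_isSeq hdiv E0 h₁
  obtain ⟨x₂, hx₂, hx₂1⟩ := exists_isSeq hdiv e₂ h₂
  have F0 : Frame 3 x₁ x₂ := ⟨hx₁, hx₂, by rw [hx₁1, hx₂1]; exact hs, by rw [hx₁1, hx₂1]; exact hi⟩
  have F : Frame 3 (⟨x₁, hx₁⟩ : tateModule cubeCurve 3).1 (⟨x₂, hx₂⟩ : tateModule cubeCurve 3).1 := F0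
  -- a `σ` that fixes `ω` and moves `x(e₂)`
  obtain ⟨x, y, hxy, he₂, hx3⟩ := x_cube_of_basis e₂ h₂ hi
  obtain ⟨σ, hσω, hσx⟩ := exists_gal_of_notMem_cm3L x (cbrt_notMem_cm3L x hx3)
  have hσinv : σ⁻¹ omegaBar = omegaBar := by
    have := congrArg (fun t => (σ⁻¹ : Gal(Cm3Bar/Cm3Field)) t) hσω
    rw [← AlgEquiv.mul_apply, inv_mul_cancel, AlgEquiv.one_apply] at this
    exact this.symm
  obtain ⟨g₀, hg₀⟩ := exists_gal_omegaBar_ne
  -- `ρ (σ⁻¹)` is a scalar
  obtain ⟨c, hc⟩ := scalar_of_stable_line (H1etRep cubeCurve 3) sanity_finrank_H1et_cubeCurve_three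
    two_ne_zero (h1Map delta) q6_h1Map_delta_injective g₀ ((q6_H1etRep_h1Map_delta g₀).2 hg₀)
    W hW hbot htop σ⁻¹ ((q6_H1etRep_h1Map_delta σ⁻¹).1 hσinv)
  have hc' : ∀ (φ : H1et cubeCurve 3) (P : tateModule cubeCurve 3),
      φ.1 (galTate cubeCurve 3 σ P) = c * φ.1 P := by
    intro φ P
    have h := congrArg (fun ψ : H1et cubeCurve 3 => ψ.1 P) (hc φ)
    have e : (H1etRep cubeCurve 3 σ⁻¹ φ).1 P = φ.1 (galTate cubeCurve 3 (σ⁻¹)⁻¹ P) := rfl
    rw [e, inv_inv] at h
    exact h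
  have key := level_one_of_scalar F (galTate cubeCurve 3 σ) c hc'
    (by
      show galPts cubeCurve σ (x₁ 1) = x₁ 1
      rw [hx₁1]
      exact galPts_E0 σ)
  have key' : galPts cubeCurve σ e₂ = e₂ := by
    have : galPts cubeCurve σ (x₂ 1) = x₂ 1 := key
    rwa [hx₂1] at this
  rw [he₂] at key'
  obtain ⟨h', e'⟩ := galPts_some_eq (E := cubeCurve) σ hxy
  rw [e'] at key'
  exact hσx (WeierstrassCurve.Affine.Point.some.inj key').1

end TiR7

end Claimed.Open.R030.TateRk
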