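import Claimed.Open.R030.SanityNoCM2
import Claimed.Open.R030.SanityCMField

/-!
# Result 030: `H¹_ét(E_{K̄}, Q̄_l)`, as defined in `Statement.lean`, has dimension `2` — checked on examples

The Galois side of `Statement` is the representation `H1etRep E l` of `Gal(K̄/K)` on `H1et E l`, the space of the additive maps `T_l E → Q̄_l` that are continuous for the `l`-adic topology of the Tate module
`tateModule E l = lim E[l^n](K̄)`.  A slip in one of these definitions (the transition maps, the topology, the field of coefficients, which is not complete) would show in the dimension.  Mathlib does not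
know the structure of `E[n]`.  This file proves

* `finrank_H1et_eq_two`: for a Weierstrass curve `E` over any field `k` and any prime `l`, **if `E(k̄)` is `l`-divisible and `E[l](k̄)` has a basis of two elements over `𝔽_l`, then
  `Module.finrank (PadicAlgCl l) (H1et E l) = 2`**;
* `sanity_finrank_H1et_trCurve`, `sanity_finrank_H1et_cubeCurve`: the two hypotheses hold, so the dimension is `2`, without any hypothesis, for `l = 2` and the curves `E' : y² = x³ - 3 x + 1` (no complex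
  multiplication, `SanityNoCM2.lean`) and `E₃ : y² = x³ + 1` (complex multiplication, `SanityNoCM.lean`) over `K = ℚ(i)`.

## The proof

Let `A` be an abelian group that is `l`-divisible, `e₁, e₂` a basis of `A[l]`.

1. (A1)  `e₁, e₂` are the first terms of compatible sequences `x₁, x₂` (`IsSeq`: `x 0 = 0`, `l x (n+1) = x n`), by dependent choice: a `Frame`.
2. (A2, A3)  By induction on `n`: `x₁ n, x₂ n` are independent over `ℤ / l^n`, and for every compatible sequence `P` the term `P n` is a combination `a x₁ n + b x₂ n` with integers `a, b`.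
3. (B1, B2, B3)  So `a = a_n`, `b = b_n` are unique modulo `l^n` and converge in `ℤ_l`: the coordinates `c₁ P, c₂ P ∈ ℤ_l` (`IsCoord`).  They exist (completeness of `ℤ_l`), are unique (`ℤ_l` is separated), additive in `P`,
   divisible by `l^n` if `P n = 0`, and `(1, 0)`, `(0, 1)` for `x₁`, `x₂`.
4. (C1, C2)  Hence `P ↦ c_i P ∈ ℤ_l ⊆ ℚ_l ⊆ Q̄_l` are two elements `φ₁, φ₂` of `H1et` with `φ_i x_j = δ_ij`.  (The limit is taken in `ℤ_l`: `Q̄_l` is not complete.)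
5. (C3)  An element `φ` of `H1et` with `φ x₁ = φ x₂ = 0` is `0`: `P - a_n x₁ - b_n x₂` has `n`-th term `0`, so `φ P = φ (P - a_n x₁ - b_n x₂)` is as small as we like.
6. (C4)  So `φ ↦ (φ x₁, φ x₂)` is a linear bijection `H1et → Q̄_l²`.
7. (D1, D2)  For the two curves, `E(K̄)` is `2`-divisible (`TrEnd.exists_half`, `cubeCurve_exists_half`) and the points of order `2` are known (`TrEnd.two_torsion_cases`, `CubeEnd.two_torsion_cases`).

The contracts are due to helper33; the sections were written by the seats named there.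
-/

set_option autoImplicit false

namespace Claimed.Open.R030.TateRk

/-! ## Definitions  (written by helper33) -/

section TkDefs

variable {A : Type} [AddCommGroup A]

/-- compatible sequences: the elements of `T_l A` (the condition in the definition of `tateModule`) -/
def IsSeq (l : ℕ) (P : ℕ → A) : Prop := P 0 = 0 ∧ ∀ n, l • P (n + 1) = P n

/-- two compatible sequences whose first terms form a basis of `A[l]` over `𝔽_l` -/
structure Frame (l : ℕ) (x₁ x₂ : ℕ → A) : Prop where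
  seq₁ : IsSeq l x₁
  seq₂ : IsSeq l x₂
  span : ∀ Q : A, l • Q = 0 → ∃ a b : ℤ, Q = a • x₁ 1 + b • x₂ 1
  indep : ∀ a b : ℤ, a • x₁ 1 + b • x₂ 1 = 0 → (l : ℤ) ∣ a ∧ (l : ℤ) ∣ b

/-- `(c₁, c₂) ∈ ℤ_l²` are the coordinates of `P` in the frame: `P = c₁ x₁ + c₂ x₂` -/
def IsCoord (l : ℕ) [Fact l.Prime] (x₁ x₂ P : ℕ → A) (c₁ c₂ : ℤ_[l]) : Prop :=
  ∀ n, ∃ a b : ℤ, P n = a • x₁ n + b • x₂ n ∧
    (l : ℤ_[l]) ^ n ∣ c₁ - (a : ℤ_[l]) ∧ (l : ℤ_[l]) ^ n ∣ c₂ - (b : ℤ_[l])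

end TkDefs

/-! ## A1. Compatible sequences  (written by helper33) -/

section TkA1

variable {A : Type} [AddCommGroup A] {l : ℕ}

/-- induction on `m` -/
theorem IsSeq.pow_smul {P : ℕ → A} (h : IsSeq l P) (m n : ℕ) : l ^ m • P (n + m) = P n := by
  induction m with
  | zero => simp
  | succ m ih =>
    rw [pow_succ, mul_smul, ← add_assoc, h.2 (n + m), ih]

/-- `P_n ∈ A[l^n]` -/
theorem IsSeq.pow_smul_self {P : ℕ → A} (h : IsSeq l P) (n : ℕ) : l ^ n • P n = 0 := by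
  have := h.pow_smul n 0
  rwa [zero_add, h.1] at this

/-- dependent choice: `x 0 = 0`, `x 1 = e`, `x (n + 2)` = some `l`-th part of `x (n + 1)` -/
theorem exists_isSeq (hdiv : ∀ Q : A, ∃ P : A, l • P = Q) (e : A) (he : l • e = 0) :
    ∃ x : ℕ → A, IsSeq l x ∧ x 1 = e := by
  let y : ℕ → A := fun n => Nat.rec e (fun _ Q => Classical.choose (hdiv Q)) n
  have hy : ∀ n, l • y (n + 1) = y n := fun n => Classical.choose_spec (hdiv (y n))
  refine ⟨fun n => Nat.casesOn n 0 y, ⟨rfl, fun n => ?_⟩, rfl⟩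
  cases n with
  | zero => exact he
  | succ n => exact hy n

end TkA1

/-! ## A2. Independence modulo `l^n`  (written by helper33) -/

section TkA2

variable {A : Type} [AddCommGroup A] {l : ℕ} {x₁ x₂ : ℕ → A}

/-- `x₁ n, x₂ n` are independent over `ℤ / l^n`.  Induction on `n`: multiply `a x₁(n+1) + b x₂(n+1) = 0` by `l^n` (`IsSeq.pow_smul` with `n := 1`): `a x₁(1) + b x₂(1) = 0`, so `a = l a'`, `b = l b'`
(`Frame.indep`); then `a' x₁(n) + b' x₂(n) = 0`. -/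
theorem Frame.indep_n (F : Frame l x₁ x₂) (n : ℕ) (a b : ℤ) (h : a • x₁ n + b • x₂ n = 0) :
    (l : ℤ) ^ n ∣ a ∧ (l : ℤ) ^ n ∣ b := by
  induction n generalizing a b with
  | zero => simp
  | succ n ih =>
    have e₁ : l ^ n • x₁ (n + 1) = x₁ 1 := by
      have := F.seq₁.pow_smul n 1
      rwa [add_comm 1 n] at this
    have e₂ : l ^ n • x₂ (n + 1) = x₂ 1 := by
      have := F.seq₂.pow_smul n 1
      rwa [add_comm 1 n] at this
    have h1 : a • x₁ 1 + b • x₂ 1 = 0 := by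
      have := congrArg (fun t => l ^ n • t) h
      simp only [smul_add, smul_zero] at this
      rw [smul_comm (l ^ n) a, smul_comm (l ^ n) b, e₁, e₂] at this
      exact this
    obtain ⟨⟨a', rfl⟩, ⟨b', rfl⟩⟩ := F.indep a b h1
    have h2 : a' • x₁ n + b' • x₂ n = 0 := by
      rw [← F.seq₁.2 n, ← F.seq₂.2 n]
      rw [mul_comm (l : ℤ) a', mul_comm (l : ℤ) b', mul_smul, mul_smul, natCast_zsmul,
        natCast_zsmul] at h
      exact h
    obtain ⟨ha, hb⟩ := ih a' b' h2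
    rw [pow_succ']
    exact ⟨mul_dvd_mul_left _ ha, mul_dvd_mul_left _ hb⟩

end TkA2

/-! ## A3. Generation modulo `l^n`  (written by helper10) -/

section TkA3

variable {A : Type} [AddCommGroup A] {l : ℕ} {x₁ x₂ : ℕ → A}

/-- `x₁ n, x₂ n` generate `A[l^n]` (as far as compatible sequences go).  Induction on `n`: if `P n = a x₁(n) + b x₂(n)` then `R := P(n+1) - a x₁(n+1) - b x₂(n+1)` is killed by `l`, so
`R = c x₁(1) + d x₂(1) = c l^n x₁(n+1) + d l^n x₂(n+1)` (`Frame.span`, `IsSeq.pow_smul`). -/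
theorem Frame.span_n (F : Frame l x₁ x₂) {P : ℕ → A} (hP : IsSeq l P) (n : ℕ) :
    ∃ a b : ℤ, P n = a • x₁ n + b • x₂ n := by
  induction n with
  | zero => exact ⟨0, 0, by simp [hP.1]⟩
  | succ n ih =>
    obtain ⟨a, b, hab⟩ := ih
    have e₁ : l ^ n • x₁ (n + 1) = x₁ 1 := by
      have := F.seq₁.pow_smul n 1
      rwa [add_comm] at this
    have e₂ : l ^ n • x₂ (n + 1) = x₂ 1 := by
      have := F.seq₂.pow_smul n 1
      rwa [add_comm] at this
    have hR : l • (P (n + 1) - a • x₁ (n + 1) - b • x₂ (n + 1)) = 0 := by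
      rw [smul_sub, smul_sub, smul_comm l a, smul_comm l b, hP.2 n, F.seq₁.2 n, F.seq₂.2 n, hab]
      abel
    obtain ⟨c, d, hcd⟩ := F.span _ hR
    refine ⟨a + c * (l : ℤ) ^ n, b + d * (l : ℤ) ^ n, ?_⟩
    have k₁ : (c * (l : ℤ) ^ n) • x₁ (n + 1) = c • x₁ 1 := by
      rw [mul_smul, ← e₁]
      congr 1
      rw [← natCast_zsmul]
      push_cast
      rfl
    have k₂ : (d * (l : ℤ) ^ n) • x₂ (n + 1) = d • x₂ 1 := by
      rw [mul_smul, ← e₂]
      congr 1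
      rw [← natCast_zsmul]
      push_cast
      rfl
    rw [add_smul, add_smul, k₁, k₂]
    have : P (n + 1) = (P (n + 1) - a • x₁ (n + 1) - b • x₂ (n + 1)) + a • x₁ (n + 1) +
        b • x₂ (n + 1) := by abel
    rw [this, hcd]
    abel

end TkA3

/-! ## B1. Existence of the coordinates in `ℤ_l`  (written by helper20) -/

section TkB1

variable {A : Type} [AddCommGroup A] {l : ℕ} [Fact l.Prime] {x₁ x₂ : ℕ → A}

/-- telescoping: `l^n ∣ a (n + k) - a n` -/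
theorem b1_dvd_add {l : ℕ} (a : ℕ → ℤ) (h : ∀ n, (l : ℤ) ^ n ∣ a (n + 1) - a n) (n k : ℕ) :
    (l : ℤ) ^ n ∣ a (n + k) - a n := by
  induction k with
  | zero => simp
  | succ k ih =>
    have h1 : (l : ℤ) ^ n ∣ a (n + k + 1) - a (n + k) :=
      (pow_dvd_pow _ (Nat.le_add_right n k)).trans (h (n + k))
    have h2 : a (n + (k + 1)) - a n = (a (n + k + 1) - a (n + k)) + (a (n + k) - a n) := by
      rw [← add_assoc]; ring
    rw [h2]; exact dvd_add h1 ih

/-- divisibility by `l^n` in `ℤ_l` is a norm bound -/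
theorem b1_dvd_iff_norm (x : ℤ_[l]) (n : ℕ) :
    (l : ℤ_[l]) ^ n ∣ x ↔ ‖x‖ ≤ (l : ℝ) ^ (-(n : ℤ)) := by
  rw [PadicInt.norm_le_pow_iff_mem_span_pow, Ideal.mem_span_singleton]

/-- an integer divisibility passes to `ℤ_l` -/
theorem b1_cast_dvd {n : ℕ} {z : ℤ} (h : (l : ℤ) ^ n ∣ z) : (l : ℤ_[l]) ^ n ∣ (z : ℤ_[l]) := by
  obtain ⟨w, rfl⟩ := h
  exact ⟨(w : ℤ_[l]), by push_cast; ring⟩

/-- completeness of `ℤ_l`: a sequence of integers with `l^n ∣ a (n+1) - a n` has a limit -/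
theorem exists_padicInt_limit (a : ℕ → ℤ) (h : ∀ n, (l : ℤ) ^ n ∣ a (n + 1) - a n) :
    ∃ c : ℤ_[l], ∀ n, (l : ℤ_[l]) ^ n ∣ c - (a n : ℤ_[l]) := by
  have hl1 : (1 : ℝ) < l := by exact_mod_cast (Fact.out : l.Prime).one_lt
  have hl0 : (0 : ℝ) < l := by linarith
  have hc : CauchySeq (fun n => (a n : ℤ_[l])) := by
    refine cauchySeq_of_le_geometric ((l : ℝ)⁻¹) 1 (inv_lt_one_of_one_lt₀ hl1) (fun n => ?_)
    rw [dist_comm, dist_eq_norm, one_mul]
    have h1 : (l : ℤ_[l]) ^ n ∣ ((a (n + 1) : ℤ_[l]) - (a n : ℤ_[l])) := by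
      have := b1_cast_dvd (l := l) (h n)
      push_cast at this
      exact this
    have h2 := (b1_dvd_iff_norm _ _).1 h1
    rwa [zpow_neg, zpow_natCast, ← inv_pow] at h2
  obtain ⟨c, hcl⟩ := cauchySeq_tendsto_of_complete hc
  refine ⟨c, fun n => ?_⟩
  rw [b1_dvd_iff_norm]
  have hcont : Filter.Tendsto (fun m => ‖(a m : ℤ_[l]) - (a n : ℤ_[l])‖) Filter.atTop
      (nhds ‖c - (a n : ℤ_[l])‖) := (hcl.sub_const _).norm
  refine le_of_tendsto hcont ?_
  filter_upwards [Filter.eventually_ge_atTop n] with m hm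
  obtain ⟨k, rfl⟩ := Nat.exists_eq_add_of_le hm
  rw [← b1_dvd_iff_norm]
  have := b1_cast_dvd (l := l) (b1_dvd_add a h n k)
  push_cast at this
  exact this

/-- choose `a n, b n` by `Frame.span_n`; `l • (P (n+1)) = P n` and `Frame.indep_n` give `l^n ∣ a (n+1) - a n`; then `exists_padicInt_limit` -/
theorem Frame.exists_isCoord (F : Frame l x₁ x₂) {P : ℕ → A} (hP : IsSeq l P) :
    ∃ c₁ c₂ : ℤ_[l], IsCoord l x₁ x₂ P c₁ c₂ := by
  choose a b hab using fun n => F.span_n hP n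
  have key : ∀ n, (l : ℤ) ^ n ∣ a (n + 1) - a n ∧ (l : ℤ) ^ n ∣ b (n + 1) - b n := by
    intro n
    apply F.indep_n n
    have h1 : l • P (n + 1) = P n := hP.2 n
    have h2 : l • x₁ (n + 1) = x₁ n := F.seq₁.2 n
    have h3 : l • x₂ (n + 1) = x₂ n := F.seq₂.2 n
    have h4 : P n = a (n + 1) • x₁ n + b (n + 1) • x₂ n := by
      rw [← h1, hab (n + 1), smul_add, smul_comm l (a (n + 1)), smul_comm l (b (n + 1)), h2, h3]
    have h5 := hab n
    rw [sub_smul, sub_smul]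
    have h6 : a (n + 1) • x₁ n + b (n + 1) • x₂ n = a n • x₁ n + b n • x₂ n := by
      rw [← h4, ← h5]
    calc a (n + 1) • x₁ n - a n • x₁ n + (b (n + 1) • x₂ n - b n • x₂ n)
        = (a (n + 1) • x₁ n + b (n + 1) • x₂ n) - (a n • x₁ n + b n • x₂ n) := by abel
      _ = 0 := by rw [h6, sub_self]
  obtain ⟨c₁, h₁⟩ := exists_padicInt_limit (l := l) a (fun n => (key n).1)
  obtain ⟨c₂, h₂⟩ := exists_padicInt_limit (l := l) b (fun n => (key n).2)
  exact ⟨c₁, c₂, fun n => ⟨a n, b n, hab n, h₁ n, h₂ n⟩⟩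

end TkB1

/-! ## B2. Uniqueness and size of the coordinates  (written by helper130) -/

section TkB2

variable {A : Type} [AddCommGroup A] {l : ℕ} [Fact l.Prime] {x₁ x₂ : ℕ → A}

/-- `ℤ_l` is `l`-adically separated -/
theorem padicInt_eq_zero_of_forall_pow_dvd (c : ℤ_[l]) (h : ∀ n : ℕ, (l : ℤ_[l]) ^ n ∣ c) : c = 0 := by
  by_contra hc
  have h1 : (l : ℤ_[l]) ^ (c.valuation + 1) ∣ c := h _
  rw [← Ideal.mem_span_singleton, PadicInt.mem_span_pow_iff_le_valuation c hc] at h1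
  omega

/-- an integer divisible by `l^n` in `ℤ` is divisible by `l^n` in `ℤ_l` -/
theorem b2_cast_dvd {n : ℕ} {a : ℤ} (h : (l : ℤ) ^ n ∣ a) : (l : ℤ_[l]) ^ n ∣ (a : ℤ_[l]) := by
  obtain ⟨k, rfl⟩ := h
  exact ⟨(k : ℤ_[l]), by push_cast; ring⟩

/-- if `P n = 0` the coordinates are divisible by `l^n`  (`Frame.indep_n`) -/
theorem Frame.isCoord_small (F : Frame l x₁ x₂) {P : ℕ → A} {c₁ c₂ : ℤ_[l]}
    (h : IsCoord l x₁ x₂ P c₁ c₂) {n : ℕ} (hn : P n = 0) :
    (l : ℤ_[l]) ^ n ∣ c₁ ∧ (l : ℤ_[l]) ^ n ∣ c₂ := by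
  obtain ⟨a, b, hab, h1, h2⟩ := h n
  obtain ⟨ha, hb⟩ := F.indep_n n a b (by rw [← hab, hn])
  refine ⟨?_, ?_⟩
  · have := dvd_add h1 (b2_cast_dvd (l := l) ha)
    simpa using this
  · have := dvd_add h2 (b2_cast_dvd (l := l) hb)
    simpa using this

/-- the coordinates are unique  (`Frame.indep_n`, `padicInt_eq_zero_of_forall_pow_dvd`) -/
theorem Frame.isCoord_unique (F : Frame l x₁ x₂) {P : ℕ → A} {c₁ c₂ d₁ d₂ : ℤ_[l]}
    (h : IsCoord l x₁ x₂ P c₁ c₂) (h' : IsCoord l x₁ x₂ P d₁ d₂) : c₁ = d₁ ∧ c₂ = d₂ := by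
  have key : ∀ n : ℕ, (l : ℤ_[l]) ^ n ∣ c₁ - d₁ ∧ (l : ℤ_[l]) ^ n ∣ c₂ - d₂ := by
    intro n
    obtain ⟨a, b, hab, h1, h2⟩ := h n
    obtain ⟨a', b', hab', h1', h2'⟩ := h' n
    obtain ⟨ha, hb⟩ := F.indep_n n (a - a') (b - b') (by
      have e : (a - a') • x₁ n + (b - b') • x₂ n = (a • x₁ n + b • x₂ n) - (a' • x₁ n + b' • x₂ n) := by
        rw [sub_smul, sub_smul]; abel
      rw [e, ← hab, ← hab', sub_self])
    refine ⟨?_, ?_⟩
    · have h3 := dvd_add (dvd_sub h1 h1') (b2_cast_dvd (l := l) ha)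
      have e : c₁ - (a : ℤ_[l]) - (d₁ - (a' : ℤ_[l])) + ((a - a' : ℤ) : ℤ_[l]) = c₁ - d₁ := by
        push_cast; ring
      rwa [e] at h3
    · have h3 := dvd_add (dvd_sub h2 h2') (b2_cast_dvd (l := l) hb)
      have e : c₂ - (b : ℤ_[l]) - (d₂ - (b' : ℤ_[l])) + ((b - b' : ℤ) : ℤ_[l]) = c₂ - d₂ := by
        push_cast; ring
      rwa [e] at h3
  exact ⟨sub_eq_zero.1 (padicInt_eq_zero_of_forall_pow_dvd _ fun n => (key n).1),
    sub_eq_zero.1 (padicInt_eq_zero_of_forall_pow_dvd _ fun n => (key n).2)⟩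

end TkB2

/-! ## B3. Additivity of the coordinates  (written by helper15) -/

section TkB3

variable {A : Type} [AddCommGroup A] {l : ℕ} [Fact l.Prime] {x₁ x₂ : ℕ → A}

theorem IsCoord.add {P Q : ℕ → A} {c₁ c₂ d₁ d₂ : ℤ_[l]} (h : IsCoord l x₁ x₂ P c₁ c₂)
    (h' : IsCoord l x₁ x₂ Q d₁ d₂) : IsCoord l x₁ x₂ (P + Q) (c₁ + d₁) (c₂ + d₂) := by
  intro n
  obtain ⟨a, b, hP, ha, hb⟩ := h n
  obtain ⟨a', b', hQ, ha', hb'⟩ := h' n
  refine ⟨a + a', b + b', ?_, ?_, ?_⟩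
  · rw [Pi.add_apply, hP, hQ, add_smul, add_smul]
    abel
  · have := dvd_add ha ha'
    have e : c₁ + d₁ - ((a + a' : ℤ) : ℤ_[l]) = c₁ - (a : ℤ_[l]) + (d₁ - (a' : ℤ_[l])) := by
      push_cast; ring
    rw [e]; exact this
  · have := dvd_add hb hb'
    have e : c₂ + d₂ - ((b + b' : ℤ) : ℤ_[l]) = c₂ - (b : ℤ_[l]) + (d₂ - (b' : ℤ_[l])) := by
      push_cast; ring
    rw [e]; exact this

theorem isCoord_left : IsCoord l x₁ x₂ x₁ 1 0 := by
  intro n
  exact ⟨1, 0, by simp, by simp, by simp⟩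

theorem isCoord_right : IsCoord l x₁ x₂ x₂ 0 1 := by
  intro n
  exact ⟨0, 1, by simp, by simp, by simp⟩

end TkB3

/-! ## C1. From `ℤ_l`-valued coordinates to elements of `H¹`  (written by helper177) -/

section TkC1

open scoped Classical

variable {k : Type} [Field k] {E : WeierstrassCurve k} {l : ℕ} [Fact l.Prime]

/-- the norm of the image in `Q̄_l` of an element of `l^n ℤ_l` is at most `l⁻ⁿ` -/
theorem c1_norm_le {n : ℕ} {z : ℤ_[l]} (h : (l : ℤ_[l]) ^ n ∣ z) :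
    ‖algebraMap ℚ_[l] (PadicAlgCl l) ((z : ℤ_[l]) : ℚ_[l])‖ ≤ ((l : ℝ)⁻¹) ^ n := by
  rw [PadicAlgCl.norm_extends]
  obtain ⟨w, rfl⟩ := h
  have h1 : ‖(((l : ℤ_[l]) ^ n * w : ℤ_[l]) : ℚ_[l])‖ = ‖((l : ℤ_[l]) ^ n * w : ℤ_[l])‖ := rfl
  rw [h1, norm_mul, norm_pow, PadicInt.norm_p]
  exact mul_le_of_le_one_right (by positivity) (PadicInt.norm_le_one w)

/-- an additive map `T_l E → ℤ_l` that maps `{P | P_n = 0}` into `l^n ℤ_l` gives an element of `H¹`.  (`PadicAlgCl.norm_extends`, `PadicInt.norm_le_pow_iff_mem_span_pow` or `norm_mul`, `PadicInt.norm_p_pow`;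
`(l : ℝ)⁻¹ ^ n → 0`.) -/
theorem mem_H1et_of_coord (c : tateModule E l → ℤ_[l]) (hadd : ∀ P Q, c (P + Q) = c P + c Q)
    (hsmall : ∀ (n : ℕ) (P : tateModule E l), P.1 n = 0 → (l : ℤ_[l]) ^ n ∣ c P) :
    (fun P => algebraMap ℚ_[l] (PadicAlgCl l) ((c P : ℤ_[l]) : ℚ_[l])) ∈ H1et E l := by
  refine ⟨fun P Q => ?_, fun ε hε => ?_⟩
  · show algebraMap ℚ_[l] (PadicAlgCl l) ((c (P + Q) : ℤ_[l]) : ℚ_[l]) = _
    rw [hadd, PadicInt.coe_add, map_add]
  · have hl : (1 : ℝ) < l := by exact_mod_cast (Fact.out : l.Prime).one_lt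
    obtain ⟨n, hn⟩ := exists_pow_lt_of_lt_one hε (inv_lt_one_of_one_lt₀ hl)
    exact ⟨n, fun P hP => lt_of_le_of_lt (c1_norm_le (hsmall n P hP)) hn⟩

end TkC1

/-! ## C2. The dual basis  (written by helper4) -/

section TkC2

open scoped Classical

variable {k : Type} [Field k] {E : WeierstrassCurve k} {l : ℕ} [Fact l.Prime]

omit [Fact l.Prime] in
/-- the elements of `tateModule` are the compatible sequences -/
theorem isSeq_of_tateModule (P : tateModule E l) : IsSeq l P.1 := P.2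

/-- the dual basis.  Choose the coordinates `c₁ P, c₂ P` by `Frame.exists_isCoord`; additive by `IsCoord.add` and `Frame.isCoord_unique`; small by `Frame.isCoord_small`; values at `x₁, x₂` by
`isCoord_left`, `isCoord_right` and uniqueness; then `mem_H1et_of_coord`. -/
theorem exists_dual {x₁ x₂ : tateModule E l} (F : Frame l x₁.1 x₂.1) :
    ∃ φ₁ φ₂ : H1et E l, φ₁.1 x₁ = 1 ∧ φ₁.1 x₂ = 0 ∧ φ₂.1 x₁ = 0 ∧ φ₂.1 x₂ = 1 := by
  choose c₁ c₂ hc using fun P : tateModule E l => F.exists_isCoord (isSeq_of_tateModule P)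
  have hadd : ∀ P Q : tateModule E l, c₁ (P + Q) = c₁ P + c₁ Q ∧ c₂ (P + Q) = c₂ P + c₂ Q :=
    fun P Q => F.isCoord_unique (hc (P + Q)) ((hc P).add (hc Q))
  have hsmall : ∀ (n : ℕ) (P : tateModule E l), P.1 n = 0 →
      (l : ℤ_[l]) ^ n ∣ c₁ P ∧ (l : ℤ_[l]) ^ n ∣ c₂ P :=
    fun n P hP => F.isCoord_small (hc P) hP
  have h1 : c₁ x₁ = 1 ∧ c₂ x₁ = 0 := F.isCoord_unique (hc x₁) isCoord_left
  have h2 : c₁ x₂ = 0 ∧ c₂ x₂ = 1 := F.isCoord_unique (hc x₂) isCoord_right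
  refine ⟨⟨_, mem_H1et_of_coord c₁ (fun P Q => (hadd P Q).1) (fun n P hP => (hsmall n P hP).1)⟩,
    ⟨_, mem_H1et_of_coord c₂ (fun P Q => (hadd P Q).2) (fun n P hP => (hsmall n P hP).2)⟩,
    ?_, ?_, ?_, ?_⟩
  · show algebraMap ℚ_[l] (PadicAlgCl l) ((c₁ x₁ : ℤ_[l]) : ℚ_[l]) = 1
    rw [h1.1, PadicInt.coe_one, map_one]
  · show algebraMap ℚ_[l] (PadicAlgCl l) ((c₁ x₂ : ℤ_[l]) : ℚ_[l]) = 0
    rw [h2.1, PadicInt.coe_zero, map_zero]
  · show algebraMap ℚ_[l] (PadicAlgCl l) ((c₂ x₁ : ℤ_[l]) : ℚ_[l]) = 0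
    rw [h1.2, PadicInt.coe_zero, map_zero]
  · show algebraMap ℚ_[l] (PadicAlgCl l) ((c₂ x₂ : ℤ_[l]) : ℚ_[l]) = 1
    rw [h2.2, PadicInt.coe_one, map_one]

end TkC2

/-! ## C3. An element of `H¹` is determined by two values  (written by helper150) -/

section TkC3

open scoped Classical

variable {k : Type} [Field k] {E : WeierstrassCurve k} {l : ℕ} [Fact l.Prime]

/-- an element of `H¹` as an additive homomorphism -/
noncomputable def c3_hom (φ : H1et E l) : tateModule E l →+ PadicAlgCl l :=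
  AddMonoidHom.mk' φ.1 φ.2.1

theorem c3_hom_apply (φ : H1et E l) (P : tateModule E l) : c3_hom φ P = φ.1 P := rfl

/-- elements of `H¹` are `ℤ`-linear -/
theorem H1et_zsmul (φ : H1et E l) (m : ℤ) (P : tateModule E l) : φ.1 (m • P) = m * φ.1 P := by
  have h := map_zsmul (c3_hom φ) m P
  rw [c3_hom_apply, c3_hom_apply, zsmul_eq_mul] at h
  exact h

/-- an element of `H¹` is determined by its values at `x₁, x₂`.  For `P` and `ε > 0` take `n` from the continuity of `φ`, `P n = a x₁(n) + b x₂(n)` (`Frame.span_n`); `Q := P - a x₁ - b x₂` has `Q n = 0`,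
and `φ Q = φ P`; so `‖φ P‖ < ε`. -/
theorem eq_zero_of_frame {x₁ x₂ : tateModule E l} (F : Frame l x₁.1 x₂.1) (φ : H1et E l)
    (h₁ : φ.1 x₁ = 0) (h₂ : φ.1 x₂ = 0) : φ = 0 := by
  apply Subtype.ext
  funext P
  show φ.1 P = 0
  rw [← norm_le_zero_iff]
  refine le_of_forall_pos_lt_add fun ε hε => ?_
  rw [zero_add]
  obtain ⟨n, hn⟩ := φ.2.2 ε hε
  obtain ⟨a, b, hab⟩ := F.span_n (P := P.1) P.2 n
  have hQ : (P - a • x₁ - b • x₂ : tateModule E l).1 n = 0 := by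
    show P.1 n - a • x₁.1 n - b • x₂.1 n = 0
    rw [hab]
    abel
  have h3 := hn _ hQ
  have h4 : φ.1 (P - a • x₁ - b • x₂) = φ.1 P := by
    have e1 := map_sub (c3_hom φ) (P - a • x₁) (b • x₂)
    have e2 := map_sub (c3_hom φ) P (a • x₁)
    simp only [c3_hom_apply] at e1 e2
    rw [e1, e2, H1et_zsmul, H1et_zsmul, h₁, h₂]
    simp
  rwa [h4] at h3

end TkC3

/-! ## C4. The dimension is `2`  (written by helper177) -/

section TkC4

open scoped Classical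

variable {k : Type} [Field k] {E : WeierstrassCurve k} {l : ℕ} [Fact l.Prime]

/-- evaluation at two elements of the Tate module -/
noncomputable def c4_eval (x₁ x₂ : tateModule E l) :
    H1et E l →ₗ[PadicAlgCl l] PadicAlgCl l × PadicAlgCl l where
  toFun φ := (φ.1 x₁, φ.1 x₂)
  map_add' _ _ := rfl
  map_smul' _ _ := rfl

/-- `φ ↦ (φ x₁, φ x₂)` is a linear bijection `H¹ → Q̄_l²`: injective by `eq_zero_of_frame`, surjective by `exists_dual` -/
theorem finrank_H1et_of_frame {x₁ x₂ : tateModule E l} (F : Frame l x₁.1 x₂.1) :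
    Module.finrank (PadicAlgCl l) (H1et E l) = 2 := by
  have hinj : Function.Injective (c4_eval x₁ x₂) := by
    rw [injective_iff_map_eq_zero]
    intro φ hφ
    have h := Prod.ext_iff.mp hφ
    exact eq_zero_of_frame F φ h.1 h.2
  have hsurj : Function.Surjective (c4_eval x₁ x₂) := by
    obtain ⟨φ₁, φ₂, h11, h12, h21, h22⟩ := exists_dual F
    rintro ⟨a, b⟩
    refine ⟨a • φ₁ + b • φ₂, ?_⟩
    show ((a • φ₁ + b • φ₂ : H1et E l).1 x₁, (a • φ₁ + b • φ₂ : H1et E l).1 x₂) = (a, b)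
    have e1 : (a • φ₁ + b • φ₂ : H1et E l).1 x₁ = a * φ₁.1 x₁ + b * φ₂.1 x₁ := rfl
    have e2 : (a • φ₁ + b • φ₂ : H1et E l).1 x₂ = a * φ₁.1 x₂ + b * φ₂.1 x₂ := rfl
    rw [e1, e2, h11, h12, h21, h22]
    simp
  rw [(LinearEquiv.ofBijective (c4_eval x₁ x₂) ⟨hinj, hsurj⟩).finrank_eq, Module.finrank_prod,
    Module.finrank_self]

/-- **If `E(k̄)` is `l`-divisible and `E[l]` has the basis `e₁, e₂` over `𝔽_l`, then `H¹_ét(E_{k̄}, Q̄_l)` (the definition `H1et` of `Statement.lean`) has dimension `2`.**  (`exists_isSeq`, `finrank_H1et_of_frame`) -/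
theorem finrank_H1et_eq_two (hdiv : ∀ Q : PtsBar E, ∃ P : PtsBar E, l • P = Q) (e₁ e₂ : PtsBar E)
    (he₁ : l • e₁ = 0) (he₂ : l • e₂ = 0)
    (span : ∀ Q : PtsBar E, l • Q = 0 → ∃ a b : ℤ, Q = a • e₁ + b • e₂)
    (indep : ∀ a b : ℤ, a • e₁ + b • e₂ = 0 → (l : ℤ) ∣ a ∧ (l : ℤ) ∣ b) :
    Module.finrank (PadicAlgCl l) (H1et E l) = 2 := by
  obtain ⟨x₁, hx₁, h1⟩ := exists_isSeq hdiv e₁ he₁
  obtain ⟨x₂, hx₂, h2⟩ := exists_isSeq hdiv e₂ he₂
  refine finrank_H1et_of_frame (x₁ := ⟨x₁, hx₁⟩) (x₂ := ⟨x₂, hx₂⟩) ⟨hx₁, hx₂, ?_, ?_⟩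
  · intro Q hQ
    show ∃ a b : ℤ, Q = a • x₁ 1 + b • x₂ 1
    rw [h1, h2]
    exact span Q hQ
  · intro a b hab
    have hab' : a • x₁ 1 + b • x₂ 1 = 0 := hab
    rw [h1, h2] at hab'
    exact indep a b hab'

end TkC4

/-! ## D1. The curve `y² = x³ - 3 x + 1`  (written by helper33) -/

section TkD1

open scoped Classical

/-- a group in which `e₁, e₂, e₁ + e₂` are the three elements of order `2`: the hypotheses `span`, `indep` of `finrank_H1et_eq_two` for `l = 2` -/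
theorem klein_span_indep {A : Type} [AddCommGroup A] (e₁ e₂ : A) (h₁ : e₁ + e₁ = 0) (h₂ : e₂ + e₂ = 0)
    (n₁ : e₁ ≠ 0) (n₂ : e₂ ≠ 0) (n₁₂ : e₁ ≠ e₂)
    (all : ∀ Q : A, Q + Q = 0 → Q = 0 ∨ Q = e₁ ∨ Q = e₂ ∨ Q = e₁ + e₂) :
    (∀ Q : A, 2 • Q = 0 → ∃ a b : ℤ, Q = a • e₁ + b • e₂) ∧
      (∀ a b : ℤ, a • e₁ + b • e₂ = 0 → ((2 : ℕ) : ℤ) ∣ a ∧ ((2 : ℕ) : ℤ) ∣ b) := by
  constructor
  · intro Q hQ
    rw [two_smul] at hQ
    rcases all Q hQ with rfl | rfl | rfl | rfl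
    · exact ⟨0, 0, by simp⟩
    · exact ⟨1, 0, by simp⟩
    · exact ⟨0, 1, by simp⟩
    · exact ⟨1, 1, by simp⟩
  · intro a b h
    have red : ∀ (e : A), e + e = 0 → ∀ c : ℤ, c • e = (c % 2) • e := by
      intro e he c
      conv_lhs => rw [← Int.emod_add_mul_ediv c 2]
      rw [add_smul, mul_smul, two_smul, ← smul_add, he, smul_zero, add_zero]
    rw [red e₁ h₁ a, red e₂ h₂ b] at h
    have hn : e₁ + e₂ ≠ 0 := by
      intro h0
      apply n₁₂
      have : e₁ = -e₂ := eq_neg_of_add_eq_zero_left h0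
      rw [this]
      exact (eq_neg_of_add_eq_zero_left h₂).symm
    rcases Int.emod_two_eq_zero_or_one a with ha | ha <;>
      rcases Int.emod_two_eq_zero_or_one b with hb | hb
    · exact ⟨Int.dvd_of_emod_eq_zero ha, Int.dvd_of_emod_eq_zero hb⟩
    · rw [ha, hb] at h
      simp at h
      exact absurd h n₂
    · rw [ha, hb] at h
      simp at h
      exact absurd h n₁
    · rw [ha, hb] at h
      simp at h
      exact absurd h hn

/-- **`H¹_ét(E'_{K̄}, Q̄_2)` has dimension `2`** for `E' : y² = x³ - 3 x + 1` over `ℚ(i)`.  (`finrank_H1et_eq_two`, `klein_span_indep` with `e₁ = tt e`, `e₂ = tt (φ e)`, `e` a root of the cubic; from `SanityNoCM2.lean`: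
`TrEnd.exists_half`, `TrEnd.two_torsion_cases`, the three roots `e, φ e, φ φ e`, `TrEnd.tt_add_phi`, `TrEnd.tt_add_self`, `TrEnd.tt_ne_zero`, `TrEnd.tt_inj`.) -/
theorem sanity_finrank_H1et_trCurve :
    Module.finrank (PadicAlgCl 2) (H1et TrEnd.trCurve 2) = 2 := by
  have he : TrEnd.IsRt TrEnd.trRoot := TrEnd.isRt_trRoot
  obtain ⟨hs, hi⟩ := klein_span_indep (TrEnd.tt TrEnd.trRoot) (TrEnd.tt (TrEnd.phi TrEnd.trRoot))
    (TrEnd.tt_add_self _) (TrEnd.tt_add_self _) (TrEnd.tt_ne_zero he) (TrEnd.tt_ne_zero he.img)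
    (fun h => he.phi_ne (TrEnd.tt_inj he he.img h).symm)
    (fun Q hQ => by
      rcases TrEnd.two_torsion_cases hQ with rfl | ⟨x, hx, rfl⟩
      · exact Or.inl rfl
      · rcases he.cases hx with rfl | rfl | rfl
        · exact Or.inr (Or.inl rfl)
        · exact Or.inr (Or.inr (Or.inl rfl))
        · exact Or.inr (Or.inr (Or.inr (TrEnd.tt_add_phi he).symm)))
  refine finrank_H1et_eq_two (fun Q => ?_) _ _ ?_ ?_ hs hi
  · obtain ⟨P, hP⟩ := TrEnd.exists_half Q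
    exact ⟨P, by rw [two_smul]; exact hP⟩
  · rw [two_smul]; exact TrEnd.tt_add_self _
  · rw [two_smul]; exact TrEnd.tt_add_self _

end TkD1

/-! ## D2. The curve `y² = x³ + 1`  (written by helper271) -/

section TkD2

open scoped Classical

/-- **`H¹_ét(E₃_{K̄}, Q̄_2)` has dimension `2`** for `E₃ : y² = x³ + 1` over `ℚ(i)`.  (`finrank_H1et_eq_two`, `klein_span_indep` with `e₁ = T0 = (-1, 0)`, `e₂ = [ω] T0`; `cubeCurve_exists_half` of `SanityClauses.lean`;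
from `SanityCMField.lean`: `CubeEnd.two_torsion_cases`, `CubeEnd.omega_sq_apply`, `CubeEnd.T0_add_self`, `CubeEnd.T0_ne_zero`.) -/
theorem sanity_finrank_H1et_cubeCurve :
    Module.finrank (PadicAlgCl 2) (H1et cubeCurve 2) = 2 := by
  have e1 : CubeEnd.T0 + CubeEnd.T0 = 0 := CubeEnd.T0_add_self
  obtain ⟨e₂, he₂⟩ : ∃ e₂ : PtsBar cubeCurve, e₂ = cubeCurveEndo CubeEnd.T0 := ⟨_, rfl⟩
  have h2 : e₂ + e₂ = 0 := by rw [he₂, ← map_add, e1, map_zero]
  have n1 : CubeEnd.T0 ≠ 0 := CubeEnd.T0_ne_zero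
  have n2 : e₂ ≠ 0 := by
    rw [he₂, CubeEnd.T0, cubeCurveEndo_some]
    exact WeierstrassCurve.Affine.Point.some_ne_zero _
  have n12 : CubeEnd.T0 ≠ e₂ := by
    rw [he₂, CubeEnd.T0, cubeCurveEndo_some]
    intro h
    rw [WeierstrassCurve.Affine.Point.some.injEq] at h
    exact omegaBar_ne_one (by linear_combination h.1)
  have all : ∀ Q : PtsBar cubeCurve, Q + Q = 0 →
      Q = 0 ∨ Q = CubeEnd.T0 ∨ Q = e₂ ∨ Q = CubeEnd.T0 + e₂ := by
    intro Q hQ
    rcases CubeEnd.two_torsion_cases Q hQ with h | h | h | h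
    · exact Or.inl h
    · exact Or.inr (Or.inl h)
    · exact Or.inr (Or.inr (Or.inl (by rw [h, he₂])))
    · refine Or.inr (Or.inr (Or.inr ?_))
      rw [h, CubeEnd.omega_sq_apply, ← he₂]
      have a1 : -CubeEnd.T0 = CubeEnd.T0 := neg_eq_of_add_eq_zero_left e1
      have a2 : -e₂ = e₂ := neg_eq_of_add_eq_zero_left h2
      rw [sub_eq_add_neg, a1, a2]
  obtain ⟨sp, ind⟩ := klein_span_indep CubeEnd.T0 e₂ e1 h2 n1 n2 n12 all
  refine finrank_H1et_eq_two (l := 2) (fun Q => ?_) CubeEnd.T0 e₂ ?_ ?_ sp ind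
  · obtain ⟨P, hP⟩ := cubeCurve_exists_half Q
    exact ⟨P, by rw [two_nsmul]; exact hP⟩
  · rw [two_nsmul]; exact e1
  · rw [two_nsmul]; exact h2

end TkD2

end Claimed.Open.R030.TateRk
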