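import Claimed.Open.R030.SanityTateGauss

/-!
# Result 030: `H¹_ét(E, Q̄_2)` is a sum of two characters for `E : y² = x³ - x` over `ℚ(i)`

`E : y² = x³ - x` over `K = ℚ(i)` is the witness of the premise `HasCMOver E ⊥` of the clause of `Statement` whose conclusion is an isobaric sum `χ₁ ⊞ χ₂` of two Hecke
characters.  This file states the Galois side of that shape for `H1etRep E 2` (the proof is contained in `SanityTateGauss.lean`, where it is used for semisimplicity):

* `sanity_H1etRep_gCurve_sum_of_characters`: `H¹` has a basis of two common eigenvectors of `Gal(K̄/K)`;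
* `sanity_H1etRep_gCurve_not_isIrreducible`: so `H1etRep E 2` is not irreducible;
* `sanity_H1etRep_gCurve_comm`: and its image is commutative.

Written by helper265 (from the text of helpers 275 and 245).
-/

set_option autoImplicit false

namespace Claimed.Open.R030.TateRep

open scoped Classical
open Claimed.Open.R030.TateRk

/-- **`H¹_ét(E, Q̄_2)` has a basis of two common eigenvectors of `Gal(K̄/K)`** (the eigenlines of `[i]^*`), `E : y² = x³ - x`, `K = ℚ(i)`. -/
theorem sanity_H1etRep_gCurve_sum_of_characters :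
    ∃ v₁ v₂ : H1et gCurve 2, LinearIndependent (PadicAlgCl 2) ![v₁, v₂] ∧
      (∀ g, ∃ c : PadicAlgCl 2, H1etRep gCurve 2 g v₁ = c • v₁) ∧
      ∀ g, ∃ c : PadicAlgCl 2, H1etRep gCurve 2 g v₂ = c • v₂ := by
  obtain ⟨x₁, x₂, F⟩ := exists_frame_gCurve
  have h2 : Module.finrank (PadicAlgCl 2) (H1et gCurve 2) = 2 := finrank_H1et_of_frame F
  obtain ⟨I, hI⟩ := exists_sqrt_neg_one
  have hI' : (-I) * (-I) = -1 := by rw [neg_mul_neg, hI]
  have hcomp : gEndo.comp gEndo = -AddMonoidHom.id (PtsBar gCurve) :=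
    AddMonoidHom.ext fun P => gEndo_gEndo P
  have hJ : ∀ φ : H1et gCurve 2, h1Map gEndo (h1Map gEndo φ) = -φ := by
    intro φ
    have hid : h1Map (AddMonoidHom.id (PtsBar gCurve)) φ = φ := Subtype.ext (funext fun _ => rfl)
    rw [h1Map_h1Map, hcomp, h1Map_neg, hid]
  have hcomm : ∀ (σ : Gal(Cm3Bar/Cm3Field)) (φ : H1et gCurve 2),
      h1Map gEndo (H1etRep gCurve 2 σ φ) = H1etRep gCurve 2 σ (h1Map gEndo φ) := fun σ φ =>
    (H1etRep_h1Map σ gEndo gEndo (fun P => gEndo_galPts σ⁻¹ P) φ).symm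
  obtain ⟨φp, hp⟩ := exists_h1Map_ne_smul F gEndo hI
  obtain ⟨φm, hm⟩ := exists_h1Map_ne_smul F gEndo hI'
  exact exists_two_eigenvectors (H1etRep gCurve 2) h2 (h1Map gEndo) hJ hcomm I hI
    two_ne_zero_padicAlgCl ⟨φp, hp⟩ ⟨φm, fun h => hm (h.trans (neg_smul I φm).symm)⟩

/-- so the representation is not irreducible -/
theorem sanity_H1etRep_gCurve_not_isIrreducible : ¬ (H1etRep gCurve 2).IsIrreducible := by
  intro hirr
  obtain ⟨v₁, v₂, hli, h₁, -⟩ := sanity_H1etRep_gCurve_sum_of_characters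
  have hpair := LinearIndependent.pair_iff.1 hli
  let S : Subrepresentation (H1etRep gCurve 2) :=
    ⟨Submodule.span (PadicAlgCl 2) {v₁}, fun g v hv => l1_stable_span (H1etRep gCurve 2) v₁ h₁ g v hv⟩
  rcases hirr.eq_bot_or_eq_top S with h | h
  · have hv : v₁ ∈ S.toSubmodule := Submodule.mem_span_singleton_self v₁
    rw [h] at hv
    have hv0 : v₁ = 0 := hv
    have := hpair 1 0 (by rw [hv0]; simp)
    exact one_ne_zero this.1
  · have hv : v₂ ∈ S.toSubmodule := by rw [h]; exact Submodule.mem_top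
    obtain ⟨a, ha⟩ := Submodule.mem_span_singleton.1 hv
    have := hpair a (-1) (by rw [ha]; simp)
    exact one_ne_zero (neg_eq_zero.1 this.2)

/-- and its image is commutative -/
theorem sanity_H1etRep_gCurve_comm (g h : Gal(Cm3Bar/Cm3Field)) (φ : H1et gCurve 2) :
    H1etRep gCurve 2 g (H1etRep gCurve 2 h φ) = H1etRep gCurve 2 h (H1etRep gCurve 2 g φ) := by
  obtain ⟨v₁, v₂, hli, h₁, h₂⟩ := sanity_H1etRep_gCurve_sum_of_characters
  have hfr : Module.finrank (PadicAlgCl 2) (H1et gCurve 2) = 2 := sanity_H1etRep_gCurve.1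
  have : FiniteDimensional (PadicAlgCl 2) (H1et gCurve 2) :=
    Module.finite_of_finrank_pos (by rw [hfr]; norm_num)
  have hspan : Submodule.span (PadicAlgCl 2) (Set.range ![v₁, v₂]) = ⊤ :=
    hli.span_eq_top_of_card_eq_finrank' (by rw [hfr]; rfl)
  have hφ : φ ∈ Submodule.span (PadicAlgCl 2) (Set.range ![v₁, v₂]) := by rw [hspan]; trivial
  have key : ∀ v : H1et gCurve 2, (∀ g, ∃ c : PadicAlgCl 2, H1etRep gCurve 2 g v = c • v) →
      H1etRep gCurve 2 g (H1etRep gCurve 2 h v) = H1etRep gCurve 2 h (H1etRep gCurve 2 g v) := by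
    intro v hv
    obtain ⟨a, ha⟩ := hv g
    obtain ⟨b, hb⟩ := hv h
    rw [ha, hb, map_smul, map_smul, ha, hb, smul_comm]
  induction hφ using Submodule.span_induction with
  | mem x hx =>
    obtain ⟨i, rfl⟩ := hx
    fin_cases i
    · exact key v₁ h₁
    · exact key v₂ h₂
  | zero => simp
  | add x y _ _ hx hy => rw [map_add, map_add, map_add, map_add, hx, hy]
  | smul a x _ hx => rw [map_smul, map_smul, map_smul, map_smul, hx]

end Claimed.Open.R030.TateRep
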