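import Claimed.Open.R030.SanityTateGalois

/-!
# Result 030: for `l = 2` and **every** elliptic curve, `H¹_ét(E_{k̄}, Q̄_2)` has dimension `2` and the Galois representation on it is continuous

`SanityTateRank.lean` and `SanityTateGalois.lean` prove `Module.finrank (PadicAlgCl l) (H1et E l) = 2` and `IsContinuousRep (H1etRep E l)` (two of the conditions of `IsAttachedGaloisRep` in `Statement`) under two hypotheses: `E(k̄)` is
`l`-divisible, and `E[l](k̄)` has a basis of two elements; and they check the hypotheses for `l = 2` on examples.  This file proves the two hypotheses for `l = 2` and **every** elliptic curve, given by a general Weierstrass equation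
`y² + a₁ x y + a₃ y = x³ + a₂ x² + a₄ x + a₆`, over a field `k` of characteristic `≠ 2`; in particular for every curve `E` that `Statement` speaks about:

* `finrank_H1et_two : E.IsElliptic → (2 : k) ≠ 0 → Module.finrank (PadicAlgCl 2) (H1et E 2) = 2`;
* `isContinuousRep_H1etRep_two : E.IsElliptic → (2 : k) ≠ 0 → IsContinuousRep (H1etRep E 2)`;
* `gen_exists_half`: `E(F)` is `2`-divisible, for `F` algebraically closed of any characteristic, `Δ ≠ 0`;
* `gen_exists_klein`: `E[2](F)` is a Klein four-group, for `F` algebraically closed of characteristic `≠ 2`, `Δ ≠ 0`.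

(Mathlib has the group law, but neither the structure of `E[n]` nor the surjectivity of `[n]`.)

## The proofs

Write `M = 2 y + a₁ x + a₃`, `N = 3 x² + 2 a₂ x + a₄ - a₁ y`, `ψ = 4 x³ + b₂ x² + 2 b₄ x + b₆`, `φ = x⁴ - b₄ x² - 2 b₆ x - b₈`.  On the curve `ψ = M²` (`gen_psi_eq`) and `φ = N² + a₁ N M - (a₂ + 2 x) M²` (`gen_phi_eq`), and
`M`, `N` do not vanish together, as `Δ ≠ 0`.

**Points of order `2`** (H1).  `2 P = 0 ↔ M = 0` (`gen_add_self_eq_zero_iff`), so these points are the `(r, -(a₁ r + a₃)/2)` with `ψ(r) = 0`.  There `ψ'(r) = 4 N ≠ 0`: the roots of `ψ` are simple (`gen_psi_simple`), so there are exactly three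
(`cubic_three_roots`), and the third point is the sum of the other two for want of another possibility (`klein_third`).

**Halving** (H2).  Given `Q = (x₀, y₀)`, take a root `x` of the monic quartic `φ - x₀ ψ` and `y` with `(x, y)` on the curve (`gen_exists_xy`).  Then `M ≠ 0`: otherwise `ψ(x) = 0`, `φ(x) = N² ≠ 0` (`gen_M_ne_zero`).  The `x`-coordinate of
`2 (x, y)` is `φ / M² = x₀` (`gen_two_some`), so `2 (x, y) = ± Q` (`gen_some_eq_or_eq_neg`).

The contracts are due to helper33; the sections were written by the seats named there.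
-/

set_option autoImplicit false

namespace Claimed.Open.R030.TateRk

/-! ## H1a. A cubic with simple roots  (written by helper228) -/

section TgH1a

variable {F : Type} [Field F] [IsAlgClosed F]

/-- a cubic all of whose roots are simple has three distinct roots.  (Root `r₁` (`IsAlgClosed.exists_root` or `exists_eq_mul_self`-style); `ψ = (x - r₁) q`, `q = 4 x² + (b + 4 r₁) x + (c + b r₁ + 4 r₁²)`, `q r₁ = ψ' r₁ ≠ 0`;
root `r₂` of `q`; `r₃ = - b / 4 - r₁ - r₂`.  All identities by `ring` / `linear_combination`.) -/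
theorem cubic_three_roots (h2 : (2 : F) ≠ 0) (b c d : F)
    (hs : ∀ r : F, 4 * r ^ 3 + b * r ^ 2 + c * r + d = 0 → 12 * r ^ 2 + 2 * b * r + c ≠ 0) :
    ∃ r₁ r₂ r₃ : F, r₁ ≠ r₂ ∧ r₁ ≠ r₃ ∧ r₂ ≠ r₃ ∧
      ∀ x : F, 4 * x ^ 3 + b * x ^ 2 + c * x + d = 0 ↔ (x = r₁ ∨ x = r₂ ∨ x = r₃) := by
  have h4 : (4 : F) ≠ 0 := by
    have : (4 : F) = 2 * 2 := by norm_num
    rw [this]; exact mul_ne_zero h2 h2
  obtain ⟨r₁, hr₁⟩ := IsAlgClosed.exists_root
    (Polynomial.C (4 : F) * Polynomial.X ^ 3 + Polynomial.C b * Polynomial.X ^ 2 + Polynomial.C c * Polynomial.X +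
      Polynomial.C d) (by rw [Polynomial.degree_cubic h4]; norm_num)
  have hr₁' : 4 * r₁ ^ 3 + b * r₁ ^ 2 + c * r₁ + d = 0 := by
    simpa [Polynomial.IsRoot] using hr₁
  obtain ⟨r₂, hr₂⟩ := IsAlgClosed.exists_root
    (Polynomial.C (4 : F) * Polynomial.X ^ 2 + Polynomial.C (b + 4 * r₁) * Polynomial.X +
      Polynomial.C (c + b * r₁ + 4 * r₁ ^ 2)) (by rw [Polynomial.degree_quadratic h4]; norm_num)
  have hr₂' : 4 * r₂ ^ 2 + (b + 4 * r₁) * r₂ + (c + b * r₁ + 4 * r₁ ^ 2) = 0 := by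
    simpa [Polynomial.IsRoot] using hr₂
  obtain ⟨r₃, hr₃⟩ : ∃ r₃ : F, r₃ = -b / 4 - r₁ - r₂ := ⟨_, rfl⟩
  have hb : b = -4 * (r₁ + r₂ + r₃) := by
    rw [hr₃]; field_simp; ring
  have hc : c = 4 * (r₁ * r₂ + r₁ * r₃ + r₂ * r₃) := by
    rw [hb] at hr₂'
    linear_combination hr₂'
  have hd : d = -4 * (r₁ * r₂ * r₃) := by
    rw [hb, hc] at hr₁'
    linear_combination hr₁'
  clear hr₁ hr₂ hr₁' hr₂' hr₃
  subst hb hc hd
  have key : ∀ x : F, 4 * x ^ 3 + -4 * (r₁ + r₂ + r₃) * x ^ 2 + 4 * (r₁ * r₂ + r₁ * r₃ + r₂ * r₃) * x +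
      -4 * (r₁ * r₂ * r₃) = 4 * ((x - r₁) * ((x - r₂) * (x - r₃))) := fun x => by ring
  have n1 := hs r₁ (by rw [key]; simp)
  have n2 := hs r₂ (by rw [key]; simp)
  refine ⟨r₁, r₂, r₃, ?_, ?_, ?_, fun x => ?_⟩
  · rintro rfl
    exact n1 (by ring)
  · rintro rfl
    exact n1 (by ring)
  · rintro rfl
    exact n2 (by ring)
  · rw [key]
    simp only [mul_eq_zero, h4, false_or, sub_eq_zero]

end TgH1a

/-! ## H1b. The cubic `ψ`  (written by helper135) -/

section TgH1b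

open WeierstrassCurve

variable {F : Type} [Field F] (W : WeierstrassCurve.Affine F)

/-- `ψ(x) = (2 y + a₁ x + a₃)²` on the curve  (`Affine.equation_iff`, unfold `b₂ b₄ b₆`, `linear_combination`) -/
theorem gen_psi_eq {x y : F} (h : W.Equation x y) :
    4 * x ^ 3 + W.b₂ * x ^ 2 + 2 * W.b₄ * x + W.b₆ = (2 * y + W.a₁ * x + W.a₃) ^ 2 := by
  rw [Affine.equation_iff] at h
  simp only [WeierstrassCurve.b₂, WeierstrassCurve.b₄, WeierstrassCurve.b₆]
  linear_combination (-4) * h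

/-- the point `(r, -(a₁ r + a₃) / 2)` for a root `r` of `ψ` -/
theorem gen_equation_of_root (h2 : (2 : F) ≠ 0) {r : F}
    (hr : 4 * r ^ 3 + W.b₂ * r ^ 2 + 2 * W.b₄ * r + W.b₆ = 0) :
    W.Equation r (-(W.a₁ * r + W.a₃) / 2) := by
  rw [Affine.equation_iff]
  simp only [WeierstrassCurve.b₂, WeierstrassCurve.b₄, WeierstrassCurve.b₆] at hr
  have h4 : (4 : F) ≠ 0 := by
    have : (4 : F) = 2 * 2 := by norm_num
    rw [this]; exact mul_ne_zero h2 h2
  field_simp
  linear_combination (-1) * hr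

/-- the roots of `ψ` are simple: `ψ'(r) = 4 (3 r² + 2 a₂ r + a₄ - a₁ y)` at `y = -(a₁ r + a₃) / 2`, and this is `≠ 0` because the point is nonsingular (`Affine.equation_iff_nonsingular_of_Δ_ne_zero`, `Affine.nonsingular_iff`)
while `2 y + a₁ r + a₃ = 0` -/
theorem gen_psi_simple (hΔ : W.Δ ≠ 0) (h2 : (2 : F) ≠ 0) (r : F)
    (hr : 4 * r ^ 3 + W.b₂ * r ^ 2 + 2 * W.b₄ * r + W.b₆ = 0) :
    12 * r ^ 2 + 2 * W.b₂ * r + 2 * W.b₄ ≠ 0 := by
  have he := gen_equation_of_root W h2 hr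
  have hn := (Affine.equation_iff_nonsingular_of_Δ_ne_zero hΔ).1 he
  rw [Affine.nonsingular_iff] at hn
  obtain ⟨-, hn⟩ := hn
  have hy : 2 * (-(W.a₁ * r + W.a₃) / 2) = -(W.a₁ * r + W.a₃) := mul_div_cancel₀ _ h2
  generalize -(W.a₁ * r + W.a₃) / 2 = y at hn hy
  intro h0
  simp only [WeierstrassCurve.b₂, WeierstrassCurve.b₄] at h0
  have h4 : (4 : F) ≠ 0 := by
    have : (4 : F) = 2 * 2 := by norm_num
    rw [this]; exact mul_ne_zero h2 h2
  rcases hn with hn | hn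
  · apply hn
    apply mul_left_cancel₀ h4
    linear_combination (-1) * h0 + 2 * W.a₁ * hy
  · apply hn
    linear_combination hy

end TgH1b

/-! ## H1c. The points of order `2`  (written by helper145) -/

section TgH1c

open scoped Classical
open WeierstrassCurve

variable {F : Type} [Field F] (W : WeierstrassCurve.Affine F)

/-- `2 P = 0 ↔ y = negY x y`  (`Affine.Point.add_self_of_Y_eq`, `Affine.Point.add_self_of_Y_ne`, `Affine.negY`) -/
theorem gen_add_self_eq_zero_iff {x y : F} (h : W.Nonsingular x y) :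
    (Affine.Point.some x y h + Affine.Point.some x y h : W.Point) = 0 ↔
      2 * y + W.a₁ * x + W.a₃ = 0 := by
  have hneg : y = W.negY x y ↔ 2 * y + W.a₁ * x + W.a₃ = 0 := by
    rw [Affine.negY]
    constructor
    · intro e; linear_combination e
    · intro e; linear_combination e
  constructor
  · intro h0
    by_contra hne
    have hy : y ≠ W.negY x y := fun e => hne (hneg.1 e)
    rw [Affine.Point.add_self_of_Y_ne hy] at h0
    exact Affine.Point.some_ne_zero _ h0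
  · intro e
    exact Affine.Point.add_self_of_Y_eq (hneg.2 e)

/-- the points of order `2` are the `(r, -(a₁ r + a₃) / 2)`, `ψ(r) = 0`  (`gen_add_self_eq_zero_iff`, `gen_psi_eq`) -/
theorem gen_two_torsion_cases (h2 : (2 : F) ≠ 0) (Q : W.Point) (hQ : Q + Q = 0) :
    Q = 0 ∨ ∃ (r : F) (h : W.Nonsingular r (-(W.a₁ * r + W.a₃) / 2)),
      4 * r ^ 3 + W.b₂ * r ^ 2 + 2 * W.b₄ * r + W.b₆ = 0 ∧ Q = .some r (-(W.a₁ * r + W.a₃) / 2) h := by
  rcases Q with _ | ⟨x, y, h⟩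
  · exact Or.inl rfl
  · right
    have e := (gen_add_self_eq_zero_iff W h).1 hQ
    have hy : y = -(W.a₁ * x + W.a₃) / 2 := by
      field_simp
      linear_combination e
    subst hy
    refine ⟨x, h, ?_, rfl⟩
    rw [gen_psi_eq W h.1, e]
    ring

/-- conversely -/
theorem gen_tt_add_self (h2 : (2 : F) ≠ 0) {r : F} (h : W.Nonsingular r (-(W.a₁ * r + W.a₃) / 2)) :
    (Affine.Point.some r (-(W.a₁ * r + W.a₃) / 2) h + .some r (-(W.a₁ * r + W.a₃) / 2) h : W.Point) = 0 := by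
  rw [gen_add_self_eq_zero_iff]
  field_simp
  ring

end TgH1c

/-! ## H1d. `E[2]` is a Klein four-group  (written by helper177) -/

section TgH1d

open scoped Classical
open WeierstrassCurve

/-- abstract: if the solutions of `Q + Q = 0` are `0, t₁, t₂, t₃` (distinct, non-zero), then `t₃ = t₁ + t₂`  (`t₁ + t₂` is a solution, `≠ 0, t₁, t₂`) -/
theorem klein_third {A : Type} [AddCommGroup A] (t₁ t₂ t₃ : A) (h₁ : t₁ + t₁ = 0) (h₂ : t₂ + t₂ = 0)
    (n₁ : t₁ ≠ 0) (n₂ : t₂ ≠ 0) (n₁₂ : t₁ ≠ t₂)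
    (all : ∀ Q : A, Q + Q = 0 → Q = 0 ∨ Q = t₁ ∨ Q = t₂ ∨ Q = t₃) : t₃ = t₁ + t₂ := by
  have hs : (t₁ + t₂) + (t₁ + t₂) = 0 := by
    have : (t₁ + t₂) + (t₁ + t₂) = (t₁ + t₁) + (t₂ + t₂) := by abel
    rw [this, h₁, h₂, add_zero]
  rcases all _ hs with h | h | h | h
  · exfalso
    apply n₁₂
    have e : t₁ = -t₂ := eq_neg_of_add_eq_zero_left h
    have e' : t₂ = -t₂ := eq_neg_of_add_eq_zero_left h₂
    rw [e, ← e']
  · exfalso
    exact n₂ (by simpa using h)
  · exfalso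
    exact n₁ (by simpa using h)
  · exact h.symm

variable {F : Type} [Field F] [IsAlgClosed F] (W : WeierstrassCurve.Affine F)

/-- `E[2]` is a Klein four-group.  (`cubic_three_roots` with `gen_psi_simple`; the three points by `gen_equation_of_root` and `Affine.equation_iff_nonsingular_of_Δ_ne_zero`; `gen_tt_add_self`, `gen_two_torsion_cases`, `klein_third`;
`Affine.Point.some_ne_zero`, `Affine.Point.some.injEq`.) -/
theorem gen_exists_klein (hΔ : W.Δ ≠ 0) (h2 : (2 : F) ≠ 0) :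
    ∃ e₁ e₂ : W.Point, e₁ + e₁ = 0 ∧ e₂ + e₂ = 0 ∧ e₁ ≠ 0 ∧ e₂ ≠ 0 ∧ e₁ ≠ e₂ ∧
      ∀ Q : W.Point, Q + Q = 0 → Q = 0 ∨ Q = e₁ ∨ Q = e₂ ∨ Q = e₁ + e₂ := by
  obtain ⟨r₁, r₂, r₃, h12, h13, h23, hroots⟩ :=
    cubic_three_roots h2 W.b₂ (2 * W.b₄) W.b₆ (fun r hr => gen_psi_simple W hΔ h2 r hr)
  have root : ∀ r : F, (r = r₁ ∨ r = r₂ ∨ r = r₃) →
      4 * r ^ 3 + W.b₂ * r ^ 2 + 2 * W.b₄ * r + W.b₆ = 0 := fun r hr => (hroots r).mpr hr
  have ns : ∀ r : F, (r = r₁ ∨ r = r₂ ∨ r = r₃) → W.Nonsingular r (-(W.a₁ * r + W.a₃) / 2) :=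
    fun r hr => (Affine.equation_iff_nonsingular_of_Δ_ne_zero hΔ).mp
      (gen_equation_of_root W h2 (root r hr))
  have n1 := ns r₁ (Or.inl rfl)
  have n2 := ns r₂ (Or.inr (Or.inl rfl))
  have n3 := ns r₃ (Or.inr (Or.inr rfl))
  set t₁ : W.Point := .some r₁ _ n1 with ht₁
  set t₂ : W.Point := .some r₂ _ n2 with ht₂
  set t₃ : W.Point := .some r₃ _ n3 with ht₃
  have a1 : t₁ + t₁ = 0 := gen_tt_add_self W h2 n1
  have a2 : t₂ + t₂ = 0 := gen_tt_add_self W h2 n2
  have z1 : t₁ ≠ 0 := Affine.Point.some_ne_zero n1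
  have z2 : t₂ ≠ 0 := Affine.Point.some_ne_zero n2
  have d12 : t₁ ≠ t₂ := by
    intro h
    rw [ht₁, ht₂, Affine.Point.some.injEq] at h
    exact h12 h.1
  have all : ∀ Q : W.Point, Q + Q = 0 → Q = 0 ∨ Q = t₁ ∨ Q = t₂ ∨ Q = t₃ := by
    intro Q hQ
    rcases gen_two_torsion_cases W h2 Q hQ with h | ⟨r, hr, hψ, rfl⟩
    · exact Or.inl h
    · rcases (hroots r).mp hψ with rfl | rfl | rfl
      · exact Or.inr (Or.inl rfl)
      · exact Or.inr (Or.inr (Or.inl rfl))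
      · exact Or.inr (Or.inr (Or.inr rfl))
  have h3 := klein_third t₁ t₂ t₃ a1 a2 z1 z2 d12 all
  refine ⟨t₁, t₂, a1, a2, z1, z2, d12, fun Q hQ => ?_⟩
  rw [← h3]
  exact all Q hQ

end TgH1d

/-! ## H2a. The numerator of the duplication formula  (written by helper135) -/

section TgH2a

open WeierstrassCurve

variable {F : Type} [Field F] (W : WeierstrassCurve.Affine F)

/-- the numerator of the duplication formula, on the curve.  (`Affine.equation_iff`, unfold `b₄ b₆ b₈`; `linear_combination (coefficient) * h`: the coefficient is a polynomial in `x, y, a_i`, the quotient of the difference of the two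
sides by the equation of the curve.) -/
theorem gen_phi_eq {x y : F} (h : W.Equation x y) :
    x ^ 4 - W.b₄ * x ^ 2 - 2 * W.b₆ * x - W.b₈ =
      (3 * x ^ 2 + 2 * W.a₂ * x + W.a₄ - W.a₁ * y) ^ 2 +
        W.a₁ * (3 * x ^ 2 + 2 * W.a₂ * x + W.a₄ - W.a₁ * y) * (2 * y + W.a₁ * x + W.a₃) -
        (W.a₂ + 2 * x) * (2 * y + W.a₁ * x + W.a₃) ^ 2 := by
  rw [Affine.equation_iff] at h
  simp only [WeierstrassCurve.b₄, WeierstrassCurve.b₆, WeierstrassCurve.b₈]
  linear_combination (8 * x + 4 * W.a₂ + W.a₁ ^ 2) * h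

/-- if `φ(x) = x₀ ψ(x)` then `2 y + a₁ x + a₃ ≠ 0`: otherwise `ψ(x) = 0` (`gen_psi_eq`), `φ(x) = (3 x² + 2 a₂ x + a₄ - a₁ y)²` (`gen_phi_eq`) `≠ 0` as the point is nonsingular (`Affine.equation_iff_nonsingular_of_Δ_ne_zero`,
`Affine.nonsingular_iff`) -/
theorem gen_M_ne_zero (hΔ : W.Δ ≠ 0) {x y x₀ : F} (h : W.Equation x y)
    (hx : x ^ 4 - W.b₄ * x ^ 2 - 2 * W.b₆ * x - W.b₈ =
      x₀ * (4 * x ^ 3 + W.b₂ * x ^ 2 + 2 * W.b₄ * x + W.b₆)) :
    2 * y + W.a₁ * x + W.a₃ ≠ 0 := by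
  intro hM
  have hn := (Affine.equation_iff_nonsingular_of_Δ_ne_zero hΔ).1 h
  rw [Affine.nonsingular_iff] at hn
  obtain ⟨-, hn⟩ := hn
  rw [gen_psi_eq W h, gen_phi_eq W h, hM] at hx
  have hL : 3 * x ^ 2 + 2 * W.a₂ * x + W.a₄ - W.a₁ * y = 0 := by
    have : (3 * x ^ 2 + 2 * W.a₂ * x + W.a₄ - W.a₁ * y) ^ 2 = 0 := by
      linear_combination hx
    exact pow_eq_zero_iff (two_ne_zero) |>.1 this
  rcases hn with hn | hn
  · exact hn (by linear_combination (-1) * hL)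
  · exact hn (by linear_combination hM)

end TgH2a

/-! ## H2b. Solving the quartic  (written by helper173) -/

section TgH2b

open WeierstrassCurve

variable {F : Type} [Field F] [IsAlgClosed F] (W : WeierstrassCurve.Affine F)

/-- a root `x` of the monic quartic `φ - x₀ ψ`, then a root `y` of the monic quadratic `y² + (a₁ x + a₃) y - (x³ + a₂ x² + a₄ x + a₆)`  (`IsAlgClosed.exists_root`; see `cubeCurve_exists_half` in `SanityClauses.lean` for the pattern) -/
theorem gen_exists_xy (x₀ : F) : ∃ x y : F, W.Equation x y ∧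
    x ^ 4 - W.b₄ * x ^ 2 - 2 * W.b₆ * x - W.b₈ =
      x₀ * (4 * x ^ 3 + W.b₂ * x ^ 2 + 2 * W.b₄ * x + W.b₆) := by
  open Polynomial in
  have hp : (X ^ 4 - C W.b₄ * X ^ 2 - C (2 * W.b₆) * X - C W.b₈
      - C x₀ * (C 4 * X ^ 3 + C W.b₂ * X ^ 2 + C (2 * W.b₄) * X + C W.b₆) : F[X]).natDegree = 4 := by
    compute_degree!
  obtain ⟨x, hx⟩ := IsAlgClosed.exists_root _
    (Polynomial.degree_ne_of_natDegree_ne (n := 0) (by rw [hp]; norm_num))
  open Polynomial in
  have hq : (X ^ 2 + C (W.a₁ * x + W.a₃) * X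
      - C (x ^ 3 + W.a₂ * x ^ 2 + W.a₄ * x + W.a₆) : F[X]).natDegree = 2 := by
    compute_degree!
  obtain ⟨y, hy⟩ := IsAlgClosed.exists_root _
    (Polynomial.degree_ne_of_natDegree_ne (n := 0) (by rw [hq]; norm_num))
  refine ⟨x, y, ?_, ?_⟩
  · rw [WeierstrassCurve.Affine.equation_iff]
    simp only [Polynomial.IsRoot.def, Polynomial.eval_sub, Polynomial.eval_add, Polynomial.eval_mul,
      Polynomial.eval_pow, Polynomial.eval_X, Polynomial.eval_C] at hy
    linear_combination hy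
  · simp only [Polynomial.IsRoot.def, Polynomial.eval_sub, Polynomial.eval_add, Polynomial.eval_mul,
      Polynomial.eval_pow, Polynomial.eval_X, Polynomial.eval_C] at hx
    linear_combination hx

end TgH2b

/-! ## H2c. The `x`-coordinate of `2 P`  (written by helper177) -/

section TgH2c

open scoped Classical
open WeierstrassCurve

variable {F : Type} [Field F] (W : WeierstrassCurve.Affine F)

/-- the `x`-coordinate of `2 P`  (`Affine.Point.add_self_of_Y_ne`, `Affine.slope_of_Y_ne`, `Affine.addX`, `Affine.negY`; `field_simp`, `ring`; pattern: `TrEnd.two_some` in `SanityNoCM2.lean`) -/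
theorem gen_two_some {x y : F} (h : W.Nonsingular x y) (hM : 2 * y + W.a₁ * x + W.a₃ ≠ 0) :
    ∃ (y₂ : F) (h₂ : W.Nonsingular
        (((3 * x ^ 2 + 2 * W.a₂ * x + W.a₄ - W.a₁ * y) ^ 2 +
          W.a₁ * (3 * x ^ 2 + 2 * W.a₂ * x + W.a₄ - W.a₁ * y) * (2 * y + W.a₁ * x + W.a₃) -
          (W.a₂ + 2 * x) * (2 * y + W.a₁ * x + W.a₃) ^ 2) / (2 * y + W.a₁ * x + W.a₃) ^ 2) y₂),
      (Affine.Point.some x y h + Affine.Point.some x y h : W.Point) = .some _ y₂ h₂ := by
  have hYne : y ≠ W.negY x y := by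
    intro h'
    apply hM
    rw [Affine.negY] at h'
    linear_combination h'
  have hxy : ¬ (x = x ∧ y = W.negY x y) := fun h => hYne h.2
  have hns := Affine.nonsingular_add h h hxy
  have hsl : W.slope x x y y =
      (3 * x ^ 2 + 2 * W.a₂ * x + W.a₄ - W.a₁ * y) / (2 * y + W.a₁ * x + W.a₃) := by
    rw [Affine.slope_of_Y_ne rfl hYne, Affine.negY]
    congr 1
    ring
  have eX : W.addX x x (W.slope x x y y) =
      ((3 * x ^ 2 + 2 * W.a₂ * x + W.a₄ - W.a₁ * y) ^ 2 +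
          W.a₁ * (3 * x ^ 2 + 2 * W.a₂ * x + W.a₄ - W.a₁ * y) * (2 * y + W.a₁ * x + W.a₃) -
          (W.a₂ + 2 * x) * (2 * y + W.a₁ * x + W.a₃) ^ 2) / (2 * y + W.a₁ * x + W.a₃) ^ 2 := by
    rw [hsl, Affine.addX]
    generalize 2 * y + W.a₁ * x + W.a₃ = M at hM ⊢
    generalize 3 * x ^ 2 + 2 * W.a₂ * x + W.a₄ - W.a₁ * y = N
    field_simp
    ring
  rw [Affine.Point.add_self_of_Y_ne hYne]
  rw [eX] at hns
  refine ⟨_, hns, ?_⟩
  simp only [Affine.Point.some.injEq]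
  exact ⟨eX, trivial⟩

/-- two points with the same `x` are equal or opposite  (`Affine.Y_eq_of_X_eq`, `Affine.Point.neg_some`) -/
theorem gen_some_eq_or_eq_neg {x y y' : F} (h : W.Nonsingular x y) (h' : W.Nonsingular x y') :
    (Affine.Point.some x y h : W.Point) = .some x y' h' ∨
      (Affine.Point.some x y h : W.Point) = -.some x y' h' := by
  rcases Affine.Y_eq_of_X_eq h.1 h'.1 rfl with e | e
  · left
    subst e
    rfl
  · right
    rw [Affine.Point.neg_some]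
    simp only [Affine.Point.some.injEq]
    exact ⟨trivial, e⟩

end TgH2c

/-! ## H2d. `E(F)` is `2`-divisible  (written by helper33) -/

section TgH2d

open scoped Classical
open WeierstrassCurve

variable {F : Type} [Field F] [IsAlgClosed F] (W : WeierstrassCurve.Affine F)

/-- **`E(F)` is `2`-divisible** (`F` algebraically closed, any characteristic).  `Q = 0`: clear.  `Q = (x₀, y₀)`: `x, y` from `gen_exists_xy`, `M ≠ 0` by `gen_M_ne_zero`, `P = (x, y)`; the `x`-coordinate of `2 P` (`gen_two_some`) is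
`φ(x) / M² = φ(x) / ψ(x) = x₀` (`gen_phi_eq`, `gen_psi_eq`); so `2 P = ± Q` (`gen_some_eq_or_eq_neg`; first `subst`/`obtain` the equality of the `x`-coordinates), and `2 (-P) = - 2 P`. -/
theorem gen_exists_half (hΔ : W.Δ ≠ 0) (Q : W.Point) : ∃ P : W.Point, P + P = Q := by
  rcases Q with _ | ⟨x₀, y₀, h₀⟩
  · exact ⟨0, add_zero 0⟩
  · obtain ⟨x, y, hxy, hx⟩ := gen_exists_xy W x₀
    have hM := gen_M_ne_zero W hΔ hxy hx
    have hns : W.Nonsingular x y := (W.equation_iff_nonsingular_of_Δ_ne_zero hΔ).mp hxy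
    obtain ⟨y₂, h₂, e₂⟩ := gen_two_some W hns hM
    have hx2 : ((3 * x ^ 2 + 2 * W.a₂ * x + W.a₄ - W.a₁ * y) ^ 2 +
          W.a₁ * (3 * x ^ 2 + 2 * W.a₂ * x + W.a₄ - W.a₁ * y) * (2 * y + W.a₁ * x + W.a₃) -
          (W.a₂ + 2 * x) * (2 * y + W.a₁ * x + W.a₃) ^ 2) / (2 * y + W.a₁ * x + W.a₃) ^ 2 = x₀ := by
      rw [← gen_phi_eq W hxy, hx, gen_psi_eq W hxy]
      exact mul_div_cancel_right₀ _ (pow_ne_zero 2 hM)
    revert h₂ e₂
    rw [hx2]
    intro h₂ e₂
    rcases gen_some_eq_or_eq_neg W h₂ h₀ with e | e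
    · exact ⟨_, e₂.trans e⟩
    · refine ⟨-Affine.Point.some x y hns, ?_⟩
      rw [← neg_add, e₂, e, neg_neg]

end TgH2d

/-! ## H3. Every elliptic curve, `l = 2`  (written by helper33) -/

section TgH3

open scoped Classical
open WeierstrassCurve

variable {k : Type} [Field k] (E : WeierstrassCurve k)

/-- the discriminant of the base change  (`WeierstrassCurve.map_Δ` / the instance `IsElliptic` of a base change; `isUnit_Δ`) -/
theorem gen_Δ_ne_zero (hE : E.IsElliptic) : (E⁄(AlgebraicClosure k)).toAffine.Δ ≠ 0 := by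
  have h : (E⁄(AlgebraicClosure k)).Δ = algebraMap k (AlgebraicClosure k) E.Δ := E.map_Δ _
  show (E⁄(AlgebraicClosure k)).Δ ≠ 0
  rw [h]
  exact (map_ne_zero _).mpr hE.isUnit.ne_zero

/-- the hypotheses of `finrank_H1et_eq_two` and `isContinuousRep_H1etRep` for `l = 2` -/
theorem gen_hyps (hE : E.IsElliptic) (h2 : (2 : k) ≠ 0) :
    (∀ Q : PtsBar E, ∃ P : PtsBar E, 2 • P = Q) ∧ ∃ e₁ e₂ : PtsBar E, 2 • e₁ = 0 ∧ 2 • e₂ = 0 ∧
      (∀ Q : PtsBar E, 2 • Q = 0 → ∃ a b : ℤ, Q = a • e₁ + b • e₂) ∧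
      (∀ a b : ℤ, a • e₁ + b • e₂ = 0 → ((2 : ℕ) : ℤ) ∣ a ∧ ((2 : ℕ) : ℤ) ∣ b) := by
  have hΔ := gen_Δ_ne_zero E hE
  have h2' : (2 : AlgebraicClosure k) ≠ 0 := by
    have := (map_ne_zero (algebraMap k (AlgebraicClosure k))).mpr h2
    rwa [map_ofNat] at this
  refine ⟨fun Q => ?_, ?_⟩
  · obtain ⟨P, hP⟩ := gen_exists_half _ hΔ Q
    exact ⟨P, by rw [two_smul]; exact hP⟩
  · obtain ⟨e₁, e₂, h₁, h₂, n₁, n₂, n₁₂, all⟩ := gen_exists_klein _ hΔ h2'
    obtain ⟨hs, hi⟩ := klein_span_indep e₁ e₂ h₁ h₂ n₁ n₂ n₁₂ all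
    exact ⟨e₁, e₂, by rw [two_smul]; exact h₁, by rw [two_smul]; exact h₂, hs, hi⟩

/-- **For every elliptic curve over a field of characteristic `≠ 2`, `H¹_ét(E_{k̄}, Q̄_2)` has dimension `2`.**  (`finrank_H1et_eq_two`, `klein_span_indep`, `gen_exists_klein`, `gen_exists_half`) -/
theorem finrank_H1et_two (hE : E.IsElliptic) (h2 : (2 : k) ≠ 0) :
    Module.finrank (PadicAlgCl 2) (H1et E 2) = 2 := by
  obtain ⟨hdiv, e₁, e₂, h₁, h₂, hs, hi⟩ := gen_hyps E hE h2
  exact finrank_H1et_eq_two hdiv e₁ e₂ h₁ h₂ hs hi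

/-- **and the representation of `Gal(k̄/k)` on it is continuous.**  (`isContinuousRep_H1etRep`) -/
theorem isContinuousRep_H1etRep_two (hE : E.IsElliptic) (h2 : (2 : k) ≠ 0) :
    IsContinuousRep (H1etRep E 2) := by
  obtain ⟨hdiv, e₁, e₂, h₁, h₂, hs, hi⟩ := gen_hyps E hE h2
  exact isContinuousRep_H1etRep hdiv e₁ e₂ h₁ h₂ hs hi

end TgH3

end Claimed.Open.R030.TateRk
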