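import Claimed.Open.R030.SanityTateGauss
import Claimed.Open.R030.SanityTateTwo

/-!
# Result 030: `H¹_ét(E_{K̄}, Q̄_2)` is a semisimple Galois representation for a curve **without** complex multiplication

`IsAttachedGaloisRep` of `Statement` asks three things of the Galois representation alone: dimension `2`, continuous, semisimple.  `SanityTateGalois.lean` and `SanityTateGauss.lean` prove the third for two curves with complex
multiplication, with the help of the complex multiplication.  This file proves it without: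

* `isSemisimple_two_of_gal_sum_zero`: let `E` be an elliptic curve over a field `k` of characteristic `≠ 2`.  **If some `σ ∈ Gal(k̄/k)` permutes the three points of order `2` cyclically** (in the form: `Q + σ Q + σ² Q = 0` for all `Q` with
  `2 Q = 0`), **then `H1etRep E 2` is semisimple**;
* `sanity_H1etRep_trCurve`: so the three conditions hold for `E' : y² = x³ - 3 x + 1` over `K = ℚ(i)`, which has no complex multiplication (`SanityNoCM2.lean`): the cubic is irreducible over `K`.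

For `l = 2` and these curves this is an elementary case of the theorem of Faltings (semisimplicity of `V_l E`); nothing is said on whether the representation is irreducible (it is, by a theorem of Serre, as there is no complex
multiplication; this is not proved here and not needed).

## The proof

Let `ρ = H1etRep E 2` on `H = H1et E 2`, of dimension `2` over `C = Q̄_2`.  Only a stable line `W = C v` needs a stable complement (H2).

1. (A)  A frame `x₁, x₂` of `T_2 E` gives coordinates `c₁, c₂ : T_2 E → ℤ_2` (`IsIntCoords`), and `H` is the set of the `a c₁ + b c₂`, `a, b ∈ C`.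
2. (B)  So `Aut(C / ℚ_2)` acts on `H`, semilinearly, by `v ↦ τ ∘ v`, and this action commutes with `ρ`: if `v` is a common eigenvector of the `ρ(g)`, so is `τ ∘ v`.
3. (H1, first case)  If `τ ∘ v ∉ C v` for some `τ`, then `C (τ ∘ v)` is a stable complement of `C v`.
4. (D0, D)  Otherwise the line `C v` is defined over `ℚ_2` (Galois descent: `C^{Aut(C/ℚ_2)} = ℚ_2`), so it is spanned by `u = α c₁ + β c₂` with `α, β ∈ ℤ_2`, one of them `1`.
5. (E, H1, second case)  `u ∘ σ = χ u`, and `χ = z ∈ ℤ_2`, as `u` takes the value `1`.  For every `P ∈ T_2 E` the first term of `P + σ P + σ² P` is `0`, so `(1 + z + z²) u(P) = u(P + σ P + σ² P) ∈ 2 ℤ_2`.  But `1 + z + z²` is odd.  So `u` has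
   values in `2 ℤ_2`: a contradiction, as `u` takes the value `1`.
6. (G)  For `E'`: the Galois group of `x³ - 3 x + 1` over `K` is cyclic of order `3` (`TrEnd.exists_gal_trRoot_ne`, and the roots are `e, φ e, φ φ e` with `φ` defined over `K`).

The contracts are due to helper275; the sections were written by the seats named there.
-/

set_option autoImplicit false

namespace Claimed.Open.R030.TateTr

/-! ## Defs. Definitions: `ℤ_l ⊆ Q̄_l`, integral coordinates  (written by helper275) -/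

section TsDefs

open scoped Classical
open Claimed.Open.R030.TateRk

/-- the embedding `ℤ_l ⊆ ℚ_l ⊆ Q̄_l` -/
noncomputable def iota (l : ℕ) [Fact l.Prime] : ℤ_[l] →+* PadicAlgCl l :=
  (algebraMap ℚ_[l] (PadicAlgCl l)).comp PadicInt.Coe.ringHom

theorem iota_apply (l : ℕ) [Fact l.Prime] (z : ℤ_[l]) :
    iota l z = algebraMap ℚ_[l] (PadicAlgCl l) ((z : ℤ_[l]) : ℚ_[l]) := rfl

variable {k : Type} [Field k] {E : WeierstrassCurve k} {l : ℕ} [Fact l.Prime]

/-- `c₁, c₂ : T_l E → ℤ_l` are the coordinates in the basis `x₁, x₂`: additive, `≡ 0 mod l` on `{P | P₁ = 0}`, and `H1et E l` is the set of the `a c₁ + b c₂`, `a, b ∈ Q̄_l`. -/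
def IsIntCoords (x₁ x₂ : tateModule E l) (c₁ c₂ : tateModule E l → ℤ_[l]) : Prop :=
  (∀ P Q, c₁ (P + Q) = c₁ P + c₁ Q) ∧ (∀ P Q, c₂ (P + Q) = c₂ P + c₂ Q) ∧
  (∀ P : tateModule E l, P.1 1 = 0 → (l : ℤ_[l]) ∣ c₁ P ∧ (l : ℤ_[l]) ∣ c₂ P) ∧
  (c₁ x₁ = 1 ∧ c₁ x₂ = 0 ∧ c₂ x₁ = 0 ∧ c₂ x₂ = 1) ∧
  (∀ (φ : H1et E l) (P : tateModule E l),
    φ.1 P = φ.1 x₁ * iota l (c₁ P) + φ.1 x₂ * iota l (c₂ P)) ∧
  ∀ a b : PadicAlgCl l, (fun P => a * iota l (c₁ P) + b * iota l (c₂ P)) ∈ H1et E l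

end TsDefs

/-! ## A. Integral coordinates exist  (written by helper236) -/

section TsA

open scoped Classical
open Claimed.Open.R030.TateRk

variable {k : Type} [Field k] {E : WeierstrassCurve k} {l : ℕ} [Fact l.Prime]

theorem iota_injective : Function.Injective (iota l) := by
  intro a b h
  rw [iota_apply, iota_apply] at h
  exact Subtype.ext ((algebraMap ℚ_[l] (PadicAlgCl l)).injective h)

/-- as in the proof of `exists_dual` (`SanityTateRank.lean`, section TkC2): `choose c₁ c₂` by `Frame.exists_isCoord`; additive by `IsCoord.add` + `Frame.isCoord_unique`; small by `Frame.isCoord_small` with `n = 1` (`pow_one`);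
values by `isCoord_left`, `isCoord_right`; last clause: `mem_H1et_of_coord` + `Submodule.add_mem`, `Submodule.smul_mem`; fifth clause: the difference of the two sides is an element of `H1et` that vanishes at `x₁, x₂`: `eq_zero_of_frame` -/
theorem exists_isIntCoords {x₁ x₂ : tateModule E l} (F : Frame l x₁.1 x₂.1) :
    ∃ c₁ c₂ : tateModule E l → ℤ_[l], IsIntCoords x₁ x₂ c₁ c₂ := by
  choose c₁ c₂ hc using fun P : tateModule E l => F.exists_isCoord (isSeq_of_tateModule P)
  have hadd : ∀ P Q : tateModule E l, c₁ (P + Q) = c₁ P + c₁ Q ∧ c₂ (P + Q) = c₂ P + c₂ Q :=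
    fun P Q => F.isCoord_unique (hc (P + Q)) ((hc P).add (hc Q))
  have hsmall : ∀ (n : ℕ) (P : tateModule E l), P.1 n = 0 →
      (l : ℤ_[l]) ^ n ∣ c₁ P ∧ (l : ℤ_[l]) ^ n ∣ c₂ P :=
    fun n P hP => F.isCoord_small (hc P) hP
  have h1 : c₁ x₁ = 1 ∧ c₂ x₁ = 0 := F.isCoord_unique (hc x₁) isCoord_left
  have h2 : c₁ x₂ = 0 ∧ c₂ x₂ = 1 := F.isCoord_unique (hc x₂) isCoord_right
  have m1 : (fun P => iota l (c₁ P)) ∈ H1et E l :=
    mem_H1et_of_coord c₁ (fun P Q => (hadd P Q).1) (fun n P hP => (hsmall n P hP).1)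
  have m2 : (fun P => iota l (c₂ P)) ∈ H1et E l :=
    mem_H1et_of_coord c₂ (fun P Q => (hadd P Q).2) (fun n P hP => (hsmall n P hP).2)
  have hlast : ∀ a b : PadicAlgCl l,
      (fun P => a * iota l (c₁ P) + b * iota l (c₂ P)) ∈ H1et E l := fun a b =>
    Submodule.add_mem _ (Submodule.smul_mem _ a m1) (Submodule.smul_mem _ b m2)
  refine ⟨c₁, c₂, fun P Q => (hadd P Q).1, fun P Q => (hadd P Q).2, fun P hP => ?_,
    ⟨h1.1, h2.1, h1.2, h2.2⟩, fun φ P => ?_, hlast⟩
  · have := hsmall 1 P hP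
    rwa [pow_one] at this
  · have hz : φ - ⟨_, hlast (φ.1 x₁) (φ.1 x₂)⟩ = 0 := by
      apply eq_zero_of_frame F
      · show φ.1 x₁ - (φ.1 x₁ * iota l (c₁ x₁) + φ.1 x₂ * iota l (c₂ x₁)) = 0
        rw [h1.1, h1.2, map_one, map_zero]
        ring
      · show φ.1 x₂ - (φ.1 x₁ * iota l (c₁ x₂) + φ.1 x₂ * iota l (c₂ x₂)) = 0
        rw [h2.1, h2.2, map_one, map_zero]
        ring
    have h3 := congrArg (fun ψ : H1et E l => ψ.1 P) (sub_eq_zero.mp hz)
    exact h3

end TsA

/-! ## B. The conjugates `τ ∘ v`  (written by helper62) -/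

section TsB

open scoped Classical
open Claimed.Open.R030.TateRk

variable {k : Type} [Field k] {E : WeierstrassCurve k} {l : ℕ} [Fact l.Prime]
  {x₁ x₂ : tateModule E l} {c₁ c₂ : tateModule E l → ℤ_[l]}

/-- `τ (iota z) = iota z` (`AlgEquiv.commutes`) -/
theorem algEquiv_iota (τ : PadicAlgCl l ≃ₐ[ℚ_[l]] PadicAlgCl l) (z : ℤ_[l]) :
    τ (iota l z) = iota l z := by
  rw [iota_apply]
  exact τ.commutes _

/-- `v' = τ (v x₁) c₁ + τ (v x₂) c₂` (sixth clause of `IsIntCoords`); `τ (v P)` by the fifth clause, `map_add`, `map_mul`, `algEquiv_iota` -/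
theorem exists_conj (h : IsIntCoords x₁ x₂ c₁ c₂) (τ : PadicAlgCl l ≃ₐ[ℚ_[l]] PadicAlgCl l)
    (v : H1et E l) : ∃ v' : H1et E l, ∀ P, v'.1 P = τ (v.1 P) := by
  obtain ⟨_, _, _, _, h5, h6⟩ := h
  refine ⟨⟨_, h6 (τ (v.1 x₁)) (τ (v.1 x₂))⟩, fun P => ?_⟩
  show τ (v.1 x₁) * iota l (c₁ P) + τ (v.1 x₂) * iota l (c₂ P) = τ (v.1 P)
  rw [h5 v P, map_add, map_mul, map_mul, algEquiv_iota, algEquiv_iota]

/-- `(H1etRep E l g φ).1 P = φ.1 (galTate E l g⁻¹ P)` by `rfl`; `(χ • v).1 P = χ * v.1 P` by `rfl` -/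
theorem conj_eigen {v v' : H1et E l} {τ : PadicAlgCl l ≃ₐ[ℚ_[l]] PadicAlgCl l}
    (hv' : ∀ P, v'.1 P = τ (v.1 P)) {g : Gal(AlgebraicClosure k/k)} {χ : PadicAlgCl l}
    (hg : H1etRep E l g v = χ • v) : H1etRep E l g v' = τ χ • v' := by
  apply Subtype.ext
  funext P
  show v'.1 (galTate E l g⁻¹ P) = τ χ * v'.1 P
  rw [hv', hv', ← map_mul]
  congr 1
  exact congrArg (fun w : H1et E l => w.1 P) hg

end TsB

/-! ## D0. Two facts on `ℚ_l ⊆ Q̄_l`  (written by helper159) -/

section TsD0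

variable {l : ℕ} [Fact l.Prime]

/-- Galois descent: `Q̄_l / ℚ_l` is Galois (characteristic `0`; `PadicAlgCl l` is `AlgebraicClosure ℚ_[l]`): `InfiniteGalois.mem_range_algebraMap_iff_fixed` (used in `SanityNoCM.lean`: `HasA.mem_range_of_comm`) or `IsGalois.mem_range_algebraMap_iff_fixed` -/
theorem mem_range_of_fixed (r : PadicAlgCl l)
    (h : ∀ τ : PadicAlgCl l ≃ₐ[ℚ_[l]] PadicAlgCl l, τ r = r) :
    ∃ q : ℚ_[l], r = algebraMap ℚ_[l] (PadicAlgCl l) q := by
  have : IsGalois ℚ_[l] (PadicAlgCl l) := inferInstanceAs (IsGalois ℚ_[l] (AlgebraicClosure ℚ_[l]))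
  obtain ⟨q, hq⟩ := (InfiniteGalois.mem_range_algebraMap_iff_fixed (k := ℚ_[l]) (K := PadicAlgCl l) r).2 h
  exact ⟨q, hq.symm⟩

/-- `‖q‖ ≤ 1` or `‖q⁻¹‖ ≤ 1` -/
theorem padic_int_or_inv_int (q : ℚ_[l]) :
    (∃ z : ℤ_[l], q = (z : ℚ_[l])) ∨ ∃ z : ℤ_[l], q ≠ 0 ∧ q⁻¹ = (z : ℚ_[l]) := by
  rcases le_total ‖q‖ 1 with h | h
  · exact Or.inl ⟨⟨q, h⟩, rfl⟩
  · have hq : q ≠ 0 := by
      rintro rfl
      rw [norm_zero] at h
      linarith
    refine Or.inr ⟨⟨q⁻¹, ?_⟩, hq, rfl⟩
    rw [norm_inv]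
    exact inv_le_one_of_one_le₀ h

end TsD0

/-! ## D. A line stable under all `τ` is spanned by a primitive `ℤ_l`-valued functional  (written by helper228) -/

section TsD

open scoped Classical
open Claimed.Open.R030.TateRk

variable {k : Type} [Field k] {E : WeierstrassCurve k} {l : ℕ} [Fact l.Prime]
  {x₁ x₂ : tateModule E l} {c₁ c₂ : tateModule E l → ℤ_[l]}

/-- `a = v x₁`, `b = v x₂` are not both `0` (fifth clause of `IsIntCoords`).  If `a ≠ 0`: from `τ a = μ a`, `τ b = μ b` the quotient `r = b / a` is fixed by every `τ`, so `r = q ∈ ℚ_l` (`mem_range_of_fixed`);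
if `q = z ∈ ℤ_l`: `s = a⁻¹`, `(α, β) = (1, z)`; if `q⁻¹ = z ∈ ℤ_l`: `s = b⁻¹`, `(α, β) = (z, 1)` (`padic_int_or_inv_int`).  If `a = 0`: `s = b⁻¹`, `(α, β) = (0, 1)`. -/
theorem exists_primitive_of_conj_mem (h : IsIntCoords x₁ x₂ c₁ c₂) (v : H1et E l) (hv : v ≠ 0)
    (hconj : ∀ τ : PadicAlgCl l ≃ₐ[ℚ_[l]] PadicAlgCl l, ∃ μ : PadicAlgCl l,
      ∀ P, τ (v.1 P) = μ * v.1 P) :
    ∃ (s : PadicAlgCl l) (α β : ℤ_[l]), s ≠ 0 ∧ (α = 1 ∨ β = 1) ∧
      ∀ P, s * v.1 P = iota l (α * c₁ P + β * c₂ P) := by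
  obtain ⟨-, -, -, -, h5, -⟩ := h
  set a := v.1 x₁ with ha
  set b := v.1 x₂ with hb
  have hP : ∀ P, v.1 P = a * iota l (c₁ P) + b * iota l (c₂ P) := fun P => h5 v P
  have hab : ¬ (a = 0 ∧ b = 0) := by
    rintro ⟨h1, h2⟩
    apply hv
    apply Subtype.ext
    funext P
    rw [hP P, h1, h2]
    simp
  by_cases ha0 : a = 0
  · have hb0 : b ≠ 0 := fun h0 => hab ⟨ha0, h0⟩
    refine ⟨b⁻¹, 0, 1, inv_ne_zero hb0, Or.inr rfl, fun P => ?_⟩
    rw [hP P, ha0, zero_mul, zero_add, zero_mul, zero_add, one_mul, ← mul_assoc, inv_mul_cancel₀ hb0,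
      one_mul]
  · have hfix : ∀ τ : PadicAlgCl l ≃ₐ[ℚ_[l]] PadicAlgCl l, τ (b / a) = b / a := by
      intro τ
      obtain ⟨μ, hμ⟩ := hconj τ
      have h1 : τ a = μ * a := hμ x₁
      have h2 : τ b = μ * b := hμ x₂
      have hμ0 : μ ≠ 0 := by
        rintro rfl
        rw [zero_mul] at h1
        exact ha0 ((map_eq_zero τ).1 h1)
      rw [map_div₀, h1, h2, mul_div_mul_left _ _ hμ0]
    obtain ⟨q, hq⟩ := mem_range_of_fixed (b / a) hfix
    rcases padic_int_or_inv_int q with ⟨z, hz⟩ | ⟨z, hq0, hz⟩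
    · refine ⟨a⁻¹, 1, z, inv_ne_zero ha0, Or.inl rfl, fun P => ?_⟩
      have hiz : iota l z = b / a := by rw [iota_apply, ← hz, hq]
      rw [hP P, map_add, map_mul, map_mul, map_one, hiz]
      field_simp
    · have hr0 : b / a ≠ 0 := by
        rw [hq]; exact (map_ne_zero _).2 hq0
      have hb0 : b ≠ 0 := fun h0 => hr0 (by rw [h0, zero_div])
      refine ⟨b⁻¹, z, 1, inv_ne_zero hb0, Or.inr rfl, fun P => ?_⟩
      have hiz : iota l z = a / b := by
        rw [iota_apply, ← hz, map_inv₀, ← hq, inv_div]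
      rw [hP P, map_add, map_mul, map_mul, map_one, hiz]
      field_simp

end TsD

/-! ## E. No primitive `ℤ_2`-valued functional is an eigenvector of an element of order `3` mod `2`  (written by helper275) -/

section TsE

open scoped Classical
open Claimed.Open.R030.TateRk

variable {k : Type} [Field k] {E : WeierstrassCurve k}
  {x₁ x₂ : tateModule E 2} {c₁ c₂ : tateModule E 2 → ℤ_[2]}

/-- `1 + z + z²` is odd: `PadicInt.toZMod : ℤ_[2] →+* ZMod 2`, `∀ s : ZMod 2, 1 + s + s * s = 1` by `decide`; `2 ∣ w ↔ toZMod w = 0` (`PadicInt.ker_toZMod`, `Ideal.mem_span_singleton`, `PadicInt.maximalIdeal_eq_span_p`) -/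
theorem two_dvd_of_two_dvd_mul (z w : ℤ_[2]) (h : (2 : ℤ_[2]) ∣ (1 + z + z * z) * w) :
    (2 : ℤ_[2]) ∣ w := by
  have key : ∀ x : ℤ_[2], (2 : ℤ_[2]) ∣ x ↔ PadicInt.toZMod x = 0 := by
    intro x
    rw [← RingHom.mem_ker, PadicInt.ker_toZMod, PadicInt.maximalIdeal_eq_span_p,
      Ideal.mem_span_singleton, Nat.cast_ofNat]
  rw [key] at h ⊢
  rw [map_mul, map_add, map_add, map_mul, map_one] at h
  have h1 : ∀ s : ZMod 2, 1 + s + s * s = 1 := by decide
  rwa [h1, one_mul] at h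

theorem not_two_dvd_one : ¬ (2 : ℤ_[2]) ∣ 1 := by
  intro h
  have h2 : IsUnit (2 : ℤ_[2]) := isUnit_of_dvd_one h
  have h3 := PadicInt.p_nonunit (p := 2)
  rw [Nat.cast_ofNat] at h3
  exact h3 h2

/-- `u P = α c₁ P + β c₂ P` is additive; `u (P + γ P + γ γ P) = (1 + z + z²) u P` is divisible by `2` (third clause of `IsIntCoords`; `((2 : ℕ) : ℤ_[2]) = 2` by `Nat.cast_ofNat`), so `2 ∣ u P` for all `P`; but `u x₁ = α`, `u x₂ = β`, and one of them is `1` -/
theorem false_of_primitive_eigen (h : IsIntCoords x₁ x₂ c₁ c₂)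
    (γ : tateModule E 2 →+ tateModule E 2)
    (hγ : ∀ P : tateModule E 2, (P + γ P + γ (γ P)).1 1 = 0)
    (α β z : ℤ_[2]) (hαβ : α = 1 ∨ β = 1)
    (heig : ∀ P, α * c₁ (γ P) + β * c₂ (γ P) = z * (α * c₁ P + β * c₂ P)) : False := by
  obtain ⟨a1, a2, hsm, ⟨h11, h12, h21, h22⟩, -, -⟩ := h
  have hdvd : ∀ P, (2 : ℤ_[2]) ∣ α * c₁ P + β * c₂ P := by
    intro P
    apply two_dvd_of_two_dvd_mul z
    obtain ⟨d1, d2⟩ := hsm _ (hγ P)
    rw [Nat.cast_ofNat] at d1 d2
    have e : (1 + z + z * z) * (α * c₁ P + β * c₂ P)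
        = α * c₁ (P + γ P + γ (γ P)) + β * c₂ (P + γ P + γ (γ P)) := by
      rw [a1, a1, a2, a2]
      linear_combination (-1 : ℤ_[2]) * heig (γ P) - (1 + z) * heig P
    rw [e]
    exact dvd_add (Dvd.dvd.mul_left d1 α) (Dvd.dvd.mul_left d2 β)
  rcases hαβ with rfl | rfl
  · have := hdvd x₁
    rw [h11, h21, mul_one, mul_zero, add_zero] at this
    exact not_two_dvd_one this
  · have := hdvd x₂
    rw [h12, h22, mul_one, mul_zero, zero_add] at this
    exact not_two_dvd_one this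

end TsE

/-! ## G. The curve `y² = x³ - 3 x + 1`  (written by helpers 271 205) -/

section TsG

open scoped Classical
open Claimed.Open.R030.TateRk

/-- `σ` from `TrEnd.exists_gal_trRoot_ne`.  `σ e = φ e` or `φ φ e` (`TrEnd.IsRt.cases`, `IsRt.gal`), and `σ` commutes with `φ` (`TrEnd.gal_phi`), so `σ x = φ x` for all roots `x`, or `σ x = φ φ x` for all roots (`IsRt.phi_phi_phi`).
A point with `Q + Q = 0` is `0` or `tt x` (`TrEnd.two_torsion_cases`); `TrEnd.galPts_tt`; `TrEnd.tt_add_tt_add_tt`, `tt_add_phi`, `tt_add_self`. -/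
theorem exists_gal_sum_zero : ∃ σ : Gal(Cm3Bar/Cm3Field), ∀ Q : PtsBar TrEnd.trCurve, Q + Q = 0 →
    Q + galPts TrEnd.trCurve σ Q + galPts TrEnd.trCurve σ (galPts TrEnd.trCurve σ Q) = 0 := by
  obtain ⟨σ, hσ⟩ := TrEnd.exists_gal_trRoot_ne
  have he : TrEnd.IsRt TrEnd.trRoot := TrEnd.trRoot_spec
  have key : (∀ x, TrEnd.IsRt x → σ x = TrEnd.phi x) ∨
      (∀ x, TrEnd.IsRt x → σ x = TrEnd.phi (TrEnd.phi x)) := by
    rcases TrEnd.IsRt.cases he (he.gal σ) with h | h | h
    · exact absurd h hσ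
    · left
      intro x hx
      rcases TrEnd.IsRt.cases he hx with rfl | rfl | rfl
      · exact h
      · rw [TrEnd.gal_phi, h]
      · rw [TrEnd.gal_phi, TrEnd.gal_phi, h]
    · right
      intro x hx
      rcases TrEnd.IsRt.cases he hx with rfl | rfl | rfl
      · exact h
      · rw [TrEnd.gal_phi, h]
      · rw [TrEnd.gal_phi, TrEnd.gal_phi, h]
  refine ⟨σ, fun Q hQ => ?_⟩
  rcases TrEnd.two_torsion_cases hQ with rfl | ⟨x, hx, rfl⟩
  · simp only [map_zero, add_zero]
  · rw [TrEnd.galPts_tt σ hx, TrEnd.galPts_tt σ (hx.gal σ)]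
    have h3 := TrEnd.tt_add_tt_add_tt hx
    rcases key with k | k
    · rw [k x hx, k _ hx.img, ← h3]
      abel
    · rw [k x hx, k _ hx.img.img, hx.img.phi_phi_phi, ← h3]
      abel

/-- copy of the proof of `sanity_finrank_H1et_trCurve` (`SanityTateRank.lean`, section TkD1) with `TateRep.exists_frame` in the place of `finrank_H1et_eq_two` -/
theorem exists_frame_trCurve : ∃ x₁ x₂ : tateModule TrEnd.trCurve 2, Frame 2 x₁.1 x₂.1 := by
  have he : TrEnd.IsRt TrEnd.trRoot := TrEnd.isRt_trRoot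
  obtain ⟨hs, hi⟩ := klein_span_indep (TrEnd.tt TrEnd.trRoot) (TrEnd.tt (TrEnd.phi TrEnd.trRoot))
    (TrEnd.tt_add_self _) (TrEnd.tt_add_self _) (TrEnd.tt_ne_zero he) (TrEnd.tt_ne_zero he.img)
    (fun h => he.phi_ne (TrEnd.tt_inj he he.img h).symm)
    (fun Q hQ => by
      rcases TrEnd.two_torsion_cases hQ with rfl | ⟨x, hx, rfl⟩
      · exact Or.inl rfl
      · rcases he.cases hx with rfl | rfl | rfl
        · exact Or.inr (Or.inl rfl)
        · exact Or.inr (Or.inr (Or.inl rfl))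
        · exact Or.inr (Or.inr (Or.inr (TrEnd.tt_add_phi he).symm)))
  refine TateRep.exists_frame (fun Q => ?_) _ _ ?_ ?_ hs hi
  · obtain ⟨P, hP⟩ := TrEnd.exists_half Q
    exact ⟨P, by rw [two_smul]; exact hP⟩
  · rw [two_smul]; exact TrEnd.tt_add_self _
  · rw [two_smul]; exact TrEnd.tt_add_self _

end TsG

/-! ## H1. A stable line has a second stable line beside it  (written by helper275) -/

section TsH1

open scoped Classical
open Claimed.Open.R030.TateRk

variable {k : Type} [Field k] {E : WeierstrassCurve k}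

/-- Take `c₁, c₂` (`exists_isIntCoords`).  CASE 1: for some `τ` the conjugate `v'` (`exists_conj`) is not a multiple of `v`: then `v, v'` are independent (`LinearIndependent.pair_iff`; `v ≠ 0`) and `v'` is a common eigenvector (`conj_eigen`).
CASE 2: every conjugate is `μ v`.  `exists_primitive_of_conj_mem` gives `s, α, β`.  Let `g = σ⁻¹`, `γ = galTate E 2 σ` (so `(H1etRep E 2 g v).1 P = v.1 (γ P)`, `inv_inv`), `H1etRep E 2 g v = χ • v`.  Then
`iota (u (γ P)) = χ * iota (u P)` with `u = α c₁ + β c₂`; at `P = x₁` (if `α = 1`) or `x₂` (if `β = 1`): `χ = iota z`; `iota_injective` gives `heig`; `hγ` from `hσ` (`P.1 1` is killed by `2`: `P.2.2 0`, `P.2.1`, `two_nsmul`);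
`false_of_primitive_eigen`. -/
theorem exists_second_line {x₁ x₂ : tateModule E 2} (F : Frame 2 x₁.1 x₂.1)
    (σ : Gal(AlgebraicClosure k/k))
    (hσ : ∀ Q : PtsBar E, Q + Q = 0 → Q + galPts E σ Q + galPts E σ (galPts E σ Q) = 0)
    (v : H1et E 2) (hv : v ≠ 0) (heig : ∀ g, ∃ χ : PadicAlgCl 2, H1etRep E 2 g v = χ • v) :
    ∃ v' : H1et E 2, (∀ g, ∃ χ : PadicAlgCl 2, H1etRep E 2 g v' = χ • v') ∧
      LinearIndependent (PadicAlgCl 2) ![v, v'] := by
  obtain ⟨c₁, c₂, h⟩ := exists_isIntCoords F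
  by_cases hcase : ∃ τ : PadicAlgCl 2 ≃ₐ[ℚ_[2]] PadicAlgCl 2, ¬ ∃ μ : PadicAlgCl 2,
      ∀ P, τ (v.1 P) = μ * v.1 P
  · obtain ⟨τ, hτ⟩ := hcase
    obtain ⟨v', hv'⟩ := exists_conj h τ v
    refine ⟨v', fun g => ?_, ?_⟩
    · obtain ⟨χ, hχ⟩ := heig g
      exact ⟨τ χ, conj_eigen hv' hχ⟩
    · rw [LinearIndependent.pair_iff]
      intro s t hst
      by_cases ht : t = 0
      · subst ht
        rw [zero_smul, add_zero] at hst
        exact ⟨(smul_eq_zero.mp hst).resolve_right hv, rfl⟩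
      · exfalso
        apply hτ
        refine ⟨-(t⁻¹ * s), fun P => ?_⟩
        have h1 : (s • v + t • v').1 P = 0 := by rw [hst]; rfl
        have h2 : s * v.1 P + t * v'.1 P = 0 := h1
        rw [← hv' P]
        field_simp
        linear_combination h2
  · push Not at hcase
    exfalso
    obtain ⟨s, α, β, hs, hαβ, hu⟩ := exists_primitive_of_conj_mem h v hv hcase
    obtain ⟨χ, hχ⟩ := heig σ⁻¹
    have hχ' : ∀ P, v.1 (galTate E 2 σ P) = χ * v.1 P := by
      intro P
      have h1 : (H1etRep E 2 σ⁻¹ v).1 P = (χ • v).1 P := by rw [hχ]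
      have h2 : (H1etRep E 2 σ⁻¹ v).1 P = v.1 (galTate E 2 (σ⁻¹)⁻¹ P) := rfl
      rw [h2, inv_inv] at h1
      exact h1
    have hiu : ∀ P, iota 2 (α * c₁ (galTate E 2 σ P) + β * c₂ (galTate E 2 σ P))
        = χ * iota 2 (α * c₁ P + β * c₂ P) := by
      intro P
      rw [← hu, ← hu, hχ']
      ring
    obtain ⟨hc11, hc12, hc21, hc22⟩ := h.2.2.2.1
    have hz : ∃ z : ℤ_[2], χ = iota 2 z := by
      rcases hαβ with hα | hβ
      · refine ⟨α * c₁ (galTate E 2 σ x₁) + β * c₂ (galTate E 2 σ x₁), ?_⟩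
        have := hiu x₁
        rw [hc11, hc21, hα, mul_one, mul_zero, add_zero, map_one, mul_one] at this
        rw [hα]
        exact this.symm
      · refine ⟨α * c₁ (galTate E 2 σ x₂) + β * c₂ (galTate E 2 σ x₂), ?_⟩
        have := hiu x₂
        rw [hc12, hc22, hβ, mul_one, mul_zero, zero_add, map_one, mul_one] at this
        rw [hβ]
        exact this.symm
    obtain ⟨z, rfl⟩ := hz
    refine false_of_primitive_eigen h (galTate E 2 σ) ?_ α β z hαβ ?_
    · intro P
      have h2 : P.1 1 + P.1 1 = 0 := by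
        have := P.2.2 0
        rw [P.2.1, zero_add, two_nsmul] at this
        exact this
      exact hσ (P.1 1) h2
    · intro P
      apply iota_injective
      rw [hiu P, map_mul]

end TsH1

/-! ## H2. The theorems  (written by helper25, helper275) -/

section TsH2

open scoped Classical
open Claimed.Open.R030.TateRk

variable {k : Type} [Field k] {E : WeierstrassCurve k}

/-- **If some `σ ∈ Gal(k̄/k)` permutes the three points of order `2` cyclically, `H1etRep E 2` is semisimple** (whether it is irreducible or not).  `isSemisimpleRepresentation_of_exists_isCompl`; let `W` be stable.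
`W = ⊥`: `⊤`; otherwise take `v ∈ W`, `v ≠ 0` (`Submodule.exists_mem_ne_zero_of_ne_bot`).  If `W = span {v}`: `ρ g v ∈ W` gives `χ` (`Submodule.mem_span_singleton`); `exists_second_line`;
`TateRep.exists_isCompl_of_two_eigenvectors` (with `finrank_H1et_of_frame F`).  If `W ≠ span {v}` then `W = ⊤` (dimension `2`; `finrank_span_singleton`, `Submodule.finrank_lt_finrank_of_lt`, `Submodule.eq_top_of_finrank_eq`): `⊥`. -/
theorem isSemisimple_of_gal_sum_zero {x₁ x₂ : tateModule E 2} (F : Frame 2 x₁.1 x₂.1)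
    (σ : Gal(AlgebraicClosure k/k))
    (hσ : ∀ Q : PtsBar E, Q + Q = 0 → Q + galPts E σ Q + galPts E σ (galPts E σ Q) = 0) :
    (H1etRep E 2).IsSemisimpleRepresentation := by
  have h2 : Module.finrank (PadicAlgCl 2) (H1et E 2) = 2 := finrank_H1et_of_frame F
  have : FiniteDimensional (PadicAlgCl 2) (H1et E 2) := Module.finite_of_finrank_pos (by omega)
  refine isSemisimpleRepresentation_of_exists_isCompl _ fun W hW => ?_
  by_cases hW0 : W = ⊥
  · exact ⟨⊤, fun _ _ _ => Submodule.mem_top, hW0 ▸ isCompl_bot_top⟩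
  obtain ⟨v, hvW, hv⟩ := Submodule.exists_mem_ne_zero_of_ne_bot hW0
  by_cases hWv : W = Submodule.span (PadicAlgCl 2) {v}
  · have heig : ∀ g, ∃ χ : PadicAlgCl 2, H1etRep E 2 g v = χ • v := by
      intro g
      have h3 := hW g v hvW
      rw [hWv] at h3
      obtain ⟨χ, hχ⟩ := Submodule.mem_span_singleton.1 h3
      exact ⟨χ, hχ.symm⟩
    obtain ⟨v', heig', hli⟩ := exists_second_line F σ hσ v hv heig
    exact TateRep.exists_isCompl_of_two_eigenvectors _ h2 v v' hli heig heig' W hW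
  · have hle : Submodule.span (PadicAlgCl 2) {v} ≤ W := (Submodule.span_singleton_le_iff_mem v W).2 hvW
    have hlt : Submodule.span (PadicAlgCl 2) {v} < W := lt_of_le_of_ne hle (Ne.symm hWv)
    have h3 := Submodule.finrank_lt_finrank_of_lt hlt
    rw [finrank_span_singleton hv] at h3
    have h4 := Submodule.finrank_le W
    have htop : W = ⊤ := Submodule.eq_top_of_finrank_eq (by omega)
    refine ⟨⊥, fun g w hw => ?_, htop ▸ isCompl_top_bot⟩
    rw [Submodule.mem_bot] at hw ⊢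
    rw [hw, map_zero]

/-- **For every elliptic curve over a field of characteristic `≠ 2`: if some `σ ∈ Gal(k̄/k)` permutes the three points of order `2` cyclically, `H1etRep E 2` is semisimple.**  (A frame exists by `gen_hyps` of `SanityTateTwo.lean`.) -/
theorem isSemisimple_two_of_gal_sum_zero (E : WeierstrassCurve k) (hE : E.IsElliptic) (h2 : (2 : k) ≠ 0)
    (σ : Gal(AlgebraicClosure k/k))
    (hσ : ∀ Q : PtsBar E, Q + Q = 0 → Q + galPts E σ Q + galPts E σ (galPts E σ Q) = 0) :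
    (H1etRep E 2).IsSemisimpleRepresentation := by
  obtain ⟨hdiv, e₁, e₂, h₁, h₂, hs, hi⟩ := gen_hyps E hE h2
  obtain ⟨x₁, x₂, F⟩ := TateRep.exists_frame hdiv e₁ e₂ h₁ h₂ hs hi
  exact isSemisimple_of_gal_sum_zero F σ hσ

/-- **`H¹_ét(E'_{K̄}, Q̄_2)` is a semisimple representation of `Gal(K̄/K)`** for the curve `E' : y² = x³ - 3 x + 1` over `K = ℚ(i)` without complex multiplication. -/
theorem sanity_isSemisimple_H1etRep_trCurve :
    (H1etRep TrEnd.trCurve 2).IsSemisimpleRepresentation := by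
  obtain ⟨x₁, x₂, F⟩ := exists_frame_trCurve
  obtain ⟨σ, hσ⟩ := exists_gal_sum_zero
  exact isSemisimple_of_gal_sum_zero F σ hσ

/-- the three conditions on the Galois representation alone in `IsAttachedGaloisRep`, for the curve without complex multiplication -/
theorem sanity_H1etRep_trCurve :
    Module.finrank (PadicAlgCl 2) (H1et TrEnd.trCurve 2) = 2 ∧
      IsContinuousRep (H1etRep TrEnd.trCurve 2) ∧
      (H1etRep TrEnd.trCurve 2).IsSemisimpleRepresentation :=
  ⟨sanity_finrank_H1et_trCurve, sanity_isContinuousRep_H1etRep_trCurve,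
    sanity_isSemisimple_H1etRep_trCurve⟩

end TsH2

end Claimed.Open.R030.TateTr
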