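import Claimed.Open.R030.SanityPlaces
import Claimed.Open.R030.SanityAutomorphic
import Claimed.Open.R030.SanityGalois
import Claimed.Open.R030.SanityLocalField
import Claimed.Open.R030.SanityLocal
import Claimed.Open.R030.SanityMore
import Claimed.Open.R030.SanityClauses
import Claimed.Open.R030.SanityArch
import Claimed.Open.R030.SanityNoCM
import Claimed.Open.R030.SanityCMField
import Claimed.Open.R030.SanityNoCM2
import Claimed.Open.R030.SanityTateRank
import Claimed.Open.R030.SanityLocalPoly
import Claimed.Open.R030.SanityTateGalois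
import Claimed.Open.R030.SanityEnd
import Claimed.Open.R030.SanityTateGauss
import Claimed.Open.R030.SanityTateTwo
import Claimed.Open.R030.SanityTateThree
import Claimed.Open.R030.SanityTateIrr
import Claimed.Open.R030.SanityTateInd
import Claimed.Open.R030.SanityTateTr
import Claimed.Open.R030.SanityTateSum
import Claimed.Open.R030.SanityHeight
import Claimed.Open.R030.SanityLie
import Claimed.Open.R030.SanityLieFormula
import Claimed.Open.R030.SanityNormChar
import Claimed.Open.R030.SanityTateIndAll
import Claimed.Open.R030.SanityDecomp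
import Claimed.Open.R030.SanityResDecomp
import Claimed.Open.R030.SanityPlaceFive
import Claimed.Open.R030.SanityGlobalInduced
import Claimed.Open.R030.SanityArchToHecke

/-!
# Result 030: checked examples for `Statement.lean`

* the hypotheses of `Statement` can be met (`hypotheses_can_be_met`: `K = ℚ(i)`, `E : y² = x³ - x`);
* this curve has complex multiplication by `[i] : (x, y) ↦ (-x, i y)`, defined over `K`: `HasCMOver gaussCurve ⊥` and `HasCMOver gaussCurve ⊤`
  (so the hypothesis of the isobaric-sum clause of `Statement` can be met);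
* the quantifiers and premises inside the conclusion of `Statement` (`inner_quantifiers_can_be_met`; details in `SanityClauses.lean`);
* the pair of premises of the last clause of `Statement` can be met: `y² = x³ + 1` over `ℚ(i)` satisfies `HasCMOver · ⊤` and `¬ HasCMOver · ⊥`
  (`last_clause_premises_can_be_met`; the proof is `SanityNoCM.lean`); for this curve `HasCMOver · L` holds if and only if `L ∋ ω`, as the docstring of `HasCMOver` says
  (`SanityCMField.lean`);
* the premise of the clause "no complex multiplication ⟹ cuspidal" of `Statement` can be met: `y² = x³ - 3 x + 1` over `ℚ(i)` satisfies `¬ HasCMOver · ⊤`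
  (`cuspidal_clause_premise_can_be_met`; the proof is `SanityNoCM2.lean`);
* the space `H1et E l` of the Galois representation of `Statement` has dimension `2` over `Q̄_l`, for `l = 2` and these two curves (`h1et_has_dimension_two`; the proof, and a criterion for
  every `E` and `l`, is `SanityTateRank.lean`);
* the three conditions of `IsAttachedGaloisRep` that concern the Galois representation alone (dimension `2`, continuous, semisimple) hold for `H1etRep E 2`, `E : y² = x³ + 1` over `ℚ(i)`
  (`galois_side_conditions_can_be_met`; the proof is `SanityTateGalois.lean`), and for `E : y² = x³ - x`, the curve of `hypotheses_can_be_met`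
  (`galois_side_conditions_can_be_met_gaussCurve`; the proof is `SanityTateGauss.lean`);
* for `l = 2` the first two of them (dimension `2`, continuous) hold for **every** `K` and `E` as in `Statement` (`galois_side_two_adic_all_curves`; the proof is `SanityTateTwo.lean`);
* an odd prime: the three conditions hold for `H1etRep E 3`, `E : y² = x³ + 1` over `ℚ(i)` (`galois_side_conditions_can_be_met_three`; the proof is `SanityTateThree.lean`);
* and this representation `H1etRep E 3` is irreducible, as it must be for the curve of the clause "automorphic induction" (`last_clause_galois_irreducible`; the proof is `SanityTateIrr.lean`);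
* for `E : y² = x³ + 1`, the curve of the last clause, `H1etRep E 2` has the shape of a representation induced from `K(ω)`: two lines, stable under `Gal(K̄/K(ω))` and exchanged by the other `σ`, whose trace
  is `0`; so an attached `π` has Hecke eigenvalue `0` at the inert places (`last_clause_galois_shape`; `SanityTateInd.lean`);
* the last two facts hold for **every** prime `l`, as `Statement` needs them (`last_clause_galois_shape_all_primes`; `SanityTateIndAll.lean`);
* the three conditions also hold for a curve **without** complex multiplication, `y² = x³ - 3 x + 1` over `ℚ(i)`, the curve of `cuspidal_clause_premise_can_be_met`; and for `l = 2` the third (semisimple) holds for every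
  `K` and `E` as in `Statement` such that some `σ ∈ Gal(K̄/K)` permutes the three points of order `2` cyclically (`galois_side_conditions_can_be_met_without_cm`; the proof is `SanityTateTr.lean`);
* for `E : y² = x³ - x`, the curve of the clause "isobaric sum", `H1etRep E 2` is the sum of two characters of `Gal(K̄/K)`, so it is not irreducible (`isobaric_clause_galois_shape`; `SanityTateSum.lean`);
* on these two curves `IsAlgebraicEndomorphism` cuts out exactly the endomorphism ring: `ℤ[ω]` for `y² = x³ + 1`, `ℤ` for `y² = x³ - 3 x + 1` (`SanityEnd.lean`);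
* the polynomial `P_v = ellipticLocalPoly E v` of the clause "every local factor agrees" is `1 - a_v X + q_v X²`, `a_v = q_v + 1 - #E(κ_v)`, for `y² = x³ - x` over `ℚ(i)` at every `v ∤ 2`
  (`local_factor_of_gaussCurve`; the proof, for every integral equation over every number field at every `v ∤ Δ`, is `SanityLocalPoly.lean`);
* `heightInf` (the norm of the clause `moderate_growth`) is a norm on `GL₂(ℂ)`: `four_le_heightInf`, `heightInf_mul_le`, `heightInf_inv`, `heightInf_kInf_mul`, `heightInf_mul_kInf`, `heightInf_diagElt`;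
  `moderate_growth_rightTranslate`; non-example `not_isSlowlyIncreasing_expEntry` (`SanityHeight.lean`);
* §1 of `Statement.lean` evaluated (`SanityLie.lean`, namespace `LieEval`): the matrix entries and their conjugates satisfy `IsSmoothOnGL2C`, `(A · g_{ij})(g) = (g A)_{ij}`, `(A φ)(g, x) = d/dt φ(g exp(tA), x)|_{t=0}` for every smooth `φ`,
  `lieAction` is injective and not `ℂ`-linear; the indicator of `{0 < Re g₀₀}` is not smooth;
* the docstrings of `lieDerivFun` and `lieAction` as theorems (`SanityLieFormula.lean`): derivative of `t ↦ φ(g exp(tA), x)` at `t = 0`, `lieAction A φ` is the derivative of `rightTranslateInf (exp(tA)) φ`; `det` is smooth, the indicator of `{1}` is not;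
* a non-trivial Hecke character: the idele norm is multiplicative, positive and continuous, so `a ↦ |a|^s` is a `HeckeCharacter` for every `s : ℂ` (`normHeckeCharacter`); the local norm at one finite place is continuous but not trivial on
  principal ideles (`localNormHom_not_map_principal`) (`SanityNormChar.lean`);
* `resDecomp v j : G_{K_v} → G_K` is the restriction along `j` (`j ∘ resDecomp v j σ = σ ∘ j`, and this characterises it); two embeddings `j` differ by an element of `G_K`, which conjugates `resDecomp`; so `IsUnramifiedAt ρ v` can be tested on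
  one `j`, and the trace and the determinant of `ρ (resDecomp v j Φ)`, the quantities of `IsAttachedGaloisRep`, do not depend on `j` (`SanityDecomp.lean`, namespace `DecompEval`);
* the same for the clause of local-global compatibility: `WDFssIso ρ v ι W` holds iff its condition holds for one embedding `j` (`ResDecomp.wdFssIso_iff`; `SanityResDecomp.lean`);
* `globalInduced w χ₁ χ₂` is exactly the space of the functions that satisfy `IsGlobalInducedSection w χ₁ χ₂` (`GlobalInduced.mem_globalInduced_iff`; `SanityGlobalInduced.lean`);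
* `archToHecke K` acts on functions on `GL₂(𝔸_K)` as `ArchAlg` acts in the archimedean variable, there is a non-zero semilinear map over it, and it is injective (`SanityArchToHecke.lean`, namespace `ArchToHecke`);
* `ℚ(i)` has a place `v` with `q_v = 5`, and there `P_v = 1 + 2 X + 5 X²` for `y² = x³ - x` (`local_factor_of_gaussCurve_at_five`; `SanityPlaceFive.lean`);
* for an imaginary quadratic field, the ring homomorphism `adeleToModel w : 𝔸_K → ℂ × 𝔸_K^f` is bijective and a homeomorphism,
  and it is compatible with the diagonal embeddings of `K`, so that `GL₂(ℂ) × GL₂(𝔸_K^f)` is a model of `GL₂(𝔸_K)`;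
* a **digest** (last section) of the examples and non-examples of the definitions of `Statement.lean` that are proved in the other
  `Sanity*.lean` files of this folder.  This file imports all of them, so `lake build Claimed.Open.R030.Sanity` checks everything.
-/

set_option autoImplicit false

namespace Claimed.Open.R030

open scoped Classical WithZero
open WeierstrassCurve IsDedekindDomain NumberField Polynomial MeasureTheory

noncomputable section

/-! ## The hypotheses can be met -/

section Hypotheses

/-- The Gaussian field `ℚ(i)`. -/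
abbrev GaussField : Type := CyclotomicField 4 ℚ

set_option backward.isDefEq.respectTransparency false in
theorem finrank_gaussField : Module.finrank ℚ GaussField = 2 := by
  rw [IsCyclotomicExtension.Rat.finrank 4 GaussField]
  decide

set_option backward.isDefEq.respectTransparency false in
theorem isTotallyComplex_gaussField : IsTotallyComplex GaussField :=
  IsCyclotomicExtension.Rat.isTotallyComplex (n := 4) GaussField (by norm_num)

/-- The curve `y² = x³ - x` over `ℚ(i)`. -/
def gaussCurve : WeierstrassCurve GaussField := ⟨0, 0, 0, -1, 0⟩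

theorem isElliptic_gaussCurve : gaussCurve.IsElliptic := by
  refine ⟨?_⟩
  have : gaussCurve.Δ = 64 := by
    simp only [gaussCurve, WeierstrassCurve.Δ, WeierstrassCurve.b₂, WeierstrassCurve.b₄,
      WeierstrassCurve.b₆, WeierstrassCurve.b₈]
    norm_num
  rw [this]
  exact isUnit_iff_ne_zero.mpr (by norm_num)

/-- All hypotheses of `Statement` are satisfied by `K = ℚ(i)`, its infinite place and `E : y² = x³ - x`. -/
theorem hypotheses_can_be_met :
    ∃ (K : Type) (_ : Field K) (_ : NumberField K), Module.finrank ℚ K = 2 ∧ IsTotallyComplex K ∧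
      Nonempty (InfinitePlace K) ∧ ∃ E : WeierstrassCurve K, E.IsElliptic :=
  ⟨GaussField, inferInstance, inferInstance, finrank_gaussField, isTotallyComplex_gaussField,
    inferInstance, gaussCurve, isElliptic_gaussCurve⟩

end Hypotheses

/-! ## The example has complex multiplication by `[i] : (x, y) ↦ (-x, i y)`, defined over `ℚ(i)` -/

section CMcurve

/-- `K̄` for `K = ℚ(i)` -/
abbrev GaussBar : Type := AlgebraicClosure GaussField

set_option backward.isDefEq.respectTransparency false in
/-- `i ∈ ℚ(i)` -/
def iGauss : GaussField := IsCyclotomicExtension.zeta 4 ℚ GaussField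

set_option backward.isDefEq.respectTransparency false in
theorem iGauss_sq : iGauss ^ 2 = -1 := by
  have h : IsPrimitiveRoot iGauss 4 := IsCyclotomicExtension.zeta_spec 4 ℚ GaussField
  have h4 : iGauss ^ 4 = 1 := h.pow_eq_one
  have h2 : iGauss ^ 2 ≠ 1 := h.pow_ne_one_of_pos_of_lt (by norm_num) (by norm_num)
  have : (iGauss ^ 2 - 1) * (iGauss ^ 2 + 1) = 0 := by linear_combination h4
  rcases mul_eq_zero.mp this with h0 | h0
  · exact absurd (sub_eq_zero.mp h0) h2
  · linear_combination h0

/-- `i ∈ K̄` -/
def iBar : GaussBar := algebraMap GaussField GaussBar iGauss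

theorem iBar_sq : iBar ^ 2 = -1 := by
  rw [iBar, ← map_pow, iGauss_sq, map_neg, map_one]

theorem curveCM_a₁ : (gaussCurve⁄GaussBar).toAffine.a₁ = 0 := by simp [gaussCurve]
theorem curveCM_a₂ : (gaussCurve⁄GaussBar).toAffine.a₂ = 0 := by simp [gaussCurve]
theorem curveCM_a₃ : (gaussCurve⁄GaussBar).toAffine.a₃ = 0 := by simp [gaussCurve]
theorem curveCM_a₄ : (gaussCurve⁄GaussBar).toAffine.a₄ = -1 := by simp [gaussCurve]
theorem curveCM_a₆ : (gaussCurve⁄GaussBar).toAffine.a₆ = 0 := by simp [gaussCurve]

/-- the endomorphism `[i]` of `y² = x³ - x` -/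
def curveCMEndo : PtsBar gaussCurve →+ PtsBar gaussCurve :=
  cmExHom (gaussCurve⁄GaussBar).toAffine iBar curveCM_a₁ curveCM_a₂ curveCM_a₃ curveCM_a₆ iBar_sq

theorem curveCMEndo_some {x y : GaussBar} (h : (gaussCurve⁄GaussBar).toAffine.Nonsingular x y) :
    curveCMEndo (.some x y h) = .some (-x) (iBar * y)
      (cmEx_nonsingular _ iBar curveCM_a₁ curveCM_a₂ curveCM_a₃ curveCM_a₆ iBar_sq h) := rfl

theorem curveCMEndo_isAlgebraic : IsAlgebraicEndomorphism gaussCurve curveCMEndo := by
  refine Or.inr ⟨-Polynomial.X, 0, 1, 0, Polynomial.C iBar, 1, one_ne_zero, one_ne_zero,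
    fun x y h _ _ => ?_⟩
  have e1 : ((-Polynomial.X : Polynomial GaussBar).eval x + (0 : Polynomial GaussBar).eval x * y) /
      (1 : Polynomial GaussBar).eval x = -x := by simp
  have e2 : ((0 : Polynomial GaussBar).eval x + (Polynomial.C iBar : Polynomial GaussBar).eval x * y) /
      (1 : Polynomial GaussBar).eval x = iBar * y := by simp
  rw [e1, e2]
  exact ⟨_, curveCMEndo_some h⟩

theorem curveCM_nonsingular_one : (gaussCurve⁄GaussBar).toAffine.Nonsingular 1 0 := by
  rw [WeierstrassCurve.Affine.nonsingular_iff, WeierstrassCurve.Affine.equation_iff]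
  simp only [curveCM_a₁, curveCM_a₂, curveCM_a₃, curveCM_a₄, curveCM_a₆]
  refine ⟨by norm_num, Or.inl ?_⟩
  norm_num

theorem curveCMEndo_ne_zsmul (n : ℤ) : ∃ P : PtsBar gaussCurve, curveCMEndo P ≠ n • P := by
  set P : PtsBar gaussCurve := .some 1 0 curveCM_nonsingular_one with hP
  refine ⟨P, fun hφ => ?_⟩
  have h2 : P + P = 0 := WeierstrassCurve.Affine.Point.add_self_of_Y_eq (by
    rw [WeierstrassCurve.Affine.negY, curveCM_a₁, curveCM_a₃]; ring)
  have hn : n • P = 0 ∨ n • P = P := by
    rcases Int.even_or_odd' n with ⟨k, rfl | rfl⟩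
    · left
      rw [mul_comm, mul_zsmul, two_zsmul, h2, zsmul_zero]
    · right
      rw [add_zsmul, mul_comm, mul_zsmul, two_zsmul, h2, zsmul_zero, zero_add, one_zsmul]
  rw [hP, curveCMEndo_some] at hφ
  rcases hn with hn | hn
  · rw [← hP, hn] at hφ
    exact WeierstrassCurve.Affine.Point.some_ne_zero _ hφ
  · rw [← hP, hn, hP, WeierstrassCurve.Affine.Point.some.injEq] at hφ
    have : (2 : GaussBar) = 0 := by linear_combination -hφ.1
    norm_num at this

theorem galPts_some (σ : Gal(GaussBar/GaussField)) {x y : GaussBar}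
    (h : (gaussCurve⁄GaussBar).toAffine.Nonsingular x y) :
    ∃ h' : (gaussCurve⁄GaussBar).toAffine.Nonsingular (σ x) (σ y),
      galPts gaussCurve σ (.some x y h) = .some (σ x) (σ y) h' :=
  ⟨_, rfl⟩

/-- `[i]` commutes with the whole Galois group `Gal(K̄/K)`, `K = ℚ(i)`. -/
theorem curveCMEndo_galPts (σ : Gal(GaussBar/GaussField)) (P : PtsBar gaussCurve) :
    curveCMEndo (galPts gaussCurve σ P) = galPts gaussCurve σ (curveCMEndo P) := by
  rcases P with _ | ⟨x, y, h⟩
  · rfl
  · obtain ⟨h', e⟩ := galPts_some σ h
    rw [e, curveCMEndo_some, curveCMEndo_some]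
    obtain ⟨h'', e'⟩ := galPts_some σ
      (cmEx_nonsingular _ iBar curveCM_a₁ curveCM_a₂ curveCM_a₃ curveCM_a₆ iBar_sq h)
    rw [e', WeierstrassCurve.Affine.Point.some.injEq]
    refine ⟨(map_neg σ x).symm, ?_⟩
    rw [map_mul, iBar, AlgEquiv.commutes]

/-- `y² = x³ - x` over `ℚ(i)` has complex multiplication defined over every `L ⊇ ℚ(i)`. -/
theorem sanity_gaussCurve_hasCMOver (L : IntermediateField GaussField GaussBar) :
    HasCMOver gaussCurve L :=
  ⟨curveCMEndo, curveCMEndo_isAlgebraic, curveCMEndo_ne_zsmul, fun σ _ P => curveCMEndo_galPts σ P⟩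

/-- "The CM field is already `K`": the hypothesis of the isobaric-sum clause of `Statement` can be met. -/
theorem sanity_gaussCurve_hasCMOver_bot : HasCMOver gaussCurve ⊥ := sanity_gaussCurve_hasCMOver ⊥

theorem sanity_gaussCurve_hasCMOver_top : HasCMOver gaussCurve ⊤ := sanity_gaussCurve_hasCMOver ⊤

end CMcurve

/-! ## The quantifiers inside the conclusion of `Statement` -/

section Inner

/-- For the example `K = ℚ(i)`, `E : y² = x³ - x` of `hypotheses_can_be_met`, the bound variables of the conclusion of `Statement` range over non-empty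
sets as well: for every prime `l` there are an isomorphism `ι : Q̄_l ≃ ℂ` and a finite place `v ∤ l`; every finite place `v` is prime to some prime `l`; there is `s`
with `Re s > 3/2`; and the premise of the isobaric-sum clause holds. -/
theorem inner_quantifiers_can_be_met :
    (∀ l : ℕ, ∀ _ : Fact l.Prime, Nonempty (PadicAlgCl l ≃+* ℂ) ∧
      ∃ v : HeightOneSpectrum (𝓞 GaussField), (l : 𝓞 GaussField) ∉ v.asIdeal) ∧
    (∀ v : HeightOneSpectrum (𝓞 GaussField), ∃ l : ℕ, l.Prime ∧ (l : 𝓞 GaussField) ∉ v.asIdeal) ∧
    (∃ s : ℂ, 3 / 2 < s.re) ∧ HasCMOver gaussCurve ⊥ :=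
  ⟨fun l hl => ⟨sanity_exists_iota l, sanity_exists_place_notMem l hl.out⟩,
    fun v => sanity_exists_prime_notMem v, ⟨2, by norm_num⟩, sanity_gaussCurve_hasCMOver_bot⟩

/-- The hypotheses of `Statement` **and** the two premises of its last clause are met by `K = ℚ(i)`, `E₃ : y² = x³ + 1`: an elliptic curve with complex multiplication
(by `[ω]`), none of it defined over `K`.  (`¬ HasCMOver cubeCurve ⊥` is the theorem of `SanityNoCM.lean`.) -/
theorem last_clause_premises_can_be_met :
    Module.finrank ℚ GaussField = 2 ∧ IsTotallyComplex GaussField ∧ cubeCurve.IsElliptic ∧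
      HasCMOver cubeCurve ⊤ ∧ ¬ HasCMOver cubeCurve ⊥ :=
  ⟨finrank_gaussField, isTotallyComplex_gaussField, isElliptic_cubeCurve,
    CubeEnd.sanity_cubeCurve_last_clause_premise⟩

/-- The hypotheses of `Statement` **and** the premise of its clause "no complex multiplication ⟹ cuspidal" are met by `K = ℚ(i)`, `E' : y² = x³ - 3 x + 1`: every algebraic
endomorphism of `E'(K̄)` is a multiplication `[n]`.  (`¬ HasCMOver trCurve ⊤` is the theorem of `SanityNoCM2.lean`.) -/
theorem cuspidal_clause_premise_can_be_met :
    Module.finrank ℚ GaussField = 2 ∧ IsTotallyComplex GaussField ∧ TrEnd.trCurve.IsElliptic ∧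
      ¬ HasCMOver TrEnd.trCurve ⊤ :=
  ⟨finrank_gaussField, isTotallyComplex_gaussField, TrEnd.sanity_trCurve_noCM_premise⟩

/-- **Each of the three cases of `sanity_cm_cases` occurs** over the same field `K = ℚ(i)`: no complex multiplication (`y² = x³ - 3 x + 1`), complex multiplication defined over `K`
(`y² = x³ - x`), complex multiplication not defined over `K` (`y² = x³ + 1`).  So none of the last three clauses of `Statement` is vacuous for want of a curve. -/
theorem all_three_cm_cases_occur :
    ¬ HasCMOver TrEnd.trCurve ⊤ ∧ HasCMOver gaussCurve ⊥ ∧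
      (HasCMOver cubeCurve ⊤ ∧ ¬ HasCMOver cubeCurve ⊥) :=
  ⟨TrEnd.sanity_trCurve_not_hasCMOver_top, sanity_gaussCurve_hasCMOver_bot,
    CubeEnd.sanity_cubeCurve_last_clause_premise⟩

/-- The space of the Galois representation `H1etRep E l` of `Statement` has dimension `2`: checked for `l = 2` on a curve without and on a curve with complex multiplication. -/
theorem h1et_has_dimension_two :
    Module.finrank (PadicAlgCl 2) (H1et TrEnd.trCurve 2) = 2 ∧
      Module.finrank (PadicAlgCl 2) (H1et cubeCurve 2) = 2 :=
  ⟨TateRk.sanity_finrank_H1et_trCurve, TateRk.sanity_finrank_H1et_cubeCurve⟩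

/-- The conditions of `IsAttachedGaloisRep π ι ρ` on `ρ` alone hold for `ρ = H1etRep E₃ 2`, the representation that `Statement` puts there; continuity also for the curve without complex multiplication. -/
theorem galois_side_conditions_can_be_met :
    (Module.finrank (PadicAlgCl 2) (H1et cubeCurve 2) = 2 ∧ IsContinuousRep (H1etRep cubeCurve 2) ∧
      (H1etRep cubeCurve 2).IsSemisimpleRepresentation) ∧
    IsContinuousRep (H1etRep TrEnd.trCurve 2) :=
  ⟨TateRk.sanity_H1etRep_cubeCurve, TateRk.sanity_isContinuousRep_H1etRep_trCurve⟩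

/-- The same three conditions for the curve `E : y² = x³ - x` over `ℚ(i)` that meets the hypotheses of `Statement` in `hypotheses_can_be_met`: here `[i]` commutes with the whole Galois group, and
`H¹` is the sum of the two eigenlines of `[i]^*`.  (`TateRep.gCurve` unfolds to `gaussCurve`.) -/
theorem galois_side_conditions_can_be_met_gaussCurve :
    Module.finrank (PadicAlgCl 2) (H1et gaussCurve 2) = 2 ∧ IsContinuousRep (H1etRep gaussCurve 2) ∧
      (H1etRep gaussCurve 2).IsSemisimpleRepresentation :=
  TateRep.sanity_H1etRep_gCurve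

/-- For **every** field `K` and curve `E` that satisfy the hypotheses of `Statement`, and `l = 2`: the representation `H1etRep E 2` that `Statement` puts into `IsAttachedGaloisRep` has dimension `2` and is continuous. -/
theorem galois_side_two_adic_all_curves (K : Type) [Field K] [NumberField K] (E : WeierstrassCurve K)
    (hE : E.IsElliptic) :
    Module.finrank (PadicAlgCl 2) (H1et E 2) = 2 ∧ IsContinuousRep (H1etRep E 2) :=
  ⟨TateRk.finrank_H1et_two E hE two_ne_zero, TateRk.isContinuousRep_H1etRep_two E hE two_ne_zero⟩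

/-- The conditions of `IsAttachedGaloisRep π ι ρ` on `ρ` alone hold for `ρ = H1etRep E₃ 3`: an odd prime `l`. -/
theorem galois_side_conditions_can_be_met_three :
    Module.finrank (PadicAlgCl 3) (H1et cubeCurve 3) = 2 ∧ IsContinuousRep (H1etRep cubeCurve 3) ∧
      (H1etRep cubeCurve 3).IsSemisimpleRepresentation :=
  TateRk.sanity_H1etRep_cubeCurve_three

/-- The Galois side of the last clause of `Statement` (automorphic induction from `L = K(ω)`) for `E₃ : y² = x³ + 1`: every `σ` that moves `ω` has trace `0` on `H¹`, and if `π` is attached to `H1etRep E₃ 2`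
then at almost all places the Hecke eigenvalue `t` of `π_v` is `0` as soon as a geometric Frobenius at `v` moves `ω`. -/
theorem last_clause_galois_shape :
    (∀ σ : Gal(Cm3Bar/Cm3Field), σ omegaBar ≠ omegaBar →
      LinearMap.trace (PadicAlgCl 2) (H1et cubeCurve 2) (H1etRep cubeCurve 2 σ) = 0) ∧
    ∀ (w : InfinitePlace Cm3Field) (π : AutomorphicRepresentation w) (ι : PadicAlgCl 2 ≃+* ℂ),
      IsAttachedGaloisRep π ι (H1etRep cubeCurve 2) →
      ∀ᶠ v : HeightOneSpectrum (𝓞 Cm3Field) in Filter.cofinite,
        ∃ (X : Type) (_ : AddCommGroup X) (_ : Module ℂ X)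
          (πv : Representation ℂ (GL (Fin 2) (v.adicCompletion Cm3Field)) X) (t s : ℂ),
          IsSmoothRep πv ∧ πv.IsIrreducible ∧ π.IsLocalComponent v πv ∧
          IsSphericalWithEigenvalues πv t s ∧
          ((∃ (j : Cm3Bar →ₐ[Cm3Field] AlgebraicClosure (v.adicCompletion Cm3Field))
              (Φ : GalAbs (v.adicCompletion Cm3Field)),
              IsGeomFrob Φ ∧ resDecomp v j Φ omegaBar ≠ omegaBar) → t = 0) :=
  ⟨TateRk.sanity_trace_H1etRep_cubeCurve_of_ne,
    fun _ π ι h => TateRk.sanity_isAttachedGaloisRep_cubeCurve_inert π ι h⟩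

/-- The same for **every** prime `l` and every `ι : Q̄_l ≃ ℂ`, as in `Statement`: every `σ` that moves `ω` has trace `0` on `H¹_ét(E₃, Q̄_l)`, and `IsAttachedGaloisRep π ι (H1etRep E₃ l)` forces `t = 0` at almost all places where a
geometric Frobenius moves `ω`. -/
theorem last_clause_galois_shape_all_primes (l : ℕ) [Fact l.Prime] :
    (∀ σ : Gal(Cm3Bar/Cm3Field), σ omegaBar ≠ omegaBar →
      LinearMap.trace (PadicAlgCl l) (H1et cubeCurve l) (H1etRep cubeCurve l σ) = 0) ∧
    ∀ (w : InfinitePlace Cm3Field) (π : AutomorphicRepresentation w) (ι : PadicAlgCl l ≃+* ℂ),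
      IsAttachedGaloisRep π ι (H1etRep cubeCurve l) →
      ∀ᶠ v : HeightOneSpectrum (𝓞 Cm3Field) in Filter.cofinite,
        ∃ (X : Type) (_ : AddCommGroup X) (_ : Module ℂ X)
          (πv : Representation ℂ (GL (Fin 2) (v.adicCompletion Cm3Field)) X) (t s : ℂ),
          IsSmoothRep πv ∧ πv.IsIrreducible ∧ π.IsLocalComponent v πv ∧
          IsSphericalWithEigenvalues πv t s ∧
          ((∃ (j : Cm3Bar →ₐ[Cm3Field] AlgebraicClosure (v.adicCompletion Cm3Field))
              (Φ : GalAbs (v.adicCompletion Cm3Field)),
              IsGeomFrob Φ ∧ resDecomp v j Φ omegaBar ≠ omegaBar) → t = 0) :=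
  ⟨TateRk.sanity_trace_H1etRep_cubeCurve_all,
    fun _ π ι h => TateRk.sanity_isAttachedGaloisRep_cubeCurve_inert_all π ι h⟩

/-- The same three conditions for the curve `E' : y² = x³ - 3 x + 1` over `ℚ(i)` **without** complex multiplication, the curve that meets the premise of the clause "no complex multiplication ⟹ cuspidal" in
`cuspidal_clause_premise_can_be_met`.  And for every `K`, `E` as in `Statement`: `H1etRep E 2` is semisimple as soon as some `σ` permutes the three points of order `2` cyclically (`Q + σ Q + σ² Q = 0` for `2 Q = 0`). -/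
theorem galois_side_conditions_can_be_met_without_cm :
    (¬ HasCMOver TrEnd.trCurve ⊤ ∧ Module.finrank (PadicAlgCl 2) (H1et TrEnd.trCurve 2) = 2 ∧
      IsContinuousRep (H1etRep TrEnd.trCurve 2) ∧
      (H1etRep TrEnd.trCurve 2).IsSemisimpleRepresentation) ∧
    ∀ (K : Type) [Field K] [NumberField K] (E : WeierstrassCurve K), E.IsElliptic →
      ∀ σ : Gal(AlgebraicClosure K/K),
        (∀ Q : PtsBar E, Q + Q = 0 → Q + galPts E σ Q + galPts E σ (galPts E σ Q) = 0) →
        (H1etRep E 2).IsSemisimpleRepresentation :=
  ⟨⟨TrEnd.sanity_trCurve_not_hasCMOver_top, TateTr.sanity_H1etRep_trCurve⟩,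
    fun _ _ _ E hE σ hσ => TateTr.isSemisimple_two_of_gal_sum_zero E hE two_ne_zero σ hσ⟩

/-- The polynomial `P_v` of the clause "every local factor agrees" for the curve of `hypotheses_can_be_met`, at every finite place `v ∤ 2`: `P_v = 1 - a_v X + q_v X²` with
`a_v = q_v + 1 - #E(κ_v)` (Mathlib defines it through a chosen minimal equation over `K_v`; the value does not depend on the choice). -/
theorem local_factor_of_gaussCurve (v : HeightOneSpectrum (𝓞 GaussField)) (hv : (2 : 𝓞 GaussField) ∉ v.asIdeal) :
    ellipticLocalPoly gaussCurve v =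
      1 - C ((placeNorm v : ℂ) + 1 - (Nat.card (gaussEq (IsLocalRing.ResidueField
          (v.adicCompletionIntegers GaussField))).toAffine.Point : ℂ)) * X + C (placeNorm v : ℂ) * X ^ 2 :=
  ellipticLocalPoly_gauss_card v hv

/-- A value of `P_v` at an actual place of `ℚ(i)`: there is `v` with `q_v = 5`, and `P_v = 1 + 2 X + 5 X²` for the curve of `hypotheses_can_be_met`. -/
theorem local_factor_of_gaussCurve_at_five :
    ∃ v : HeightOneSpectrum (𝓞 GaussField), placeNorm v = 5 ∧
      ellipticLocalPoly gaussCurve v = 1 + C 2 * X + C 5 * X ^ 2 :=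
  sanity_ellipticLocalPoly_gauss_five

/-- The Galois side of the clause "complex multiplication defined over `K` ⟹ isobaric sum `χ₁ ⊞ χ₂`" of `Statement` for `E : y² = x³ - x`: `H1etRep E 2` has a basis of two common eigenvectors of `Gal(K̄/K)`;
in particular it is not irreducible. -/
theorem isobaric_clause_galois_shape :
    (∃ v₁ v₂ : H1et gaussCurve 2, LinearIndependent (PadicAlgCl 2) ![v₁, v₂] ∧
      (∀ g, ∃ c : PadicAlgCl 2, H1etRep gaussCurve 2 g v₁ = c • v₁) ∧
      ∀ g, ∃ c : PadicAlgCl 2, H1etRep gaussCurve 2 g v₂ = c • v₂) ∧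
    ¬ (H1etRep gaussCurve 2).IsIrreducible :=
  ⟨TateRep.sanity_H1etRep_gCurve_sum_of_characters, TateRep.sanity_H1etRep_gCurve_not_isIrreducible⟩

/-- For `E₃ : y² = x³ + 1` over `ℚ(i)`, the curve that meets the premises of the last clause of `Statement` (`π` is an automorphic induction from `K(ω)`, so cuspidal), the representation `H1etRep E₃ 3` is irreducible. -/
theorem last_clause_galois_irreducible :
    (HasCMOver cubeCurve ⊤ ∧ ¬ HasCMOver cubeCurve ⊥) ∧ (H1etRep cubeCurve 3).IsIrreducible :=
  ⟨CubeEnd.sanity_cubeCurve_last_clause_premise, TateRk.sanity_isIrreducible_H1etRep_cubeCurve_three⟩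

end Inner

/-! ## The model `GL₂(ℂ) × GL₂(𝔸_K^f)` of `GL₂(𝔸_K)` -/

section Model

variable {K : Type} [Field K] [NumberField K]

/-- An imaginary quadratic field has exactly one infinite place. -/
theorem subsingleton_infinitePlace (h2 : Module.finrank ℚ K = 2) (hc : IsTotallyComplex K) :
    Subsingleton (InfinitePlace K) := by
  have h1 := InfinitePlace.card_add_two_mul_card_eq_rank K
  have h0 : InfinitePlace.nrRealPlaces K = 0 := IsTotallyComplex.nrRealPlaces_eq_zero K
  have h3 := InfinitePlace.card_eq_nrRealPlaces_add_nrComplexPlaces K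
  rw [h0, h2] at h1
  have h4 : Fintype.card (InfinitePlace K) = 1 := by
    rw [h3, h0]; omega
  exact Fintype.card_le_one_iff_subsingleton.mp h4.le

/-- The identification `𝔸_K ≃ ℂ × 𝔸_K^f` (bijective when `w` is complex and the only infinite place). -/
noncomputable def adeleToModel (w : InfinitePlace K) : AdeleRing (𝓞 K) K →+* ℂ × FinAdele K :=
  (adeleToComplex w).prod (adeleToFin K)

/-- For an imaginary quadratic field `K` the map `adeleToModel w : 𝔸_K → ℂ × 𝔸_K^f` is bijective, so that
`GL₂(ℂ) × GL₂(𝔸_K^f)` is `GL₂(𝔸_K)`. -/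
theorem adeleToModel_bijective (h2 : Module.finrank ℚ K = 2) (hc : IsTotallyComplex K)
    (w : InfinitePlace K) : Function.Bijective (adeleToModel w) := by
  have := subsingleton_infinitePlace h2 hc
  have hw : w.IsComplex := hc.isComplex w
  have hb := InfinitePlace.Completion.bijective_extensionEmbedding_of_isComplex hw
  constructor
  · rintro ⟨a, b⟩ ⟨a', b'⟩ h
    have h1 : InfinitePlace.Completion.extensionEmbedding w (a w) =
        InfinitePlace.Completion.extensionEmbedding w (a' w) := congrArg Prod.fst h
    have h2 : b = b' := congrArg Prod.snd h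
    have h3 : a = a' := by
      funext v
      obtain rfl := Subsingleton.elim v w
      exact hb.1 h1
    rw [h2, h3]
  · rintro ⟨z, b⟩
    obtain ⟨a, ha⟩ := hb.2 z
    refine ⟨(fun v => (Subsingleton.elim w v) ▸ a, b), ?_⟩
    exact Prod.ext ha rfl

/-- For an imaginary quadratic field `K` the ring homomorphism `adeleToModel w : 𝔸_K → ℂ × 𝔸_K^f` is a homeomorphism; so it is an
isomorphism of topological rings. -/
theorem adeleToModel_isHomeomorph (h2 : Module.finrank ℚ K = 2) (hc : IsTotallyComplex K)
    (w : InfinitePlace K) : IsHomeomorph (adeleToModel w) := by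
  have hsub := subsingleton_infinitePlace h2 hc
  have hw : w.IsComplex := hc.isComplex w
  have hb := InfinitePlace.Completion.bijective_extensionEmbedding_of_isComplex hw
  have h1 : IsHomeomorph (InfinitePlace.Completion.extensionEmbedding w) :=
    isHomeomorph_iff_isEmbedding_surjective.mpr
      ⟨(InfinitePlace.Completion.isometry_extensionEmbedding w).isEmbedding, hb.2⟩
  have h3 : IsHomeomorph (fun a : InfiniteAdeleRing K => a w) := by
    let _ : Unique (InfinitePlace K) := ⟨⟨w⟩, fun v => Subsingleton.elim v w⟩
    exact (Homeomorph.piUnique (fun v : InfinitePlace K => v.Completion)).isHomeomorph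
  have h4 : IsHomeomorph (Prod.map
      (fun a : InfiniteAdeleRing K => InfinitePlace.Completion.extensionEmbedding w (a w))
      (id : FinAdele K → FinAdele K)) :=
    (h1.comp h3).prodMap IsHomeomorph.id
  exact h4

/-- `adeleToModel` is compatible with the diagonal embeddings of `K`. -/
theorem adeleToModel_algebraMap (w : InfinitePlace K) (x : K) :
    adeleToModel w (algebraMap K (AdeleRing (𝓞 K) K) x) =
      (w.embedding x, algebraMap K (FinAdele K) x) := by
  refine Prod.ext ?_ rfl
  exact InfinitePlace.Completion.extensionEmbedding_coe w ((WithAbs.equiv w.1).symm x)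

end Model

/-! ## Digest of the examples and non-examples proved in the other `Sanity*.lean` files

Each `example` below restates a theorem of one of the imported files (named on the right), so that the list of what has been checked can be
read here.  "Non-vacuity" items show that a universally quantified side condition in a definition of `Statement.lean` ranges
over a non-empty set. -/

section Digest

variable {K : Type} [Field K] [NumberField K] (w : InfinitePlace K) (v : HeightOneSpectrum (𝓞 K))

/-! ### Automorphic side (§1, §2 of `Statement.lean`) -/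

/-- example: constants are automorphic forms -/
example (c : ℂ) : IsAutomorphicForm w (c • constOne (GFin K)) := isAutomorphicForm_const w c

/-- non-example: `(g, x) ↦ g₀₀` is smooth but not an automorphic form -/
example : ¬ IsAutomorphicForm w (coordFun K) := not_isAutomorphicForm_coordFun w

/-- example: the trivial automorphic representation has trivial central character and weight zero -/
example : (trivialAutomorphicRepresentation w).HasTrivialCentralCharacter ∧
    (trivialAutomorphicRepresentation w).HasWeightZero :=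
  ⟨trivial_hasTrivialCentralCharacter w, trivial_hasWeightZero w⟩

/-- non-examples: the constant `1` is not a cuspidal function, the trivial automorphic representation is not cuspidal -/
example : ¬ IsCuspidalFunction w (constOne (GFin K)) ∧ ¬ (trivialAutomorphicRepresentation w).IsCuspidal :=
  ⟨not_isCuspidalFunction_constOne w, trivial_not_isCuspidal w⟩

/-- example: its local component at `v` is the trivial representation of `GL₂(K_v)`: smooth, irreducible, spherical, `T_v = q_v + 1`, `S_v = 1` -/
example : ∃ (X : Type) (_ : AddCommGroup X) (_ : Module ℂ X)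
    (πv : Representation ℂ (GL (Fin 2) (v.adicCompletion K)) X),
    IsSmoothRep πv ∧ πv.IsIrreducible ∧ (trivialAutomorphicRepresentation w).IsLocalComponent v πv ∧
    IsSphericalWithEigenvalues πv ((placeNorm v : ℂ) + 1) 1 := trivial_local_conditions w v

/-- non-example: `χ ∘ det`, `χ ≠ 1`, is not its local component -/
example (χ : (v.adicCompletion K)ˣ →* ℂˣ) (a : (v.adicCompletion K)ˣ) (ha : χ a ≠ 1) :
    ¬ (trivialAutomorphicRepresentation w).IsLocalComponent v (detRep χ) :=
  not_isLocalComponent_detRep w v χ a ha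

/-- example (Hecke normalisation): `χ ∘ det`, `χ` unramified, has `T_v = (q_v + 1) χ(ϖ)`, `S_v = χ(ϖ)²` -/
example (χ : (v.adicCompletion K)ˣ →* ℂˣ)
    (hχ : ∀ u : (v.adicCompletion K)ˣ, Valued.v (u : v.adicCompletion K) = 1 → χ u = 1)
    (ϖ : (v.adicCompletion K)ˣ) (hϖ : Valued.v (ϖ : v.adicCompletion K) = WithZero.exp (-1 : ℤ)) :
    IsSphericalWithEigenvalues (detRep χ) (((placeNorm v : ℂ) + 1) * χ ϖ) ((χ ϖ : ℂ) ^ 2) :=
  isSpherical_detRep χ hχ ϖ hϖ

/-- non-example: `χ ∘ det` is not spherical for ramified `χ` -/
example (χ : (v.adicCompletion K)ˣ →* ℂˣ) (u : (v.adicCompletion K)ˣ)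
    (hu : Valued.v (u : v.adicCompletion K) = 1) (hχ : χ u ≠ 1) (t s : ℂ) :
    ¬ IsSphericalWithEigenvalues (detRep χ) t s := not_isSpherical_detRep v χ u hu hχ t s

/-- the product formula for `ideleNorm`, and its value `q_v⁻¹` on uniformiser ideles -/
example (x : Kˣ) :
    ideleNorm (Units.map (algebraMap K (AdeleRing (𝓞 K) K)).toMonoidHom x) = 1 :=
  ideleNorm_principal x

example (x : (AdeleRing (𝓞 K) K)ˣ) (hx : IsUniformizerIdele v x) :
    ideleNorm x = ((placeNorm v : ℝ))⁻¹ := ideleNorm_of_isUniformizerIdele v x hx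

/-- the two versions of `q_v` agree, and `absF` is Mathlib's normalised absolute value of `K_v` -/
example : resCard (v.adicCompletion K) = placeNorm v := resCard_eq_placeNorm v

example (x : v.adicCompletion K) : absF x = ‖x‖ := absF_eq_norm v x

/-- non-vacuity: uniformisers, residue representatives, lifts to `GL₂(𝔸_K^f)`, uniformiser ideles, additive characters -/
example : ∃ ϖ : (v.adicCompletion K)ˣ, Valued.v (ϖ : v.adicCompletion K) = WithZero.exp (-1 : ℤ) :=
  exists_uniformizer v

example : ∃ R : Finset (v.adicCompletion K), (∀ b ∈ R, b ∈ v.adicCompletionIntegers K) ∧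
    ∀ y ∈ v.adicCompletionIntegers K, ∃! b, b ∈ R ∧ Valued.v (y - b) < 1 := exists_isResidueReps v

example (g : GL (Fin 2) (v.adicCompletion K)) :
    ∃ x : GFin K, finProj v x = g ∧ ∀ v', v' ≠ v → finProj v' x = 1 := exists_finAdelic_lift v g

example : ∃ x : (AdeleRing (𝓞 K) K)ˣ, IsUniformizerIdele v x := exists_isUniformizerIdele v

example : ∃ ψ : AddChar (v.adicCompletion K) ℂ, Continuous ψ ∧ ψ ≠ 1 := exists_continuous_addChar v

/-- the side conditions of `HasArchimedeanParameter` hold for `(z/|z|, z̄/|z|)` -/
example : Continuous unitaryCharOne ∧ Continuous unitaryCharOneConj ∧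
    ∀ z : ℂˣ, 1 ≤ ‖(z : ℂ)‖ → ‖(unitaryCharOneConj z : ℂ)‖ ≤ ‖(unitaryCharOne z : ℂ)‖ :=
  archimedean_side_conditions

/-- `archInduced μ₁ μ₂` (defined as a `sSup` of stable subspaces) is exactly the space of the functions satisfying `IsArchInducedSection μ₁ μ₂` -/
example (μ₁ μ₂ : ℂˣ →* ℂˣ) (f : SmoothArch) :
    f ∈ archInduced μ₁ μ₂ ↔ IsArchInducedSection μ₁ μ₂ f := mem_archInduced_iff f

/-- the source `I_∞(z/|z|, z̄/|z|)` of the map asked for by the archimedean clause of `Statement` is not zero -/
example : archInduced unitaryCharOne unitaryCharOneConj ≠ ⊥ := archInduced_unitary_ne_bot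

/-! ### Galois side (§3) -/

/-- non-vacuity: `ι : Q̄_l ≃ ℂ`, embeddings `K̄ → K̄_v` and Frobenius lifts exist -/
example (l : ℕ) [Fact l.Prime] : Nonempty (PadicAlgCl l ≃+* ℂ) := sanity_exists_iota l

example : Nonempty (AlgebraicClosure K →ₐ[K] AlgebraicClosure (v.adicCompletion K)) :=
  sanity_exists_embedding v

example : ∃ σ : GalAbs (v.adicCompletion K), IsGeomFrob σ := sanity_exists_geomFrob_adicCompletion v

/-- the Weil group is the set of elements inducing an integral power of Frobenius; the exponent is unique -/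
example (σ : GalAbs (v.adicCompletion K)) :
    σ ∈ weilGroup (v.adicCompletion K) ↔ ∃ n : ℤ, ActsAsFrobZPow σ n :=
  sanity_mem_weilGroup_adicCompletion_iff v σ

example {σ : GalAbs (v.adicCompletion K)} {n m : ℤ} (h : ActsAsFrobZPow σ n)
    (h' : ActsAsFrobZPow σ m) : n = m := sanity_actsAsFrobZPow_unique h h'

/-- non-example: a Frobenius lift is not in the inertia group -/
example {σ : GalAbs (v.adicCompletion K)} (h : IsArithFrob σ) : ¬ IsInertia σ :=
  sanity_arithFrob_not_inertia h

/-- example and non-example: `w ↦ [[1, n(w)], [0, 1]]` is a Weil–Deligne representation that is not Frobenius-semisimple; its Frobenius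
semisimplification is the trivial representation, which is Frobenius-semisimple -/
example : ¬ (unipotentWDRep v).IsFrobSemisimple ∧
    (unipotentWDRep v).IsFrobSemisimplification (trivialWDRep (v.adicCompletion K) ℂ (ℂ × ℂ)) ∧
    (trivialWDRep (v.adicCompletion K) ℂ (ℂ × ℂ)).IsFrobSemisimple :=
  ⟨not_isFrobSemisimple_unipotentWDRep v, isFrobSemisimplification_unipotentWDRep v,
    sanity_trivialWDRep_frobSemisimple⟩

/-- `T_l E`: the `n`-th component is `l^n`-torsion; non-example: non-zero constants are not in `H¹_ét` -/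
example (E : WeierstrassCurve K) (l : ℕ) (P : tateModule E l) (n : ℕ) : (l ^ n) • P.1 n = 0 :=
  tateModule_torsion E l P n

example (E : WeierstrassCurve K) (l : ℕ) [Fact l.Prime] (c : PadicAlgCl l) (hc : c ≠ 0) :
    (fun _ => c) ∉ H1et E l := const_notMem_H1et E l c hc

/-- `H¹_ét(E_{k̄}, Q̄_l)` has dimension `2` as soon as `E(k̄)` is `l`-divisible and `E[l]` has a basis of two elements (`SanityTateRank.lean`) -/
example (E : WeierstrassCurve K) (l : ℕ) [Fact l.Prime] (hdiv : ∀ Q : PtsBar E, ∃ P : PtsBar E, l • P = Q)
    (e₁ e₂ : PtsBar E) (he₁ : l • e₁ = 0) (he₂ : l • e₂ = 0)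
    (span : ∀ Q : PtsBar E, l • Q = 0 → ∃ a b : ℤ, Q = a • e₁ + b • e₂)
    (indep : ∀ a b : ℤ, a • e₁ + b • e₂ = 0 → (l : ℤ) ∣ a ∧ (l : ℤ) ∣ b) :
    Module.finrank (PadicAlgCl l) (H1et E l) = 2 :=
  TateRk.finrank_H1et_eq_two hdiv e₁ e₂ he₁ he₂ span indep

/-- complex multiplication: example `y² = x³ - x` over `ℚ(i)`; multiplication by an integer is never a witness -/
example : HasCMOver gaussCurve ⊥ ∧ HasCMOver gaussCurve ⊤ :=
  ⟨sanity_gaussCurve_hasCMOver_bot, sanity_gaussCurve_hasCMOver_top⟩

example (E : WeierstrassCurve K) (m : ℤ) :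
    ¬ ∀ n : ℤ, ∃ P : PtsBar E, (m • AddMonoidHom.id (PtsBar E)) P ≠ n • P :=
  sanity_not_cm_witness_zsmul E m

/-- non-example: for `σ ≠ 1` the endomorphism `P ↦ σ P` of the group `E(K̄)` is not an algebraic endomorphism -/
example (E : WeierstrassCurve K) [E.IsElliptic] (σ : Gal(AlgebraicClosure K/K)) (hσ : σ ≠ 1) :
    ¬ IsAlgebraicEndomorphism E (galPts E σ) := sanity_not_isAlgebraicEndomorphism_galPts E σ hσ

/-- example: multiplication by `2` on `y² = x³ + 1` is an algebraic endomorphism (the points of order `2` are left out by the denominators) -/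
example : IsAlgebraicEndomorphism cubeCurve (2 • AddMonoidHom.id (PtsBar cubeCurve)) :=
  sanity_isAlgebraicEndomorphism_two_cubeCurve

/-- the premises of the last three clauses of `Statement` are exhaustive and mutually exclusive -/
example (E : WeierstrassCurve K) :
    (¬ HasCMOver E ⊤ ∨ HasCMOver E ⊥ ∨ (HasCMOver E ⊤ ∧ ¬ HasCMOver E ⊥)) ∧
    ¬ (¬ HasCMOver E ⊤ ∧ HasCMOver E ⊥) ∧
    ¬ (¬ HasCMOver E ⊤ ∧ (HasCMOver E ⊤ ∧ ¬ HasCMOver E ⊥)) ∧
    ¬ (HasCMOver E ⊥ ∧ (HasCMOver E ⊤ ∧ ¬ HasCMOver E ⊥)) := sanity_cm_cases E

/-- the last clause: `y² = x³ + 1` over `ℚ(i)` has complex multiplication by `[ω]`, defined over `L = ℚ(i, ω)`, `[L : ℚ(i)] = 2` -/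
example : cubeCurve.IsElliptic ∧ HasCMOver cubeCurve ⊤ ∧
    ∃ (L : IntermediateField GaussField GaussBar) (_ : NumberField L),
      Module.finrank GaussField L = 2 ∧ HasCMOver cubeCurve L := sanity_cubeCurve_last_clause

/-- and no `a + b [ω]`, `b ≠ 0`, is defined over `ℚ(i)`; so `¬ HasCMOver cubeCurve ⊥` follows from `End = ℤ[ω]` (proved in `SanityEnd.lean`) -/
example (a b : ℤ) (hb : b ≠ 0) :
    ¬ ∀ σ ∈ (⊥ : IntermediateField GaussField GaussBar).fixingSubgroup, ∀ P : PtsBar cubeCurve,
      (a • AddMonoidHom.id (PtsBar cubeCurve) + b • cubeCurveEndo) (galPts cubeCurve σ P) =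
        galPts cubeCurve σ ((a • AddMonoidHom.id (PtsBar cubeCurve) + b • cubeCurveEndo) P) :=
  sanity_cubeCurve_no_witness_over_bot a b hb

example (hEnd : ∀ f : PtsBar cubeCurve →+ PtsBar cubeCurve, IsAlgebraicEndomorphism cubeCurve f →
      ∃ a b : ℤ, f = a • AddMonoidHom.id (PtsBar cubeCurve) + b • cubeCurveEndo) :
    ¬ HasCMOver cubeCurve ⊥ := sanity_cubeCurve_not_hasCMOver_bot_of_end hEnd

/-- `¬ HasCMOver cubeCurve ⊥` without that hypothesis (`SanityNoCM.lean`) -/
example : ¬ HasCMOver cubeCurve ⊥ := CubeEnd.sanity_cubeCurve_not_hasCMOver_bot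

/-- every algebraic endomorphism of `y² = x³ + 1` acts on the invariant differential `dx / y` by a scalar, which determines it -/
example (f : PtsBar cubeCurve →+ PtsBar cubeCurve) (hf : IsAlgebraicEndomorphism cubeCurve f) :
    ∃ α, CubeEnd.HasA f α := CubeEnd.exists_hasA hf

example (f g : PtsBar cubeCurve →+ PtsBar cubeCurve) (α : GaussBar) (hf : CubeEnd.HasA f α)
    (hg : CubeEnd.HasA g α) : f = g := hf.ext hg

/-- `HasCMOver E L ↔ L ⊇ F` (the CM field), for `E₃ : y² = x³ + 1` over `ℚ(i)`, `F = ℚ(ω)`, and every `L` (`SanityCMField.lean`) -/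
example (L : IntermediateField GaussField GaussBar) : HasCMOver cubeCurve L ↔ omegaBar ∈ L :=
  CubeEnd.sanity_cubeCurve_hasCMOver_iff L

/-- so the conditions `[L : K] = 2`, `HasCMOver E L` of the last clause of `Statement` determine `L = K(ω)` -/
example (L : IntermediateField GaussField GaussBar) (h2 : Module.finrank GaussField L = 2)
    (hL : HasCMOver cubeCurve L) : L = cm3L :=
  CubeEnd.sanity_cubeCurve_last_clause_field_unique L h2 hL

/-- the clause "no complex multiplication": `y² = x³ - 3 x + 1` over `ℚ(i)` has none, not even over `K̄` (`SanityNoCM2.lean`) -/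
example : ¬ HasCMOver TrEnd.trCurve ⊤ := TrEnd.sanity_trCurve_not_hasCMOver_top

/-- every algebraic endomorphism of this curve is the multiplication by an integer -/
example (f : PtsBar TrEnd.trCurve →+ PtsBar TrEnd.trCurve)
    (hf : IsAlgebraicEndomorphism TrEnd.trCurve f) : ∃ n : ℤ, ∀ P, f P = n • P :=
  TrEnd.exists_eq_zsmul_of_isAlgebraic hf

/-- `IsAlgebraicEndomorphism` cuts out exactly `End(E₃) = ℤ[ω]` for `E₃ : y² = x³ + 1` (`SanityEnd.lean`) -/
example (f : PtsBar cubeCurve →+ PtsBar cubeCurve) : IsAlgebraicEndomorphism cubeCurve f ↔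
    ∃ a b : ℤ, f = a • AddMonoidHom.id (PtsBar cubeCurve) + b • cubeCurveEndo :=
  CubeEnd.sanity_cubeCurve_isAlgebraicEndomorphism_iff f

/-- and exactly `End(E') = ℤ` for `E' : y² = x³ - 3 x + 1`; in particular every multiplication `[n]` is algebraic in the sense of `Statement.lean` -/
example (f : PtsBar TrEnd.trCurve →+ PtsBar TrEnd.trCurve) : IsAlgebraicEndomorphism TrEnd.trCurve f ↔
    ∃ n : ℤ, f = n • AddMonoidHom.id (PtsBar TrEnd.trCurve) :=
  TrEnd.sanity_trCurve_isAlgebraicEndomorphism_iff f

/-! ### Local constants and `rec` (§4, §5) -/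

/-- normalisation of the local Artin map: uniformisers go to geometric, not arithmetic, Frobenius lifts; units to inertia -/
example {art : (v.adicCompletion K)ˣ → weilGroup (v.adicCompletion K)}
    (h : IsLocalArtinMap (v.adicCompletion K) (v.adicCompletion K) art) (ϖ : (v.adicCompletion K)ˣ)
    (hϖ : Valued.v (ϖ : v.adicCompletion K) = WithZero.exp (-1 : ℤ)) :
    IsGeomFrob (art ϖ : GalAbs (v.adicCompletion K)) ∧
      ¬ IsArithFrob (art ϖ : GalAbs (v.adicCompletion K)) :=
  ⟨h.isGeomFrob ϖ hϖ, h.not_isArithFrob v ϖ hϖ⟩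

/-- non-example: the constant map `1` is not a local Artin map -/
example : ¬ IsLocalArtinMap (v.adicCompletion K) (v.adicCompletion K) (fun _ => 1) :=
  not_isLocalArtinMap_one v

/-- example: `L(ξ, s) = (1 - a q^{-s})⁻¹` for the unramified character `ξ` with `ξ(Frob_geom) = a` -/
example (a : ℂˣ) : (unramifiedWDChar v a).IsLPoly (1 - C (a : ℂ) * X) := isLPoly_unramifiedWDChar v a

/-- Tate's local constant is well defined, and it is `1` for `χ` unramified and `ψ` of level zero -/
example {ψ : AddChar (v.adicCompletion K) ℂ} {χ : (v.adicCompletion K)ˣ →* ℂˣ} {c c' : ℂ}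
    (h : IsTateEpsilon (E := v.adicCompletion K) ψ χ c)
    (h' : IsTateEpsilon (E := v.adicCompletion K) ψ χ c') : c = c' := h.unique h'

example (ψ : AddChar (v.adicCompletion K) ℂ) (χ : (v.adicCompletion K)ˣ →* ℂˣ)
    (hψ : ∀ y : v.adicCompletion K, (∀ x : v.adicCompletion K, Valued.v x ≤ 1 → ψ (y * x) = 1) ↔
      Valued.v y ≤ 1)
    (hχ : ∀ u : (v.adicCompletion K)ˣ, Valued.v (u : v.adicCompletion K) = 1 → χ u = 1) :
    IsTateEpsilon (E := v.adicCompletion K) ψ χ 1 := isTateEpsilon_one_of_unramified ψ χ hψ hχ

attribute [local instance] borelM2 borelGL2 in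
/-- the Godement–Jacquet conditions determine the polynomial `P` -/
example {μ : Measure (GL (Fin 2) (v.adicCompletion K))}
    {𝒞 : Submodule ℂ (GL (Fin 2) (v.adicCompletion K) → ℂ)} {P Q : ℂ[X]}
    (h : IsGJPoly μ 𝒞 P) (h' : IsGJPoly μ 𝒞 Q) : P = Q := h.unique h'

/-! ### Hecke characters (§2) -/

/-- example: `|·|^s` is a Hecke character; its value at a uniformiser idele at `v` is `q_v^{-s}`; it is not trivial for `s = 1` -/
noncomputable example (s : ℂ) : HeckeCharacter K := normHeckeCharacter K s

example (s : ℂ) (x : (AdeleRing (𝓞 K) K)ˣ) (hx : IsUniformizerIdele v x) :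
    (((normHeckeCharacter K s).toMonoidHom x : ℂˣ) : ℂ) = (((placeNorm v : ℝ)⁻¹ : ℝ) : ℂ) ^ s :=
  normHeckeCharacter_uniformizer s v x hx

example : (normHeckeCharacter K 1).toMonoidHom ≠ (trivialHeckeCharacter K).toMonoidHom :=
  normHeckeCharacter_one_ne_trivial v

/-- the idele norm (the factor `|a/d|^{1/2}` of `IsGlobalInducedSection`) is a continuous positive character of the idele group -/
example : Continuous (ideleNorm (L := K)) ∧ (∀ a b : (AdeleRing (𝓞 K) K)ˣ, ideleNorm (a * b) = ideleNorm a * ideleNorm b) ∧
    ∀ a : (AdeleRing (𝓞 K) K)ˣ, 0 < ideleNorm a :=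
  ⟨continuous_ideleNorm, ideleNorm_mul, ideleNorm_pos⟩

/-- non-example: the local norm at `v` is a continuous homomorphism on the ideles that is not trivial on the principal ideles -/
example : Continuous (localNormHom v) ∧
    ¬ ∀ x : Kˣ, localNormHom v (Units.map (algebraMap K (AdeleRing (𝓞 K) K)).toMonoidHom x) = 1 :=
  ⟨continuous_localNormHom v, localNormHom_not_map_principal v⟩

end Digest

end

end Claimed.Open.R030
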