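import Claimed.Open.R030.Statement

/-!
# Sanity for R030: the homomorphism `resDecomp v j : G_{K_v} → G_K`

`Statement.lean` §3 defines `resDecomp v j`, for an embedding `j : K̄ → K̄_v` over `K`, through Mathlib's
`AlgEquiv.restrictNormalHom`; it enters `IsAttachedGaloisRep`, `WDFssIso` and `IsUnramifiedAt` under a quantifier `∀ j`.
Here:

* an embedding `j` exists (`nonempty_embedding`), so that the quantifier is not vacuous;
* `resDecomp v j σ` is *the* element `τ` of `G_K` with `j ∘ τ = σ ∘ j` (`resDecomp_spec`, `resDecomp_unique`): it is the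
  restriction of `σ` to `K̄`, as the docstring says;
* `resDecomp v (j ∘ τ) σ = τ⁻¹ (resDecomp v j σ) τ` (`resDecomp_comp`), and any two embeddings differ by an element `τ` of
  `G_K` (`exists_comp_eq`); so the decomposition groups at `v` are conjugate (`resDecomp_conj`);
* hence nothing under the quantifiers `∀ j` depends on `j`: `IsUnramifiedAt ρ v` can be tested on one embedding
  (`isUnramifiedAt_iff`), and the trace and the determinant of `ρ (resDecomp v j Φ)`, which occur in
  `IsAttachedGaloisRep`, are the same for all `j` (`trace_resDecomp_indep`, `det_resDecomp_indep`).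
-/

set_option autoImplicit false

namespace Claimed.Open.R030.DecompEval

open IsDedekindDomain NumberField

noncomputable section

variable {K : Type} [Field K] [NumberField K]

/-- There is an embedding `K̄ → K̄_v` over `K`. -/
theorem nonempty_embedding (v : HeightOneSpectrum (𝓞 K)) :
    Nonempty (AlgebraicClosure K →ₐ[K] AlgebraicClosure (v.adicCompletion K)) :=
  ⟨IsAlgClosed.lift⟩

/-- `j ∘ (resDecomp v j σ) = σ ∘ j`: `resDecomp v j σ` is the restriction of `σ` to `K̄`. -/
theorem resDecomp_spec (v : HeightOneSpectrum (𝓞 K))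
    (j : AlgebraicClosure K →ₐ[K] AlgebraicClosure (v.adicCompletion K))
    (σ : GalAbs (v.adicCompletion K)) (x : AlgebraicClosure K) :
    j (resDecomp v j σ x) = σ (j x) := by
  let _ : Algebra (AlgebraicClosure K) (AlgebraicClosure (v.adicCompletion K)) :=
    j.toRingHom.toAlgebra
  have _ : IsScalarTower K (AlgebraicClosure K) (AlgebraicClosure (v.adicCompletion K)) :=
    IsScalarTower.of_algebraMap_eq' j.comp_algebraMap.symm
  exact AlgEquiv.restrictNormal_commutes (AlgEquiv.restrictScalarsHom K σ) (AlgebraicClosure K) x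

/-- The property `resDecomp_spec` characterises `resDecomp v j σ`. -/
theorem resDecomp_unique (v : HeightOneSpectrum (𝓞 K))
    (j : AlgebraicClosure K →ₐ[K] AlgebraicClosure (v.adicCompletion K))
    (σ : GalAbs (v.adicCompletion K)) (τ : Gal(AlgebraicClosure K/K))
    (h : ∀ x, j (τ x) = σ (j x)) : τ = resDecomp v j σ := by
  ext x
  apply j.toRingHom.injective
  show j (τ x) = j (resDecomp v j σ x)
  rw [h, resDecomp_spec]

/-- Change of the embedding by an element of `G_K`: the homomorphism is conjugated. -/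
theorem resDecomp_comp (v : HeightOneSpectrum (𝓞 K))
    (j : AlgebraicClosure K →ₐ[K] AlgebraicClosure (v.adicCompletion K))
    (τ : Gal(AlgebraicClosure K/K)) (σ : GalAbs (v.adicCompletion K)) :
    resDecomp v (j.comp (τ : AlgebraicClosure K →ₐ[K] AlgebraicClosure K)) σ
      = τ⁻¹ * resDecomp v j σ * τ := by
  symm
  apply resDecomp_unique
  intro x
  show j (τ (τ⁻¹ (resDecomp v j σ (τ x)))) = σ (j (τ x))
  have h : ∀ y, τ (τ⁻¹ y) = y := fun y => by
    rw [← AlgEquiv.mul_apply, mul_inv_cancel]
    rfl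
  rw [h, resDecomp_spec]

/-- Any two embeddings `K̄ → K̄_v` over `K` differ by an element of `G_K` (`K̄/K` is normal). -/
theorem exists_comp_eq (v : HeightOneSpectrum (𝓞 K))
    (j j' : AlgebraicClosure K →ₐ[K] AlgebraicClosure (v.adicCompletion K)) :
    ∃ τ : Gal(AlgebraicClosure K/K),
      j' = j.comp (τ : AlgebraicClosure K →ₐ[K] AlgebraicClosure K) := by
  let _ : Algebra (AlgebraicClosure K) (AlgebraicClosure (v.adicCompletion K)) :=
    j.toRingHom.toAlgebra
  have _ : IsScalarTower K (AlgebraicClosure K) (AlgebraicClosure (v.adicCompletion K)) :=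
    IsScalarTower.of_algebraMap_eq' j.comp_algebraMap.symm
  let e := Algebra.IsAlgebraic.algHomEquivAlgHomOfSplits (F := K) (K := AlgebraicClosure K)
    (AlgebraicClosure (v.adicCompletion K)) (AlgebraicClosure K) (fun _ => IsAlgClosed.splits _)
  obtain ⟨f, hf⟩ := e.surjective j'
  have hb := Algebra.IsAlgebraic.algHom_bijective f
  refine ⟨AlgEquiv.ofBijective f hb, ?_⟩
  ext x
  rw [← hf]
  rfl

/-- The decomposition groups at `v` are conjugate in `G_K`. -/
theorem resDecomp_conj (v : HeightOneSpectrum (𝓞 K))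
    (j j' : AlgebraicClosure K →ₐ[K] AlgebraicClosure (v.adicCompletion K)) :
    ∃ τ : Gal(AlgebraicClosure K/K), ∀ σ, resDecomp v j' σ = τ⁻¹ * resDecomp v j σ * τ := by
  obtain ⟨τ, rfl⟩ := exists_comp_eq v j j'
  exact ⟨τ, resDecomp_comp v j τ⟩

variable {l : ℕ} [Fact l.Prime] {V : Type} [AddCommGroup V] [Module (PadicAlgCl l) V]

/-- `IsUnramifiedAt ρ v` can be tested on one embedding `K̄ → K̄_v`. -/
theorem isUnramifiedAt_iff (ρ : Representation (PadicAlgCl l) (Gal(AlgebraicClosure K/K)) V)
    (v : HeightOneSpectrum (𝓞 K))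
    (j : AlgebraicClosure K →ₐ[K] AlgebraicClosure (v.adicCompletion K)) :
    IsUnramifiedAt ρ v ↔ ∀ σ : GalAbs (v.adicCompletion K), IsInertia σ → ρ (resDecomp v j σ) = 1 := by
  refine ⟨fun h => h j, fun h j' σ hσ => ?_⟩
  obtain ⟨τ, hτ⟩ := resDecomp_conj v j j'
  rw [hτ, map_mul, map_mul, h σ hσ, mul_one, ← map_mul, inv_mul_cancel, map_one]

/-- The trace of `ρ (resDecomp v j Φ)` does not depend on the embedding `j`. -/
theorem trace_resDecomp_indep (ρ : Representation (PadicAlgCl l) (Gal(AlgebraicClosure K/K)) V)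
    (v : HeightOneSpectrum (𝓞 K))
    (j j' : AlgebraicClosure K →ₐ[K] AlgebraicClosure (v.adicCompletion K))
    (Φ : GalAbs (v.adicCompletion K)) :
    LinearMap.trace _ V (ρ (resDecomp v j' Φ)) = LinearMap.trace _ V (ρ (resDecomp v j Φ)) := by
  obtain ⟨τ, hτ⟩ := resDecomp_conj v j j'
  rw [hτ, map_mul, LinearMap.trace_mul_comm, ← map_mul, ← mul_assoc, mul_inv_cancel, one_mul]

/-- The determinant of `ρ (resDecomp v j Φ)` does not depend on the embedding `j`. -/
theorem det_resDecomp_indep (ρ : Representation (PadicAlgCl l) (Gal(AlgebraicClosure K/K)) V)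
    (v : HeightOneSpectrum (𝓞 K))
    (j j' : AlgebraicClosure K →ₐ[K] AlgebraicClosure (v.adicCompletion K))
    (Φ : GalAbs (v.adicCompletion K)) :
    LinearMap.det (ρ (resDecomp v j' Φ)) = LinearMap.det (ρ (resDecomp v j Φ)) := by
  obtain ⟨τ, hτ⟩ := resDecomp_conj v j j'
  rw [hτ, map_mul, map_mul, mul_comm, ← map_mul, ← map_mul, ← mul_assoc, mul_inv_cancel, one_mul]

end

end Claimed.Open.R030.DecompEval
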