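import Claimed.Open.R030.SanityTateRank

/-!
# Result 030: the representation on `H¹_ét(E_{K̄}, Q̄_l)` is continuous and semisimple — checked on examples

`Statement` asserts `IsAttachedGaloisRep π ι (H1etRep E l)`.  Three of the conditions in `IsAttachedGaloisRep` concern the Galois representation alone: `Module.finrank (PadicAlgCl l) V = 2`, `IsContinuousRep ρ` and
`ρ.IsSemisimpleRepresentation`.  If `H1etRep E l` failed one of them, `Statement` would be false for a reason that has nothing to do with modularity.  The dimension is the subject of `SanityTateRank.lean`.  This file proves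

* `isContinuousRep_H1etRep`: for a Weierstrass curve `E` over any field `k` and any prime `l`, if `E(k̄)` is `l`-divisible and `E[l](k̄)` has a basis of two elements over `𝔽_l`, then `IsContinuousRep (H1etRep E l)`
  (Krull topology on `Gal(k̄/k)`, `l`-adic topology on `Q̄_l`);
* `sanity_isContinuousRep_H1etRep_trCurve`, `sanity_isContinuousRep_H1etRep_cubeCurve`: so it is continuous, with no hypothesis, for `l = 2` and `E' : y² = x³ - 3 x + 1`, `E₃ : y² = x³ + 1` over `K = ℚ(i)`;
* `sanity_isSemisimple_H1etRep_cubeCurve : (H1etRep cubeCurve 2).IsSemisimpleRepresentation`;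
* `sanity_H1etRep_cubeCurve`: the three conditions together, for `E₃` and `l = 2`.

(The semisimplicity for a curve without complex multiplication is a theorem of Serre and Faltings; it is not attempted.)

## The proofs

**Continuity.**  (E1) In the Krull topology `g ↦ g a` is locally constant for `a ∈ k̄`, so `g ↦ g Q` is locally constant for `Q ∈ E(k̄)`.  (E2) For `φ ∈ H1et` and `P ∈ T_l E`, `g ↦ φ (g⁻¹ P)` is continuous: `φ` is small on the
sequences whose `n`-th term vanishes, and `g⁻¹ P - g₀⁻¹ P` is such a sequence for `g` near `g₀`.  (E3) By `SanityTateRank.lean` every linear form on `H1et` is a combination of the evaluations at `x₁, x₂`.  (E4) So all matrix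
coefficients are continuous.

**Semisimplicity.**  (S2) An endomorphism `f` of the group `E(k̄)` acts on `T_l E` (`tateMap`) and on `H1et` (`h1Map`).  (S3) On `E₃` let `δ = 1 + 2 [ω]`; then `δ² = -3`, and `σ δ σ⁻¹ = δ` or `-δ` according as `σ ω = ω` or not.
(S4) So `D = h1Map δ` is injective, every `ρ(σ)` commutes or anticommutes with `D`, and some `ρ(σ₀)` anticommutes (`ω ∉ K`).  (S1) In dimension `2` and characteristic `≠ 2` this implies semisimplicity: for a stable line `W`,
`D W` is a stable line; if `D W = W`, then `D w = λ w`, `ρ(σ₀) w = c w` and `λ c w = - c λ w`, which is impossible; so `D W` is a complement.  (S1b) translates this to Mathlib's `ComplementedLattice (Subrepresentation ρ)`.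

The contracts are due to helper33; the sections were written by the seats named there.
-/

set_option autoImplicit false

namespace Claimed.Open.R030.TateRk

/-! ## Definitions  (written by helper33) -/

section TcDefs

open scoped Classical

variable {k : Type} [Field k] {E : WeierstrassCurve k} {l : ℕ}

/-- the action of an endomorphism of the group `E(k̄)` on `T_l E` (coordinatewise) -/
noncomputable def tateMap (f : PtsBar E →+ PtsBar E) : tateModule E l →+ tateModule E l where
  toFun P := ⟨fun n => f (P.1 n), by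
    refine ⟨by simp [P.2.1], fun n => ?_⟩
    rw [← map_nsmul, P.2.2 n]⟩
  map_zero' := by ext n; simp
  map_add' P Q := by ext n; simp

variable [Fact l.Prime]

/-- and on `H¹`: `φ ↦ φ ∘ f` -/
noncomputable def h1Map (f : PtsBar E →+ PtsBar E) : H1et E l →ₗ[PadicAlgCl l] H1et E l where
  toFun φ := ⟨fun P => φ.1 (tateMap f P), by
    refine ⟨fun P Q => by simp only [map_add, φ.2.1], fun ε hε => ?_⟩
    obtain ⟨n, hn⟩ := φ.2.2 ε hε
    refine ⟨n, fun P hP => hn _ ?_⟩
    show f (P.1 n) = 0
    rw [hP, map_zero]⟩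
  map_add' := fun φ ψ => rfl
  map_smul' := fun c φ => rfl

/-- `δ = 1 + 2 [ω]` ("`√-3`") on `E₃ : y² = x³ + 1` -/
noncomputable def delta : PtsBar cubeCurve →+ PtsBar cubeCurve := AddMonoidHom.id _ + 2 • cubeCurveEndo

end TcDefs

/-! ## E1. The Krull topology  (written by helper285) -/

section TcE1

open scoped Classical

variable {k : Type} [Field k] {E : WeierstrassCurve k}

/-- Krull topology: `g ↦ g a` is locally constant.  (If `g₀ a = b` then `g₀ • (k(a)).fixingSubgroup` is a neighbourhood of `g₀` inside the set: `IntermediateField.fixingSubgroup_isOpen`, `k(a)` is finite over `k`;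
`isOpen_iff_mem_nhds`, translation by `g₀` is a homeomorphism.) -/
theorem isOpen_setOf_gal_eq (a b : AlgebraicClosure k) :
    IsOpen {g : Gal(AlgebraicClosure k/k) | g a = b} := by
  rw [isOpen_iff_mem_nhds]
  intro g₀ hg₀
  have hg₀' : g₀ a = b := hg₀
  have hfin : FiniteDimensional k (IntermediateField.adjoin k {a}) :=
    IntermediateField.adjoin.finiteDimensional (Algebra.IsIntegral.isIntegral a)
  have hopen : IsOpen ((IntermediateField.adjoin k {a}).fixingSubgroup : Set Gal(AlgebraicClosure k/k)) :=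
    IntermediateField.fixingSubgroup_isOpen _
  have h2 : IsOpen ((fun g => g₀ * g) ''
      ((IntermediateField.adjoin k {a}).fixingSubgroup : Set Gal(AlgebraicClosure k/k))) :=
    (Homeomorph.mulLeft g₀).isOpenMap _ hopen
  refine Filter.mem_of_superset (h2.mem_nhds ⟨1, one_mem _, mul_one _⟩) ?_
  rintro _ ⟨g, hg, rfl⟩
  show (g₀ * g) a = b
  have hga : g a = a :=
    (IntermediateField.mem_fixingSubgroup_iff _ g).1 hg a (IntermediateField.mem_adjoin_simple_self k a)
  rw [AlgEquiv.mul_apply, hga, hg₀']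

/-- so is `g ↦ g Q` for a point `Q` of `E(k̄)`  (cases on `Q`, `Q'`; the set is empty, everything, or an intersection of two sets as above) -/
theorem isOpen_setOf_galPts_eq (Q Q' : PtsBar E) :
    IsOpen {g : Gal(AlgebraicClosure k/k) | galPts E g Q = Q'} := by
  rcases Q with _ | ⟨x, y, h⟩
  · by_cases hQ : (0 : PtsBar E) = Q'
    · have : {g : Gal(AlgebraicClosure k/k) | galPts E g WeierstrassCurve.Affine.Point.zero = Q'} = Set.univ := by
        ext g
        simp only [Set.mem_ofPred_eq, Set.mem_univ, iff_true]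
        exact hQ
      rw [this]
      exact isOpen_univ
    · have : {g : Gal(AlgebraicClosure k/k) | galPts E g WeierstrassCurve.Affine.Point.zero = Q'} = ∅ := by
        ext g
        simp only [Set.mem_ofPred_eq, Set.mem_empty_iff_false, iff_false]
        exact hQ
      rw [this]
      exact isOpen_empty
  · rcases Q' with _ | ⟨x', y', h'⟩
    · have : {g : Gal(AlgebraicClosure k/k) | galPts E g (WeierstrassCurve.Affine.Point.some x y h) =
          WeierstrassCurve.Affine.Point.zero} = ∅ := by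
        ext g
        simp only [Set.mem_ofPred_eq, Set.mem_empty_iff_false, iff_false]
        intro hg
        rw [galPts, WeierstrassCurve.Affine.Point.map_some] at hg
        cases hg
      rw [this]
      exact isOpen_empty
    · have : {g : Gal(AlgebraicClosure k/k) | galPts E g (WeierstrassCurve.Affine.Point.some x y h) =
          WeierstrassCurve.Affine.Point.some x' y' h'} = {g | g x = x'} ∩ {g | g y = y'} := by
        ext g
        simp only [Set.mem_ofPred_eq, Set.mem_inter_iff]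
        constructor
        · intro hg
          have hg' := hg
          rw [galPts, WeierstrassCurve.Affine.Point.map_some] at hg'
          exact (WeierstrassCurve.Affine.Point.some.injEq ..).mp hg'
        · rintro ⟨h1, h2⟩
          rw [galPts, WeierstrassCurve.Affine.Point.map_some]
          exact (WeierstrassCurve.Affine.Point.some.injEq ..).mpr ⟨h1, h2⟩
      rw [this]
      exact (isOpen_setOf_gal_eq x x').inter (isOpen_setOf_gal_eq y y')

end TcE1

/-! ## E2. `g ↦ φ (g⁻¹ P)` is continuous  (written by helper239) -/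

section TcE2

open scoped Classical

variable {k : Type} [Field k] {E : WeierstrassCurve k} {l : ℕ} [Fact l.Prime]

/-- `g ↦ φ (g⁻¹ P)` is continuous.  At `g₀`, for `ε > 0`: take `n` from the continuity of `φ`; on the neighbourhood `{g | g⁻¹ (P n) = g₀⁻¹ (P n)}` of `g₀` (`isOpen_setOf_galPts_eq`, `continuous_inv`) the sequence
`g⁻¹ P - g₀⁻¹ P` has `n`-th term `0`, so `‖φ (g⁻¹ P) - φ (g₀⁻¹ P)‖ < ε`.  (`Metric.continuous_iff'` or `continuous_iff_continuousAt`, `Metric.tendsto_nhds`; `φ` is additive: `c3_hom`, `map_sub`.) -/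
theorem continuous_H1et_galTate (φ : H1et E l) (P : tateModule E l) :
    Continuous fun g : Gal(AlgebraicClosure k/k) => φ.1 (galTate E l g⁻¹ P) := by
  rw [continuous_iff_continuousAt]
  intro g₀
  rw [ContinuousAt, Metric.tendsto_nhds]
  intro ε hε
  obtain ⟨n, hn⟩ := φ.2.2 ε hε
  have hopen : IsOpen {g : Gal(AlgebraicClosure k/k) |
      galPts E g⁻¹ (P.1 n) = galPts E g₀⁻¹ (P.1 n)} :=
    (isOpen_setOf_galPts_eq (E := E) (P.1 n) (galPts E g₀⁻¹ (P.1 n))).preimage continuous_inv
  filter_upwards [hopen.mem_nhds (show galPts E g₀⁻¹ (P.1 n) = galPts E g₀⁻¹ (P.1 n) from rfl)]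
    with g hg
  have hg' : galPts E g⁻¹ (P.1 n) = galPts E g₀⁻¹ (P.1 n) := hg
  have h0 : (galTate E l g⁻¹ P - galTate E l g₀⁻¹ P).1 n = 0 := by
    show galPts E g⁻¹ (P.1 n) - galPts E g₀⁻¹ (P.1 n) = 0
    rw [hg', sub_self]
  have h1 := hn _ h0
  have h2 := map_sub (c3_hom φ) (galTate E l g⁻¹ P) (galTate E l g₀⁻¹ P)
  simp only [c3_hom_apply] at h2
  rw [h2] at h1
  rwa [dist_eq_norm]

end TcE2

/-! ## E3. The linear forms on `H¹`  (written by helper33) -/

section TcE3

open scoped Classical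

variable {k : Type} [Field k] {E : WeierstrassCurve k} {l : ℕ} [Fact l.Prime]

/-- every linear form on `H¹` is a combination of the evaluations at `x₁, x₂`.  (`exists_dual` gives `φ₁, φ₂`; `φ = φ x₁ • φ₁ + φ x₂ • φ₂` by `eq_zero_of_frame`; `a = lam φ₁`, `b = lam φ₂`.) -/
theorem dual_eq_of_frame {x₁ x₂ : tateModule E l} (F : Frame l x₁.1 x₂.1)
    (lam : Module.Dual (PadicAlgCl l) (H1et E l)) :
    ∃ a b : PadicAlgCl l, ∀ φ : H1et E l, lam φ = a * φ.1 x₁ + b * φ.1 x₂ := by
  obtain ⟨φ₁, φ₂, h11, h12, h21, h22⟩ := exists_dual F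
  refine ⟨lam φ₁, lam φ₂, fun φ => ?_⟩
  have key : φ - (φ.1 x₁ • φ₁ + φ.1 x₂ • φ₂) = 0 := by
    apply eq_zero_of_frame F
    · show φ.1 x₁ - (φ.1 x₁ * φ₁.1 x₁ + φ.1 x₂ * φ₂.1 x₁) = 0
      rw [h11, h21]; ring
    · show φ.1 x₂ - (φ.1 x₁ * φ₁.1 x₂ + φ.1 x₂ * φ₂.1 x₂) = 0
      rw [h12, h22]; ring
  have e : φ = φ.1 x₁ • φ₁ + φ.1 x₂ • φ₂ := sub_eq_zero.mp key
  conv_lhs => rw [e]
  rw [map_add, map_smul, map_smul, smul_eq_mul, smul_eq_mul]
  ring

end TcE3

/-! ## E4. The representation is continuous  (written by helper33) -/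

section TcE4

open scoped Classical

variable {k : Type} [Field k] {E : WeierstrassCurve k} {l : ℕ} [Fact l.Prime]

/-- `dual_eq_of_frame`, `continuous_H1et_galTate` -/
theorem isContinuousRep_of_frame {x₁ x₂ : tateModule E l} (F : Frame l x₁.1 x₂.1) :
    IsContinuousRep (H1etRep E l) := by
  intro φ lam
  obtain ⟨a, b, hab⟩ := dual_eq_of_frame F lam
  have e : (fun g : Gal(AlgebraicClosure k/k) => lam (H1etRep E l g φ)) =
      fun g => a * φ.1 (galTate E l g⁻¹ x₁) + b * φ.1 (galTate E l g⁻¹ x₂) := by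
    funext g
    rw [hab]
    rfl
  rw [e]
  exact (continuous_const.mul (continuous_H1et_galTate φ x₁)).add
    (continuous_const.mul (continuous_H1et_galTate φ x₂))

/-- **If `E(k̄)` is `l`-divisible and `E[l]` has the basis `e₁, e₂` over `𝔽_l`, then the representation of `Gal(k̄/k)` on `H¹_ét(E_{k̄}, Q̄_l)` is continuous** (as in `finrank_H1et_eq_two`) -/
theorem isContinuousRep_H1etRep (hdiv : ∀ Q : PtsBar E, ∃ P : PtsBar E, l • P = Q) (e₁ e₂ : PtsBar E)
    (he₁ : l • e₁ = 0) (he₂ : l • e₂ = 0)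
    (span : ∀ Q : PtsBar E, l • Q = 0 → ∃ a b : ℤ, Q = a • e₁ + b • e₂)
    (indep : ∀ a b : ℤ, a • e₁ + b • e₂ = 0 → (l : ℤ) ∣ a ∧ (l : ℤ) ∣ b) :
    IsContinuousRep (H1etRep E l) := by
  obtain ⟨x₁, hx₁, rfl⟩ := exists_isSeq hdiv e₁ he₁
  obtain ⟨x₂, hx₂, rfl⟩ := exists_isSeq hdiv e₂ he₂
  exact isContinuousRep_of_frame (x₁ := ⟨x₁, hx₁⟩) (x₂ := ⟨x₂, hx₂⟩) ⟨hx₁, hx₂, span, indep⟩

/-- copy the proof of `sanity_finrank_H1et_trCurve` -/
theorem sanity_isContinuousRep_H1etRep_trCurve : IsContinuousRep (H1etRep TrEnd.trCurve 2) := by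
  have he : TrEnd.IsRt TrEnd.trRoot := TrEnd.isRt_trRoot
  obtain ⟨hs, hi⟩ := klein_span_indep (TrEnd.tt TrEnd.trRoot) (TrEnd.tt (TrEnd.phi TrEnd.trRoot))
    (TrEnd.tt_add_self _) (TrEnd.tt_add_self _) (TrEnd.tt_ne_zero he) (TrEnd.tt_ne_zero he.img)
    (fun h => he.phi_ne (TrEnd.tt_inj he he.img h).symm)
    (fun Q hQ => by
      rcases TrEnd.two_torsion_cases hQ with rfl | ⟨x, hx, rfl⟩
      · exact Or.inl rfl
      · rcases he.cases hx with rfl | rfl | rfl
        · exact Or.inr (Or.inl rfl)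
        · exact Or.inr (Or.inr (Or.inl rfl))
        · exact Or.inr (Or.inr (Or.inr (TrEnd.tt_add_phi he).symm)))
  refine isContinuousRep_H1etRep (fun Q => ?_) _ _ ?_ ?_ hs hi
  · obtain ⟨P, hP⟩ := TrEnd.exists_half Q
    exact ⟨P, by rw [two_smul]; exact hP⟩
  · rw [two_smul]; exact TrEnd.tt_add_self _
  · rw [two_smul]; exact TrEnd.tt_add_self _

/-- copy the proof of `sanity_finrank_H1et_cubeCurve` -/
theorem sanity_isContinuousRep_H1etRep_cubeCurve : IsContinuousRep (H1etRep cubeCurve 2) := by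
  have h2 : cubeCurveEndo CubeEnd.T0 + cubeCurveEndo CubeEnd.T0 = 0 := by
    rw [← map_add, CubeEnd.T0_add_self, map_zero]
  have hneg : ∀ T : PtsBar cubeCurve, T + T = 0 → -T = T := fun T hT =>
    (eq_neg_of_add_eq_zero_left hT).symm
  have hsq : cubeCurveEndo (cubeCurveEndo CubeEnd.T0) = CubeEnd.T0 + cubeCurveEndo CubeEnd.T0 := by
    rw [CubeEnd.omega_sq_apply, sub_eq_add_neg, hneg _ CubeEnd.T0_add_self, hneg _ h2]
  have hw0 : cubeCurveEndo CubeEnd.T0 ≠ 0 := by
    intro h0
    have := hsq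
    rw [h0, map_zero, add_zero] at this
    exact CubeEnd.T0_ne_zero this.symm
  have hne : CubeEnd.T0 ≠ cubeCurveEndo CubeEnd.T0 := by
    intro h0
    have := hsq
    rw [← h0, ← h0, CubeEnd.T0_add_self] at this
    exact CubeEnd.T0_ne_zero this
  obtain ⟨hs, hi⟩ := klein_span_indep CubeEnd.T0 (cubeCurveEndo CubeEnd.T0)
    CubeEnd.T0_add_self h2 CubeEnd.T0_ne_zero hw0 hne
    (fun Q hQ => by
      rcases CubeEnd.two_torsion_cases Q hQ with h | h | h | h
      · exact Or.inl h
      · exact Or.inr (Or.inl h)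
      · exact Or.inr (Or.inr (Or.inl h))
      · exact Or.inr (Or.inr (Or.inr (h.trans hsq))))
  refine isContinuousRep_H1etRep (fun Q => ?_) _ _ ?_ ?_ hs hi
  · obtain ⟨P, hP⟩ := cubeCurve_exists_half Q
    exact ⟨P, by rw [two_smul]; exact hP⟩
  · rw [two_smul]; exact CubeEnd.T0_add_self
  · rw [two_smul]; exact h2

end TcE4

/-! ## S1. Linear algebra in dimension `2`  (written by helper295) -/

section TcS1

variable {C G V : Type} [Field C] [Group G] [AddCommGroup V] [Module C V]

/-- Let `W` be a stable subspace.  `W = ⊥`, `W = ⊤`: clear.  Otherwise `W` is a line `C w` (`finrank_eq_one_iff'` or so) and `W' := D W` (`Submodule.map D W`) is a stable line.  If `W ∩ W' ≠ 0` then `D w = λ w`, `λ ≠ 0`;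
with `ρ g₀ w = c w`, `c ≠ 0`: `λ c w = ρ g₀ (D w) = - D (ρ g₀ w) = - c λ w`, so `2 c λ = 0`: impossible.  So `W ⊓ W' = ⊥`, and `W ⊔ W' = ⊤` by the dimensions. -/
theorem exists_isCompl_of_anticomm (ρ : Representation C G V) (h2 : Module.finrank C V = 2)
    (hchar : (2 : C) ≠ 0) (D : V →ₗ[C] V) (hD : Function.Injective D)
    (hcomm : ∀ g, (∀ v, ρ g (D v) = D (ρ g v)) ∨ (∀ v, ρ g (D v) = - D (ρ g v)))
    (g₀ : G) (hg₀ : ∀ v, ρ g₀ (D v) = - D (ρ g₀ v))
    (W : Submodule C V) (hW : ∀ g v, v ∈ W → ρ g v ∈ W) :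
    ∃ W' : Submodule C V, (∀ g v, v ∈ W' → ρ g v ∈ W') ∧ IsCompl W W' := by
  classical
  have hfin : FiniteDimensional C V := Module.finite_of_finrank_pos (by omega)
  by_cases hbot : W = ⊥
  · exact ⟨⊤, fun _ _ _ => Submodule.mem_top, hbot ▸ isCompl_bot_top⟩
  by_cases htop : W = ⊤
  · refine ⟨⊥, fun g v hv => ?_, htop ▸ isCompl_top_bot⟩
    rw [Submodule.mem_bot] at hv ⊢
    rw [hv, map_zero]
  -- `W` is a line
  have h1 : Module.finrank C W = 1 := by
    have hpos : 0 < Module.finrank C W := by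
      rw [Module.finrank_pos_iff]
      exact Submodule.nontrivial_iff_ne_bot.2 hbot
    have hlt : Module.finrank C W < Module.finrank C V := Submodule.finrank_lt htop
    omega
  obtain ⟨⟨w, hwW⟩, hw0, hwspan⟩ := finrank_eq_one_iff'.1 h1
  have hw0' : w ≠ 0 := fun h => hw0 (Subtype.ext h)
  have hline : ∀ x ∈ W, ∃ c : C, c • w = x := by
    intro x hx
    obtain ⟨c, hc⟩ := hwspan ⟨x, hx⟩
    exact ⟨c, congrArg Subtype.val hc⟩
  refine ⟨W.map D, ?_, ?_⟩
  · rintro g v ⟨u, hu, rfl⟩
    rcases hcomm g with h | h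
    · rw [h u]; exact ⟨ρ g u, hW g u hu, rfl⟩
    · rw [h u]; exact ⟨-ρ g u, W.neg_mem (hW g u hu), by rw [map_neg]⟩
  have h1' : Module.finrank C (W.map D) = 1 := by
    rw [← h1]
    exact (Submodule.equivMapOfInjective D hD W).finrank_eq.symm
  have hdisj : W ⊓ W.map D = ⊥ := by
    rw [Submodule.eq_bot_iff]
    rintro x ⟨hxW, u, hu, hux⟩
    by_contra hx0
    obtain ⟨a, ha⟩ := hline x hxW
    obtain ⟨b, hb⟩ := hline u hu
    have ha0 : a ≠ 0 := by rintro rfl; exact hx0 (by rw [← ha, zero_smul])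
    have hb0 : b ≠ 0 := by
      rintro rfl
      apply hx0
      rw [← hux, ← hb, zero_smul, map_zero]
    have hDw : D w = (b⁻¹ * a) • w := by
      have e : b • D w = a • w := by rw [← map_smul, hb, hux, ha]
      rw [mul_smul, ← e, smul_smul, inv_mul_cancel₀ hb0, one_smul]
    set lam : C := b⁻¹ * a with hlam
    have hlam0 : lam ≠ 0 := mul_ne_zero (inv_ne_zero hb0) ha0
    obtain ⟨c, hc⟩ := hline (ρ g₀ w) (hW g₀ w hwW)
    have hc0 : c ≠ 0 := by
      rintro rfl
      rw [zero_smul] at hc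
      have : ρ g₀⁻¹ (ρ g₀ w) = w := by
        rw [← Module.End.mul_apply, ← map_mul, inv_mul_cancel, map_one, Module.End.one_apply]
      rw [← hc, map_zero] at this
      exact hw0' this.symm
    have e1 := hg₀ w
    rw [hDw, map_smul, ← hc, map_smul, hDw, smul_smul, smul_smul, ← neg_smul] at e1
    have e2 : (lam * c - -(c * lam)) • w = 0 := by rw [sub_smul, e1, sub_self]
    rcases smul_eq_zero.1 e2 with h | h
    · have : (2 : C) * (lam * c) = 0 := by linear_combination h
      rcases mul_eq_zero.1 this with h' | h'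
      · exact hchar h'
      · exact (mul_ne_zero hlam0 hc0) h'
    · exact hw0' h
  refine ⟨disjoint_iff.2 hdisj, codisjoint_iff.2 ?_⟩
  apply Submodule.eq_top_of_finrank_eq
  have := Submodule.finrank_sup_add_finrank_inf_eq W (W.map D)
  rw [hdisj, finrank_bot, h1, h1'] at this
  omega

end TcS1

/-! ## S1b. Subrepresentations  (written by helper267) -/

section TcS1b

variable {C G V : Type} [Field C] [Group G] [AddCommGroup V] [Module C V]

/-- `IsSemisimpleRepresentation ρ` is `ComplementedLattice (Subrepresentation ρ)`; `Subrepresentation.toSubmodule_injective`, `toSubmodule_sup`, `toSubmodule_inf` (or `isCompl_iff`, `disjoint_iff`, `codisjoint_iff`) -/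
theorem isSemisimpleRepresentation_of_exists_isCompl (ρ : Representation C G V)
    (h : ∀ W : Submodule C V, (∀ g v, v ∈ W → ρ g v ∈ W) →
      ∃ W' : Submodule C V, (∀ g v, v ∈ W' → ρ g v ∈ W') ∧ IsCompl W W') :
    ρ.IsSemisimpleRepresentation := by
  refine ⟨fun σ => ?_⟩
  obtain ⟨W', hW', hc⟩ := h σ.toSubmodule (fun g v hv => σ.apply_mem_toSubmodule g hv)
  refine ⟨⟨W', fun g v hv => hW' g v hv⟩, ?_⟩
  rw [isCompl_iff, disjoint_iff, codisjoint_iff]
  constructor
  · apply Subrepresentation.toSubmodule_injective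
    rw [Subrepresentation.toSubmodule_inf]
    exact hc.inf_eq_bot
  · apply Subrepresentation.toSubmodule_injective
    rw [Subrepresentation.toSubmodule_sup]
    exact hc.sup_eq_top

end TcS1b

/-! ## S2. The action of endomorphisms on `H¹`  (written by helper33) -/

section TcS2

open scoped Classical

variable {k : Type} [Field k] {E : WeierstrassCurve k} {l : ℕ} [Fact l.Prime]

theorem h1Map_apply (f : PtsBar E →+ PtsBar E) (φ : H1et E l) (P : tateModule E l) :
    (h1Map f φ).1 P = φ.1 (tateMap f P) := rfl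

theorem h1Map_h1Map (f g : PtsBar E →+ PtsBar E) (φ : H1et E l) :
    h1Map f (h1Map g φ) = h1Map (g.comp f) φ := rfl

/-- `H1et_zsmul` -/
theorem h1Map_zsmul_id (m : ℤ) (φ : H1et E l) :
    h1Map (m • AddMonoidHom.id (PtsBar E)) φ = (m : PadicAlgCl l) • φ := by
  apply Subtype.ext
  funext P
  have e : tateMap (m • AddMonoidHom.id (PtsBar E)) P = m • P := by
    apply Subtype.ext
    funext n
    rfl
  show φ.1 (tateMap (m • AddMonoidHom.id (PtsBar E)) P) = (m : PadicAlgCl l) * φ.1 P
  rw [e, H1et_zsmul]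

theorem h1Map_neg (f : PtsBar E →+ PtsBar E) (φ : H1et E l) : h1Map (-f) φ = - h1Map f φ := by
  apply Subtype.ext
  funext P
  have e : tateMap (-f) P = (-1 : ℤ) • tateMap f P := by
    apply Subtype.ext
    funext n
    show -(f (P.1 n)) = (-1 : ℤ) • f (P.1 n)
    simp
  show φ.1 (tateMap (-f) P) = - φ.1 (tateMap f P)
  rw [e, H1et_zsmul]
  simp

/-- both sides at `P`: `φ (f (σ⁻¹ P))` and `φ (σ⁻¹ (f' P))` -/
theorem H1etRep_h1Map (σ : Gal(AlgebraicClosure k/k)) (f f' : PtsBar E →+ PtsBar E)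
    (h : ∀ P, f (galPts E σ⁻¹ P) = galPts E σ⁻¹ (f' P)) (φ : H1et E l) :
    H1etRep E l σ (h1Map f φ) = h1Map f' (H1etRep E l σ φ) := by
  apply Subtype.ext
  funext P
  show φ.1 (tateMap f (galTate E l σ⁻¹ P)) = φ.1 (galTate E l σ⁻¹ (tateMap f' P))
  refine congrArg φ.1 (Subtype.ext (funext fun n => ?_))
  exact h (P.1 n)

end TcS2

/-! ## S3. `δ = 1 + 2 [ω]` and the Galois group  (written by helper131) -/

section TcS3

open scoped Classical

theorem s3_delta_apply (P : PtsBar cubeCurve) : delta P = P + 2 • cubeCurveEndo P := rfl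

/-- `δ² = 1 + 4 [ω] + 4 [ω]² = -3`  (`CubeEnd.omega_sq_apply`) -/
theorem delta_delta (P : PtsBar cubeCurve) : delta (delta P) = (-3 : ℤ) • P := by
  rw [s3_delta_apply, s3_delta_apply, map_add, map_nsmul, CubeEnd.omega_sq_apply]
  abel

/-- `cubeCurveEndo_galPts` -/
theorem delta_galPts_of_eq (σ : Gal(Cm3Bar/Cm3Field)) (hσ : σ omegaBar = omegaBar)
    (P : PtsBar cubeCurve) : delta (galPts cubeCurve σ P) = galPts cubeCurve σ (delta P) := by
  rw [s3_delta_apply, s3_delta_apply, map_add, map_nsmul, cubeCurveEndo_galPts σ hσ]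

theorem s3_gal_omega_of_ne (σ : Gal(Cm3Bar/Cm3Field)) (hσ : σ omegaBar ≠ omegaBar) :
    σ omegaBar = omegaBar * omegaBar := by
  have h1 : (σ omegaBar) ^ 2 + σ omegaBar + 1 = 0 := by
    have := congrArg σ omegaBar_spec
    simpa using this
  have h2 : (σ omegaBar - omegaBar) * (σ omegaBar - omegaBar * omegaBar) = 0 := by
    linear_combination h1 - (σ omegaBar - omegaBar + 1) * omegaBar_spec
  rcases mul_eq_zero.1 h2 with h | h
  · exact absurd (sub_eq_zero.1 h) hσ
  · exact sub_eq_zero.1 h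

/-- if `σ ω ≠ ω` then `σ ω = ω² = -1 - ω` (the other root of `X² + X + 1`), so `σ ([ω] P) = [ω]² (σ P)` (cases on `P`; `cubeCurveEndo_some`, `CubeEnd.galPts_some` or the proof of `cubeCurveEndo_galPts` in `SanityClauses.lean`) -/
theorem galPts_omega_of_ne (σ : Gal(Cm3Bar/Cm3Field)) (hσ : σ omegaBar ≠ omegaBar)
    (P : PtsBar cubeCurve) :
    galPts cubeCurve σ (cubeCurveEndo P) = cubeCurveEndo (cubeCurveEndo (galPts cubeCurve σ P)) := by
  rcases P with _ | ⟨x, y, h⟩
  · rfl
  · obtain ⟨h', e⟩ := galPts_some_eq cubeCurve σ h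
    rw [e, cubeCurveEndo_some, cubeCurveEndo_some, cubeCurveEndo_some]
    obtain ⟨h'', e'⟩ := galPts_some_eq cubeCurve σ
      (cm3Ex_nonsingular _ omegaBar cubeCurve_a₁ cubeCurve_a₂ cubeCurve_a₃ cubeCurve_a₄
        omegaBar_cube h)
    rw [e', WeierstrassCurve.Affine.Point.some.injEq]
    refine ⟨?_, rfl⟩
    rw [map_mul, s3_gal_omega_of_ne σ hσ, mul_assoc]

/-- `σ δ σ⁻¹ = 1 + 2 [ω]² = -1 - 2 [ω] = -δ`  (`galPts_omega_of_ne`, `CubeEnd.omega_sq_apply`) -/
theorem delta_galPts_of_ne (σ : Gal(Cm3Bar/Cm3Field)) (hσ : σ omegaBar ≠ omegaBar)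
    (P : PtsBar cubeCurve) : delta (galPts cubeCurve σ P) = galPts cubeCurve σ ((-delta) P) := by
  rw [AddMonoidHom.neg_apply, map_neg, s3_delta_apply, s3_delta_apply, map_add, map_nsmul,
    galPts_omega_of_ne σ hσ, CubeEnd.omega_sq_apply]
  abel

end TcS3

/-! ## S4. The representation is semisimple  (written by helper33) -/

section TcS4

open scoped Classical

/-- `D = h1Map delta`: `D (D φ) = -3 φ` (`h1Map_h1Map`, `delta_delta`, `h1Map_zsmul_id`), so `D` is injective -/
theorem h1Map_delta_injective : Function.Injective (h1Map (l := 2) delta) := by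
  have key : ∀ φ : H1et cubeCurve 2, h1Map delta (h1Map delta φ) = ((-3 : ℤ) : PadicAlgCl 2) • φ := by
    intro φ
    have e : delta.comp delta = (-3 : ℤ) • AddMonoidHom.id (PtsBar cubeCurve) := by
      ext P
      exact delta_delta P
    rw [h1Map_h1Map, ← h1Map_zsmul_id, e]
  rw [injective_iff_map_eq_zero]
  intro φ hφ
  have h := key φ
  rw [hφ, map_zero] at h
  have h3 : ((-3 : ℤ) : PadicAlgCl 2) ≠ 0 := by
    exact_mod_cast (by norm_num : (-3 : ℤ) ≠ 0)
  exact (smul_eq_zero.mp h.symm).resolve_left h3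

/-- `H1etRep_h1Map` with `f = delta`, `f' = ± delta`; `delta_galPts_of_eq`, `delta_galPts_of_ne` for `σ⁻¹`; `h1Map_neg` -/
theorem H1etRep_h1Map_delta (σ : Gal(Cm3Bar/Cm3Field)) :
    (σ omegaBar = omegaBar → ∀ φ : H1et cubeCurve 2,
      H1etRep cubeCurve 2 σ (h1Map delta φ) = h1Map delta (H1etRep cubeCurve 2 σ φ)) ∧
    (σ omegaBar ≠ omegaBar → ∀ φ : H1et cubeCurve 2,
      H1etRep cubeCurve 2 σ (h1Map delta φ) = - h1Map delta (H1etRep cubeCurve 2 σ φ)) := by
  have hinv : σ⁻¹ omegaBar = omegaBar ↔ σ omegaBar = omegaBar := by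
    constructor
    · intro h
      have := congrArg σ h
      rw [← AlgEquiv.mul_apply, mul_inv_cancel, AlgEquiv.one_apply] at this
      exact this.symm
    · intro h
      have := congrArg (fun t => (σ⁻¹ : Gal(Cm3Bar/Cm3Field)) t) h
      rw [← AlgEquiv.mul_apply, inv_mul_cancel, AlgEquiv.one_apply] at this
      exact this.symm
  constructor
  · intro hσ φ
    exact H1etRep_h1Map σ delta delta (fun P => delta_galPts_of_eq σ⁻¹ (hinv.mpr hσ) P) φ
  · intro hσ φ
    rw [← h1Map_neg]
    exact H1etRep_h1Map σ delta (-delta)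
      (fun P => delta_galPts_of_ne σ⁻¹ (fun h => hσ (hinv.mp h)) P) φ

/-- **The representation of `Gal(K̄/K)` on `H¹_ét(E₃, Q̄_2)` is semisimple.**  (`isSemisimpleRepresentation_of_exists_isCompl`, `exists_isCompl_of_anticomm` with `D = h1Map delta`, `g₀` from `exists_gal_omegaBar_ne`,
`sanity_finrank_H1et_cubeCurve`) -/
theorem sanity_isSemisimple_H1etRep_cubeCurve :
    (H1etRep cubeCurve 2).IsSemisimpleRepresentation := by
  obtain ⟨g₀, hg₀⟩ := exists_gal_omegaBar_ne
  refine isSemisimpleRepresentation_of_exists_isCompl _ fun W hW =>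
    exists_isCompl_of_anticomm (H1etRep cubeCurve 2) sanity_finrank_H1et_cubeCurve
      two_ne_zero (h1Map delta) h1Map_delta_injective (fun g => ?_) g₀
      ((H1etRep_h1Map_delta g₀).2 hg₀) W hW
  by_cases hg : g omegaBar = omegaBar
  · exact Or.inl ((H1etRep_h1Map_delta g).1 hg)
  · exact Or.inr ((H1etRep_h1Map_delta g).2 hg)

/-- the three conditions on the Galois representation alone in `IsAttachedGaloisRep` -/
theorem sanity_H1etRep_cubeCurve :
    Module.finrank (PadicAlgCl 2) (H1et cubeCurve 2) = 2 ∧ IsContinuousRep (H1etRep cubeCurve 2) ∧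
      (H1etRep cubeCurve 2).IsSemisimpleRepresentation :=
  ⟨sanity_finrank_H1et_cubeCurve, sanity_isContinuousRep_H1etRep_cubeCurve,
    sanity_isSemisimple_H1etRep_cubeCurve⟩

end TcS4

end Claimed.Open.R030.TateRk
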